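import Mathlib
import Vale.Agent.P018.K.Defs

/-! # P018, quartics: definitions for the pair `(d, k) = (4, 2)`. -/

namespace Vale.Agent.P018.Q

open Polynomial NumberField

/-- homogenisation of degree `D`: `∑ a_i s^i t^(D-i)`. -/
def hom {R : Type*} [CommRing R] (D : ℕ) (A : ℤ[X]) (s t : R) : R :=
  ∑ i ∈ Finset.range (D + 1), (A.coeff i : R) * s ^ i * t ^ (D - i)

/-- the Wronskian `A B' - A' B`. -/
noncomputable def wr (A B : ℤ[X]) : ℤ[X] := A * derivative B - derivative A * B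

/-- scalar product of integer vectors. -/
def dot (v w : Fin 4 → ℤ) : ℤ := ∑ i, v i * w i

/-- `(l1, l2)` is a size reduced pair of independent integer vectors. -/
def Red (l1 l2 : Fin 4 → ℤ) : Prop :=
  l1 ≠ 0 ∧ dot l1 l1 ≤ dot l2 l2 ∧ 2 * |dot l1 l2| ≤ dot l1 l1 ∧
    ∀ a b : ℤ, a • l1 + b • l2 = 0 → a = 0 ∧ b = 0

/-- the data attached to a solution: `c (N - θ_i) = π_i^2 γ_i` with `π_i = ell (θ i) y`,
`γ_i = ell (θ i) z`, and `∏ π_i = p c'`. -/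
structure Dat {L : Type} [Field L] [NumberField L] (θ : Fin 4 → 𝓞 L) (C : ℕ) (X T : ℝ)
    (N : ℤ) (p : ℕ) (c : ℤ) (y z : Fin 4 → ℤ) : Prop where
  prime : p.Prime
  lo : T ^ 4 ≤ p
  hi : (p : ℝ) ≤ 2 * T ^ 4
  c0 : c ≠ 0
  cC : |c| ≤ C
  nrm : ∃ c' : ℤ, c' ≠ 0 ∧ |c'| ≤ C ∧ ∏ i, K.ell (θ i) y = (((p : ℤ) * c' : ℤ) : 𝓞 L)
  eqn : ∀ i, (c : 𝓞 L) * ((N : 𝓞 L) - θ i) = K.ell (θ i) y ^ 2 * K.ell (θ i) z
  hN : |(N : ℝ)| ≤ C * X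
  hy : ∀ j, |(y j : ℝ)| ≤ C * T
  hz : ∀ j, |(z j : ℝ)| ≤ C * X / T ^ 2

/-- `Ψ` has degree `≤ j` in the outer variable and its coefficients have degree `≤ m`. -/
def BiDeg {R : Type*} [CommRing R] (j m : ℕ) (Ψ : R[X][X]) : Prop :=
  Ψ.natDegree ≤ j ∧ ∀ i, (Ψ.coeff i).natDegree ≤ m

end Vale.Agent.P018.Q
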