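import Mathlib
import Vale.Agent.P018.Q.Defs

/-! # P018, quartics: rank two lattices through a vector. -/

namespace Vale.Agent.P018.Q

theorem dot4 (v w : Fin 4 → ℤ) :
    dot v w = v 0 * w 0 + v 1 * w 1 + v 2 * w 2 + v 3 * w 3 := by
  simp [dot, Fin.sum_univ_four]

theorem dot_comb (a b c d : ℤ) (u v : Fin 4 → ℤ) :
    dot (a • u + b • v) (c • u + d • v) =
      a * c * dot u u + (a * d + b * c) * dot u v + b * d * dot v v := by
  simp only [dot4, Pi.add_apply, Pi.smul_apply, smul_eq_mul]; ring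

theorem dot_nonneg (u : Fin 4 → ℤ) : 0 ≤ dot u u := by
  rw [dot4]
  linarith [mul_self_nonneg (u 0), mul_self_nonneg (u 1), mul_self_nonneg (u 2), mul_self_nonneg (u 3)]

theorem dot_pos {u : Fin 4 → ℤ} (h : u ≠ 0) : 0 < dot u u := by
  rcases (dot_nonneg u).lt_or_eq with h' | h'
  · exact h'
  · exfalso; apply h
    rw [dot4] at h'
    funext i
    have h0 : u 0 = 0 := by nlinarith [mul_self_nonneg (u 0), mul_self_nonneg (u 1), mul_self_nonneg (u 2), mul_self_nonneg (u 3)]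
    have h1 : u 1 = 0 := by nlinarith [mul_self_nonneg (u 0), mul_self_nonneg (u 1), mul_self_nonneg (u 2), mul_self_nonneg (u 3)]
    have h2 : u 2 = 0 := by nlinarith [mul_self_nonneg (u 0), mul_self_nonneg (u 1), mul_self_nonneg (u 2), mul_self_nonneg (u 3)]
    have h3 : u 3 = 0 := by nlinarith [mul_self_nonneg (u 0), mul_self_nonneg (u 1), mul_self_nonneg (u 2), mul_self_nonneg (u 3)]
    fin_cases i <;> simp [h0, h1, h2, h3]

/-- Gauss reduction. -/
theorem exists_red {u v : Fin 4 → ℤ} (hind : ∀ a b : ℤ, a • u + b • v = 0 → a = 0 ∧ b = 0) :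
    ∃ a b c d : ℤ, (a * d - b * c) ^ 2 = 1 ∧ Red (a • u + b • v) (c • u + d • v) := by
  classical
  let P : ℕ → Prop := fun n => ∃ a b c d : ℤ, (a * d - b * c) ^ 2 = 1 ∧
    (dot (a • u + b • v) (a • u + b • v) + dot (c • u + d • v) (c • u + d • v)).toNat = n
  have hP : ∃ n, P n := ⟨_, 1, 0, 0, 1, by norm_num, rfl⟩
  obtain ⟨a, b, c, d, hdet, hn⟩ := Nat.find_spec hP
  have hmin : ∀ a' b' c' d' : ℤ, (a' * d' - b' * c') ^ 2 = 1 →
      dot (a • u + b • v) (a • u + b • v) + dot (c • u + d • v) (c • u + d • v) ≤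
      dot (a' • u + b' • v) (a' • u + b' • v) + dot (c' • u + d' • v) (c' • u + d' • v) := by
    intro a' b' c' d' hd'
    have := Nat.find_min' hP ⟨a', b', c', d', hd', rfl⟩
    rw [← hn] at this
    have h1 := dot_nonneg (a • u + b • v)
    have h2 := dot_nonneg (c • u + d • v)
    have h3 := dot_nonneg (a' • u + b' • v)
    have h4 := dot_nonneg (c' • u + d' • v)
    omega
  have e1 := hmin a b (c + a) (d + b) (by rw [← hdet]; ring)
  have e2 := hmin a b (c - a) (d - b) (by rw [← hdet]; ring)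
  have e3 := hmin (a + c) (b + d) c d (by rw [← hdet]; ring)
  have e4 := hmin (a - c) (b - d) c d (by rw [← hdet]; ring)
  have hne : ∀ p q : ℤ, p • (a • u + b • v) + q • (c • u + d • v) = 0 → p = 0 ∧ q = 0 := by
    intro p q h
    have h' : (p * a + q * c) • u + (p * b + q * d) • v = 0 := by
      rw [← h]; funext i; simp only [Pi.add_apply, Pi.smul_apply, smul_eq_mul]; ring
    obtain ⟨h1, h2⟩ := hind _ _ h'
    have hp : p * (a * d - b * c) = 0 := by linear_combination d * h1 - c * h2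
    have hq : q * (a * d - b * c) = 0 := by linear_combination a * h2 - b * h1
    have hdn : a * d - b * c ≠ 0 := by
      intro h0; rw [h0] at hdet; norm_num at hdet
    exact ⟨(mul_eq_zero.mp hp).resolve_right hdn, (mul_eq_zero.mp hq).resolve_right hdn⟩
  have hne' : ∀ p q : ℤ, p • (c • u + d • v) + q • (a • u + b • v) = 0 → p = 0 ∧ q = 0 := by
    intro p q h
    have := hne q p (by rw [add_comm]; exact h)
    exact ⟨this.2, this.1⟩
  have n1 : a • u + b • v ≠ 0 := by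
    intro h; have := hne 1 0 (by rw [h]; simp); omega
  have n2 : c • u + d • v ≠ 0 := by
    intro h; have := hne 0 1 (by rw [h]; simp); omega
  have k1 : 0 ≤ dot (a • u + b • v) (a • u + b • v) + 2 * dot (a • u + b • v) (c • u + d • v) := by
    simp only [dot_comb] at e1 ⊢; linarith
  have k2 : 0 ≤ dot (a • u + b • v) (a • u + b • v) - 2 * dot (a • u + b • v) (c • u + d • v) := by
    simp only [dot_comb] at e2 ⊢; linarith
  have k3 : 0 ≤ dot (c • u + d • v) (c • u + d • v) + 2 * dot (a • u + b • v) (c • u + d • v) := by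
    simp only [dot_comb] at e3 ⊢; linarith
  have k4 : 0 ≤ dot (c • u + d • v) (c • u + d • v) - 2 * dot (a • u + b • v) (c • u + d • v) := by
    simp only [dot_comb] at e4 ⊢; linarith
  have hcomm : dot (c • u + d • v) (a • u + b • v) = dot (a • u + b • v) (c • u + d • v) := by
    simp only [dot_comb]; ring
  rcases le_total (dot (a • u + b • v) (a • u + b • v)) (dot (c • u + d • v) (c • u + d • v)) with h | h
  · refine ⟨a, b, c, d, hdet, n1, h, ?_, hne⟩
    rcases abs_choice (dot (a • u + b • v) (c • u + d • v)) with hx | hx <;> rw [hx] <;> linarith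
  · refine ⟨c, d, a, b, by rw [← hdet]; ring, n2, h, ?_, hne'⟩
    rw [hcomm]
    rcases abs_choice (dot (a • u + b • v) (c • u + d • v)) with hx | hx <;> rw [hx] <;> linarith

/-- pigeonhole. -/
theorem exists_small_minors (y : Fin 4 → ℤ) (k : Fin 4) (hk : ∀ i, |y i| ≤ |y k|)
    (M : ℕ) (hM : 1 ≤ M) (hMY : (M : ℤ) ^ 3 < |y k|) :
    ∃ l : Fin 4 → ℤ, 0 < |l k| ∧ |l k| < |y k| ∧ ∀ j, |y k * l j - l k * y j| * M < |y k| := by
  classical
  set Y : ℤ := |y k| with hY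
  have hYpos : 0 < Y := lt_of_le_of_lt (by positivity) hMY
  have hyk : y k ≠ 0 := by
    intro h; rw [hY, h] at hYpos; simp at hYpos
  let f : ℕ → (Fin 3 → ℤ) := fun n i => (M * ((n * y (k.succAbove i)) % Y)) / Y
  have hcard : (Fintype.piFinset (fun _ : Fin 3 => Finset.Ico (0 : ℤ) M)).card <
      (Finset.range Y.toNat).card := by
    rw [Fintype.card_piFinset]
    simp only [Int.card_Ico, Finset.prod_const, Finset.card_univ, Fintype.card_fin,
      Finset.card_range]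
    zify
    rw [Int.toNat_of_nonneg hYpos.le]
    simpa using hMY
  have hmaps : ∀ n ∈ Finset.range Y.toNat,
      f n ∈ Fintype.piFinset (fun _ : Fin 3 => Finset.Ico (0 : ℤ) M) := by
    intro n _
    rw [Fintype.mem_piFinset]
    intro i
    rw [Finset.mem_Ico]
    have h0 := Int.emod_nonneg (n * y (k.succAbove i)) hYpos.ne'
    have h1 := Int.emod_lt_of_pos (n * y (k.succAbove i)) hYpos
    constructor
    · exact Int.ediv_nonneg (by positivity) hYpos.le
    · apply Int.ediv_lt_of_lt_mul hYpos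
      have : (0 : ℤ) < M := by exact_mod_cast hM
      nlinarith
  obtain ⟨n, hn, n', hn', hne, hf⟩ :=
    Finset.exists_ne_map_eq_of_card_lt_of_maps_to hcard hmaps
  rw [Finset.mem_range] at hn hn'
  wlog hlt : n < n' generalizing n n'
  · exact this n' hn' n hn hne.symm hf.symm (by omega)
  obtain ⟨e, he, hek⟩ : ∃ e : ℤ, e * e = 1 ∧ Y = e * y k := by
    rcases abs_choice (y k) with h | h
    · exact ⟨1, by norm_num, by rw [hY, h]; ring⟩
    · exact ⟨-1, by norm_num, by rw [hY, h]; ring⟩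
  have hek' : y k = e * Y := by rw [hek, ← mul_assoc, he, one_mul]
  let l : Fin 4 → ℤ := fun j => e * ((n' * y j) / Y - (n * y j) / Y)
  have hlk : l k = n' - n := by
    have h1 : ∀ m : ℕ, ((m : ℤ) * y k) / Y = m * e := by
      intro m
      rw [hek', ← mul_assoc, Int.mul_ediv_cancel _ hYpos.ne']
    show e * ((n' * y k) / Y - (n * y k) / Y) = n' - n
    rw [h1, h1]
    linear_combination (n' - n : ℤ) * he
  have hlj : ∀ j, y k * l j - l k * y j = (n * y j) % Y - (n' * y j) % Y := by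
    intro j
    have h1 := Int.emod_add_mul_ediv (n' * y j) Y
    have h2 := Int.emod_add_mul_ediv (n * y j) Y
    rw [hlk]
    show y k * (e * ((n' * y j) / Y - (n * y j) / Y)) - (n' - n) * y j = _
    have h3 : y k * (e * ((n' * y j) / Y - (n * y j) / Y)) =
      Y * ((n' * y j) / Y - (n * y j) / Y) := by rw [hek]; ring
    rw [h3]
    linear_combination h1 - h2
  refine ⟨l, ?_, ?_, ?_⟩
  · rw [hlk, abs_pos]; omega
  · rw [hlk, abs_of_pos (by omega)]; omega
  · intro j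
    rw [hlj]
    rcases eq_or_ne j k with rfl | hjk
    · have h1 : ∀ m : ℕ, ((m : ℤ) * y j) % Y = 0 := by
        intro m
        rw [hek', ← mul_assoc]
        exact Int.mul_emod_left _ _
      rw [h1, h1]
      simpa using hYpos
    · obtain ⟨i, rfl⟩ := Fin.exists_succAbove_eq hjk
      have hfi := congrFun hf i
      simp only [f] at hfi
      have h1 := Int.emod_add_mul_ediv (M * ((n * y (k.succAbove i)) % Y)) Y
      have h2 := Int.emod_add_mul_ediv (M * ((n' * y (k.succAbove i)) % Y)) Y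
      have h3 := Int.emod_nonneg (M * ((n * y (k.succAbove i)) % Y)) hYpos.ne'
      have h4 := Int.emod_lt_of_pos (M * ((n * y (k.succAbove i)) % Y)) hYpos
      have h5 := Int.emod_nonneg (M * ((n' * y (k.succAbove i)) % Y)) hYpos.ne'
      have h6 := Int.emod_lt_of_pos (M * ((n' * y (k.succAbove i)) % Y)) hYpos
      rw [hfi] at h1
      have hM0 : (M : ℤ) = |(M : ℤ)| := (abs_of_nonneg (by positivity)).symm
      rw [hM0, ← abs_mul, abs_lt]
      constructor <;> nlinarith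

theorem minor_le (y l : Fin 4 → ℤ) (k : Fin 4) (hk : ∀ i, |y i| ≤ |y k|) (hy : y k ≠ 0)
    (R : ℝ) (h : ∀ j, (|y k * l j - l k * y j| : ℤ) ≤ R) (i j : Fin 4) :
    ((y i * l j - y j * l i : ℤ) : ℝ) ^ 2 ≤ 4 * R ^ 2 := by
  have hyk : (0 : ℝ) < |(y k : ℝ)| := abs_pos.mpr (by exact_mod_cast hy)
  have e : (y k : ℝ) * ((y i * l j - y j * l i : ℤ) : ℝ) =
      y i * ((y k * l j - l k * y j : ℤ) : ℝ) - y j * ((y k * l i - l k * y i : ℤ) : ℝ) := by
    push_cast; ring
  have hi : |(y i : ℝ)| ≤ |(y k : ℝ)| := by exact_mod_cast hk i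
  have hj : |(y j : ℝ)| ≤ |(y k : ℝ)| := by exact_mod_cast hk j
  have h1 : |((y k * l j - l k * y j : ℤ) : ℝ)| ≤ R := by
    have := h j; rwa [Int.cast_abs] at this
  have h2 : |((y k * l i - l k * y i : ℤ) : ℝ)| ≤ R := by
    have := h i; rwa [Int.cast_abs] at this
  have h3 : |(y k : ℝ)| * |((y i * l j - y j * l i : ℤ) : ℝ)| ≤ |(y k : ℝ)| * (2 * R) := by
    rw [← abs_mul, e]
    calc _ ≤ |(y i : ℝ) * ((y k * l j - l k * y j : ℤ) : ℝ)| +
          |(y j : ℝ) * ((y k * l i - l k * y i : ℤ) : ℝ)| := abs_sub _ _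
      _ ≤ |(y k : ℝ)| * R + |(y k : ℝ)| * R := by
          rw [abs_mul, abs_mul]
          exact add_le_add (mul_le_mul hi h1 (abs_nonneg _) hyk.le)
            (mul_le_mul hj h2 (abs_nonneg _) hyk.le)
      _ = _ := by ring
  have h4 := le_of_mul_le_mul_left h3 hyk
  calc _ = |((y i * l j - y j * l i : ℤ) : ℝ)| ^ 2 := (sq_abs _).symm
    _ ≤ (2 * R) ^ 2 := pow_le_pow_left₀ (abs_nonneg _) h4 2
    _ = _ := by ring

theorem gram_le (y l : Fin 4 → ℤ) (k : Fin 4) (hk : ∀ i, |y i| ≤ |y k|) (hy : y k ≠ 0)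
    (R : ℝ) (h : ∀ j, (|y k * l j - l k * y j| : ℤ) ≤ R) :
    (dot y y : ℝ) * dot l l - (dot y l : ℝ) ^ 2 ≤ 24 * R ^ 2 := by
  have e : (dot y y : ℝ) * dot l l - (dot y l : ℝ) ^ 2 =
      ((y 0 * l 1 - y 1 * l 0 : ℤ) : ℝ) ^ 2 + ((y 0 * l 2 - y 2 * l 0 : ℤ) : ℝ) ^ 2 +
      ((y 0 * l 3 - y 3 * l 0 : ℤ) : ℝ) ^ 2 + ((y 1 * l 2 - y 2 * l 1 : ℤ) : ℝ) ^ 2 +
      ((y 1 * l 3 - y 3 * l 1 : ℤ) : ℝ) ^ 2 + ((y 2 * l 3 - y 3 * l 2 : ℤ) : ℝ) ^ 2 := by
    simp only [dot4]; push_cast; ring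
  rw [e]
  linarith [minor_le y l k hk hy R h 0 1, minor_le y l k hk hy R h 0 2,
    minor_le y l k hk hy R h 0 3, minor_le y l k hk hy R h 1 2,
    minor_le y l k hk hy R h 1 3, minor_le y l k hk hy R h 2 3]

theorem cube_third (x : ℝ) (hx : 0 ≤ x) : (x ^ (2 / 3 : ℝ)) ^ 3 = x ^ 2 := by
  rw [← Real.rpow_natCast, ← Real.rpow_mul hx]
  norm_num

theorem exists_M (Y : ℕ) (hY : 2 ≤ Y) : ∃ M : ℕ, 1 ≤ M ∧ M ^ 3 < Y ∧ Y ≤ (M + 1) ^ 3 := by
  have h : ∃ m : ℕ, Y ≤ m ^ 3 := ⟨Y, Nat.le_self_pow (by norm_num) Y⟩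
  have h1 := Nat.find_spec h
  have h2 : ∀ m, Y ≤ m ^ 3 → Nat.find h ≤ m := fun m hm => Nat.find_min' h hm
  have h3 : Nat.find h ≠ 0 := by
    intro h0; rw [h0] at h1; omega
  have h4 : Nat.find h ≠ 1 := by
    intro h0; rw [h0] at h1; omega
  refine ⟨Nat.find h - 1, by omega, ?_, ?_⟩
  · by_contra hc
    have := h2 (Nat.find h - 1) (by omega)
    omega
  · rwa [Nat.sub_add_cancel (by omega)]

theorem exists_partner (y : Fin 4 → ℤ) (hy0 : y ≠ 0) (hg : Finset.univ.gcd y = 1) :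
    ∃ l : Fin 4 → ℤ, (∀ a b : ℤ, a • y + b • l = 0 → a = 0 ∧ b = 0) ∧
      (dot y y : ℝ) * dot l l - (dot y l : ℝ) ^ 2 ≤ 96 * (dot y y : ℝ) ^ (2 / 3 : ℝ) := by
  classical
  obtain ⟨k, -, hk⟩ := Finset.exists_max_image (Finset.univ : Finset (Fin 4)) (fun i => |y i|)
    ⟨0, Finset.mem_univ 0⟩
  replace hk : ∀ i, |y i| ≤ |y k| := fun i => hk i (Finset.mem_univ i)
  have hyk : y k ≠ 0 := by
    intro h
    apply hy0
    funext i
    have := hk i
    rw [h, abs_zero] at this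
    exact abs_nonpos_iff.mp this
  have hYpos : 0 < |y k| := abs_pos.mpr hyk
  have hdot : ((|y k| : ℤ) : ℝ) ^ 2 ≤ (dot y y : ℝ) := by
    have : |y k| ^ 2 ≤ dot y y := by
      rw [sq_abs, dot, sq]
      exact Finset.single_le_sum (f := fun i => y i * y i) (fun i _ => mul_self_nonneg _)
        (Finset.mem_univ k)
    exact_mod_cast this
  have hfin : ∀ R : ℝ, R ^ 2 ≤ 4 * (((|y k| : ℤ) : ℝ) ^ 2) ^ (2 / 3 : ℝ) →
      24 * R ^ 2 ≤ 96 * (dot y y : ℝ) ^ (2 / 3 : ℝ) := by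
    intro R h
    have := Real.rpow_le_rpow (sq_nonneg _) hdot (by norm_num : (0 : ℝ) ≤ 2 / 3)
    linarith
  rcases le_or_gt 2 |y k| with h2 | h2
  · obtain ⟨M, hM1, hM2, hM3⟩ := exists_M (|y k|).toNat (by omega)
    have hY : ((|y k|).toNat : ℤ) = |y k| := Int.toNat_of_nonneg hYpos.le
    have hM2' : (M : ℤ) ^ 3 < |y k| := by rw [← hY]; exact_mod_cast hM2
    obtain ⟨l, l1, l2, l3⟩ := exists_small_minors y k hk M hM1 hM2'
    refine ⟨l, ?_, ?_⟩
    · intro a b hab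
      have hj : ∀ j, a * y j + b * l j = 0 := fun j => by
        have := congrFun hab j
        simpa using this
      by_cases hb : b = 0
      · refine ⟨?_, hb⟩
        have := hj k
        rw [hb, zero_mul, add_zero] at this
        exact (mul_eq_zero.mp this).resolve_right hyk
      · exfalso
        have hd : b ∣ Finset.univ.gcd (fun j => a * y j) :=
          Finset.dvd_gcd (fun j _ => ⟨-l j, by linear_combination hj j⟩)
        rw [Finset.gcd_mul_left, hg, mul_one] at hd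
        have hd' : b ∣ a := (dvd_normalize_iff).mp hd
        obtain ⟨c, hc⟩ := hd'
        have h5 : c * y k + l k = 0 := by
          have := hj k
          rw [hc] at this
          have h6 : b * (c * y k + l k) = 0 := by linear_combination this
          exact (mul_eq_zero.mp h6).resolve_left hb
        have h7 : l k = - (c * y k) := by linear_combination h5
        rw [h7, abs_neg, abs_mul] at l1 l2
        have h8 : 0 < |c| := by
          by_contra h9
          have : |c| = 0 := le_antisymm (not_lt.mp h9) (abs_nonneg _)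
          rw [this, zero_mul] at l1
          exact lt_irrefl _ l1
        nlinarith
    · have hMr : (0 : ℝ) < M := by exact_mod_cast hM1
      set Y : ℝ := ((|y k| : ℤ) : ℝ) with hYr
      have hY0 : 0 < Y := by rw [hYr]; exact_mod_cast hYpos
      refine (gram_le y l k hk hyk (Y / M) ?_).trans (hfin _ ?_)
      · intro j
        rw [le_div_iff₀ hMr]
        have := (l3 j).le
        rw [hYr]
        exact_mod_cast this
      · have hYM : Y ≤ 8 * (M : ℝ) ^ 3 := by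
          have h1 : (|y k|) ≤ ((M : ℤ) + 1) ^ 3 := by rw [← hY]; exact_mod_cast hM3
          have h2 : Y ≤ ((M : ℝ) + 1) ^ 3 := by rw [hYr]; exact_mod_cast h1
          have h3 : (1 : ℝ) ≤ M := by exact_mod_cast hM1
          have h4 : ((M : ℝ) + 1) ^ 3 ≤ (2 * M) ^ 3 := pow_le_pow_left₀ (by positivity) (by linarith) 3
          calc Y ≤ _ := h2
            _ ≤ _ := h4
            _ = _ := by ring
        have h5 : ((Y / M) ^ 2) ^ 3 ≤ (4 * (Y ^ 2) ^ (2 / 3 : ℝ)) ^ 3 := by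
          rw [mul_pow, cube_third _ (sq_nonneg Y), div_pow, div_pow, div_le_iff₀ (by positivity)]
          have h6 : Y ^ 2 ≤ (8 * (M : ℝ) ^ 3) ^ 2 := pow_le_pow_left₀ hY0.le hYM 2
          have h7 : Y ^ 4 * Y ^ 2 ≤ Y ^ 4 * (8 * (M : ℝ) ^ 3) ^ 2 :=
            mul_le_mul_of_nonneg_left h6 (by positivity)
          calc (Y ^ 2) ^ 3 = Y ^ 4 * Y ^ 2 := by ring
            _ ≤ _ := h7
            _ = _ := by ring
        exact (pow_le_pow_iff_left₀ (sq_nonneg _) (by positivity) (by norm_num)).mp h5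
  · have hY1 : |y k| = 1 := by omega
    obtain ⟨j, hj⟩ : ∃ j : Fin 4, j ≠ k := exists_ne k
    refine ⟨Pi.single j 1, ?_, ?_⟩
    · intro a b hab
      have h1 := congrFun hab k
      have h2 := congrFun hab j
      simp [hj.symm] at h1 h2
      have h3 : a = 0 := h1.resolve_right hyk
      rw [h3] at h2
      exact ⟨h3, by simpa using h2⟩
    · refine (gram_le y _ k hk hyk 1 ?_).trans (hfin _ ?_)
      · intro i
        have : |y k * (Pi.single j (1 : ℤ) : Fin 4 → ℤ) i - (Pi.single j (1 : ℤ) : Fin 4 → ℤ) k * y i| ≤ 1 := by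
          rw [Pi.single_eq_of_ne hj.symm, zero_mul, sub_zero, abs_mul, hY1, one_mul]
          rcases eq_or_ne i j with rfl | hij
          · simp
          · simp [Pi.single_eq_of_ne hij]
        exact_mod_cast this
      · rw [hY1]; norm_num

theorem exists_rank2 : ∃ C : ℝ, 1 ≤ C ∧ ∀ y : Fin 4 → ℤ, y ≠ 0 → ∃ (l1 l2 : Fin 4 → ℤ) (s t : ℤ),
    Red l1 l2 ∧ y = s • l1 + t • l2 ∧
    (dot l1 l1 : ℝ) * dot l2 l2 ≤ C * (dot y y : ℝ) ^ (2 / 3 : ℝ) ∧
    (s : ℝ) ^ 2 * dot l1 l1 ≤ C * dot y y ∧ (t : ℝ) ^ 2 * dot l2 l2 ≤ C * dot y y := by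
  refine ⟨128, by norm_num, ?_⟩
  intro y hy
  obtain ⟨y', hy', hg⟩ := Finset.extract_gcd (s := (Finset.univ : Finset (Fin 4))) y
    ⟨0, Finset.mem_univ 0⟩
  set g := Finset.univ.gcd y with hgdef
  have hyg : y = g • y' := by
    funext i; simpa using hy' i (Finset.mem_univ i)
  have hg0 : g ≠ 0 := by
    intro h; apply hy; rw [hyg, h, zero_smul]
  have hy'0 : y' ≠ 0 := by
    intro h; apply hy; rw [hyg, h, smul_zero]
  obtain ⟨l, hind, hgram⟩ := exists_partner y' hy'0 hg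
  obtain ⟨a, b, c, d, hdet, hred⟩ := exists_red hind
  have hdd : dot y y = g ^ 2 * dot y' y' := by
    rw [hyg]; simp only [dot4, Pi.smul_apply, smul_eq_mul]; ring
  have hdle : (dot y' y' : ℝ) ≤ dot y y := by
    have h1 := dot_nonneg y'
    have h2 : 1 ≤ g ^ 2 := by
      have : 0 < g ^ 2 := by positivity
      omega
    have : dot y' y' ≤ dot y y := by rw [hdd]; nlinarith
    exact_mod_cast this
  have hyrep : y = (g * (a * d - b * c) * d) • (a • y' + b • l) +
      (-(g * (a * d - b * c) * b)) • (c • y' + d • l) := by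
    rw [hyg]
    funext i
    simp only [Pi.add_apply, Pi.smul_apply, smul_eq_mul]
    linear_combination (-(g * y' i)) * hdet
  have hG : (dot (a • y' + b • l) (a • y' + b • l) : ℝ) * dot (c • y' + d • l) (c • y' + d • l) -
      (dot (a • y' + b • l) (c • y' + d • l) : ℝ) ^ 2 =
      (dot y' y' : ℝ) * dot l l - (dot y' l : ℝ) ^ 2 := by
    have hdet' : ((a : ℝ) * d - b * c) ^ 2 = 1 := by exact_mod_cast hdet
    simp only [dot_comb]; push_cast
    linear_combination ((dot y' y' : ℝ) * dot l l - (dot y' l : ℝ) ^ 2) * hdet'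
  set l1 := a • y' + b • l with hl1
  set l2 := c • y' + d • l with hl2
  set s := g * (a * d - b * c) * d with hs
  set t := -(g * (a * d - b * c) * b) with ht
  have hr1 := hred.2.1
  have hr2 := hred.2.2.1
  have hr1' : (dot l1 l1 : ℝ) ≤ dot l2 l2 := by exact_mod_cast hr1
  have hr2' : 2 * |(dot l1 l2 : ℝ)| ≤ dot l1 l1 := by exact_mod_cast hr2
  have hr0 : (0 : ℝ) ≤ dot l1 l1 := by exact_mod_cast dot_nonneg l1
  have hB0 : (0 : ℝ) ≤ dot l2 l2 := hr0.trans hr1'
  have hexp : (dot y y : ℝ) = (s : ℝ) ^ 2 * dot l1 l1 + 2 * (s * t) * dot l1 l2 +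
      (t : ℝ) ^ 2 * dot l2 l2 := by
    have : dot y y = s ^ 2 * dot l1 l1 + 2 * (s * t) * dot l1 l2 + t ^ 2 * dot l2 l2 := by
      rw [hyrep, dot_comb]; ring
    exact_mod_cast this
  have hy0 : (0 : ℝ) ≤ dot y y := by exact_mod_cast dot_nonneg y
  have hst : (s : ℝ) ^ 2 * dot l1 l1 ≤ 2 * dot y y ∧ (t : ℝ) ^ 2 * dot l2 l2 ≤ 2 * dot y y := by
    have h1 : |2 * ((s : ℝ) * t) * dot l1 l2| ≤ (1 / 2) * ((s : ℝ) ^ 2 * dot l1 l1) +
        (1 / 2) * ((t : ℝ) ^ 2 * dot l2 l2) := by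
      have h2 : |2 * ((s : ℝ) * t) * dot l1 l2| = |(s : ℝ) * t| * (2 * |(dot l1 l2 : ℝ)|) := by
        rw [abs_mul, abs_mul, abs_of_pos (by norm_num : (0 : ℝ) < 2)]; ring
      have h3 : |(s : ℝ) * t| ≤ (1 / 2) * ((s : ℝ) ^ 2 + (t : ℝ) ^ 2) := by
        rw [abs_le]; constructor <;> nlinarith [sq_nonneg ((s : ℝ) + t), sq_nonneg ((s : ℝ) - t)]
      rw [h2]
      calc _ ≤ ((1 / 2) * ((s : ℝ) ^ 2 + (t : ℝ) ^ 2)) * dot l1 l1 :=
            mul_le_mul h3 hr2' (by positivity) (by positivity)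
        _ ≤ _ := by nlinarith [sq_nonneg (t : ℝ)]
    have h4 := neg_abs_le (2 * ((s : ℝ) * t) * dot l1 l2)
    have h5 : 0 ≤ (s : ℝ) ^ 2 * dot l1 l1 := by positivity
    have h6 : 0 ≤ (t : ℝ) ^ 2 * dot l2 l2 := by positivity
    constructor <;> linarith
  refine ⟨l1, l2, s, t, hred, hyrep, ?_, ?_, ?_⟩
  · have h1 : (dot l1 l2 : ℝ) ^ 2 ≤ (1 / 4) * ((dot l1 l1 : ℝ) * dot l2 l2) := by
      have h2 : |(dot l1 l2 : ℝ)| ^ 2 ≤ ((dot l1 l1 : ℝ) / 2) ^ 2 :=
        pow_le_pow_left₀ (abs_nonneg _) (by linarith) 2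
      rw [sq_abs] at h2
      nlinarith
    have h3 := Real.rpow_le_rpow (by exact_mod_cast dot_nonneg y') hdle
      (by norm_num : (0 : ℝ) ≤ 2 / 3)
    linarith
  · have := hst.1; linarith
  · have := hst.2; linarith

theorem card_le_diam (T : Finset ℤ) (D : ℕ) (h : ∀ x ∈ T, ∀ x' ∈ T, x - x' ≤ D) :
    T.card ≤ D + 1 := by
  rcases T.eq_empty_or_nonempty with rfl | hT
  · simp
  · have hsub : T ⊆ Finset.Icc (T.min' hT) (T.min' hT + D) := by
      intro x hx
      rw [Finset.mem_Icc]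
      have h1 := T.min'_le x hx
      have h2 := h x hx _ (T.min'_mem hT)
      constructor <;> omega
    have h3 := Finset.card_le_card hsub
    rw [Int.card_Icc] at h3
    omega

theorem coord_le (w : Fin 4 → ℤ) (R : ℝ) (hR : 0 ≤ R) (h : (dot w w : ℝ) ≤ R ^ 2) (i : Fin 4) :
    w i ∈ Finset.Icc (-(⌊R⌋₊ : ℤ)) ⌊R⌋₊ := by
  have h1 : w i ^ 2 ≤ dot w w := by
    rw [dot, sq]
    exact Finset.single_le_sum (f := fun i => w i * w i) (fun i _ => mul_self_nonneg _)
      (Finset.mem_univ i)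
  have h2 : (w i : ℝ) ^ 2 ≤ R ^ 2 := le_trans (by exact_mod_cast h1) h
  have h3 : |(w i : ℝ)| ≤ R := abs_le_of_sq_le_sq h2 hR
  have h4 : ((w i).natAbs : ℝ) ≤ R := by
    rw [Nat.cast_natAbs, Int.cast_abs]; exact h3
  have h5 : (w i).natAbs ≤ ⌊R⌋₊ := Nat.le_floor h4
  rw [Finset.mem_Icc]
  omega

theorem fib_le (A : ℝ) (hA : 0 < A) (b : Fin 4 → ℤ) (k : Fin 4) (hk : ∀ i, |b i| ≤ |b k|)
    (hA4 : (dot b b : ℝ) ≤ 4 * A ^ 2) (v : Fin 3 → ℤ)
    (S : Finset ((Fin 4 → ℤ) × (Fin 4 → ℤ)))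
    (hS : ∀ w ∈ S, w.1 = b ∧ Red b w.2 ∧ (fun i : Fin 3 => w.2 (k.succAbove i)) = v) :
    S.card ≤ ⌊8 * A⌋₊ + 1 := by
  classical
  rcases S.eq_empty_or_nonempty with rfl | ⟨w0, hw0⟩
  · simp
  have hb0 : b ≠ 0 := (hS w0 hw0).2.1.1
  have hbk : b k ≠ 0 := by
    intro h
    apply hb0
    funext i
    have := hk i
    rw [h, abs_zero] at this
    exact abs_nonpos_iff.mp this
  have hbpos : 0 < |b k| := abs_pos.mpr hbk
  have hinj : Set.InjOn (fun w : (Fin 4 → ℤ) × (Fin 4 → ℤ) => w.2 k) S := by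
    intro w hw w' hw' h
    obtain ⟨h1, -, h2⟩ := hS w hw
    obtain ⟨h1', -, h2'⟩ := hS w' hw'
    refine Prod.ext (h1.trans h1'.symm) ?_
    funext j
    rcases eq_or_ne j k with rfl | hj
    · exact h
    · obtain ⟨i, rfl⟩ := Fin.exists_succAbove_eq hj
      exact (congrFun h2 i).trans (congrFun h2' i).symm
  rw [← Finset.card_image_of_injOn hinj]
  apply card_le_diam
  have hdb : dot b b ≤ 4 * |b k| ^ 2 := by
    have h : ∀ i, b i * b i ≤ |b k| ^ 2 := fun i => by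
      rw [← sq, ← sq_abs]; exact pow_le_pow_left₀ (abs_nonneg _) (hk i) 2
    rw [dot4]; linarith [h 0, h 1, h 2, h 3]
  have hb8 : 4 * |b k| ≤ ⌊8 * A⌋₊ := by
    have h2 : (|(b k : ℝ)|) ≤ 2 * A := by
      have h3 : (b k : ℝ) ^ 2 ≤ (2 * A) ^ 2 := by
        have h4 : b k ^ 2 ≤ dot b b := by
          rw [dot, sq]
          exact Finset.single_le_sum (f := fun i => b i * b i) (fun i _ => mul_self_nonneg _)
            (Finset.mem_univ k)
        have h5 : (b k : ℝ) ^ 2 ≤ dot b b := by exact_mod_cast h4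
        rw [mul_pow]; linarith
      exact abs_le_of_sq_le_sq h3 (by positivity)
    have h6 : ((4 * (b k).natAbs : ℕ) : ℝ) ≤ 8 * A := by
      push_cast
      rw [Nat.cast_natAbs, Int.cast_abs]; linarith
    have h7 : 4 * (b k).natAbs ≤ ⌊8 * A⌋₊ := Nat.le_floor h6
    rw [Int.abs_eq_natAbs]
    omega
  intro x hx x' hx'
  rw [Finset.mem_image] at hx hx'
  obtain ⟨w, hw, rfl⟩ := hx
  obtain ⟨w', hw', rfl⟩ := hx'
  obtain ⟨-, hr, h2⟩ := hS w hw
  obtain ⟨-, hr', h2'⟩ := hS w' hw'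
  have e1 := hr.2.2.1
  have e2 := hr'.2.2.1
  have hdiff : dot b w.2 - dot b w'.2 = b k * (w.2 k - w'.2 k) := by
    have h3 : ∀ j, j ≠ k → b j * (w.2 j - w'.2 j) = 0 := by
      intro j hj
      obtain ⟨i, rfl⟩ := Fin.exists_succAbove_eq hj
      rw [(congrFun h2 i).trans (congrFun h2' i).symm, sub_self, mul_zero]
    have h4 : dot b w.2 - dot b w'.2 = ∑ j, b j * (w.2 j - w'.2 j) := by
      simp only [dot, ← Finset.sum_sub_distrib, mul_sub]
    rw [h4]
    exact Finset.sum_eq_single k (fun j _ hj => h3 j hj) (fun h => absurd (Finset.mem_univ k) h)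
  have h5 : |b k| * |w.2 k - w'.2 k| ≤ |b k| * (4 * |b k|) := by
    rw [← abs_mul, ← hdiff]
    have h6 := abs_sub (dot b w.2) (dot b w'.2)
    nlinarith
  have h7 := le_of_mul_le_mul_left h5 hbpos
  exact (le_abs_self _).trans (h7.trans hb8)

/-- the number of reduced pairs with `A ≤ |l1| ≤ 2 A`, `|l2| ≤ B`. -/
theorem card_red : ∃ C : ℝ, 0 < C ∧ ∀ (A B : ℝ), 1 ≤ B → 0 < A →
    ∀ S : Finset ((Fin 4 → ℤ) × (Fin 4 → ℤ)),
    (∀ l ∈ S, Red l.1 l.2 ∧ A ^ 2 ≤ dot l.1 l.1 ∧ (dot l.1 l.1 : ℝ) ≤ 4 * A ^ 2 ∧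
      (dot l.2 l.2 : ℝ) ≤ B ^ 2) →
    (S.card : ℝ) ≤ C * A ^ 5 * B ^ 3 := by
  classical
  refine ⟨10 ^ 6, by norm_num, ?_⟩
  intro A B hB hA S hS
  rcases S.eq_empty_or_nonempty with rfl | ⟨w0, hw0⟩
  · simp only [Finset.card_empty, Nat.cast_zero]; positivity
  have hA2 : 1 / 2 ≤ A := by
    obtain ⟨h1, -, h2, -⟩ := hS w0 hw0
    have h3 := dot_pos h1.1
    have h4 : (1 : ℝ) ≤ dot w0.1 w0.1 := by exact_mod_cast h3
    nlinarith
  have hbox : ∀ (n N : ℕ), (Fintype.piFinset (fun _ : Fin n => Finset.Icc (-(N : ℤ)) N)).card =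
      (2 * N + 1) ^ n := by
    intro n N
    rw [Fintype.card_piFinset]
    simp only [Int.card_Icc, Finset.prod_const, Finset.card_univ, Fintype.card_fin]
    congr 1
    omega
  have h1 : S.card ≤ ((⌊8 * A⌋₊ + 1) * (2 * ⌊B⌋₊ + 1) ^ 3) *
      (Fintype.piFinset (fun _ : Fin 4 => Finset.Icc (-(⌊2 * A⌋₊ : ℤ)) ⌊2 * A⌋₊)).card := by
    apply Finset.card_le_mul_card_image_of_maps_to (f := Prod.fst)
    · intro w hw
      rw [Fintype.mem_piFinset]
      obtain ⟨-, -, h, -⟩ := hS w hw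
      exact coord_le w.1 (2 * A) (by positivity) (by rw [mul_pow]; linarith)
    · intro b _
      obtain ⟨k, -, hk⟩ := Finset.exists_max_image (Finset.univ : Finset (Fin 4)) (fun i => |b i|)
        ⟨0, Finset.mem_univ 0⟩
      replace hk : ∀ i, |b i| ≤ |b k| := fun i => hk i (Finset.mem_univ i)
      rw [← hbox 3]
      apply Finset.card_le_mul_card_image_of_maps_to
        (f := fun w : (Fin 4 → ℤ) × (Fin 4 → ℤ) => fun i : Fin 3 => w.2 (k.succAbove i))
      · intro w hw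
        rw [Finset.mem_filter] at hw
        rw [Fintype.mem_piFinset]
        intro i
        exact coord_le w.2 B (by linarith) (hS w hw.1).2.2.2 _
      · intro v _
        rcases Finset.eq_empty_or_nonempty {a ∈ {a ∈ S | a.1 = b} |
            (fun i : Fin 3 => a.2 (k.succAbove i)) = v} with he | ⟨w1, hw1⟩
        · rw [he]; simp
        · refine fib_le A hA b k hk ?_ v _ ?_
          · rw [Finset.mem_filter, Finset.mem_filter] at hw1
            rw [← hw1.1.2]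
            exact (hS w1 hw1.1.1).2.2.1
          · intro w hw
            rw [Finset.mem_filter, Finset.mem_filter] at hw
            refine ⟨hw.1.2, ?_, hw.2⟩
            rw [← hw.1.2]
            exact (hS w hw.1.1).1
  rw [hbox 4] at h1
  have h2 : (⌊8 * A⌋₊ : ℝ) ≤ 8 * A := Nat.floor_le (by positivity)
  have h3 : (⌊2 * A⌋₊ : ℝ) ≤ 2 * A := Nat.floor_le (by positivity)
  have h4 : (⌊B⌋₊ : ℝ) ≤ B := Nat.floor_le (by linarith)
  have h5 : (S.card : ℝ) ≤ (((⌊8 * A⌋₊ : ℝ) + 1) * (2 * (⌊B⌋₊ : ℝ) + 1) ^ 3) *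
      (2 * (⌊2 * A⌋₊ : ℝ) + 1) ^ 4 := by exact_mod_cast h1
  calc (S.card : ℝ) ≤ _ := h5
    _ ≤ ((10 * A) * (3 * B) ^ 3) * (6 * A) ^ 4 := by
        gcongr <;> linarith
    _ ≤ _ := by
        have : 0 ≤ A ^ 5 * B ^ 3 := by positivity
        nlinarith

end Vale.Agent.P018.Q
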