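import Vale.Agent.P018.Q.CurveStep

/-! # P018, quartics: the curve step (pigeonhole principle on a curve), Bezout.

`ev`, `bezout2`: `Bezout2.lean`; `siegel_class`, `hensel_poly'`: `Siegel.lean`; `curve_step`:
`CurveStep.lean`. -/
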