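import Mathlib
import Vale.Agent.P018.Q.Defs

/-! # P018, quartics: definitions for the kappa model. -/

namespace Vale.Agent.P018.Q

open Polynomial NumberField

variable {L : Type} [Field L] [NumberField L]

/-- the linear forms `π_j(σ) = ell (θ j) l1 σ + ell (θ j) l2` are pairwise not proportional. -/
def NonDeg (θ : Fin 4 → 𝓞 L) (l1 l2 : Fin 4 → ℤ) : Prop :=
  ∀ i j, i ≠ j → K.ell (θ i) l1 * K.ell (θ j) l2 ≠ K.ell (θ j) l1 * K.ell (θ i) l2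

/-- the polynomial `π_j(σ)`. -/
noncomputable def piPoly (θ : Fin 4 → 𝓞 L) (l1 l2 : Fin 4 → ℤ) (j : Fin 4) : (𝓞 L)[X] :=
  C (K.ell (θ j) l1) * X + C (K.ell (θ j) l2)

/-- the data of the kappa model: two integer vectors `e_i = (A i, B i)` of polynomials of degree
`d i`, with `B i - θ_j A i = π_j² ∑_m Z i m θ_j^m`, and `A 0 B 1 - A 1 B 0 = c Λ²`,
`Λ = ∏ π_j`. -/
structure KData (θ : Fin 4 → 𝓞 L) (l1 l2 : Fin 4 → ℤ) (d : Fin 2 → ℕ) (A B : Fin 2 → ℤ[X])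
    (Z : Fin 2 → Fin 4 → ℤ[X]) (Λ : ℤ[X]) (c : ℤ) : Prop where
  dd : (d 0 = 4 ∧ d 1 = 4) ∨ (d 0 = 3 ∧ d 1 = 5)
  dA : ∀ i, (A i).natDegree ≤ d i
  dB : ∀ i, (B i).natDegree ≤ d i
  dZ : ∀ i m, (Z i m).natDegree + 2 ≤ d i
  eq : ∀ i j, (B i).map (algebraMap ℤ (𝓞 L)) - C (θ j) * (A i).map (algebraMap ℤ (𝓞 L)) =
    piPoly θ l1 l2 j ^ 2 * ∑ m : Fin 4, (Z i m).map (algebraMap ℤ (𝓞 L)) * C (θ j ^ (m : ℕ))
  hΛ : Λ.map (algebraMap ℤ (𝓞 L)) = ∏ j, piPoly θ l1 l2 j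
  c0 : c ≠ 0
  det : A 0 * B 1 - A 1 * B 0 = C c * Λ ^ 2

end Vale.Agent.P018.Q
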