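import Mathlib
import Vale.Agent.P018.Q.KappaDefs

/-! # P018, quartics: multiplication by `x` modulo `G` on coordinates. -/

namespace Vale.Agent.P018.Q

open Polynomial NumberField

/-- multiplication by `x` in the basis `1, x, x², x³` modulo `G`. -/
def sh (G : ℤ[X]) (y : Fin 4 → ℤ) : Fin 4 → ℤ :=
  ![-(G.coeff 0 * y 3), y 0 - G.coeff 1 * y 3, y 1 - G.coeff 2 * y 3, y 2 - G.coeff 3 * y 3]

/-- multiplication by `x ^ a`. -/
def shp (G : ℤ[X]) (a : ℕ) (y : Fin 4 → ℤ) : Fin 4 → ℤ := (sh G)^[a] y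

/-- multiplication of elements given by coordinates. -/
def mul4 (G : ℤ[X]) (y z : Fin 4 → ℤ) : Fin 4 → ℤ := ∑ a : Fin 4, z a • shp G a y

variable {R : Type*} [CommRing R]

theorem ell_four (t : R) (y : Fin 4 → ℤ) :
    K.ell t y = y 0 + y 1 * t + y 2 * t ^ 2 + y 3 * t ^ 3 := by
  unfold K.ell
  rw [Fin.sum_univ_four]
  simp

theorem G_eq {G : ℤ[X]} (hG : G.Monic) (hGd : G.natDegree = 4) {t : R}
    (ht : aeval t G = 0) : t ^ 4 = -((G.coeff 0 : R) + G.coeff 1 * t + G.coeff 2 * t ^ 2 +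
      G.coeff 3 * t ^ 3) := by
  rw [aeval_eq_sum_range, hGd] at ht
  simp only [Finset.sum_range_succ, Finset.range_zero, Finset.sum_empty, zero_add, pow_zero,
    pow_one, zsmul_eq_mul, mul_one] at ht
  have h4 : G.coeff 4 = 1 := by
    have := hG.coeff_natDegree
    rwa [hGd] at this
  rw [h4] at ht
  push_cast at ht
  linear_combination ht

theorem ell_sh {G : ℤ[X]} (hG : G.Monic) (hGd : G.natDegree = 4) {t : R}
    (ht : aeval t G = 0) (y : Fin 4 → ℤ) : K.ell t (sh G y) = t * K.ell t y := by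
  rw [ell_four, ell_four]
  have h := G_eq hG hGd ht
  simp only [sh, Matrix.cons_val_zero, Matrix.cons_val_one, Matrix.cons_val]
  push_cast
  linear_combination (-(y 3 : R)) * h

theorem ell_shp {G : ℤ[X]} (hG : G.Monic) (hGd : G.natDegree = 4) {t : R}
    (ht : aeval t G = 0) (a : ℕ) (y : Fin 4 → ℤ) : K.ell t (shp G a y) = t ^ a * K.ell t y := by
  induction a with
  | zero => simp [shp]
  | succ a ih =>
    have : shp G (a + 1) y = sh G (shp G a y) := by
      unfold shp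
      rw [Function.iterate_succ_apply']
    rw [this, ell_sh hG hGd ht, ih, pow_succ]
    ring

theorem ell_smul (t : R) (c : ℤ) (y : Fin 4 → ℤ) : K.ell t (c • y) = c * K.ell t y := by
  rw [ell_four, ell_four]
  simp only [Pi.smul_apply, smul_eq_mul]
  push_cast
  ring

theorem ell_add (t : R) (y z : Fin 4 → ℤ) : K.ell t (y + z) = K.ell t y + K.ell t z := by
  rw [ell_four, ell_four, ell_four]
  simp only [Pi.add_apply]
  push_cast
  ring

theorem ell_mul4 {G : ℤ[X]} (hG : G.Monic) (hGd : G.natDegree = 4) {t : R}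
    (ht : aeval t G = 0) (y z : Fin 4 → ℤ) :
    K.ell t (mul4 G y z) = K.ell t y * K.ell t z := by
  unfold mul4
  rw [Fin.sum_univ_four, ell_add, ell_add, ell_add, ell_smul, ell_smul, ell_smul, ell_smul,
    ell_shp hG hGd ht, ell_shp hG hGd ht, ell_shp hG hGd ht, ell_shp hG hGd ht, ell_four t z]
  simp
  ring

/-- size of the shift. -/
theorem sh_le {G : ℤ[X]} {g h : ℤ} (hg : ∀ k, |G.coeff k| ≤ g) {y : Fin 4 → ℤ}
    (hy : ∀ j, |y j| ≤ h) (j : Fin 4) : |sh G y j| ≤ (1 + g) * h := by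
  have hh : 0 ≤ h := (abs_nonneg _).trans (hy 0)
  have hg0 : 0 ≤ g := (abs_nonneg _).trans (hg 0)
  have key : ∀ k i, |y i - G.coeff k * y 3| ≤ (1 + g) * h := by
    intro k i
    calc |y i - G.coeff k * y 3| ≤ |y i| + |G.coeff k * y 3| := abs_sub _ _
      _ ≤ h + g * h := by
        rw [abs_mul]
        exact add_le_add (hy i) (mul_le_mul (hg k) (hy 3) (abs_nonneg _) hg0)
      _ = (1 + g) * h := by ring
  have k0 : |-(G.coeff 0 * y 3)| ≤ (1 + g) * h := by
    rw [abs_neg, abs_mul]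
    have := mul_le_mul (hg 0) (hy 3) (abs_nonneg _) hg0
    nlinarith
  fin_cases j
  · exact k0
  · exact key 1 0
  · exact key 2 1
  · exact key 3 2

theorem shp_le {G : ℤ[X]} {g h : ℤ} (hg : ∀ k, |G.coeff k| ≤ g) (a : ℕ) {y : Fin 4 → ℤ}
    (hy : ∀ j, |y j| ≤ h) (j : Fin 4) : |shp G a y j| ≤ (1 + g) ^ a * h := by
  induction a generalizing j with
  | zero => simpa [shp] using hy j
  | succ a ih =>
    have : shp G (a + 1) y = sh G (shp G a y) := by
      unfold shp
      rw [Function.iterate_succ_apply']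
    rw [this]
    refine (sh_le hg (fun j => ih j) j).trans (le_of_eq ?_)
    ring

theorem mul4_le {G : ℤ[X]} {g h h' : ℤ} (hg : ∀ k, |G.coeff k| ≤ g) {y z : Fin 4 → ℤ}
    (hy : ∀ j, |y j| ≤ h) (hz : ∀ j, |z j| ≤ h') (j : Fin 4) :
    |mul4 G y z j| ≤ 4 * (1 + g) ^ 3 * h * h' := by
  have hh : 0 ≤ h := (abs_nonneg _).trans (hy 0)
  have hh' : 0 ≤ h' := (abs_nonneg _).trans (hz 0)
  have hg0 : 0 ≤ g := (abs_nonneg _).trans (hg 0)
  unfold mul4
  rw [Finset.sum_apply]
  refine (Finset.abs_sum_le_sum_abs _ _).trans ?_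
  have h1 : ∀ a : Fin 4, |(z a • shp G a y) j| ≤ (1 + g) ^ 3 * h * h' := by
    intro a
    rw [Pi.smul_apply, smul_eq_mul, abs_mul, mul_comm]
    refine mul_le_mul ((shp_le hg a hy j).trans ?_) (hz a) (abs_nonneg _) (by positivity)
    refine mul_le_mul_of_nonneg_right (pow_le_pow_right₀ (by linarith) ?_) hh
    have := a.2
    omega
  calc ∑ a : Fin 4, |(z a • shp G a y) j| ≤ ∑ _a : Fin 4, (1 + g) ^ 3 * h * h' :=
        Finset.sum_le_sum fun a _ => h1 a
    _ = _ := by simp; ring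

end Vale.Agent.P018.Q
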