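import Mathlib
import Vale.Agent.P018.Q.KapSh

/-! # P018, quartics: the linear system of the kappa model. -/

namespace Vale.Agent.P018.Q

open Polynomial NumberField

/-- unknowns: coefficients of `A`, `B` (degree `≤ d`) and `Z m` (degree `≤ d - 2`). -/
abbrev Col (d : ℕ) : Type := Fin (d + 1) ⊕ Fin (d + 1) ⊕ (Fin 4 × Fin (d - 1))

/-- equations. -/
abbrev Row (d : ℕ) : Type := Fin 4 × Fin (d + 1)

/-- coordinates of the coefficients of `π²`. -/
def pc (G : ℤ[X]) (l1 l2 : Fin 4 → ℤ) (r : ℕ) : Fin 4 → ℤ :=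
  if r = 0 then mul4 G l2 l2 else if r = 1 then (2 : ℤ) • mul4 G l1 l2 else
    if r = 2 then mul4 G l1 l1 else 0

/-- the matrix of the system `x A - B + π² Z = 0`. -/
def Mx (G : ℤ[X]) (l1 l2 : Fin 4 → ℤ) (d : ℕ) : Row d → Col d → ℤ := fun r c =>
  match c with
  | Sum.inl j => if j = r.2 ∧ r.1 = 1 then 1 else 0
  | Sum.inr (Sum.inl j) => if j = r.2 ∧ r.1 = 0 then -1 else 0
  | Sum.inr (Sum.inr (a, i)) => if (i : ℕ) ≤ r.2 then
      shp G a (pc G l1 l2 ((r.2 : ℕ) - i)) r.1 else 0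

theorem Mx_le {G : ℤ[X]} {g h : ℤ} (hg : ∀ k, |G.coeff k| ≤ g) (hh : 1 ≤ h) {l1 l2 : Fin 4 → ℤ}
    (h1 : ∀ j, |l1 j| ≤ h) (h2 : ∀ j, |l2 j| ≤ h) {d : ℕ} (r : Row d) (c : Col d) :
    |Mx G l1 l2 d r c| ≤ 8 * (1 + g) ^ 6 * h ^ 2 := by
  have hg0 : 0 ≤ g := (abs_nonneg _).trans (hg 0)
  have hb1 : (1 : ℤ) ≤ (1 + g) ^ 6 := one_le_pow₀ (by omega)
  have hb2 : (1 : ℤ) ≤ h ^ 2 := one_le_pow₀ hh
  have hone : (1 : ℤ) ≤ 8 * (1 + g) ^ 6 * h ^ 2 := by nlinarith
  have hpc : ∀ n j, |pc G l1 l2 n j| ≤ 8 * (1 + g) ^ 3 * h ^ 2 := by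
    intro n j
    unfold pc
    split_ifs
    · refine (mul4_le hg h2 h2 j).trans ?_
      have : 0 ≤ (1 + g) ^ 3 * h ^ 2 := by positivity
      nlinarith
    · rw [Pi.smul_apply, smul_eq_mul, abs_mul]
      have := mul4_le hg h1 h2 j
      rw [abs_of_pos (by norm_num : (0 : ℤ) < 2)]
      nlinarith
    · refine (mul4_le hg h1 h1 j).trans ?_
      have : 0 ≤ (1 + g) ^ 3 * h ^ 2 := by positivity
      nlinarith
    · simp
      positivity
  match c with
  | Sum.inl j =>
    simp only [Mx]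
    split_ifs
    · simpa using hone
    · simp; omega
  | Sum.inr (Sum.inl j) =>
    simp only [Mx]
    split_ifs
    · simpa using hone
    · simp; omega
  | Sum.inr (Sum.inr (a, i)) =>
    simp only [Mx]
    split_ifs
    · refine (shp_le hg a (hpc _) r.1).trans ?_
      have h3 : (1 + g) ^ (a : ℕ) ≤ (1 + g) ^ 3 := pow_le_pow_right₀ (by omega) (by omega)
      calc (1 + g) ^ (a : ℕ) * (8 * (1 + g) ^ 3 * h ^ 2)
          ≤ (1 + g) ^ 3 * (8 * (1 + g) ^ 3 * h ^ 2) :=
            mul_le_mul_of_nonneg_right h3 (by positivity)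
        _ = _ := by ring
    · simp; omega

section poly

variable {F : Type*} [CommRing F] {d : ℕ}

/-- the polynomial `A`. -/
noncomputable def pA (v : Col d → F) : F[X] := ∑ j : Fin (d + 1), C (v (Sum.inl j)) * X ^ (j : ℕ)

/-- the polynomial `B`. -/
noncomputable def pB (v : Col d → F) : F[X] :=
  ∑ j : Fin (d + 1), C (v (Sum.inr (Sum.inl j))) * X ^ (j : ℕ)

/-- the polynomials `Z m`. -/
noncomputable def pZ (v : Col d → F) (m : Fin 4) : F[X] :=
  ∑ i : Fin (d - 1), C (v (Sum.inr (Sum.inr (m, i)))) * X ^ (i : ℕ)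

/-- the column polynomials. -/
noncomputable def colp {R : Type*} [CommRing R] (l1 l2 : Fin 4 → ℤ) (t : R) : Col d → R[X]
  | Sum.inl j => C t * X ^ (j : ℕ)
  | Sum.inr (Sum.inl j) => -X ^ (j : ℕ)
  | Sum.inr (Sum.inr (a, i)) => C (t ^ (a : ℕ)) * X ^ (i : ℕ) *
      (C (K.ell t l1) * X + C (K.ell t l2)) ^ 2

theorem ell_zero' {R : Type*} [CommRing R] (t : R) : K.ell t (0 : Fin 4 → ℤ) = 0 := by
  rw [ell_four]; simp

theorem colp_eq {R : Type*} [CommRing R] {G : ℤ[X]} (hG : G.Monic) (hGd : G.natDegree = 4) {t : R}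
    (ht : aeval t G = 0) (l1 l2 : Fin 4 → ℤ) (hd : 2 ≤ d) (c : Col d) :
    ∑ k : Fin (d + 1), C (K.ell t fun m => Mx G l1 l2 d (m, k) c) * X ^ (k : ℕ) =
      colp l1 l2 t c := by
  match c with
  | Sum.inl j =>
    show _ = C t * X ^ (j : ℕ)
    rw [Finset.sum_eq_single j]
    · congr 2
      rw [ell_four]
      simp [Mx]
    · intro k _ hk
      have : (fun m => Mx G l1 l2 d (m, k) (Sum.inl j)) = 0 := by
        funext m
        simp [Mx, Ne.symm hk]
      rw [this, ell_zero', C_0, zero_mul]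
    · intro h; exact absurd (Finset.mem_univ _) h
  | Sum.inr (Sum.inl j) =>
    show _ = -X ^ (j : ℕ)
    rw [Finset.sum_eq_single j]
    · have : K.ell t (fun m => Mx G l1 l2 d (m, j) (Sum.inr (Sum.inl j))) = -1 := by
        rw [ell_four]
        simp [Mx]
      rw [this]
      simp
    · intro k _ hk
      have : (fun m => Mx G l1 l2 d (m, k) (Sum.inr (Sum.inl j))) = 0 := by
        funext m
        simp [Mx, Ne.symm hk]
      rw [this, ell_zero', C_0, zero_mul]
    · intro h; exact absurd (Finset.mem_univ _) h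
  | Sum.inr (Sum.inr (a, i)) =>
    show _ = C (t ^ (a : ℕ)) * X ^ (i : ℕ) * (C (K.ell t l1) * X + C (K.ell t l2)) ^ 2
    have hi : (i : ℕ) + 2 ≤ d := by have := i.2; omega
    have h1 : ∀ k : Fin (d + 1), K.ell t (fun m => Mx G l1 l2 d (m, k) (Sum.inr (Sum.inr (a, i)))) =
        if (i : ℕ) ≤ k then t ^ (a : ℕ) * K.ell t (pc G l1 l2 ((k : ℕ) - i)) else 0 := by
      intro k
      split_ifs with hk
      · rw [← ell_shp hG hGd ht]
        congr 1
        funext m
        simp [Mx, hk]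
      · have : (fun m => Mx G l1 l2 d (m, k) (Sum.inr (Sum.inr (a, i)))) = 0 := by
          funext m
          simp [Mx, hk]
        rw [this, ell_zero']
    simp_rw [h1]
    rw [Fin.sum_univ_eq_sum_range (fun k => C (if (i : ℕ) ≤ k then
      t ^ (a : ℕ) * K.ell t (pc G l1 l2 (k - i)) else 0) * (X : R[X]) ^ k) (d + 1)]
    have h2 : Finset.range (d + 1) = Finset.range ((i : ℕ) + (d + 1 - i)) := by
      congr 1; omega
    rw [h2, Finset.sum_range_add]
    rw [Finset.sum_eq_zero (fun k hk => by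
      rw [Finset.mem_range] at hk
      rw [if_neg (by omega), C_0, zero_mul]), zero_add]
    have h3 : d + 1 - i = 3 + (d + 1 - i - 3) := by omega
    rw [h3, Finset.sum_range_add]
    rw [Finset.sum_eq_zero (s := Finset.range (d + 1 - i - 3)) (fun k hk => by
      rw [if_pos (by omega)]
      have : pc G l1 l2 ((i : ℕ) + (3 + k) - i) = 0 := by
        unfold pc
        rw [if_neg (by omega), if_neg (by omega), if_neg (by omega)]
      rw [this, ell_zero', mul_zero, C_0, zero_mul]), add_zero]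
    simp only [Finset.sum_range_succ, Finset.range_zero, Finset.sum_empty, zero_add, add_zero,
      Nat.add_sub_cancel_left, le_add_iff_nonneg_right, zero_le, if_true]
    have e0 : K.ell t (pc G l1 l2 0) = K.ell t l2 ^ 2 := by
      unfold pc
      rw [if_pos rfl, ell_mul4 hG hGd ht]; ring
    have e1 : K.ell t (pc G l1 l2 1) = 2 * K.ell t l1 * K.ell t l2 := by
      unfold pc
      rw [if_neg (by norm_num), if_pos rfl, ell_smul, ell_mul4 hG hGd ht]; push_cast; ring
    have e2 : K.ell t (pc G l1 l2 2) = K.ell t l1 ^ 2 := by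
      unfold pc
      rw [if_neg (by norm_num), if_neg (by norm_num), if_pos rfl, ell_mul4 hG hGd ht]; ring
    rw [e0, e1, e2]
    simp only [map_mul, map_pow, map_ofNat]
    ring

/-- the value of a row on a vector. -/
def rw' (G : ℤ[X]) (l1 l2 : Fin 4 → ℤ) (v : Col d → F) (r : Row d) : F :=
  ∑ c, (Mx G l1 l2 d r c : F) * v c

theorem sum_colp {R : Type*} [CommRing R] [Algebra F R] (l1 l2 : Fin 4 → ℤ) (t : R)
    (v : Col d → F) :
    ∑ c, C (algebraMap F R (v c)) * colp l1 l2 t c =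
      C t * (pA v).map (algebraMap F R) - (pB v).map (algebraMap F R) +
      (C (K.ell t l1) * X + C (K.ell t l2)) ^ 2 *
        ∑ m : Fin 4, (pZ v m).map (algebraMap F R) * C (t ^ (m : ℕ)) := by
  rw [Fintype.sum_sum_type, Fintype.sum_sum_type, Fintype.sum_prod_type]
  unfold pA pB pZ
  simp only [colp, Polynomial.map_sum, Polynomial.map_mul, map_C, Polynomial.map_pow, map_X,
    Finset.mul_sum, Finset.sum_mul, mul_neg, Finset.sum_neg_distrib]
  have h1 : ∀ x : Fin (d + 1), C (algebraMap F R (v (Sum.inl x))) * (C t * X ^ (x : ℕ)) =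
      C t * (C (algebraMap F R (v (Sum.inl x))) * X ^ (x : ℕ)) := fun x => by ring
  have h2 : ∀ (x : Fin 4) (i : Fin (d - 1)), C (algebraMap F R (v (Sum.inr (Sum.inr (x, i))))) *
      (C (t ^ (x : ℕ)) * X ^ (i : ℕ) * (C (K.ell t l1) * X + C (K.ell t l2)) ^ 2) =
      (C (K.ell t l1) * X + C (K.ell t l2)) ^ 2 *
        (C (algebraMap F R (v (Sum.inr (Sum.inr (x, i))))) * X ^ (i : ℕ) * C (t ^ (x : ℕ))) :=
    fun x i => by ring
  simp only [h1, h2]
  ring

theorem key_eq {R : Type*} [CommRing R] [Algebra F R] {G : ℤ[X]} (hG : G.Monic)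
    (hGd : G.natDegree = 4) {t : R} (ht : aeval t G = 0) (l1 l2 : Fin 4 → ℤ) (hd : 2 ≤ d)
    (v : Col d → F) :
    C t * (pA v).map (algebraMap F R) - (pB v).map (algebraMap F R) +
      (C (K.ell t l1) * X + C (K.ell t l2)) ^ 2 *
        ∑ m : Fin 4, (pZ v m).map (algebraMap F R) * C (t ^ (m : ℕ)) =
    ∑ k : Fin (d + 1), C (∑ m : Fin 4, algebraMap F R (rw' G l1 l2 v (m, k)) * t ^ (m : ℕ)) *
      X ^ (k : ℕ) := by
  rw [← sum_colp]
  simp_rw [← colp_eq hG hGd ht l1 l2 hd, Finset.mul_sum]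
  rw [Finset.sum_comm]
  refine Finset.sum_congr rfl fun k _ => ?_
  simp_rw [← mul_assoc, ← C_mul]
  rw [← Finset.sum_mul, ← map_sum]
  congr 2
  simp only [rw', map_sum, map_mul, map_intCast, Finset.sum_mul, K.ell, Finset.mul_sum]
  rw [Finset.sum_comm]
  refine Finset.sum_congr rfl fun m _ => Finset.sum_congr rfl fun c _ => ?_
  ring

theorem natDegree_pA (v : Col d → F) : (pA v).natDegree ≤ d := by
  refine natDegree_sum_le_of_forall_le _ _ fun j _ => ?_
  refine (natDegree_C_mul_X_pow_le _ _).trans ?_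
  have := j.2
  omega

theorem natDegree_pB (v : Col d → F) : (pB v).natDegree ≤ d := by
  refine natDegree_sum_le_of_forall_le _ _ fun j _ => ?_
  refine (natDegree_C_mul_X_pow_le _ _).trans ?_
  have := j.2
  omega

theorem natDegree_pZ (hd : 2 ≤ d) (v : Col d → F) (m : Fin 4) : (pZ v m).natDegree + 2 ≤ d := by
  have : (pZ v m).natDegree ≤ d - 2 := by
    refine natDegree_sum_le_of_forall_le _ _ fun j _ => ?_
    refine (natDegree_C_mul_X_pow_le _ _).trans ?_
    have := j.2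
    omega
  omega

theorem coeff_sumC {n : ℕ} (f : Fin n → F) (k : ℕ) :
    (∑ j : Fin n, C (f j) * X ^ (j : ℕ)).coeff k = if h : k < n then f ⟨k, h⟩ else 0 := by
  rw [finsetSum_coeff]
  simp only [coeff_C_mul, coeff_X_pow]
  split_ifs with h
  · rw [Finset.sum_eq_single (⟨k, h⟩ : Fin n)]
    · simp
    · intro b _ hb
      have : k ≠ (b : ℕ) := fun h' => hb (Fin.ext h'.symm)
      simp [this]
    · simp
  · refine Finset.sum_eq_zero fun b _ => ?_
    have : k ≠ (b : ℕ) := by have := b.2; omega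
    simp [this]

theorem sumC_of_natDegree {n : ℕ} (P : F[X]) (hP : P.natDegree < n) :
    ∑ j : Fin n, C (P.coeff j) * X ^ (j : ℕ) = P := by
  ext k
  rw [coeff_sumC (fun j : Fin n => P.coeff j)]
  split_ifs with h
  · rfl
  · rw [coeff_eq_zero_of_natDegree_lt (by omega)]

/-- the vector of coefficients. -/
def vec (d : ℕ) (A B : F[X]) (Z : Fin 4 → F[X]) : Col d → F
  | Sum.inl j => A.coeff j
  | Sum.inr (Sum.inl j) => B.coeff j
  | Sum.inr (Sum.inr (m, i)) => (Z m).coeff i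

theorem pA_vec {A B : F[X]} {Z : Fin 4 → F[X]} (hA : A.natDegree ≤ d) : pA (vec d A B Z) = A :=
  sumC_of_natDegree A (by omega)

theorem pB_vec {A B : F[X]} {Z : Fin 4 → F[X]} (hB : B.natDegree ≤ d) : pB (vec d A B Z) = B :=
  sumC_of_natDegree B (by omega)

theorem pZ_vec (m : Fin 4) {A B : F[X]} {Z : Fin 4 → F[X]} (hZ : (Z m).natDegree + 2 ≤ d) :
    pZ (vec d A B Z) m = Z m :=
  sumC_of_natDegree (Z m) (by omega)

theorem vec_ext {v : Col d → F} (hA : pA v = 0) (hB : pB v = 0) (hZ : ∀ m, pZ v m = 0) : v = 0 := by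
  funext c
  match c with
  | Sum.inl j =>
    have h := congrArg (fun P => P.coeff j) hA
    simp only [pA, coeff_sumC (fun j => v (Sum.inl j)), coeff_zero] at h
    rwa [dif_pos j.2] at h
  | Sum.inr (Sum.inl j) =>
    have h := congrArg (fun P => P.coeff j) hB
    simp only [pB, coeff_sumC (fun j => v (Sum.inr (Sum.inl j))), coeff_zero] at h
    rwa [dif_pos j.2] at h
  | Sum.inr (Sum.inr (m, i)) =>
    have h := congrArg (fun P => P.coeff i) (hZ m)
    simp only [pZ, coeff_sumC (fun i => v (Sum.inr (Sum.inr (m, i)))), coeff_zero] at h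
    rwa [dif_pos i.2] at h

end poly

end Vale.Agent.P018.Q
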