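import Mathlib
import Vale.Agent.P018.Q.Defs

/-! # P018, quartics: auxiliary lemmas on the quartic field `ℚ[x] / (G)`. -/

namespace Vale.Agent.P018.Q

open Polynomial NumberField Module IntermediateField

variable {L : Type} [Field L] [NumberField L]

/-- ring homomorphisms commute with `ell`. -/
theorem map_ell {R S : Type*} [CommRing R] [CommRing S] {F : Type*} [FunLike F R S]
    [RingHomClass F R S] (f : F) {d : ℕ} (θ : R) (y : Fin d → ℤ) :
    f (K.ell θ y) = K.ell (f θ) y := by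
  simp only [K.ell, map_sum, map_mul, map_pow, map_intCast]

theorem ell_lin {R : Type*} [CommRing R] {d : ℕ} (θ : R) (s t : ℤ) (l1 l2 : Fin d → ℤ) :
    K.ell θ (s • l1 + t • l2) = (s : R) * K.ell θ l1 + (t : R) * K.ell θ l2 := by
  simp only [K.ell, Finset.mul_sum, ← Finset.sum_add_distrib]
  refine Finset.sum_congr rfl fun j _ => ?_
  simp only [Pi.add_apply, Pi.smul_apply, smul_eq_mul, Int.cast_add, Int.cast_mul]
  ring

/-- the `θ i` are roots of `G`. -/
theorem eval_theta {G : ℤ[X]} {θ : Fin 4 → 𝓞 L}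
    (hGθ : G.map (algebraMap ℤ (𝓞 L)) = ∏ i, (X - C (θ i))) (i : Fin 4) :
    (G.map (Int.castRingHom ℚ)).eval₂ (algebraMap ℚ L) (θ i : L) = 0 := by
  have h1 : (G.map (algebraMap ℤ (𝓞 L))).eval (θ i) = 0 := by
    rw [hGθ, eval_prod]
    exact Finset.prod_eq_zero (Finset.mem_univ i) (by simp)
  have h2 := congrArg (algebraMap (𝓞 L) L) h1
  rw [map_zero, ← eval₂_at_apply, eval₂_map] at h2
  rw [eval₂_map]
  have h3 : (algebraMap (𝓞 L) L).comp (algebraMap ℤ (𝓞 L)) =
      (algebraMap ℚ L).comp (Int.castRingHom ℚ) := RingHom.ext_int _ _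
  rw [h3] at h2
  exact h2

/-- `F = ℚ(α)` is the quartic field of `G`, with the embeddings `σ i : α ↦ θ i`. -/
structure QF (θ : Fin 4 → 𝓞 L) (F : Type) [Field F] [NumberField F] (α : F)
    (σ : Fin 4 → F →+* L) : Prop where
  fr : finrank ℚ F = 4
  sr : ∀ i, σ i α = (θ i : L)
  li : ∀ y : Fin 4 → ℚ, ∑ j, (y j : F) * α ^ (j : ℕ) = 0 → y = 0
  span : ∀ x : F, ∃ y : Fin 4 → ℚ, x = ∑ j, (y j : F) * α ^ (j : ℕ)

theorem exists_quartic {G : ℤ[X]} (hG : G.Monic) (hGd : G.natDegree = 4)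
    (hGi : Irreducible (G.map (Int.castRingHom ℚ))) {θ : Fin 4 → 𝓞 L}
    (hGθ : G.map (algebraMap ℤ (𝓞 L)) = ∏ i, (X - C (θ i))) :
    ∃ (F : Type) (_ : Field F) (_ : NumberField F) (α : F) (σ : Fin 4 → F →+* L),
      QF θ F α σ := by
  set g : ℚ[X] := G.map (Int.castRingHom ℚ) with hgdef
  have hg : g.natDegree = 4 := by rw [hgdef, hG.natDegree_map, hGd]
  have hfact : Fact (Irreducible g) := ⟨hGi⟩
  have hg0 : g ≠ 0 := hGi.ne_zero
  have hfr : finrank ℚ (AdjoinRoot g) = 4 := by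
    have h : @finrank ℚ (AdjoinRoot g) _ _ (AdjoinRoot.instAlgebra g).toModule = 4 := by
      rw [(AdjoinRoot.powerBasis hg0).finrank, AdjoinRoot.powerBasis_dim, hg]
    exact h
  have hmk : ∀ y : Fin 4 → ℚ, ∑ j, ((y j : ℚ) : AdjoinRoot g) * (AdjoinRoot.root g) ^ (j : ℕ) =
      AdjoinRoot.mk g (∑ j : Fin 4, C (y j) * X ^ (j : ℕ)) := by
    intro y
    rw [map_sum]
    refine Finset.sum_congr rfl fun j _ => ?_
    rw [map_mul, map_pow, AdjoinRoot.mk_X, AdjoinRoot.mk_C]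
    congr 1
  refine ⟨AdjoinRoot g, inferInstance, inferInstance, AdjoinRoot.root g,
    fun i => AdjoinRoot.lift (algebraMap ℚ L) (θ i : L) (eval_theta hGθ i), hfr, ?_, ?_, ?_⟩
  · intro i
    simp
  · intro y hy
    rw [hmk, AdjoinRoot.mk_eq_zero] at hy
    have h2 : (∑ j : Fin 4, C (y j) * X ^ (j : ℕ) : ℚ[X]) = 0 := by
      by_contra hne
      have h3 := natDegree_le_of_dvd hy hne
      have h4 : (∑ j : Fin 4, C (y j) * X ^ (j : ℕ) : ℚ[X]).natDegree ≤ 3 := by
        refine natDegree_sum_le_of_forall_le _ _ fun j _ => ?_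
        refine (natDegree_C_mul_X_pow_le _ _).trans ?_
        omega
      omega
    funext k
    have h3 := congrArg (fun P : ℚ[X] => P.coeff k) h2
    simp only [finsetSum_coeff, coeff_C_mul, coeff_X_pow, coeff_zero] at h3
    rw [Finset.sum_eq_single k] at h3
    · simpa using h3
    · intro b _ hb
      have : (k : ℕ) ≠ b := fun h => hb (Fin.ext h.symm)
      simp [this]
    · simp
  · intro x
    obtain ⟨P, rfl⟩ := AdjoinRoot.mk_surjective x
    have hgm : g.Monic := hG.map _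
    refine ⟨fun j => (P %ₘ g).coeff j, ?_⟩
    rw [hmk]
    have h1 : AdjoinRoot.mk g P = AdjoinRoot.mk g (P %ₘ g) := by
      rw [AdjoinRoot.mk_eq_mk]
      exact ⟨P /ₘ g, by rw [eq_comm, ← sub_eq_iff_eq_add.2 (modByMonic_add_div P g).symm]; ring⟩
    rw [h1]
    congr 1
    have h2 : (P %ₘ g).natDegree < 4 := by
      rw [← hg]; exact natDegree_modByMonic_lt P hgm (by rintro h; rw [h] at hg; simp at hg)
    conv_lhs => rw [as_sum_range_C_mul_X_pow' _ h2]
    rw [Finset.sum_range]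

section
variable {θ : Fin 4 → 𝓞 L} {F : Type} [Field F] [NumberField F] {α : F}
    {σ : Fin 4 → F →+* L}

omit [NumberField L] in
theorem QF.map_ell (h : QF θ F α σ) (i : Fin 4) (y : Fin 4 → ℤ) :
    σ i (K.ell α y) = ((K.ell (θ i) y : 𝓞 L) : L) := by
  rw [Q.map_ell, h.sr]
  exact (Q.map_ell (algebraMap (𝓞 L) L) (θ i) y).symm

omit [NumberField L] in
theorem QF.injective (h : QF θ F α σ) (hθ : Function.Injective θ) : Function.Injective σ := by
  intro i j hij
  apply hθ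
  have h1 := DFunLike.congr_fun hij α
  rw [h.sr, h.sr] at h1
  exact RingOfIntegers.coe_injective h1

/-- the norm is the product over the four embeddings. -/
theorem QF.norm_eq (h : QF θ F α σ) (hθ : Function.Injective θ) (x : F) :
    algebraMap ℚ L (Algebra.norm ℚ x) = ∏ i, σ i x := by
  classical
  apply (algebraMap L (AlgebraicClosure L)).injective
  rw [map_prod, ← IsScalarTower.algebraMap_apply, Algebra.norm_eq_prod_embeddings]
  let τ : Fin 4 → (F →ₐ[ℚ] AlgebraicClosure L) :=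
    fun i => (IsScalarTower.toAlgHom ℚ L (AlgebraicClosure L)).comp ((σ i).toRatAlgHom)
  have hτ : Function.Bijective τ := by
    rw [Fintype.bijective_iff_injective_and_card]
    refine ⟨?_, by rw [AlgHom.card, h.fr]; simp⟩
    intro i j hij
    apply h.injective hθ
    ext y
    have h1 := DFunLike.congr_fun hij y
    exact (algebraMap L (AlgebraicClosure L)).injective h1
  exact (Fintype.prod_bijective τ hτ _ _ (fun i => rfl)).symm

/-- an element on which two embeddings agree has square norm. -/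
theorem QF.norm_sq (h : QF θ F α σ) (hθ : Function.Injective θ)
    {i j : Fin 4} (hij : i ≠ j) {x : F} (hx : σ i x = σ j x) :
    ∃ r : ℚ, Algebra.norm ℚ x = r ^ 2 := by
  rw [Algebra.norm_eq_norm_adjoin]
  have h1 : finrank ℚ ℚ⟮x⟯ * finrank ℚ⟮x⟯ F = 4 := by
    rw [finrank_mul_finrank, h.fr]
  have h2 : finrank ℚ⟮x⟯ F ≠ 1 := by
    intro h1
    have htop : ℚ⟮x⟯ = ⊤ := IntermediateField.finrank_eq_one_iff_eq_top.1 h1
    apply (h.injective hθ).ne hij
    refine RingHom.ext fun y => ?_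
    have hy : y ∈ ℚ⟮x⟯ := by rw [htop]; exact IntermediateField.mem_top
    induction hy using IntermediateField.adjoin_induction with
    | mem z hz => 
      rw [Set.mem_singleton_iff] at hz
      rw [hz]; exact hx
    | algebraMap z => simp
    | add a b _ _ ha hb => rw [map_add, map_add, ha, hb]
    | inv a _ ha => rw [map_inv₀, map_inv₀, ha]
    | mul a b _ _ ha hb => rw [map_mul, map_mul, ha, hb]
  have h3 : finrank ℚ⟮x⟯ F ∣ 4 := Dvd.intro_left _ h1
  have h4 : finrank ℚ⟮x⟯ F ≤ 4 := Nat.le_of_dvd (by norm_num) h3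
  have h5 : finrank ℚ⟮x⟯ F = 2 ∨ finrank ℚ⟮x⟯ F = 4 := by
    generalize finrank ℚ⟮x⟯ F = n at *
    interval_cases n <;> omega
  rcases h5 with h5 | h5
  · rw [h5]; exact ⟨_, rfl⟩
  · rw [h5]
    exact ⟨(Algebra.norm ℚ (AdjoinSimple.gen ℚ x)) ^ 2, pow_mul _ 2 2⟩

omit [NumberField L] in
/-- a nonzero vector gives a nonzero element. -/
theorem QF.ell_ne_zero (h : QF θ F α σ) {l : Fin 4 → ℤ} (hl : l ≠ 0) : K.ell α l ≠ 0 := by
  intro h0
  apply hl
  have h1 := h.li (fun j => (l j : ℚ)) (by simpa [K.ell] using h0)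
  funext k
  have h2 := congrFun h1 k
  simpa using h2

end

theorem arith_contra {p : ℕ} (hp : p.Prime) {c' N1 : ℤ} (hc' : c' ≠ 0) (hc'p : |c'| < p)
    (hN1p : |N1| < p) {r : ℚ} (h : ((p : ℚ) * c') = N1 * r ^ 2) : False := by
  have := Fact.mk hp
  have hp0 : (p : ℚ) ≠ 0 := by exact_mod_cast hp.ne_zero
  have hc0 : (c' : ℚ) ≠ 0 := by exact_mod_cast hc'
  have hlhs : (p : ℚ) * c' ≠ 0 := mul_ne_zero hp0 hc0
  have hN0 : (N1 : ℚ) ≠ 0 := by
    intro h0; rw [h0, zero_mul] at h; exact hlhs h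
  have hr0 : r ≠ 0 := by
    rintro rfl; rw [zero_pow two_ne_zero, mul_zero] at h; exact hlhs h
  have hv : ∀ m : ℤ, (m : ℚ) ≠ 0 → |m| < p → padicValRat p (m : ℚ) = 0 := by
    intro m hm hmp
    rw [padicValRat.of_int]
    have : ¬ (p : ℤ) ∣ m := by
      intro hd
      have := Int.le_of_dvd (abs_pos.2 (by exact_mod_cast hm)) ((dvd_abs _ _).2 hd)
      omega
    rw [padicValInt.eq_zero_of_not_dvd this]
    rfl
  have h1 := congrArg (padicValRat p) h
  rw [padicValRat.mul hp0 hc0, padicValRat.mul hN0 (pow_ne_zero _ hr0), padicValRat.pow,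
    hv _ hc0 hc'p, hv _ hN0 hN1p, padicValRat.self hp.one_lt] at h1
  push_cast at h1
  omega

/-- the cross product relation forces a square norm: the two conclusions of `nonDeg_of_dat`. -/
theorem nonDeg_aux (G : ℤ[X]) (hG : G.Monic) (hGd : G.natDegree = 4)
    (hGi : Irreducible (G.map (Int.castRingHom ℚ))) (θ : Fin 4 → 𝓞 L)
    (hθ : Function.Injective θ) (hGθ : G.map (algebraMap ℤ (𝓞 L)) = ∏ i, (X - C (θ i)))
    {l1 l2 : Fin 4 → ℤ} (hl : ∀ a b : ℤ, a • l1 + b • l2 = 0 → a = 0 ∧ b = 0) {s t c' N1 : ℤ} {p : ℕ}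
    (hp : p.Prime) (hc' : c' ≠ 0) (hc'p : |c'| < p) (hN1 : ∏ j, K.ell (θ j) l1 = (N1 : 𝓞 L))
    (hN1p : |N1| < p)
    (hprod : ∏ j, K.ell (θ j) (s • l1 + t • l2) = (((p : ℤ) * c' : ℤ) : 𝓞 L)) :
    (∀ i j, i ≠ j → K.ell (θ i) l1 * K.ell (θ j) l2 ≠ K.ell (θ j) l1 * K.ell (θ i) l2) ∧
      t ≠ 0 := by
  obtain ⟨F, _, _, α, σ, hF⟩ := exists_quartic hG hGd hGi hGθ
  have hl1 : l1 ≠ 0 := by
    rintro rfl
    have := (hl 1 0 (by simp)).1
    omega
  have hnorm : ∀ y : Fin 4 → ℤ, ∀ n : ℤ, ∏ j, K.ell (θ j) y = (n : 𝓞 L) →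
      Algebra.norm ℚ (K.ell α y) = (n : ℚ) := by
    intro y n hn
    apply (algebraMap ℚ L).injective
    rw [hF.norm_eq hθ]
    simp only [hF.map_ell]
    have h1 := congrArg (algebraMap (𝓞 L) L) hn
    rw [map_prod, map_intCast] at h1
    rw [map_intCast]
    exact h1
  constructor
  · intro i j hij hcross
    have hA0 : K.ell α l1 ≠ 0 := hF.ell_ne_zero hl1
    have hx : σ i (K.ell α (s • l1 + t • l2) / K.ell α l1) =
        σ j (K.ell α (s • l1 + t • l2) / K.ell α l1) := by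
      rw [map_div₀, map_div₀, div_eq_div_iff ((_root_.map_ne_zero _).2 hA0)
        ((_root_.map_ne_zero _).2 hA0), hF.map_ell, hF.map_ell, hF.map_ell, hF.map_ell]
      have h1 : K.ell (θ i) (s • l1 + t • l2) * K.ell (θ j) l1 =
          K.ell (θ j) (s • l1 + t • l2) * K.ell (θ i) l1 := by
        rw [ell_lin, ell_lin]
        linear_combination (-(t : 𝓞 L)) * hcross
      exact_mod_cast congrArg (algebraMap (𝓞 L) L) h1
    obtain ⟨r, hr⟩ := hF.norm_sq hθ hij hx
    have h2 : Algebra.norm ℚ (K.ell α (s • l1 + t • l2)) = r ^ 2 * N1 := by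
      rw [← hr, ← hnorm _ _ hN1, ← map_mul, div_mul_cancel₀ _ hA0]
    rw [hnorm _ _ hprod] at h2
    push_cast at h2
    exact arith_contra hp hc' hc'p hN1p (r := r) (by rw [h2, mul_comm])
  · rintro rfl
    have h1 : (((p : ℤ) * c' : ℤ) : 𝓞 L) = ((s ^ 4 * N1 : ℤ) : 𝓞 L) := by
      rw [← hprod]
      push_cast
      rw [← hN1, ← Fin.prod_const 4 (s : 𝓞 L), ← Finset.prod_mul_distrib]
      refine Finset.prod_congr rfl fun j _ => ?_
      rw [ell_lin, Int.cast_zero, zero_mul, add_zero]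
    have h2 : (p : ℤ) * c' = s ^ 4 * N1 := by exact_mod_cast h1
    refine arith_contra hp hc' hc'p hN1p (r := (s : ℚ) ^ 2) ?_
    have h3 : ((p : ℚ) * c') = (s : ℚ) ^ 4 * N1 := by exact_mod_cast h2
    rw [h3]; ring

end Vale.Agent.P018.Q
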