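import Mathlib
import Vale.Agent.P018.Q.KapA
import Vale.Agent.P018.Q.KappaND

/-! # P018, quartics: rational solutions of the system of the kappa model. -/

namespace Vale.Agent.P018.Q

open Polynomial NumberField Module

set_option linter.unusedSectionVars false

section

variable {L : Type} [Field L] [NumberField L] {θ : Fin 4 → 𝓞 L} {F : Type} [Field F]
  [NumberField F] {α : F} {σ : Fin 4 → F →+* L} {l1 l2 : Fin 4 → ℤ}

/-- `π` over the quartic field. -/
noncomputable def PF (α : F) (l1 l2 : Fin 4 → ℤ) : F[X] := C (K.ell α l1) * X + C (K.ell α l2)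

/-- the pairs `(A, B)` with `π² ∣ α A - B`. -/
def DD (α : F) (l1 l2 : Fin 4 → ℤ) (A B : ℚ[X]) : Prop :=
  PF α l1 l2 ^ 2 ∣ C α * A.map (algebraMap ℚ F) - B.map (algebraMap ℚ F)

theorem PF_natDegree (h : QF θ F α σ) (hl1 : l1 ≠ 0) : (PF α l1 l2).natDegree = 1 :=
  natDegree_linear (h.ell_ne_zero hl1)

theorem PF_ne_zero (h : QF θ F α σ) (hl1 : l1 ≠ 0) : PF α l1 l2 ≠ 0 := by
  intro h0
  have := PF_natDegree (l2 := l2) h hl1
  rw [h0] at this
  simp at this

theorem PF_irreducible (h : QF θ F α σ) (hl1 : l1 ≠ 0) : Irreducible (PF α l1 l2) :=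
  irreducible_of_degree_eq_one (by
    rw [degree_eq_natDegree (PF_ne_zero h hl1), PF_natDegree h hl1]; rfl)

/-- `π_j` over `L`. -/
noncomputable def PL (θ : Fin 4 → 𝓞 L) (l1 l2 : Fin 4 → ℤ) (j : Fin 4) : L[X] :=
  (piPoly θ l1 l2 j).map (algebraMap (𝓞 L) L)

theorem PL_eq (j : Fin 4) : PL θ l1 l2 j =
    C ((K.ell (θ j) l1 : 𝓞 L) : L) * X + C ((K.ell (θ j) l2 : 𝓞 L) : L) := by
  unfold PL piPoly
  rw [Polynomial.map_add, Polynomial.map_mul, map_C, map_C, map_X]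

theorem PF_map (h : QF θ F α σ) (j : Fin 4) : (PF α l1 l2).map (σ j) = PL θ l1 l2 j := by
  rw [PL_eq, PF, Polynomial.map_add, Polynomial.map_mul, map_C, map_C, map_X, h.map_ell,
    h.map_ell]

theorem ellj_ne_zero (h : QF θ F α σ) (hl1 : l1 ≠ 0) (j : Fin 4) :
    ((K.ell (θ j) l1 : 𝓞 L) : L) ≠ 0 := by
  rw [← h.map_ell]
  exact (_root_.map_ne_zero _).2 (h.ell_ne_zero hl1)

theorem PL_natDegree (h : QF θ F α σ) (hl1 : l1 ≠ 0) (j : Fin 4) :
    (PL θ l1 l2 j).natDegree = 1 := by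
  rw [PL_eq]
  exact natDegree_linear (ellj_ne_zero h hl1 j)

theorem PL_ne_zero (h : QF θ F α σ) (hl1 : l1 ≠ 0) (j : Fin 4) : PL θ l1 l2 j ≠ 0 := by
  intro h0
  have := PL_natDegree (l2 := l2) h hl1 j
  rw [h0] at this
  simp at this

theorem PL_coprime (hnd : NonDeg θ l1 l2) {i j : Fin 4} (hij : i ≠ j) :
    IsCoprime (PL θ l1 l2 i) (PL θ l1 l2 j) := by
  rw [PL_eq, PL_eq]
  set a : L := ((K.ell (θ i) l1 : 𝓞 L) : L)
  set b : L := ((K.ell (θ i) l2 : 𝓞 L) : L)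
  set a' : L := ((K.ell (θ j) l1 : 𝓞 L) : L)
  set b' : L := ((K.ell (θ j) l2 : 𝓞 L) : L)
  have h1 : a * b' - a' * b ≠ 0 := by
    intro h0
    apply hnd i j hij
    rw [sub_eq_zero] at h0
    apply RingOfIntegers.coe_injective
    show algebraMap (𝓞 L) L _ = algebraMap (𝓞 L) L _
    rw [map_mul, map_mul]
    exact h0
  refine ⟨C (-(a * b' - a' * b)⁻¹ * a'), C ((a * b' - a' * b)⁻¹ * a), ?_⟩
  have h2 : C (-(a * b' - a' * b)⁻¹ * a') * (C a * X + C b) +
      C ((a * b' - a' * b)⁻¹ * a) * (C a' * X + C b') =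
      C ((a * b' - a' * b)⁻¹ * (a * b' - a' * b)) := by
    simp only [map_mul, map_sub, map_neg]
    ring
  rw [h2, inv_mul_cancel₀ h1, C_1]

theorem map_map_eq (j : Fin 4) (g : ℚ[X]) :
    (g.map (algebraMap ℚ F)).map (σ j) = g.map (algebraMap ℚ L) := by
  rw [Polynomial.map_map]
  congr 1
  exact Subsingleton.elim _ _

theorem prod_dvd (h : QF θ F α σ) (hnd : NonDeg θ l1 l2) {g : ℚ[X]} {k : ℕ}
    (hg : PF α l1 l2 ^ k ∣ g.map (algebraMap ℚ F)) :
    (∏ j, PL θ l1 l2 j) ^ k ∣ g.map (algebraMap ℚ L) := by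
  rw [← Finset.prod_pow]
  refine Fintype.prod_dvd_of_coprime ?_ ?_
  · intro i j hij
    exact (PL_coprime hnd hij).pow
  · intro j
    have h1 := Polynomial.map_dvd (σ j) hg
    rwa [Polynomial.map_pow, PF_map h, map_map_eq] at h1

theorem prod_natDegree (h : QF θ F α σ) (hl1 : l1 ≠ 0) :
    (∏ j, PL θ l1 l2 j).natDegree = 4 := by
  rw [natDegree_prod _ _ fun j _ => PL_ne_zero h hl1 j]
  simp [PL_natDegree h hl1]

theorem four_le (h : QF θ F α σ) (hl1 : l1 ≠ 0) (hnd : NonDeg θ l1 l2) {g : ℚ[X]} (hg0 : g ≠ 0)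
    {k : ℕ} (hg : PF α l1 l2 ^ k ∣ g.map (algebraMap ℚ F)) : k * 4 ≤ g.natDegree := by
  have h1 := natDegree_le_of_dvd (prod_dvd h hnd hg)
    ((Polynomial.map_ne_zero_iff (algebraMap ℚ L).injective).2 hg0)
  rwa [natDegree_pow, prod_natDegree h hl1, natDegree_map] at h1

/-- `A B' - A' B` is divisible by `π²`. -/
theorem W_dvd {A B A' B' : ℚ[X]} (h1 : DD α l1 l2 A B) (h2 : DD α l1 l2 A' B') :
    PF α l1 l2 ^ 2 ∣ (A * B' - A' * B).map (algebraMap ℚ F) := by
  obtain ⟨q, hq⟩ := h1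
  obtain ⟨q', hq'⟩ := h2
  refine ⟨A'.map (algebraMap ℚ F) * q - A.map (algebraMap ℚ F) * q', ?_⟩
  rw [Polynomial.map_sub, Polynomial.map_mul, Polynomial.map_mul]
  linear_combination (A'.map (algebraMap ℚ F)) * hq - (A.map (algebraMap ℚ F)) * hq'

theorem quot_of_coprime {a b A B : ℚ[X]} (hab : IsCoprime a b) (h : a * B = A * b) :
    ∃ g, A = g * a ∧ B = g * b := by
  obtain ⟨u, w, huw⟩ := hab
  refine ⟨u * A + w * B, ?_, ?_⟩
  · linear_combination (-A) * huw - w * h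
  · linear_combination (-B) * huw + u * h

theorem exists_gcd' {A B : ℚ[X]} (h : A ≠ 0 ∨ B ≠ 0) :
    ∃ g a b, g ≠ 0 ∧ A = g * a ∧ B = g * b ∧ IsCoprime a b := by
  have hg0 : EuclideanDomain.gcd A B ≠ 0 := by
    rw [Ne, EuclideanDomain.gcd_eq_zero_iff]
    tauto
  obtain ⟨a, ha⟩ := EuclideanDomain.gcd_dvd_left A B
  obtain ⟨b, hb⟩ := EuclideanDomain.gcd_dvd_right A B
  refine ⟨EuclideanDomain.gcd A B, a, b, hg0, ha, hb, EuclideanDomain.gcdA A B,
    EuclideanDomain.gcdB A B, ?_⟩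
  apply mul_left_cancel₀ hg0
  have h1 := EuclideanDomain.gcd_eq_gcd_ab A B
  linear_combination (-1) * h1 - (EuclideanDomain.gcdA A B) * ha -
    (EuclideanDomain.gcdB A B) * hb

/-- reduction to a coprime pair; a nonzero solution has no small coprime part. -/
theorem primitive (h : QF θ F α σ) (hl1 : l1 ≠ 0) (hnd : NonDeg θ l1 l2) {A B : ℚ[X]}
    (hAB : A ≠ 0 ∨ B ≠ 0) (hA : A.natDegree ≤ 4) (hB : B.natDegree ≤ 4) (hD : DD α l1 l2 A B) :
    ∃ a b, IsCoprime a b ∧ DD α l1 l2 a b ∧ a * B = A * b ∧ a.natDegree ≤ 4 ∧ b.natDegree ≤ 4 ∧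
      (3 ≤ a.natDegree ∨ 3 ≤ b.natDegree) := by
  obtain ⟨g, a, b, hg0, rfl, rfl, hab⟩ := exists_gcd' hAB
  have hda : a ≠ 0 → g.natDegree + a.natDegree ≤ 4 := fun ha => by
    rwa [natDegree_mul hg0 ha] at hA
  have hdb : b ≠ 0 → g.natDegree + b.natDegree ≤ 4 := fun hb => by
    rwa [natDegree_mul hg0 hb] at hB
  have ha4 : a.natDegree ≤ 4 := by
    by_cases ha : a = 0
    · simp [ha]
    · have := hda ha; omega
  have hb4 : b.natDegree ≤ 4 := by
    by_cases hb : b = 0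
    · simp [hb]
    · have := hdb hb; omega
  have hg4 : g.natDegree ≤ 4 := by
    by_cases ha : a = 0
    · by_cases hb : b = 0
      · rw [ha, hb] at hAB; simp at hAB
      · have := hdb hb; omega
    · have := hda ha; omega
  have hfac : C α * (g * a).map (algebraMap ℚ F) - (g * b).map (algebraMap ℚ F) =
      g.map (algebraMap ℚ F) * (C α * a.map (algebraMap ℚ F) - b.map (algebraMap ℚ F)) := by
    rw [Polynomial.map_mul, Polynomial.map_mul]; ring
  unfold DD at hD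
  rw [hfac] at hD
  -- not both constant
  have hnc : a.natDegree ≠ 0 ∨ b.natDegree ≠ 0 := by
    by_contra hcon
    push Not at hcon
    obtain ⟨a0, rfl⟩ := natDegree_eq_zero.1 hcon.1
    obtain ⟨b0, rfl⟩ := natDegree_eq_zero.1 hcon.2
    have h1 : C α * (C a0).map (algebraMap ℚ F) - (C b0).map (algebraMap ℚ F) =
        C (α * (a0 : F) - (b0 : F)) := by
      rw [map_C, map_C, ← C_mul, ← C_sub]
      simp
    have h2 : α * (a0 : F) - (b0 : F) ≠ 0 := by
      intro h0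
      have h3 := h.li ![-b0, a0, 0, 0] (by
        rw [Fin.sum_univ_four]
        simp
        linear_combination h0)
      have h4 := congrFun h3 0
      have h5 := congrFun h3 1
      simp at h4 h5
      rw [h4, h5] at hAB
      simp at hAB
    rw [h1] at hD
    have h3 : PF α l1 l2 ^ 2 ∣ g.map (algebraMap ℚ F) := by
      obtain ⟨q, hq⟩ := hD
      refine ⟨q * C (α * (a0 : F) - (b0 : F))⁻¹, ?_⟩
      rw [← mul_assoc, ← hq, mul_assoc, ← C_mul, mul_inv_cancel₀ h2, C_1, mul_one]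
    have h4 := four_le h hl1 hnd hg0 h3
    omega
  have hg3 : g.natDegree ≤ 3 := by
    rcases hnc with hnc | hnc
    · have := hda (by rintro rfl; simp at hnc)
      omega
    · have := hdb (by rintro rfl; simp at hnc)
      omega
  have hcop : IsCoprime (PF α l1 l2 ^ 2) (g.map (algebraMap ℚ F)) := by
    refine IsCoprime.pow_left ?_
    rw [(PF_irreducible h hl1).coprime_iff_not_dvd]
    intro hdvd
    have := four_le h hl1 hnd hg0 (k := 1) (by rwa [pow_one])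
    omega
  have hDab : DD α l1 l2 a b := hcop.dvd_of_dvd_mul_left hD
  refine ⟨a, b, hab, hDab, by ring, ha4, hb4, ?_⟩
  by_contra hcon
  push Not at hcon
  have hw : wronskian a b = 0 := by
    by_contra hw
    have h1 := natDegree_wronskian_lt_add hw
    have h2 : PF α l1 l2 ^ 1 ∣ (wronskian a b).map (algebraMap ℚ F) := by
      obtain ⟨q, hq⟩ := hDab
      have hq' := congrArg derivative hq
      rw [derivative_sub, derivative_C_mul, derivative_map, derivative_map, derivative_mul,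
        derivative_pow] at hq'
      refine ⟨(derivative a).map (algebraMap ℚ F) * (PF α l1 l2 * q) - a.map (algebraMap ℚ F) *
        (2 * derivative (PF α l1 l2) * q + PF α l1 l2 * derivative q), ?_⟩
      rw [wronskian, Polynomial.map_sub, Polynomial.map_mul, Polynomial.map_mul]
      simp only [Nat.cast_ofNat, map_ofNat, Nat.add_one_sub_one, pow_one] at hq'
      linear_combination ((derivative a).map (algebraMap ℚ F)) * hq -
        (a.map (algebraMap ℚ F)) * hq'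
    have h3 := four_le h hl1 hnd hw h2
    omega
  rw [hab.wronskian_eq_zero_iff] at hw
  have h1 := derivative_eq_zero.1 hw.1
  have h2 := derivative_eq_zero.1 hw.2
  tauto

/-! ### vectors and solutions -/

theorem aeval_alpha (h : QF θ F α σ) {G : ℤ[X]}
    (hGθ : G.map (algebraMap ℤ (𝓞 L)) = ∏ i, (X - C (θ i))) : aeval α G = 0 := by
  apply (σ 0).injective
  rw [map_zero]
  have h1 := eval_theta hGθ 0
  rw [eval₂_map] at h1
  rw [aeval_def, hom_eval₂, h.sr]
  have h3 : (σ 0).comp (algebraMap ℤ F) = (algebraMap ℚ L).comp (Int.castRingHom ℚ) :=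
    RingHom.ext_int _ _
  rw [h3]
  exact h1

variable {G : ℤ[X]} {d : ℕ}

theorem DD_of_ker (h : QF θ F α σ) (hG : G.Monic) (hGd : G.natDegree = 4)
    (hGθ : G.map (algebraMap ℤ (𝓞 L)) = ∏ i, (X - C (θ i))) (hd : 2 ≤ d) {v : Col d → ℚ}
    (hv : ∀ r, rw' G l1 l2 v r = 0) : DD α l1 l2 (pA v) (pB v) := by
  have h1 := key_eq (F := ℚ) hG hGd (aeval_alpha h hGθ) l1 l2 hd v
  simp only [hv, map_zero, zero_mul, Finset.sum_const_zero] at h1
  refine ⟨-∑ m : Fin 4, (pZ v m).map (algebraMap ℚ F) * C (α ^ (m : ℕ)), ?_⟩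
  unfold PF
  linear_combination h1

/-- a combination of powers of `α` with rational polynomial coefficients. -/
theorem comb_zero (h : QF θ F α σ) {Z : Fin 4 → ℚ[X]}
    (hZ : ∑ m : Fin 4, (Z m).map (algebraMap ℚ F) * C (α ^ (m : ℕ)) = 0) (m : Fin 4) :
    Z m = 0 := by
  ext k
  have h1 := congrArg (fun P : F[X] => P.coeff k) hZ
  simp only [finsetSum_coeff, coeff_mul_C, coeff_map, coeff_zero] at h1
  have h2 := h.li (fun m => (Z m).coeff k) (by simpa using h1)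
  exact congrFun h2 m

theorem eq_zero_of_ker (h : QF θ F α σ) (hG : G.Monic) (hGd : G.natDegree = 4)
    (hGθ : G.map (algebraMap ℤ (𝓞 L)) = ∏ i, (X - C (θ i))) (hd : 2 ≤ d) (hl1 : l1 ≠ 0)
    {v : Col d → ℚ} (hv : ∀ r, rw' G l1 l2 v r = 0) (hA : pA v = 0) (hB : pB v = 0) : v = 0 := by
  have h1 := key_eq (F := ℚ) hG hGd (aeval_alpha h hGθ) l1 l2 hd v
  simp only [hv, map_zero, zero_mul, Finset.sum_const_zero, hA, hB, Polynomial.map_zero, mul_zero,
    sub_zero, zero_add] at h1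
  have h2 : PF α l1 l2 ^ 2 ≠ 0 := pow_ne_zero _ (PF_ne_zero h hl1)
  have h3 := (mul_eq_zero.1 h1).resolve_left h2
  exact vec_ext hA hB (comb_zero h h3)

theorem ker_of_DD (h : QF θ F α σ) (hG : G.Monic) (hGd : G.natDegree = 4)
    (hGθ : G.map (algebraMap ℤ (𝓞 L)) = ∏ i, (X - C (θ i))) (hd : 2 ≤ d) (hl1 : l1 ≠ 0)
    {A B : ℚ[X]} (hA : A.natDegree ≤ d) (hB : B.natDegree ≤ d) (hD : DD α l1 l2 A B) :
    ∃ v : Col d → ℚ, (∀ r, rw' G l1 l2 v r = 0) ∧ pA v = A ∧ pB v = B := by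
  obtain ⟨q, hq⟩ := hD
  choose y hy using fun k : ℕ => h.span (q.coeff k)
  have hqd : q = 0 ∨ q.natDegree + 2 ≤ d := by
    by_cases hq0 : q = 0
    · exact Or.inl hq0
    · right
      have h1 : (PF α l1 l2 ^ 2 * q).natDegree = 2 + q.natDegree := by
        rw [natDegree_mul (pow_ne_zero _ (PF_ne_zero h hl1)) hq0, natDegree_pow,
          PF_natDegree h hl1]
      have h2 : (C α * A.map (algebraMap ℚ F) - B.map (algebraMap ℚ F)).natDegree ≤ d := by
        refine (natDegree_sub_le _ _).trans (max_le ?_ ?_)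
        · refine (natDegree_C_mul_le _ _).trans ?_
          rwa [natDegree_map]
        · rwa [natDegree_map]
      rw [hq, h1] at h2
      omega
  let v : Col d → ℚ := fun c => match c with
    | Sum.inl j => A.coeff j
    | Sum.inr (Sum.inl j) => B.coeff j
    | Sum.inr (Sum.inr (m, i)) => -y i m
  have hvA : pA v = A := sumC_of_natDegree A (by omega)
  have hvB : pB v = B := sumC_of_natDegree B (by omega)
  refine ⟨v, ?_, hvA, hvB⟩
  have hZ : ∑ m : Fin 4, (pZ v m).map (algebraMap ℚ F) * C (α ^ (m : ℕ)) = -q := by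
    ext k
    simp only [finsetSum_coeff, coeff_mul_C, coeff_map, coeff_neg, pZ,
      coeff_sumC (fun i => v (Sum.inr (Sum.inr (_, i))))]
    by_cases hk : k < d - 1
    · simp only [dif_pos hk, v]
      conv_rhs => rw [hy k]
      rw [← Finset.sum_neg_distrib]
      refine Finset.sum_congr rfl fun m _ => ?_
      simp
    · simp only [dif_neg hk, map_zero, zero_mul, Finset.sum_const_zero]
      have : q.coeff k = 0 := by
        rcases hqd with hq0 | hqd
        · rw [hq0, coeff_zero]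
        · exact coeff_eq_zero_of_natDegree_lt (by omega)
      rw [this, neg_zero]
  have h1 := key_eq (F := ℚ) hG hGd (aeval_alpha h hGθ) l1 l2 hd v
  rw [hvA, hvB, hZ, hq] at h1
  have h2 : ∑ k : Fin (d + 1), C (∑ m : Fin 4, algebraMap ℚ F (rw' G l1 l2 v (m, k)) *
      α ^ (m : ℕ)) * X ^ (k : ℕ) = 0 := by
    rw [← h1]
    unfold PF
    ring
  rintro ⟨m, k⟩
  have h3 := congrArg (fun P : F[X] => P.coeff k) h2
  simp only [coeff_sumC (fun k => ∑ m : Fin 4, algebraMap ℚ F (rw' G l1 l2 v (m, k)) *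
      α ^ (m : ℕ)), coeff_zero] at h3
  rw [dif_pos k.2] at h3
  have h4 := h.li (fun m => rw' G l1 l2 v (m, k)) (by simpa using h3)
  exact congrFun h4 m

/-- the system as a linear map, with additional functionals. -/
noncomputable def sysL (G : ℤ[X]) (l1 l2 : Fin 4 → ℤ) (d r : ℕ)
    (φ : Fin r → ((Col d → ℚ) →ₗ[ℚ] ℚ)) : (Col d → ℚ) →ₗ[ℚ] (Row d ⊕ Fin r → ℚ) :=
  LinearMap.pi fun x => match x with
    | Sum.inl r => ∑ c, (Mx G l1 l2 d r c : ℚ) • LinearMap.proj c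
    | Sum.inr i => φ i

theorem exists_ker (G : ℤ[X]) (l1 l2 : Fin 4 → ℤ) (d r : ℕ)
    (φ : Fin r → ((Col d → ℚ) →ₗ[ℚ] ℚ)) (hd : 4 * (d + 1) + r < 2 * (d + 1) + 4 * (d - 1)) :
    ∃ v : Col d → ℚ, v ≠ 0 ∧ (∀ r, rw' G l1 l2 v r = 0) ∧ ∀ i, φ i v = 0 := by
  have h1 : LinearMap.ker (sysL G l1 l2 d r φ) ≠ ⊥ := by
    apply LinearMap.ker_ne_bot_of_finrank_lt
    rw [finrank_fintype_fun_eq_card, finrank_fintype_fun_eq_card]
    simp
    omega
  obtain ⟨v, hv, hv0⟩ := (Submodule.ne_bot_iff _).1 h1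
  rw [LinearMap.mem_ker] at hv
  refine ⟨v, hv0, fun r => ?_, fun i => ?_⟩
  · have := congrFun hv (Sum.inl r)
    simpa [sysL, rw'] using this
  · have := congrFun hv (Sum.inr i)
    simpa [sysL] using this

theorem coeff_pA (v : Col d → ℚ) (k : Fin (d + 1)) : (pA v).coeff k = v (Sum.inl k) := by
  unfold pA
  rw [coeff_sumC (fun j => v (Sum.inl j)), dif_pos k.2]

theorem coeff_pB (v : Col d → ℚ) (k : Fin (d + 1)) : (pB v).coeff k = v (Sum.inr (Sum.inl k)) := by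
  unfold pB
  rw [coeff_sumC (fun j => v (Sum.inr (Sum.inl j))), dif_pos k.2]

theorem kill_A (h : QF θ F α σ) (hG : G.Monic) (hGd : G.natDegree = 4)
    (hGθ : G.map (algebraMap ℤ (𝓞 L)) = ∏ i, (X - C (θ i))) (hd : 2 ≤ d) (hl1 : l1 ≠ 0)
    {a b : ℚ[X]} (hab : IsCoprime a b) (ha : 3 ≤ a.natDegree) {v : Col d → ℚ}
    (hv : ∀ r, rw' G l1 l2 v r = 0)
    (hk : ∀ k : Fin (d + 1), a.natDegree ≤ k → v (Sum.inl k) = 0)
    (heq : a * pB v = pA v * b) : v = 0 := by
  obtain ⟨g, hgA, hgB⟩ := quot_of_coprime hab heq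
  have ha0 : a ≠ 0 := by rintro rfl; simp at ha
  have hg : g = 0 := by
    by_contra hg0
    have h1 : (pA v).natDegree = g.natDegree + a.natDegree := by
      rw [hgA, natDegree_mul hg0 ha0]
    have h2 : pA v ≠ 0 := by rw [hgA]; exact mul_ne_zero hg0 ha0
    have h3 := natDegree_pA v
    have h4 := coeff_pA v ⟨(pA v).natDegree, by omega⟩
    rw [hk _ (by simp; omega)] at h4
    exact h2 (leadingCoeff_eq_zero.1 h4)
  rw [hg, zero_mul] at hgA hgB
  exact eq_zero_of_ker h hG hGd hGθ hd hl1 hv hgA hgB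

theorem kill_B (h : QF θ F α σ) (hG : G.Monic) (hGd : G.natDegree = 4)
    (hGθ : G.map (algebraMap ℤ (𝓞 L)) = ∏ i, (X - C (θ i))) (hd : 2 ≤ d) (hl1 : l1 ≠ 0)
    {a b : ℚ[X]} (hab : IsCoprime a b) (hb : 3 ≤ b.natDegree) {v : Col d → ℚ}
    (hv : ∀ r, rw' G l1 l2 v r = 0)
    (hk : ∀ k : Fin (d + 1), b.natDegree ≤ k → v (Sum.inr (Sum.inl k)) = 0)
    (heq : a * pB v = pA v * b) : v = 0 := by
  obtain ⟨g, hgA, hgB⟩ := quot_of_coprime hab heq
  have hb0 : b ≠ 0 := by rintro rfl; simp at hb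
  have hg : g = 0 := by
    by_contra hg0
    have h1 : (pB v).natDegree = g.natDegree + b.natDegree := by
      rw [hgB, natDegree_mul hg0 hb0]
    have h2 : pB v ≠ 0 := by rw [hgB]; exact mul_ne_zero hg0 hb0
    have h3 := natDegree_pB v
    have h4 := coeff_pB v ⟨(pB v).natDegree, by omega⟩
    rw [hk _ (by simp; omega)] at h4
    exact h2 (leadingCoeff_eq_zero.1 h4)
  rw [hg, zero_mul] at hgA hgB
  exact eq_zero_of_ker h hG hGd hGθ hd hl1 hv hgA hgB

/-- two independent solutions of total degree eight. -/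
theorem exists_rat (h : QF θ F α σ) (hG : G.Monic) (hGd : G.natDegree = 4)
    (hGθ : G.map (algebraMap ℤ (𝓞 L)) = ∏ i, (X - C (θ i))) (hl1 : l1 ≠ 0)
    (hnd : NonDeg θ l1 l2) :
    ∃ d0 d1 : ℕ, ((d0 = 4 ∧ d1 = 4) ∨ (d0 = 3 ∧ d1 = 5)) ∧
      ∃ (v0 : Col d0 → ℚ) (v1 : Col d1 → ℚ), (∀ r, rw' G l1 l2 v0 r = 0) ∧
        (∀ r, rw' G l1 l2 v1 r = 0) ∧ pA v0 * pB v1 - pA v1 * pB v0 ≠ 0 := by
  obtain ⟨v, hv0, hv, -⟩ := exists_ker G l1 l2 4 0 (fun _ => 0) (by norm_num)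
  have hAB : pA v ≠ 0 ∨ pB v ≠ 0 := by
    by_contra hcon
    push Not at hcon
    exact hv0 (eq_zero_of_ker h hG hGd hGθ (by norm_num) hl1 hv hcon.1 hcon.2)
  obtain ⟨a, b, hab, hD, heq, ha4, hb4, h3⟩ := primitive h hl1 hnd hAB (natDegree_pA v)
    (natDegree_pB v) (DD_of_ker h hG hGd hGθ (by norm_num) hv)
  by_cases h4 : a.natDegree = 4 ∨ b.natDegree = 4
  · refine ⟨4, 4, Or.inl ⟨rfl, rfl⟩, ?_⟩
    obtain ⟨g, hgA, hgB⟩ := quot_of_coprime hab heq
    have hg0 : g ≠ 0 := by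
      rintro rfl
      rw [zero_mul] at hgA hgB
      tauto
    have key : ∀ v2 : Col 4 → ℚ, a * pB v2 ≠ pA v2 * b →
        pA v * pB v2 - pA v2 * pB v ≠ 0 := by
      intro v2 h2 h0
      apply h2
      apply mul_left_cancel₀ hg0
      rw [hgA, hgB] at h0
      linear_combination h0
    rcases h4 with h4 | h4
    · obtain ⟨v2, hv20, hv2, hφ⟩ := exists_ker G l1 l2 4 1
        (fun _ => LinearMap.proj (Sum.inl (4 : Fin 5))) (by norm_num)
      refine ⟨v, v2, hv, hv2, key v2 fun h5 => hv20 ?_⟩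
      refine kill_A h hG hGd hGθ (by norm_num) hl1 hab (by omega) hv2 (fun k hk => ?_) h5
      have hk4 : k = (4 : Fin 5) := by
        apply Fin.ext
        have := k.2
        show (k : ℕ) = 4
        omega
      rw [hk4]
      exact hφ 0
    · obtain ⟨v2, hv20, hv2, hφ⟩ := exists_ker G l1 l2 4 1
        (fun _ => LinearMap.proj (Sum.inr (Sum.inl (4 : Fin 5)))) (by norm_num)
      refine ⟨v, v2, hv, hv2, key v2 fun h5 => hv20 ?_⟩
      refine kill_B h hG hGd hGθ (by norm_num) hl1 hab (by omega) hv2 (fun k hk => ?_) h5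
      have hk4 : k = (4 : Fin 5) := by
        apply Fin.ext
        have := k.2
        show (k : ℕ) = 4
        omega
      rw [hk4]
      exact hφ 0
  · refine ⟨3, 5, Or.inr ⟨rfl, rfl⟩, ?_⟩
    push Not at h4
    obtain ⟨v0, hv0, hvA, hvB⟩ := ker_of_DD (d := 3) h hG hGd hGθ (by norm_num) hl1
      (A := a) (B := b) (by omega) (by omega) hD
    have hk5 : ∀ k : Fin 6, 3 ≤ (k : ℕ) → ∃ i : Fin 3, k = ⟨3 + i, by omega⟩ := by
      intro k hk
      refine ⟨⟨(k : ℕ) - 3, by omega⟩, ?_⟩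
      apply Fin.ext
      simp
      omega
    rcases h3 with h3 | h3
    · obtain ⟨v2, hv20, hv2, hφ⟩ := exists_ker G l1 l2 5 3
        (fun i => LinearMap.proj (Sum.inl (⟨3 + i, by omega⟩ : Fin 6))) (by norm_num)
      refine ⟨v0, v2, hv0, hv2, fun h0 => hv20 ?_⟩
      rw [hvA, hvB, sub_eq_zero] at h0
      refine kill_A h hG hGd hGθ (by norm_num) hl1 hab (by omega) hv2 (fun k hk => ?_) h0
      obtain ⟨i, rfl⟩ := hk5 k (by omega)
      exact hφ i
    · obtain ⟨v2, hv20, hv2, hφ⟩ := exists_ker G l1 l2 5 3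
        (fun i => LinearMap.proj (Sum.inr (Sum.inl (⟨3 + i, by omega⟩ : Fin 6)))) (by norm_num)
      refine ⟨v0, v2, hv0, hv2, fun h0 => hv20 ?_⟩
      rw [hvA, hvB, sub_eq_zero] at h0
      refine kill_B h hG hGd hGθ (by norm_num) hl1 hab (by omega) hv2 (fun k hk => ?_) h0
      obtain ⟨i, rfl⟩ := hk5 k (by omega)
      exact hφ i

end

end Vale.Agent.P018.Q
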