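import Mathlib

/-! # P018, quartics: the kernel of an integer matrix is spanned by integer vectors with bounded
entries. -/

namespace Vale.Agent.P018.Q

open Matrix

theorem adjugate_bound {J : Type*} [Fintype J] [DecidableEq J] (A : Matrix J J ℤ) {h : ℤ}
    (hh : 1 ≤ h) (hA : ∀ i j, |A i j| ≤ h) (i j : J) :
    |A.adjugate i j| ≤ (Fintype.card J).factorial * h ^ (Fintype.card J) := by
  rw [Matrix.adjugate_apply]
  have h1 := Matrix.det_le (A := A.updateRow j (Pi.single i 1)) (abv := AbsoluteValue.abs)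
    (x := h) ?_
  · simpa [nsmul_eq_mul] using h1
  · intro a b
    rw [AbsoluteValue.abs_apply, Matrix.updateRow_apply]
    split_ifs with hab
    · by_cases hb : b = i
      · subst hb; simpa using hh
      · rw [Pi.single_eq_of_ne hb]; simp; omega
    · exact hA a b

/-- the kernel of an integer matrix is spanned by integer vectors with bounded entries. -/
theorem ker_span {I J : Type*} [Fintype I] [Fintype J] [DecidableEq J] (M : Matrix I J ℤ) {h : ℤ}
    (hh : 1 ≤ h) (hM : ∀ i j, |M i j| ≤ h) (w : J → ℚ)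
    (hw : (M.map (Int.cast : ℤ → ℚ)).mulVec w = 0) :
    w ∈ Submodule.span ℚ {v : J → ℚ | ∃ u : J → ℤ, (v = fun j => (u j : ℚ)) ∧ M.mulVec u = 0 ∧
      ∀ j, |u j| ≤ (Fintype.card J).factorial * h ^ (Fintype.card J)} := by
  classical
  let V : I ⊕ J → (J → ℤ) := Sum.elim M (fun j => Pi.single j 1)
  let v : I ⊕ J → (J → ℚ) := fun x j => (V x j : ℚ)
  have hVb : ∀ x j, |V x j| ≤ h := by
    rintro (i | k) j
    · exact hM i j
    · show |(Pi.single k 1 : J → ℤ) j| ≤ h
      by_cases hb : j = k
      · subst hb; simpa using hh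
      · rw [Pi.single_eq_of_ne hb]; simp; omega
  obtain ⟨b0, hb0t, -, htb0, hb0⟩ :=
    exists_linearIndepOn_extension (K := ℚ) (v := v) (s := ∅) (t := Set.range Sum.inl)
      (linearIndepOn_empty ℚ v) (Set.empty_subset _)
  obtain ⟨b, -, hb0b, htb, hb⟩ :=
    exists_linearIndepOn_extension (t := Set.univ) hb0 (Set.subset_univ _)
  have hspan : ⊤ ≤ Submodule.span ℚ (Set.range fun x : b => v x) := by
    rw [← Set.image_eq_range]
    intro x _
    have hvr : ∀ j k, v (Sum.inr j) k = (((Pi.single j 1 : J → ℤ) k : ℤ) : ℚ) := fun _ _ => rfl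
    have hx : x = ∑ j, x j • v (Sum.inr j) := by
      funext k
      rw [Finset.sum_apply, Finset.sum_eq_single k]
      · rw [Pi.smul_apply, hvr, Pi.single_eq_same]; simp
      · intro j _ hj
        rw [Pi.smul_apply, hvr, Pi.single_eq_of_ne (Ne.symm hj)]; simp
      · simp
    rw [hx]
    refine Submodule.sum_mem _ fun j _ => Submodule.smul_mem _ _ ?_
    exact htb ⟨Sum.inr j, trivial, rfl⟩
  let B : Module.Basis b ℚ (J → ℚ) := Module.Basis.mk hb hspan
  have hcard : Fintype.card J = Fintype.card b := by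
    rw [← Module.finrank_eq_card_basis B, Module.finrank_fintype_fun_eq_card]
  let e : J ≃ b := Fintype.equivOfCardEq hcard
  let A : Matrix J J ℤ := fun k j => V (e k) j
  have hAb : ∀ k j, |A k j| ≤ h := fun k j => hVb _ _
  have hdet : (A.map (Int.cast : ℤ → ℚ)).det ≠ 0 := by
    have h1 : LinearIndependent ℚ (A.map (Int.cast : ℤ → ℚ)).row := by
      have h2 := hb.linearIndependent.comp e e.injective
      exact h2
    rw [Matrix.linearIndependent_rows_iff_isUnit, Matrix.isUnit_iff_isUnit_det] at h1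
    exact h1.ne_zero
  have hmap : (A.map (Int.cast : ℤ → ℚ)).adjugate = A.adjugate.map (Int.cast : ℤ → ℚ) :=
    ((Int.castRingHom ℚ).map_adjugate A).symm
  -- the decomposition of `w`
  have hdec : w = ∑ k, ((A.map (Int.cast : ℤ → ℚ)).det⁻¹ *
      ((A.map (Int.cast : ℤ → ℚ)).mulVec w) k) • (fun j => (A.adjugate j k : ℚ)) := by
    have h1 : (A.map (Int.cast : ℤ → ℚ)).adjugate.mulVec ((A.map (Int.cast : ℤ → ℚ)).mulVec w) =
        (A.map (Int.cast : ℤ → ℚ)).det • w := by
      rw [Matrix.mulVec_mulVec, Matrix.adjugate_mul, Matrix.smul_mulVec, Matrix.one_mulVec]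
    funext j
    have h2 := congrFun h1 j
    rw [hmap] at h2
    simp only [Matrix.mulVec, dotProduct, Pi.smul_apply, smul_eq_mul, Matrix.map_apply] at h2
    rw [Finset.sum_apply]
    simp only [Pi.smul_apply, smul_eq_mul, Matrix.mulVec, dotProduct, Matrix.map_apply]
    rw [eq_comm, ← mul_right_inj' hdet, ← h2, Finset.mul_sum]
    refine Finset.sum_congr rfl fun k _ => ?_
    field_simp
  rw [hdec]
  refine Submodule.sum_mem _ fun k _ => ?_
  by_cases hk : ((e k : b) : I ⊕ J) ∈ b0
  · -- the coordinate vanishes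
    obtain ⟨i, hi⟩ := hb0t hk
    have h1 : ((A.map (Int.cast : ℤ → ℚ)).mulVec w) k = 0 := by
      have h2 := congrFun hw i
      rw [Pi.zero_apply] at h2
      rw [← h2]
      simp only [Matrix.mulVec, dotProduct, Matrix.map_apply]
      refine Finset.sum_congr rfl fun j _ => ?_
      congr 2
      show V (e k) j = M i j
      rw [← hi]
      rfl
    rw [h1, mul_zero, zero_smul]
    exact Submodule.zero_mem _
  · refine Submodule.smul_mem _ _ (Submodule.subset_span ⟨fun j => A.adjugate j k, rfl, ?_,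
      fun j => adjugate_bound A hh hAb j k⟩)
    have hAu : ∀ k', ∑ j, A k' j * A.adjugate j k = if k' = k then A.det else 0 := by
      intro k'
      have h1 := congrFun (congrFun (Matrix.mul_adjugate A) k') k
      rw [Matrix.mul_apply] at h1
      rw [h1, Matrix.smul_apply, Matrix.one_apply]
      simp
    funext i
    have h3 : v (Sum.inl i) ∈ Submodule.span ℚ (v '' b0) := htb0 ⟨Sum.inl i, ⟨i, rfl⟩, rfl⟩
    let φ : (J → ℚ) →ₗ[ℚ] ℚ := ∑ j, (A.adjugate j k : ℚ) • LinearMap.proj j
    have hφ : ∀ x, φ x = ∑ j, (A.adjugate j k : ℚ) * x j := by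
      intro x
      simp [φ]
    have h4 : Submodule.span ℚ (v '' b0) ≤ LinearMap.ker φ := by
      rw [Submodule.span_le]
      rintro _ ⟨y, hy, rfl⟩
      show φ (v y) = 0
      obtain ⟨k', hk'⟩ := e.surjective ⟨y, hb0b hy⟩
      have hne : k' ≠ k := by
        rintro rfl
        apply hk
        rw [hk']
        exact hy
      have h5 := hAu k'
      rw [if_neg hne] at h5
      rw [hφ]
      have h6 : ∀ j, v y j = (A k' j : ℚ) := by
        intro j
        show (V y j : ℚ) = (V (e k') j : ℚ)
        rw [hk']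
      simp only [h6]
      have h7 := congrArg (Int.cast : ℤ → ℚ) h5
      push_cast at h7
      rw [← h7]
      exact Finset.sum_congr rfl fun j _ => mul_comm _ _
    have h5 : φ (v (Sum.inl i)) = 0 := h4 h3
    rw [hφ] at h5
    have h6 : ((M.mulVec (fun j => A.adjugate j k) i : ℤ) : ℚ) = 0 := by
      rw [← h5]
      simp only [Matrix.mulVec, dotProduct]
      push_cast
      exact Finset.sum_congr rfl fun j _ => mul_comm _ _
    exact_mod_cast h6

end Vale.Agent.P018.Q
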