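import Mathlib
import Vale.Agent.P018.Q.KapSh

/-! # P018, quartics: the integer polynomial `Λ = ∏ π_j`, as a determinant. -/

namespace Vale.Agent.P018.Q

open Polynomial NumberField

variable {L : Type} [Field L] [NumberField L]

/-- matrix of the multiplication by `l1(x) X + l2(x)` modulo `G`. -/
noncomputable def mulMat (G : ℤ[X]) (l1 l2 : Fin 4 → ℤ) : Matrix (Fin 4) (Fin 4) ℤ[X] :=
  (X : ℤ[X]) • (Matrix.of fun k a : Fin 4 => shp G a l1 k).map C +
    (Matrix.of fun k a : Fin 4 => shp G a l2 k).map C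

theorem mulMat_apply (G : ℤ[X]) (l1 l2 : Fin 4 → ℤ) (k a : Fin 4) :
    mulMat G l1 l2 k a = C (shp G a l1 k) * X + C (shp G a l2 k) := by
  simp [mulMat, mul_comm]

theorem coeff_lin_mul {u v a b : ℤ} (hu : |u| ≤ a) (hv : |v| ≤ a) {P : ℤ[X]}
    (hP : ∀ k, |P.coeff k| ≤ b) (k : ℕ) : |((C u * X + C v) * P).coeff k| ≤ 2 * (a * b) := by
  have ha : 0 ≤ a := (abs_nonneg _).trans hu
  have hb : 0 ≤ b := (abs_nonneg _).trans (hP 0)
  have h2 : |v * P.coeff k| ≤ a * b := by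
    rw [abs_mul]
    exact mul_le_mul hv (hP k) (abs_nonneg _) ha
  rw [add_mul, coeff_add, mul_assoc, coeff_C_mul, coeff_C_mul]
  rcases k with _ | k
  · rw [coeff_zero_eq_eval_zero (X * P)]
    simp only [eval_mul, eval_X, zero_mul, mul_zero, zero_add]
    have := mul_nonneg ha hb
    linarith
  · rw [coeff_X_mul]
    have h1 : |u * P.coeff k| ≤ a * b := by
      rw [abs_mul]
      exact mul_le_mul hu (hP k) (abs_nonneg _) ha
    refine (abs_add_le _ _).trans ?_
    linarith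

theorem coeff_prod_lin {u v : Fin 4 → ℤ} {h : ℤ} (hu : ∀ i, |u i| ≤ h) (hv : ∀ i, |v i| ≤ h)
    (k : ℕ) : |(∏ i, (C (u i) * X + C (v i))).coeff k| ≤ 8 * h ^ 4 := by
  have h0 : ∀ k, |(1 : ℤ[X]).coeff k| ≤ 1 := by
    intro k
    rw [coeff_one]
    split_ifs <;> simp
  have hh : 0 ≤ h := (abs_nonneg _).trans (hu 0)
  have h3 : ∀ k, |(C (u 3) * X + C (v 3)).coeff k| ≤ h := by
    intro k
    rw [coeff_add, coeff_C_mul, coeff_X, coeff_C]
    rcases k with _ | _ | k
    · simpa using hv 3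
    · simpa using hu 3
    · simpa using hh
  have h2 := coeff_lin_mul (hu 2) (hv 2) h3
  have h1 := coeff_lin_mul (hu 1) (hv 1) h2
  have h0 := coeff_lin_mul (hu 0) (hv 0) h1 k
  rw [Fin.prod_univ_four, mul_assoc, mul_assoc]
  refine h0.trans (le_of_eq ?_)
  ring

theorem exists_Lam (G : ℤ[X]) (hG : G.Monic) (hGd : G.natDegree = 4) (θ : Fin 4 → 𝓞 L)
    (hθ : Function.Injective θ) (hGθ : G.map (algebraMap ℤ (𝓞 L)) = ∏ i, (X - C (θ i))) :
    ∃ C1 : ℕ, ∀ (H : ℕ) (l1 l2 : Fin 4 → ℤ), 2 ≤ H → (∀ j, |l1 j| ≤ H) → (∀ j, |l2 j| ≤ H) →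
      ∃ Λ : ℤ[X], Λ.map (algebraMap ℤ (𝓞 L)) = ∏ j, piPoly θ l1 l2 j ∧ Λ.natDegree ≤ 4 ∧
        ∀ k, |Λ.coeff k| ≤ (H : ℤ) ^ C1 := by
  obtain ⟨g, hg⟩ : ∃ g : ℤ, ∀ k, |G.coeff k| ≤ g := by
    refine ⟨∑ k ∈ Finset.range (G.natDegree + 1), |G.coeff k|, fun k => ?_⟩
    by_cases hk : k < G.natDegree + 1
    · exact Finset.single_le_sum (f := fun k => |G.coeff k|) (fun _ _ => abs_nonneg _)
        (Finset.mem_range.mpr hk)
    · rw [coeff_eq_zero_of_natDegree_lt (by omega), abs_zero]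
      exact Finset.sum_nonneg fun _ _ => abs_nonneg _
  have hg0 : 0 ≤ g := (abs_nonneg _).trans (hg 0)
  obtain ⟨n, hn⟩ : ∃ n : ℕ, 192 * ((1 + g) ^ 3) ^ 4 ≤ (2 : ℤ) ^ n := by
    refine ⟨(192 * ((1 + g) ^ 3) ^ 4).toNat, ?_⟩
    have h1 : (192 * ((1 + g) ^ 3) ^ 4) ≤ ((192 * ((1 + g) ^ 3) ^ 4).toNat : ℤ) :=
      Int.self_le_toNat _
    refine h1.trans ?_
    exact_mod_cast (Nat.lt_two_pow_self (n := (192 * ((1 + g) ^ 3) ^ 4).toNat)).le
  have hθG : ∀ j, aeval (θ j) G = 0 := by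
    intro j
    have h1 : aeval (θ j) G = eval (θ j) (G.map (algebraMap ℤ (𝓞 L))) := by
      rw [eval_map_algebraMap]
    rw [h1, hGθ, eval_prod]
    exact Finset.prod_eq_zero (Finset.mem_univ j) (by simp)
  refine ⟨n + 4, fun H l1 l2 hH h1 h2 => ⟨(mulMat G l1 l2).det, ?_, ?_, ?_⟩⟩
  · -- Vandermonde
    set V : Matrix (Fin 4) (Fin 4) (𝓞 L)[X] := Matrix.vandermonde fun j => C (θ j) with hV
    have hVM : V * (mulMat G l1 l2).map (mapRingHom (algebraMap ℤ (𝓞 L))) =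
        Matrix.diagonal (piPoly θ l1 l2) * V := by
      ext1 j a
      rw [Matrix.diagonal_mul, Matrix.mul_apply]
      simp only [hV, Matrix.vandermonde_apply, Matrix.map_apply, mulMat_apply,
        coe_mapRingHom, Polynomial.map_add, Polynomial.map_mul, Polynomial.map_X,
        Polynomial.map_intCast, algebraMap_int_eq, eq_intCast]
      have e1 := ell_shp hG hGd (hθG j) a l1
      have e2 := ell_shp hG hGd (hθG j) a l2
      rw [piPoly, add_mul, mul_right_comm, ← C_pow, ← C_mul, ← C_mul, mul_comm (K.ell (θ j) l1),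
        mul_comm (K.ell (θ j) l2), ← e1, ← e2, K.ell, K.ell]
      simp only [map_sum, map_mul, map_pow, map_intCast, Finset.sum_mul]
      rw [← Finset.sum_add_distrib]
      refine Finset.sum_congr rfl fun m _ => ?_
      ring
    have hdet := congrArg Matrix.det hVM
    rw [Matrix.det_mul, Matrix.det_mul, Matrix.det_diagonal, mul_comm] at hdet
    have hV0 : V.det ≠ 0 := by
      rw [hV, Matrix.det_vandermonde_ne_zero_iff]
      exact fun i j h => hθ (C_injective h)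
    have h3 := mul_right_cancel₀ hV0 hdet
    rw [← h3, ← coe_mapRingHom, RingHom.map_det]
    rfl
  · refine (natDegree_det_X_add_C_le _ _).trans ?_
    simp
  · intro k
    rw [Matrix.det_apply, finsetSum_coeff]
    have hb1 : ∀ a j : Fin 4, |shp G a l1 j| ≤ (1 + g) ^ 3 * H := by
      intro a j
      refine (shp_le hg a h1 j).trans ?_
      refine mul_le_mul_of_nonneg_right (pow_le_pow_right₀ (by linarith) ?_) (by positivity)
      have := a.2
      omega
    have hb2 : ∀ a j : Fin 4, |shp G a l2 j| ≤ (1 + g) ^ 3 * H := by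
      intro a j
      refine (shp_le hg a h2 j).trans ?_
      refine mul_le_mul_of_nonneg_right (pow_le_pow_right₀ (by linarith) ?_) (by positivity)
      have := a.2
      omega
    have hterm : ∀ σ : Equiv.Perm (Fin 4),
        |(Equiv.Perm.sign σ • ∏ i, mulMat G l1 l2 (σ i) i).coeff k| ≤
          8 * ((1 + g) ^ 3 * H) ^ 4 := by
      intro σ
      have h5 : |(Equiv.Perm.sign σ • ∏ i, mulMat G l1 l2 (σ i) i).coeff k| =
          |(∏ i, mulMat G l1 l2 (σ i) i).coeff k| := by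
        rcases Int.units_eq_one_or (Equiv.Perm.sign σ) with h | h
        · rw [h, one_smul]
        · rw [h, Units.neg_smul, one_smul, coeff_neg, abs_neg]
      rw [h5]
      simp only [mulMat_apply]
      exact coeff_prod_lin (fun i => hb1 i (σ i)) (fun i => hb2 i (σ i)) k
    refine (Finset.abs_sum_le_sum_abs _ _).trans ((Finset.sum_le_sum fun σ _ => hterm σ).trans ?_)
    rw [Finset.sum_const, Finset.card_univ, Fintype.card_perm, Fintype.card_fin]
    have h24 : (Nat.factorial 4 : ℕ) = 24 := rfl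
    rw [h24, nsmul_eq_mul]
    have hH0 : (0 : ℤ) ≤ (H : ℤ) ^ 4 := by positivity
    calc ((24 : ℕ) : ℤ) * (8 * ((1 + g) ^ 3 * H) ^ 4) =
        (192 * ((1 + g) ^ 3) ^ 4) * (H : ℤ) ^ 4 := by push_cast; ring
      _ ≤ (2 : ℤ) ^ n * (H : ℤ) ^ 4 := mul_le_mul_of_nonneg_right hn hH0
      _ ≤ (H : ℤ) ^ n * (H : ℤ) ^ 4 := by
        refine mul_le_mul_of_nonneg_right (pow_le_pow_left₀ (by norm_num) ?_ n) hH0
        exact_mod_cast hH
      _ = (H : ℤ) ^ (n + 4) := (pow_add _ _ _).symm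

end Vale.Agent.P018.Q
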