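import Mathlib
import Vale.Agent.P018.Q.KapB
import Vale.Agent.P018.Q.KappaAux
import Vale.Agent.P018.Q.KappaLam

/-! # P018, quartics: existence of the kappa model. -/

namespace Vale.Agent.P018.Q

open Polynomial NumberField Module

set_option linter.unusedSectionVars false

section lin

variable {d : ℕ}

theorem pA_add (v w : Col d → ℚ) : pA (v + w) = pA v + pA w := by
  simp [pA, add_mul, Finset.sum_add_distrib]

theorem pB_add (v w : Col d → ℚ) : pB (v + w) = pB v + pB w := by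
  simp [pB, add_mul, Finset.sum_add_distrib]

theorem pA_smul (c : ℚ) (v : Col d → ℚ) : pA (c • v) = C c * pA v := by
  simp [pA, Finset.mul_sum, mul_assoc]

theorem pB_smul (c : ℚ) (v : Col d → ℚ) : pB (c • v) = C c * pB v := by
  simp [pB, Finset.mul_sum, mul_assoc]

/-- `A B' - A' B` as a linear map in the first argument. -/
noncomputable def WL {d' : ℕ} (w : Col d' → ℚ) : (Col d → ℚ) →ₗ[ℚ] ℚ[X] where
  toFun v := pA v * pB w - pA w * pB v
  map_add' v v' := by rw [pA_add, pB_add]; ring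
  map_smul' c v := by
    rw [pA_smul, pB_smul, RingHom.id_apply, smul_eq_C_mul]; ring

theorem exists_of_span {V : Type*} [AddCommGroup V] [Module ℚ V] {S : Set V}
    (φ : V →ₗ[ℚ] ℚ[X]) {v : V} (hv : v ∈ Submodule.span ℚ S) (hφ : φ v ≠ 0) :
    ∃ u ∈ S, φ u ≠ 0 := by
  by_contra hcon
  push Not at hcon
  apply hφ
  have h1 : Submodule.span ℚ S ≤ LinearMap.ker φ := by
    rw [Submodule.span_le]
    intro u hu
    exact hcon u hu
  exact h1 hv

theorem pA_cast (u : Col d → ℤ) :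
    pA (fun j => (u j : ℚ)) = (pA u).map (Int.castRingHom ℚ) := by
  simp [pA, Polynomial.map_sum]

theorem pB_cast (u : Col d → ℤ) :
    pB (fun j => (u j : ℚ)) = (pB u).map (Int.castRingHom ℚ) := by
  simp [pB, Polynomial.map_sum]

theorem rw'_cast (G : ℤ[X]) (l1 l2 : Fin 4 → ℤ) (u : Col d → ℤ) (r : Row d) :
    rw' G l1 l2 (fun j => (u j : ℚ)) r = ((rw' G l1 l2 u r : ℤ) : ℚ) := by
  simp [rw']

theorem int_span {G : ℤ[X]} {g h : ℤ} (hg : ∀ k, |G.coeff k| ≤ g) (hh : 1 ≤ h)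
    {l1 l2 : Fin 4 → ℤ} (h1 : ∀ j, |l1 j| ≤ h) (h2 : ∀ j, |l2 j| ≤ h) (hd2 : 2 ≤ d) (hd5 : d ≤ 5)
    (v : Col d → ℚ) (hv : ∀ r, rw' G l1 l2 v r = 0) :
    v ∈ Submodule.span ℚ {w : Col d → ℚ | ∃ u : Col d → ℤ, (w = fun j => (u j : ℚ)) ∧
      (∀ r, rw' G l1 l2 u r = 0) ∧
      ∀ j, |u j| ≤ (28 : ℕ).factorial * (8 * (1 + g) ^ 6 * h ^ 2) ^ 28} := by
  have hg0 : 0 ≤ g := (abs_nonneg _).trans (hg 0)
  have hb1 : (1 : ℤ) ≤ (1 + g) ^ 6 := one_le_pow₀ (by omega)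
  have hb2 : (1 : ℤ) ≤ h ^ 2 := one_le_pow₀ hh
  have hone : (1 : ℤ) ≤ 8 * (1 + g) ^ 6 * h ^ 2 := by nlinarith
  have hcard : Fintype.card (Col d) ≤ 28 := by
    simp
    omega
  have h3 := ker_span (Matrix.of (Mx G l1 l2 d)) hone (fun r c => Mx_le hg hh h1 h2 r c) v (by
    funext r
    have := hv r
    simpa [rw', Matrix.mulVec, dotProduct] using this)
  refine Submodule.span_mono ?_ h3
  rintro w ⟨u, hw, hu, hub⟩
  refine ⟨u, hw, fun r => ?_, fun j => (hub j).trans ?_⟩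
  · have := congrFun hu r
    simpa [rw', Matrix.mulVec, dotProduct] using this
  · refine mul_le_mul ?_ (pow_le_pow_right₀ hone hcard) (by positivity) (by positivity)
    exact_mod_cast Nat.factorial_le hcard

end lin

section

variable {L : Type} [Field L] [NumberField L] {θ : Fin 4 → 𝓞 L} {F : Type} [Field F]
  [NumberField F] {α : F} {σ : Fin 4 → F →+* L} {l1 l2 : Fin 4 → ℤ} {G : ℤ[X]}

theorem exists_int (hF : QF θ F α σ) (hG : G.Monic) (hGd : G.natDegree = 4)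
    (hGθ : G.map (algebraMap ℤ (𝓞 L)) = ∏ i, (X - C (θ i))) (hl1 : l1 ≠ 0)
    (hnd : NonDeg θ l1 l2) {g h : ℤ} (hg : ∀ k, |G.coeff k| ≤ g) (hh : 1 ≤ h)
    (h1 : ∀ j, |l1 j| ≤ h) (h2 : ∀ j, |l2 j| ≤ h) :
    ∃ d0 d1 : ℕ, ((d0 = 4 ∧ d1 = 4) ∨ (d0 = 3 ∧ d1 = 5)) ∧
      ∃ (u0 : Col d0 → ℤ) (u1 : Col d1 → ℤ), (∀ r, rw' G l1 l2 u0 r = 0) ∧
        (∀ r, rw' G l1 l2 u1 r = 0) ∧
        (∀ j, |u0 j| ≤ (28 : ℕ).factorial * (8 * (1 + g) ^ 6 * h ^ 2) ^ 28) ∧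
        (∀ j, |u1 j| ≤ (28 : ℕ).factorial * (8 * (1 + g) ^ 6 * h ^ 2) ^ 28) ∧
        pA u0 * pB u1 - pA u1 * pB u0 ≠ 0 := by
  obtain ⟨d0, d1, hd, v0, v1, hv0, hv1, hW⟩ := exists_rat hF hG hGd hGθ hl1 hnd
  refine ⟨d0, d1, hd, ?_⟩
  obtain ⟨w0, ⟨u0, rfl, hu0, hb0⟩, hW0⟩ := exists_of_span (WL v1)
    (int_span hg hh h1 h2 (by omega) (by omega) v0 hv0) hW
  have hW1 : WL (fun j => (u0 j : ℚ)) v1 ≠ 0 := by
    intro h0
    apply hW0
    show pA _ * pB v1 - pA v1 * pB _ = 0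
    have h3 : pA v1 * pB (fun j => (u0 j : ℚ)) - pA (fun j => (u0 j : ℚ)) * pB v1 = 0 := h0
    linear_combination -h3
  obtain ⟨w1, ⟨u1, rfl, hu1, hb1⟩, hW2⟩ := exists_of_span (WL fun j => (u0 j : ℚ))
    (int_span hg hh h1 h2 (by omega) (by omega) v1 hv1) hW1
  refine ⟨u0, u1, hu0, hu1, hb0, hb1, fun h0 => hW2 ?_⟩
  show pA (fun j => (u1 j : ℚ)) * pB (fun j => (u0 j : ℚ)) -
    pA (fun j => (u0 j : ℚ)) * pB (fun j => (u1 j : ℚ)) = 0
  rw [pA_cast, pB_cast, pA_cast, pB_cast]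
  have h3 := congrArg (Polynomial.map (Int.castRingHom ℚ)) h0
  rw [Polynomial.map_sub, Polynomial.map_mul, Polynomial.map_mul, Polynomial.map_zero] at h3
  linear_combination -h3

theorem aeval_theta (hGθ : G.map (algebraMap ℤ (𝓞 L)) = ∏ i, (X - C (θ i))) (j : Fin 4) :
    aeval (θ j) G = 0 := by
  have h1 : (G.map (algebraMap ℤ (𝓞 L))).eval (θ j) = 0 := by
    rw [hGθ, eval_prod]
    exact Finset.prod_eq_zero (Finset.mem_univ j) (by simp)
  rwa [eval_map_algebraMap] at h1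

theorem eq_of_ker {d : ℕ} (hG : G.Monic) (hGd : G.natDegree = 4)
    (hGθ : G.map (algebraMap ℤ (𝓞 L)) = ∏ i, (X - C (θ i))) (hd : 2 ≤ d) {u : Col d → ℤ}
    (hu : ∀ r, rw' G l1 l2 u r = 0) (j : Fin 4) :
    (pB u).map (algebraMap ℤ (𝓞 L)) - C (θ j) * (pA u).map (algebraMap ℤ (𝓞 L)) =
      piPoly θ l1 l2 j ^ 2 *
        ∑ m : Fin 4, (pZ u m).map (algebraMap ℤ (𝓞 L)) * C (θ j ^ (m : ℕ)) := by
  have h1 := key_eq (F := ℤ) hG hGd (aeval_theta hGθ j) l1 l2 hd u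
  simp only [hu, map_zero, zero_mul, Finset.sum_const_zero] at h1
  unfold piPoly
  linear_combination -h1

theorem W_scale (hF : QF θ F α σ) (hl1 : l1 ≠ 0) (hnd : NonDeg θ l1 l2) {Λ : ℤ[X]}
    (hΛ : Λ.map (algebraMap ℤ (𝓞 L)) = ∏ j, piPoly θ l1 l2 j) {W : ℤ[X]} (hW0 : W ≠ 0)
    (hWd : W.natDegree ≤ 8)
    (hW : PF α l1 l2 ^ 2 ∣ (W.map (Int.castRingHom ℚ)).map (algebraMap ℚ F)) :
    C (Λ.coeff 4 ^ 2) * W = C (W.coeff 8) * Λ ^ 2 ∧ W.coeff 8 ≠ 0 ∧ Λ.coeff 4 ≠ 0 := by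
  have hinj : Function.Injective (algebraMap ℤ L) := (algebraMap ℤ L).injective_int
  have hΛL : Λ.map (algebraMap ℤ L) = ∏ j, PL θ l1 l2 j := by
    have h1 := congrArg (Polynomial.map (algebraMap (𝓞 L) L)) hΛ
    rw [Polynomial.map_map, Polynomial.map_prod] at h1
    exact h1
  have hΛd : Λ.natDegree = 4 := by
    have h1 := prod_natDegree (l2 := l2) hF hl1
    rwa [← hΛL, natDegree_map_eq_of_injective hinj] at h1
  have hΛ4 : Λ.coeff 4 ≠ 0 := by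
    rw [← hΛd]
    intro h0
    have h1 := leadingCoeff_eq_zero.1 h0
    rw [h1] at hΛd
    simp at hΛd
  have hWL : (W.map (Int.castRingHom ℚ)).map (algebraMap ℚ L) = W.map (algebraMap ℤ L) := by
    rw [Polynomial.map_map]
    congr 1
    exact RingHom.ext_int _ _
  have hdvd := prod_dvd hF hnd hW
  rw [hWL, ← hΛL] at hdvd
  obtain ⟨q, hq⟩ := hdvd
  have hWL0 : W.map (algebraMap ℤ L) ≠ 0 := (Polynomial.map_ne_zero_iff hinj).2 hW0
  have hq0 : q ≠ 0 := by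
    rintro rfl
    rw [mul_zero] at hq
    exact hWL0 hq
  have hΛL0 : Λ.map (algebraMap ℤ L) ≠ 0 := by
    rw [hΛL]
    exact Finset.prod_ne_zero_iff.2 fun j _ => PL_ne_zero hF hl1 j
  have hqd : q.natDegree = 0 := by
    have h1 := congrArg natDegree hq
    rw [natDegree_mul (pow_ne_zero _ hΛL0) hq0, natDegree_pow,
      natDegree_map_eq_of_injective hinj, natDegree_map_eq_of_injective hinj, hΛd] at h1
    omega
  obtain ⟨q0, rfl⟩ := natDegree_eq_zero.1 hqd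
  have hc : ((W.coeff 8 : ℤ) : L) = ((Λ.coeff 4 : ℤ) : L) ^ 2 * q0 := by
    have h1 := congrArg (fun P : L[X] => P.coeff (2 * 4)) hq
    simp only [coeff_mul_C] at h1
    rw [coeff_pow_of_natDegree_le (by rw [natDegree_map_eq_of_injective hinj, hΛd]), coeff_map,
      coeff_map] at h1
    simpa using h1
  have hq00 : q0 ≠ 0 := by
    rintro rfl
    simp at hq0
  refine ⟨?_, ?_, hΛ4⟩
  · apply Polynomial.map_injective _ hinj
    rw [Polynomial.map_mul, Polynomial.map_mul, map_C, map_C, Polynomial.map_pow, hq]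
    simp only [algebraMap_int_eq, eq_intCast, hc, map_mul, map_pow]
    ring
  · intro h0
    rw [h0, Int.cast_zero] at hc
    have h1 : ((Λ.coeff 4 : ℤ) : L) ≠ 0 := by exact_mod_cast hΛ4
    exact (mul_ne_zero (pow_ne_zero 2 h1) hq00) hc.symm

end

end Vale.Agent.P018.Q
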