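import Mathlib
import Vale.Agent.P018.Q.KapC

/-! # P018, quartics: existence of the kappa model, assembly. -/

namespace Vale.Agent.P018.Q

open Polynomial NumberField Module

theorem pow_bound (K : ℤ) (m : ℕ) :
    ∃ C : ℕ, ∀ H : ℕ, 2 ≤ H → K * (H : ℤ) ^ m ≤ (H : ℤ) ^ C := by
  refine ⟨K.toNat + m, fun H hH => ?_⟩
  rw [pow_add]
  refine mul_le_mul_of_nonneg_right ?_ (by positivity)
  calc K ≤ (K.toNat : ℤ) := Int.self_le_toNat K
    _ ≤ ((2 ^ K.toNat : ℕ) : ℤ) := by exact_mod_cast (Nat.lt_two_pow_self).le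
    _ ≤ ((H ^ K.toNat : ℕ) : ℤ) := by exact_mod_cast Nat.pow_le_pow_left hH _
    _ = (H : ℤ) ^ K.toNat := by push_cast; rfl

theorem coeff_bound {n : ℕ} {f : Fin n → ℤ} {U : ℤ} (hU : 0 ≤ U) (hf : ∀ j, |f j| ≤ U) (k : ℕ) :
    |(∑ j : Fin n, C (f j) * X ^ (j : ℕ) : ℤ[X]).coeff k| ≤ U := by
  rw [coeff_sumC]
  split_ifs with h
  · exact hf _
  · simpa using hU

theorem coeff_mul_bound {P Q : ℤ[X]} {U : ℤ} (hP : ∀ k, |P.coeff k| ≤ U)
    (hQ : ∀ k, |Q.coeff k| ≤ U) : |(P * Q).coeff 8| ≤ 9 * U ^ 2 := by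
  have hU : 0 ≤ U := (abs_nonneg _).trans (hP 0)
  rw [coeff_mul]
  refine (Finset.abs_sum_le_sum_abs _ _).trans ?_
  refine (Finset.sum_le_card_nsmul _ _ (U ^ 2) fun x _ => ?_).trans ?_
  · rw [abs_mul, sq]
    exact mul_le_mul (hP _) (hQ _) (abs_nonneg _) hU
  · rw [Finset.Nat.card_antidiagonal, nsmul_eq_mul]
    norm_num

variable {L : Type} [Field L] [NumberField L]

theorem exists_kappa' (G : ℤ[X]) (hG : G.Monic) (hGd : G.natDegree = 4)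
    (hGi : Irreducible (G.map (Int.castRingHom ℚ))) (θ : Fin 4 → 𝓞 L)
    (hθ : Function.Injective θ) (hGθ : G.map (algebraMap ℤ (𝓞 L)) = ∏ i, (X - C (θ i))) :
    ∃ C0 : ℕ, ∀ (H : ℕ) (l1 l2 : Fin 4 → ℤ), 2 ≤ H → l1 ≠ 0 → (∀ j, |l1 j| ≤ H) →
      (∀ j, |l2 j| ≤ H) → NonDeg θ l1 l2 →
      ∃ (d : Fin 2 → ℕ) (A B : Fin 2 → ℤ[X]) (Z : Fin 2 → Fin 4 → ℤ[X]) (Λ : ℤ[X]) (c : ℤ),
        KData θ l1 l2 d A B Z Λ c ∧ |c| ≤ (H : ℤ) ^ C0 ∧
        (∀ i k, |(A i).coeff k| ≤ (H : ℤ) ^ C0) ∧ (∀ i k, |(B i).coeff k| ≤ (H : ℤ) ^ C0) ∧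
        (∀ i m k, |(Z i m).coeff k| ≤ (H : ℤ) ^ C0) ∧ (∀ k, |Λ.coeff k| ≤ (H : ℤ) ^ C0) := by
  obtain ⟨F, _, _, α, σ, hF⟩ := exists_quartic hG hGd hGi hGθ
  obtain ⟨g, hg⟩ : ∃ g : ℤ, ∀ k, |G.coeff k| ≤ g := by
    refine ⟨∑ k ∈ Finset.range (G.natDegree + 1), |G.coeff k|, fun k => ?_⟩
    by_cases hk : k < G.natDegree + 1
    · exact Finset.single_le_sum (f := fun k => |G.coeff k|) (fun _ _ => abs_nonneg _)
        (Finset.mem_range.mpr hk)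
    · rw [coeff_eq_zero_of_natDegree_lt (by omega), abs_zero]
      exact Finset.sum_nonneg fun _ _ => abs_nonneg _
  obtain ⟨C1, hC1⟩ := exists_Lam G hG hGd θ hθ hGθ
  obtain ⟨C2, hC2⟩ := pow_bound ((28 : ℕ).factorial * (8 * (1 + g) ^ 6) ^ 28) 56
  refine ⟨2 * C1 + 2 * C2 + 5, fun H l1 l2 hH hl1 h1 h2 hnd => ?_⟩
  have hH1 : (1 : ℤ) ≤ H := by exact_mod_cast (by omega : 1 ≤ H)
  obtain ⟨d0, d1, hd, u0, u1, hu0, hu1, hb0, hb1, hW⟩ :=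
    exists_int hF hG hGd hGθ hl1 hnd hg hH1 h1 h2
  obtain ⟨Λ, hΛ, hΛd, hΛb⟩ := hC1 H l1 l2 hH h1 h2
  have hU : ((28 : ℕ).factorial : ℤ) * (8 * (1 + g) ^ 6 * (H : ℤ) ^ 2) ^ 28 ≤ (H : ℤ) ^ C2 := by
    refine le_trans (le_of_eq ?_) (hC2 H hH)
    rw [mul_pow _ ((H : ℤ) ^ 2), ← pow_mul, mul_assoc]
  have hb0' : ∀ j, |u0 j| ≤ (H : ℤ) ^ C2 := fun j => (hb0 j).trans hU
  have hb1' : ∀ j, |u1 j| ≤ (H : ℤ) ^ C2 := fun j => (hb1 j).trans hU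
  have hpos : (0 : ℤ) ≤ (H : ℤ) ^ C2 := by positivity
  have hA0 : ∀ k, |(pA u0).coeff k| ≤ (H : ℤ) ^ C2 := coeff_bound hpos fun _ => hb0' _
  have hB0 : ∀ k, |(pB u0).coeff k| ≤ (H : ℤ) ^ C2 := coeff_bound hpos fun _ => hb0' _
  have hZ0 : ∀ m k, |(pZ u0 m).coeff k| ≤ (H : ℤ) ^ C2 := fun m =>
    coeff_bound hpos fun _ => hb0' _
  have hA1 : ∀ k, |(pA u1).coeff k| ≤ (H : ℤ) ^ C2 := coeff_bound hpos fun _ => hb1' _
  have hB1 : ∀ k, |(pB u1).coeff k| ≤ (H : ℤ) ^ C2 := coeff_bound hpos fun _ => hb1' _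
  have hZ1 : ∀ m k, |(pZ u1 m).coeff k| ≤ (H : ℤ) ^ C2 := fun m =>
    coeff_bound hpos fun _ => hb1' _
  have hmono : ∀ {a b : ℕ}, a ≤ b → (H : ℤ) ^ a ≤ (H : ℤ) ^ b := fun h =>
    pow_le_pow_right₀ hH1 h
  have hscale : ∀ x : ℤ, |x| ≤ (H : ℤ) ^ C2 →
      |Λ.coeff 4 ^ 2 * x| ≤ (H : ℤ) ^ (2 * C1 + 2 * C2 + 5) := by
    intro x hx
    rw [abs_mul, abs_pow]
    calc |Λ.coeff 4| ^ 2 * |x| ≤ ((H : ℤ) ^ C1) ^ 2 * (H : ℤ) ^ C2 :=
          mul_le_mul (pow_le_pow_left₀ (abs_nonneg _) (hΛb 4) 2) hx (abs_nonneg _) (by positivity)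
      _ = (H : ℤ) ^ (2 * C1 + C2) := by rw [← pow_mul, ← pow_add, mul_comm C1]
      _ ≤ _ := hmono (by omega)
  have hWd : (pA u0 * pB u1 - pA u1 * pB u0).natDegree ≤ 8 := by
    refine (natDegree_sub_le _ _).trans (max_le ?_ ?_)
    · have e1 := natDegree_pA u0
      have e2 := natDegree_pB u1
      exact natDegree_mul_le.trans (by omega)
    · have e1 := natDegree_pA u1
      have e2 := natDegree_pB u0
      exact natDegree_mul_le.trans (by omega)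
  have hDD0 : DD α l1 l2 ((pA u0).map (Int.castRingHom ℚ)) ((pB u0).map (Int.castRingHom ℚ)) := by
    rw [← pA_cast, ← pB_cast]
    exact DD_of_ker hF hG hGd hGθ (by omega) fun r => by rw [rw'_cast, hu0, Int.cast_zero]
  have hDD1 : DD α l1 l2 ((pA u1).map (Int.castRingHom ℚ)) ((pB u1).map (Int.castRingHom ℚ)) := by
    rw [← pA_cast, ← pB_cast]
    exact DD_of_ker hF hG hGd hGθ (by omega) fun r => by rw [rw'_cast, hu1, Int.cast_zero]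
  have hdvd := W_dvd hDD0 hDD1
  rw [← Polynomial.map_mul, ← Polynomial.map_mul, ← Polynomial.map_sub] at hdvd
  obtain ⟨hdet, hc0, hN0⟩ := W_scale hF hl1 hnd hΛ hW hWd hdvd
  refine ⟨![d0, d1], ![pA u0, C (Λ.coeff 4 ^ 2) * pA u1], ![pB u0, C (Λ.coeff 4 ^ 2) * pB u1],
    ![fun m => pZ u0 m, fun m => C (Λ.coeff 4 ^ 2) * pZ u1 m], Λ,
    (pA u0 * pB u1 - pA u1 * pB u0).coeff 8, ?_, ?_, ?_, ?_, ?_, ?_⟩
  · refine ⟨?_, ?_, ?_, ?_, ?_, hΛ, hc0, ?_⟩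
    · simpa using hd
    · intro i
      fin_cases i
      · exact natDegree_pA u0
      · exact (natDegree_C_mul_le _ _).trans (natDegree_pA u1)
    · intro i
      fin_cases i
      · exact natDegree_pB u0
      · exact (natDegree_C_mul_le _ _).trans (natDegree_pB u1)
    · intro i m
      fin_cases i
      · exact natDegree_pZ (by omega) u0 m
      · exact (Nat.add_le_add_right (natDegree_C_mul_le _ _) 2).trans
          (natDegree_pZ (by omega) u1 m)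
    · intro i j
      fin_cases i
      · exact eq_of_ker hG hGd hGθ (by omega) hu0 j
      · have h3 := eq_of_ker (θ := θ) hG hGd hGθ (by omega) hu1 j
        show (C (Λ.coeff 4 ^ 2) * pB u1).map _ - C (θ j) * (C (Λ.coeff 4 ^ 2) * pA u1).map _ =
          piPoly θ l1 l2 j ^ 2 * ∑ m : Fin 4, (C (Λ.coeff 4 ^ 2) * pZ u1 m).map _ *
            C (θ j ^ (m : ℕ))
        simp only [Polynomial.map_mul, mul_assoc, ← Finset.mul_sum]
        linear_combination ((C (Λ.coeff 4 ^ 2)).map (algebraMap ℤ (𝓞 L))) * h3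
    · show pA u0 * (C (Λ.coeff 4 ^ 2) * pB u1) - (C (Λ.coeff 4 ^ 2) * pA u1) * pB u0 = _
      rw [← hdet]
      ring
  · rw [coeff_sub]
    have e1 := coeff_mul_bound hA0 hB1
    have e2 := coeff_mul_bound hA1 hB0
    have e3 : (18 : ℤ) ≤ (H : ℤ) ^ 5 := by
      have : (2 : ℤ) ^ 5 ≤ (H : ℤ) ^ 5 :=
        pow_le_pow_left₀ (by norm_num) (by exact_mod_cast hH) 5
      norm_num at this
      linarith
    calc |(pA u0 * pB u1).coeff 8 - (pA u1 * pB u0).coeff 8|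
        ≤ |(pA u0 * pB u1).coeff 8| + |(pA u1 * pB u0).coeff 8| := abs_sub _ _
      _ ≤ 18 * ((H : ℤ) ^ C2) ^ 2 := by linarith
      _ ≤ (H : ℤ) ^ 5 * ((H : ℤ) ^ C2) ^ 2 := mul_le_mul_of_nonneg_right e3 (by positivity)
      _ = (H : ℤ) ^ (2 * C2 + 5) := by rw [← pow_mul, ← pow_add]; congr 1; ring
      _ ≤ _ := hmono (by omega)
  · intro i k
    fin_cases i
    · exact (hA0 k).trans (hmono (by omega))
    · show |(C (Λ.coeff 4 ^ 2) * pA u1).coeff k| ≤ _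
      rw [coeff_C_mul]
      exact hscale _ (hA1 k)
  · intro i k
    fin_cases i
    · exact (hB0 k).trans (hmono (by omega))
    · show |(C (Λ.coeff 4 ^ 2) * pB u1).coeff k| ≤ _
      rw [coeff_C_mul]
      exact hscale _ (hB1 k)
  · intro i m k
    fin_cases i
    · exact (hZ0 m k).trans (hmono (by omega))
    · show |(C (Λ.coeff 4 ^ 2) * pZ u1 m).coeff k| ≤ _
      rw [coeff_C_mul]
      exact hscale _ (hZ1 m k)
  · intro k
    exact (hΛb k).trans (hmono (by omega))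

end Vale.Agent.P018.Q
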