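import Mathlib
import Vale.Agent.P018.Q.KappaDefs

/-! # P018, quartics: the point of the kappa model. -/

namespace Vale.Agent.P018.Q

open Polynomial NumberField

variable {L : Type} [Field L] [NumberField L]

omit [NumberField L] in
theorem eval₂_map_int (x : L) (P : ℤ[X]) :
    eval₂ (algebraMap (𝓞 L) L) x (P.map (algebraMap ℤ (𝓞 L))) = aeval x P := by
  rw [eval₂_map, aeval_def]
  congr 1

theorem aeval_rat (x : ℚ) (P : ℤ[X]) :
    aeval ((x : L)) P = ((aeval x P : ℚ) : L) := by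
  have h := (aeval_algebraMap_apply L x P)
  simpa using h

omit [NumberField L] in
/-- a polynomial combination of the powers of four distinct elements vanishes only trivially. -/
theorem vander_zero {v : Fin 4 → L} (hv : Function.Injective v) {a : Fin 4 → L}
    (h : ∀ j, ∑ m : Fin 4, a m * v j ^ (m : ℕ) = 0) : a = 0 := by
  have h1 : (Matrix.vandermonde v).mulVec a = 0 := by
    funext j
    simp only [Matrix.mulVec, dotProduct, Matrix.vandermonde_apply, Pi.zero_apply]
    rw [← h j]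
    exact Finset.sum_congr rfl fun m _ => mul_comm _ _
  exact Matrix.eq_zero_of_mulVec_eq_zero (Matrix.det_vandermonde_ne_zero_iff.mpr hv) h1

theorem kappa_point' (θ : Fin 4 → 𝓞 L)
    (hθ : Function.Injective θ)
    {l1 l2 : Fin 4 → ℤ} {d : Fin 2 → ℕ} {A B : Fin 2 → ℤ[X]} {Z : Fin 2 → Fin 4 → ℤ[X]}
    {Λ : ℤ[X]} {e : ℤ} (hK : KData θ l1 l2 d A B Z Λ e) {N c s t : ℤ} {z : Fin 4 → ℤ}
    (ht : t ≠ 0) (hy : ∀ j, K.ell (θ j) (s • l1 + t • l2) ≠ 0)
    (heq : ∀ i, (c : 𝓞 L) * ((N : 𝓞 L) - θ i) = K.ell (θ i) (s • l1 + t • l2) ^ 2 * K.ell (θ i) z) :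
    (aeval ((s : ℚ) / t) (A 1) ≠ 0 ∧
      aeval ((s : ℚ) / t) (A 1) * (N : ℚ) = aeval ((s : ℚ) / t) (B 1)) ∨
    ∃ κ : ℚ, aeval ((s : ℚ) / t) (A 0) + κ * aeval ((s : ℚ) / t) (A 1) ≠ 0 ∧
      (aeval ((s : ℚ) / t) (A 0) + κ * aeval ((s : ℚ) / t) (A 1)) * (N : ℚ) =
        aeval ((s : ℚ) / t) (B 0) + κ * aeval ((s : ℚ) / t) (B 1) ∧
      ∀ m, (z m : ℚ) * (aeval ((s : ℚ) / t) (A 0) + κ * aeval ((s : ℚ) / t) (A 1)) * t ^ 2 =
        c * (aeval ((s : ℚ) / t) (Z 0 m) + κ * aeval ((s : ℚ) / t) (Z 1 m)) := by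
  set σ : ℚ := (s : ℚ) / t with hσ
  have htL : (t : L) ≠ 0 := by exact_mod_cast ht
  -- the linear forms at `σ`
  have hpi : ∀ j, (t : L) * eval₂ (algebraMap (𝓞 L) L) (σ : L) (piPoly θ l1 l2 j) =
      ((K.ell (θ j) (s • l1 + t • l2) : 𝓞 L) : L) := by
    intro j
    have h1 : K.ell (θ j) (s • l1 + t • l2) =
        (s : 𝓞 L) * K.ell (θ j) l1 + (t : 𝓞 L) * K.ell (θ j) l2 := by
      simp only [K.ell, Pi.add_apply, Pi.smul_apply, smul_eq_mul, Finset.mul_sum,
        ← Finset.sum_add_distrib]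
      refine Finset.sum_congr rfl fun m _ => ?_
      push_cast
      ring
    rw [h1, piPoly, eval₂_add, eval₂_mul, eval₂_C, eval₂_X, eval₂_C]
    have h2 : (σ : L) * t = s := by
      rw [hσ]
      push_cast
      field_simp
    have h3 : (algebraMap (𝓞 L) L) ((s : 𝓞 L) * K.ell (θ j) l1 + (t : 𝓞 L) * K.ell (θ j) l2) =
        (s : L) * (algebraMap (𝓞 L) L) (K.ell (θ j) l1) +
          (t : L) * (algebraMap (𝓞 L) L) (K.ell (θ j) l2) := by
      simp
    change _ = (algebraMap (𝓞 L) L) _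
    rw [h3, ← h2]
    ring
  have hpi0 : ∀ j, eval₂ (algebraMap (𝓞 L) L) (σ : L) (piPoly θ l1 l2 j) ≠ 0 := by
    intro j h
    have h1 := hpi j
    rw [h, mul_zero] at h1
    exact hy j (by exact_mod_cast h1.symm)
  -- the determinant
  have hΛ0 : (aeval (σ : L) Λ) ≠ 0 := by
    rw [← eval₂_map_int, hK.hΛ, eval₂_finsetProd]
    exact Finset.prod_ne_zero_iff.mpr fun j _ => hpi0 j
  set a0 : ℚ := aeval σ (A 0) with ha0
  set a1 : ℚ := aeval σ (A 1) with ha1
  set b0 : ℚ := aeval σ (B 0) with hb0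
  set b1 : ℚ := aeval σ (B 1) with hb1
  have hdet : a0 * b1 - a1 * b0 ≠ 0 := by
    have h1 := congrArg (aeval σ) hK.det
    simp only [map_sub, map_mul, map_pow, aeval_C] at h1
    rw [← ha0, ← ha1, ← hb0, ← hb1] at h1
    rw [h1]
    have h2 : aeval σ Λ ≠ 0 := by
      intro h
      apply hΛ0
      rw [aeval_rat, h, Rat.cast_zero]
    refine mul_ne_zero ?_ (pow_ne_zero _ h2)
    simpa using hK.c0
  set D : ℚ := a0 * b1 - a1 * b0 with hD
  set k1 : ℚ := (b1 - N * a1) / D with hk1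
  set k2 : ℚ := (N * a0 - b0) / D with hk2
  have e1 : k1 * a0 + k2 * a1 = 1 := by
    rw [hk1, hk2]
    field_simp
    rw [hD]
    ring
  have e2 : k1 * b0 + k2 * b1 = N := by
    rw [hk1, hk2]
    field_simp
    rw [hD]
    ring
  by_cases hk : k1 = 0
  · left
    rw [hk, zero_mul, zero_add] at e1 e2
    refine ⟨fun h => by rw [h, mul_zero] at e1; exact zero_ne_one e1, ?_⟩
    have h3 : b1 - N * a1 = 0 := by
      rw [hk1, div_eq_zero_iff] at hk
      exact hk.resolve_right hdet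
    linarith
  · right
    refine ⟨k2 / k1, ?_, ?_, ?_⟩
    · have : a0 + k2 / k1 * a1 = 1 / k1 := by
        field_simp
        linarith
      rw [this]
      exact one_div_ne_zero hk
    · field_simp
      have : (a0 * k1 + k2 * a1) * N = (b0 * k1 + k2 * b1) := by
        have h1 : a0 * k1 + k2 * a1 = 1 := by linarith
        rw [h1]
        linarith
      linarith
    · -- coefficients
      set κ : ℚ := k2 / k1 with hκ
      have hw : a0 + κ * a1 = 1 / k1 := by
        rw [hκ]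
        field_simp
        linarith
      have hwN : (a0 + κ * a1) * N = b0 + κ * b1 := by
        rw [hw, hκ]
        field_simp
        linarith
      have hθL : Function.Injective (fun j => ((θ j : 𝓞 L) : L)) := by
        intro i j h
        exact hθ (RingOfIntegers.ext h)
      have hkey : (fun m : Fin 4 => (((z m : ℚ) * (a0 + κ * a1) * t ^ 2 -
          c * (aeval σ (Z 0 m) + κ * aeval σ (Z 1 m)) : ℚ) : L)) = 0 := by
        apply vander_zero hθL
        intro j
        set π : L := eval₂ (algebraMap (𝓞 L) L) (σ : L) (piPoly θ l1 l2 j) with hπ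
        have hB : ∀ i, ((aeval σ (B i) : ℚ) : L) - (θ j : L) * ((aeval σ (A i) : ℚ) : L) =
            π ^ 2 * ∑ m : Fin 4, ((aeval σ (Z i m) : ℚ) : L) * (θ j : L) ^ (m : ℕ) := by
          intro i
          have h := congrArg (eval₂ (algebraMap (𝓞 L) L) (σ : L)) (hK.eq i j)
          rw [eval₂_sub, eval₂_mul, eval₂_mul, eval₂_pow, eval₂_finsetSum, eval₂_C,
            eval₂_map_int, eval₂_map_int, aeval_rat, aeval_rat] at h
          rw [h, hπ]
          congr 1
          refine Finset.sum_congr rfl fun m _ => ?_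
          rw [eval₂_mul, eval₂_C, eval₂_map_int, aeval_rat]
          congr 1
        have hz : (c : L) * ((N : L) - θ j) =
            ((t : L) * π) ^ 2 * ∑ m : Fin 4, (z m : L) * (θ j : L) ^ (m : ℕ) := by
          have h := congrArg (algebraMap (𝓞 L) L) (heq j)
          rw [map_mul, map_mul, map_pow, map_sub, map_intCast, map_intCast] at h
          have h2 : (algebraMap (𝓞 L) L) (K.ell (θ j) z) =
              ∑ m : Fin 4, (z m : L) * (θ j : L) ^ (m : ℕ) := by
            simp only [K.ell, map_sum, map_mul, map_pow, map_intCast]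
          rw [h2] at h
          rw [hπ, hpi j]
          exact h
        have hcomb : ((b0 + κ * b1 : ℚ) : L) - (θ j : L) * ((a0 + κ * a1 : ℚ) : L) =
            π ^ 2 * ∑ m : Fin 4, ((aeval σ (Z 0 m) + κ * aeval σ (Z 1 m) : ℚ) : L) *
              (θ j : L) ^ (m : ℕ) := by
          have h0 := hB 0
          have h1 := hB 1
          have h3 : ∑ m : Fin 4, ((aeval σ (Z 0 m) + κ * aeval σ (Z 1 m) : ℚ) : L) *
              (θ j : L) ^ (m : ℕ) =
              ∑ m : Fin 4, ((aeval σ (Z 0 m) : ℚ) : L) * (θ j : L) ^ (m : ℕ) + (κ : L) *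
              ∑ m : Fin 4, ((aeval σ (Z 1 m) : ℚ) : L) * (θ j : L) ^ (m : ℕ) := by
            rw [Finset.mul_sum, ← Finset.sum_add_distrib]
            refine Finset.sum_congr rfl fun m _ => ?_
            push_cast
            ring
          rw [h3, mul_add, ← h0, mul_left_comm, ← h1, hb0, hb1, ha0, ha1]
          push_cast
          ring
        have hπ0 : π ≠ 0 := hpi0 j
        have hfin : π ^ 2 * ∑ m : Fin 4, (((z m : ℚ) * (a0 + κ * a1) * t ^ 2 -
            c * (aeval σ (Z 0 m) + κ * aeval σ (Z 1 m)) : ℚ) : L) * (θ j : L) ^ (m : ℕ) = 0 := by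
          have h4 : ∑ m : Fin 4, (((z m : ℚ) * (a0 + κ * a1) * t ^ 2 -
              c * (aeval σ (Z 0 m) + κ * aeval σ (Z 1 m)) : ℚ) : L) * (θ j : L) ^ (m : ℕ) =
              ((a0 + κ * a1 : ℚ) : L) * (t : L) ^ 2 *
                ∑ m : Fin 4, (z m : L) * (θ j : L) ^ (m : ℕ) -
              (c : L) * ∑ m : Fin 4, ((aeval σ (Z 0 m) + κ * aeval σ (Z 1 m) : ℚ) : L) *
                (θ j : L) ^ (m : ℕ) := by
            rw [Finset.mul_sum, Finset.mul_sum, ← Finset.sum_sub_distrib]
            refine Finset.sum_congr rfl fun m _ => ?_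
            push_cast
            ring
          have h5 : ((b0 + κ * b1 : ℚ) : L) = ((a0 + κ * a1 : ℚ) : L) * (N : L) := by
            rw [← hwN]
            push_cast
            ring
          rw [h4, mul_sub]
          have h6 : π ^ 2 * (((a0 + κ * a1 : ℚ) : L) * (t : L) ^ 2 *
              ∑ m : Fin 4, (z m : L) * (θ j : L) ^ (m : ℕ)) =
              ((a0 + κ * a1 : ℚ) : L) * (((t : L) * π) ^ 2 *
                ∑ m : Fin 4, (z m : L) * (θ j : L) ^ (m : ℕ)) := by ring
          have h7 : π ^ 2 * ((c : L) * ∑ m : Fin 4,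
              ((aeval σ (Z 0 m) + κ * aeval σ (Z 1 m) : ℚ) : L) * (θ j : L) ^ (m : ℕ)) =
              (c : L) * (π ^ 2 * ∑ m : Fin 4,
              ((aeval σ (Z 0 m) + κ * aeval σ (Z 1 m) : ℚ) : L) * (θ j : L) ^ (m : ℕ)) := by ring
          rw [h6, ← hz, h7, ← hcomb, h5]
          ring
        exact (mul_eq_zero.mp hfin).resolve_left (pow_ne_zero _ hπ0)
      intro m
      have h := congrFun hkey m
      simp only [Pi.zero_apply] at h
      have h' : (z m : ℚ) * (a0 + κ * a1) * t ^ 2 -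
          c * (aeval σ (Z 0 m) + κ * aeval σ (Z 1 m)) = 0 := by
        exact_mod_cast h
      linarith

end Vale.Agent.P018.Q
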