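import Mathlib
import Vale.Agent.P018.Q.KappaDefs
import Vale.Agent.P018.Q.KappaND
import Vale.Agent.P018.Q.KappaPt
import Vale.Agent.P018.Q.KapD

/-! # P018, quartics: the kappa model of the surface attached to a rank two lattice. -/

namespace Vale.Agent.P018.Q

open Polynomial NumberField

variable {L : Type} [Field L] [NumberField L]

/-- existence of the kappa model, with heights bounded polynomially. -/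
theorem exists_kappa (G : ℤ[X]) (hG : G.Monic) (hGd : G.natDegree = 4)
    (hGi : Irreducible (G.map (Int.castRingHom ℚ))) (θ : Fin 4 → 𝓞 L)
    (hθ : Function.Injective θ) (hGθ : G.map (algebraMap ℤ (𝓞 L)) = ∏ i, (X - C (θ i))) :
    ∃ C0 : ℕ, ∀ (H : ℕ) (l1 l2 : Fin 4 → ℤ), 2 ≤ H → l1 ≠ 0 → (∀ j, |l1 j| ≤ H) →
      (∀ j, |l2 j| ≤ H) → NonDeg θ l1 l2 →
      ∃ (d : Fin 2 → ℕ) (A B : Fin 2 → ℤ[X]) (Z : Fin 2 → Fin 4 → ℤ[X]) (Λ : ℤ[X]) (c : ℤ),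
        KData θ l1 l2 d A B Z Λ c ∧ |c| ≤ (H : ℤ) ^ C0 ∧
        (∀ i k, |(A i).coeff k| ≤ (H : ℤ) ^ C0) ∧ (∀ i k, |(B i).coeff k| ≤ (H : ℤ) ^ C0) ∧
        (∀ i m k, |(Z i m).coeff k| ≤ (H : ℤ) ^ C0) ∧ (∀ k, |Λ.coeff k| ≤ (H : ℤ) ^ C0) := by
  exact exists_kappa' G hG hGd hGi θ hθ hGθ

/-- the point of the kappa model: `N = (B 0 + κ B 1) / (A 0 + κ A 1)` and
`γ = (c k1 / t²) (Z 0 + κ Z 1)` at `σ = s / t`, where `k1 = 1 / (A 0 + κ A 1)`. The case `k1 = 0` is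
`A 1 N = B 1`. -/
theorem kappa_point (G : ℤ[X]) (hG : G.Monic) (hGd : G.natDegree = 4)
    (hGi : Irreducible (G.map (Int.castRingHom ℚ))) (θ : Fin 4 → 𝓞 L)
    (hθ : Function.Injective θ) (hGθ : G.map (algebraMap ℤ (𝓞 L)) = ∏ i, (X - C (θ i)))
    {l1 l2 : Fin 4 → ℤ} {d : Fin 2 → ℕ} {A B : Fin 2 → ℤ[X]} {Z : Fin 2 → Fin 4 → ℤ[X]}
    {Λ : ℤ[X]} {e : ℤ} (hK : KData θ l1 l2 d A B Z Λ e) {N c s t : ℤ} {z : Fin 4 → ℤ}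
    (hc : c ≠ 0) (ht : t ≠ 0) (hy : ∀ j, K.ell (θ j) (s • l1 + t • l2) ≠ 0)
    (heq : ∀ i, (c : 𝓞 L) * ((N : 𝓞 L) - θ i) = K.ell (θ i) (s • l1 + t • l2) ^ 2 * K.ell (θ i) z) :
    (aeval ((s : ℚ) / t) (A 1) ≠ 0 ∧
      aeval ((s : ℚ) / t) (A 1) * (N : ℚ) = aeval ((s : ℚ) / t) (B 1)) ∨
    ∃ κ : ℚ, aeval ((s : ℚ) / t) (A 0) + κ * aeval ((s : ℚ) / t) (A 1) ≠ 0 ∧
      (aeval ((s : ℚ) / t) (A 0) + κ * aeval ((s : ℚ) / t) (A 1)) * (N : ℚ) =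
        aeval ((s : ℚ) / t) (B 0) + κ * aeval ((s : ℚ) / t) (B 1) ∧
      ∀ m, (z m : ℚ) * (aeval ((s : ℚ) / t) (A 0) + κ * aeval ((s : ℚ) / t) (A 1)) * t ^ 2 =
        c * (aeval ((s : ℚ) / t) (Z 0 m) + κ * aeval ((s : ℚ) / t) (Z 1 m)) := by
  exact kappa_point' θ hθ hK ht hy heq

/-- nondegeneracy, from `∏ π_j = p c'`. -/
theorem nonDeg_of_dat (G : ℤ[X]) (hG : G.Monic) (hGd : G.natDegree = 4)
    (hGi : Irreducible (G.map (Int.castRingHom ℚ))) (θ : Fin 4 → 𝓞 L)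
    (hθ : Function.Injective θ) (hGθ : G.map (algebraMap ℤ (𝓞 L)) = ∏ i, (X - C (θ i)))
    {l1 l2 : Fin 4 → ℤ} (hl : ∀ a b : ℤ, a • l1 + b • l2 = 0 → a = 0 ∧ b = 0) {s t c' N1 : ℤ} {p : ℕ}
    (hp : p.Prime) (hc' : c' ≠ 0) (hc'p : |c'| < p) (hN1 : ∏ j, K.ell (θ j) l1 = (N1 : 𝓞 L))
    (hN1p : |N1| < p)
    (hprod : ∏ j, K.ell (θ j) (s • l1 + t • l2) = (((p : ℤ) * c' : ℤ) : 𝓞 L)) :
    NonDeg θ l1 l2 ∧ t ≠ 0 :=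
  nonDeg_aux G hG hGd hGi θ hθ hGθ hl hp hc' hc'p hN1 hN1p hprod

end Vale.Agent.P018.Q
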