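import Mathlib
import Vale.Agent.P018.Q.Kappa
import Vale.Agent.P018.Q.Curve

/-! # P018, quartics, family (A): points over a fixed reduced pair; numerical conditions. -/

namespace Vale.Agent.P018.Q

open Polynomial NumberField Finset

/-- the common hypotheses on the number field and the conjugates. -/
structure Fld {L : Type} [Field L] [NumberField L] (G : ℤ[X]) (θ : Fin 4 → 𝓞 L) : Prop where
  monic : G.Monic
  deg : G.natDegree = 4
  irr : Irreducible (G.map (Int.castRingHom ℚ))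
  inj : Function.Injective θ
  split : G.map (algebraMap ℤ (𝓞 L)) = ∏ i, (X - C (θ i))

/-- the point `N` over the pair `(l1, l2)`. -/
structure Pt {L : Type} [Field L] [NumberField L] (θ : Fin 4 → 𝓞 L) (C : ℕ) (X T : ℝ)
    (l1 l2 : Fin 4 → ℤ) (N : ℤ) (p : ℕ) (c : ℤ) (z : Fin 4 → ℤ) (s t : ℤ) : Prop where
  dat : Dat θ C X T N p c (s • l1 + t • l2) z
  hs : (s : ℝ) ^ 2 * dot l1 l1 ≤ C * T ^ 2
  ht : (t : ℝ) ^ 2 * dot l2 l2 ≤ C * T ^ 2

/-- the identities of a point `(κ, σ) = (kn / kd, s / t)` of the kappa model. -/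
structure KP (A B : Fin 2 → ℤ[X]) (Z : Fin 2 → Fin 4 → ℤ[X]) (N c s t kn kd : ℤ)
    (z : Fin 4 → ℤ) : Prop where
  t0 : t ≠ 0
  k0 : kd ≠ 0
  cop : IsCoprime kn kd
  den : (kd * aeval ((s : ℚ) / t) (A 0) + kn * aeval ((s : ℚ) / t) (A 1)) ≠ 0
  eqN : (kd * aeval ((s : ℚ) / t) (A 0) + kn * aeval ((s : ℚ) / t) (A 1)) * (N : ℚ) =
    kd * aeval ((s : ℚ) / t) (B 0) + kn * aeval ((s : ℚ) / t) (B 1)
  eqz : ∀ m, (z m : ℚ) *
    (kd * aeval ((s : ℚ) / t) (A 0) + kn * aeval ((s : ℚ) / t) (A 1)) * t ^ 2 =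
    c * (kd * aeval ((s : ℚ) / t) (Z 0 m) + kn * aeval ((s : ℚ) / t) (Z 1 m))

/-- the numerical condition of the relation step at the exponents `T = X^w`, `|l1| = X^m1`,
`|l2| = X^m2`, `q = X^β`. -/
def NumRel (w m1 m2 β : ℝ) : Prop :=
  ∃ (M D Nd ν : ℕ) (ω : ℕ → ℝ) (δ : ℝ), 1 ≤ M ∧ 0 < δ ∧
    (∀ a ≤ Nd, ∀ a' ≤ a, ω a ≤ ω a') ∧
    (∀ a ≤ Nd, ω a + a + D * w + δ ≤ 4 * w * M + β * ν) ∧
    4 * ∑ α ∈ range (Nd + 1), ∑ b ∈ (range (D + 1)).filter (fun b => 2 * α + b < M),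
        max 0 (ω α + D * (m1 + m2) - b * m1) + β * ((Nd + 1) * (ν * (ν + 1) / 2)) + δ ≤
      ∑ a ∈ range (Nd + 1), ((D + 1) * ω a + D * (D + 1) / 2 * (m1 + m2))

/-- the numerical condition of the curve step (`R = 1.1 i`). -/
def NumCurve (w m1 β : ℝ) : Prop :=
  23.05 * (1 - 2 * w) + 12.1 * (w - m1) < 144.5 * β

end Vale.Agent.P018.Q
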