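import Mathlib
import Vale.Agent.P018.Q.PairDefs
import Vale.Agent.P018.Q.Lattice

/-! # P018, quartics, family (A): compactness in the exponents of the reduced pairs. -/

namespace Vale.Agent.P018.Q

open Polynomial NumberField Finset

variable {L : Type} [Field L] [NumberField L]

/-- the bound for the solutions whose exponents are in `s`. -/
def PairsOn (θ : Fin 4 → 𝓞 L) (C : ℕ) (w : ℝ) (s : Set (ℝ × ℝ)) : Prop :=
  ∃ ε : ℝ, 0 < ε ∧ ∃ k K : ℝ, 0 < k ∧ 1 < K ∧ ∀ (X T : ℝ) (S : Finset ℤ),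
    K ≤ X → X ≤ T ^ 4 → X ^ (w - ε) ≤ T → T ≤ X ^ (w + ε) →
    (∀ N ∈ S, ∃ (l1 l2 : Fin 4 → ℤ) (p : ℕ) (c : ℤ) (z : Fin 4 → ℤ) (u t : ℤ), Red l1 l2 ∧
      (dot l1 l1 : ℝ) * dot l2 l2 ≤ C * T ^ (4 / 3 : ℝ) ∧ Pt θ C X T l1 l2 N p c z u t ∧
      (Real.log (dot l1 l1) / (2 * Real.log X), Real.log (dot l2 l2) / (2 * Real.log X)) ∈ s) →
    (S.card : ℝ) ≤ k * X ^ (1 - ε)

/-- the exponents of a number. -/
theorem exp_of_log (X d m ε : ℝ) (hX : 1 < X) (hd : 0 < d)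
    (h : Real.log d / (2 * Real.log X) ∈ Set.Ioo (m - ε) (m + ε)) :
    X ^ (2 * (m - ε)) ≤ d ∧ d ≤ X ^ (2 * (m + ε)) := by
  have hl : 0 < Real.log X := Real.log_pos hX
  have hX0 : 0 < X := by linarith
  have h1 := (lt_div_iff₀ (by positivity)).1 h.1
  have h2 := (div_lt_iff₀ (by positivity)).1 h.2
  constructor
  · rw [← Real.log_le_log_iff (by positivity) hd, Real.log_rpow hX0]
    linarith
  · rw [← Real.log_le_log_iff hd (by positivity), Real.log_rpow hX0]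
    linarith

theorem pairsOn_empty (θ : Fin 4 → 𝓞 L) (C : ℕ) (w : ℝ) : PairsOn θ C w ∅ := by
  refine ⟨1, one_pos, 1, 2, one_pos, by norm_num, fun X T S h1 _ _ _ h => ?_⟩
  have h2 : S = ∅ := by
    rw [Finset.eq_empty_iff_forall_notMem]
    intro N hN
    obtain ⟨_, _, _, _, _, _, _, _, _, _, h'⟩ := h N hN
    exact absurd h' (Set.notMem_empty _)
  rw [h2, card_empty, Nat.cast_zero]
  have hX0 : 0 < X := by linarith
  positivity

theorem pairsOn_mono (θ : Fin 4 → 𝓞 L) (C : ℕ) (w : ℝ) {s t : Set (ℝ × ℝ)} (hst : s ⊆ t)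
    (ht : PairsOn θ C w t) : PairsOn θ C w s := by
  obtain ⟨ε, hε, k, K, hk, hK, h⟩ := ht
  refine ⟨ε, hε, k, K, hk, hK, fun X T S h1 h2 h3 h4 h5 => h X T S h1 h2 h3 h4 fun N hN => ?_⟩
  obtain ⟨l1, l2, p, c, z, u, t', a1, a2, a3, a4⟩ := h5 N hN
  exact ⟨l1, l2, p, c, z, u, t', a1, a2, a3, hst a4⟩

theorem pairsOn_union (θ : Fin 4 → 𝓞 L) (C : ℕ) (w : ℝ) {s t : Set (ℝ × ℝ)}
    (hs : PairsOn θ C w s) (ht : PairsOn θ C w t) : PairsOn θ C w (s ∪ t) := by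
  classical
  obtain ⟨ε1, hε1, k1, K1, hk1, hK1, h1⟩ := hs
  obtain ⟨ε2, hε2, k2, K2, hk2, hK2, h2⟩ := ht
  refine ⟨min ε1 ε2, lt_min hε1 hε2, k1 + k2, max K1 K2, by positivity, lt_max_of_lt_left hK1,
    fun X T S hX hXT hT1 hT2 hS => ?_⟩
  have hX1 : K1 ≤ X := (le_max_left _ _).trans hX
  have hX2 : K2 ≤ X := (le_max_right _ _).trans hX
  have hX0 : 1 ≤ X := by linarith
  have m1 := min_le_left ε1 ε2
  have m2 := min_le_right ε1 ε2
  obtain ⟨P, hP⟩ : ∃ P : ℤ → Prop, P = fun N => ∃ (l1 l2 : Fin 4 → ℤ) (p : ℕ) (c : ℤ)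
      (z : Fin 4 → ℤ) (u t : ℤ), Red l1 l2 ∧
      (dot l1 l1 : ℝ) * dot l2 l2 ≤ C * T ^ (4 / 3 : ℝ) ∧ Pt θ C X T l1 l2 N p c z u t ∧
      (Real.log (dot l1 l1) / (2 * Real.log X), Real.log (dot l2 l2) / (2 * Real.log X)) ∈ s :=
    ⟨_, rfl⟩
  have e1 := h1 X T (S.filter P) hX1 hXT
    ((Real.rpow_le_rpow_of_exponent_le hX0 (by linarith)).trans hT1)
    (hT2.trans (Real.rpow_le_rpow_of_exponent_le hX0 (by linarith))) (by
      intro N hN
      have := (mem_filter.1 hN).2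
      rw [hP] at this
      exact this)
  have e2 := h2 X T (S.filter fun N => ¬ P N) hX2 hXT
    ((Real.rpow_le_rpow_of_exponent_le hX0 (by linarith)).trans hT1)
    (hT2.trans (Real.rpow_le_rpow_of_exponent_le hX0 (by linarith))) (by
      intro N hN
      obtain ⟨hN1, hN2⟩ := mem_filter.1 hN
      obtain ⟨l1, l2, p, c, z, u, t', a1, a2, a3, a4⟩ := hS N hN1
      refine ⟨l1, l2, p, c, z, u, t', a1, a2, a3, ?_⟩
      rcases a4 with a4 | a4
      · exfalso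
        apply hN2
        rw [hP]
        exact ⟨l1, l2, p, c, z, u, t', a1, a2, a3, a4⟩
      · exact a4)
  have e3 : (S.card : ℝ) = ((S.filter P).card : ℝ) + ((S.filter fun N => ¬ P N).card : ℝ) := by
    rw [← Nat.cast_add, card_filter_add_card_filter_not]
  rw [e3, add_mul]
  refine add_le_add (e1.trans ?_) (e2.trans ?_)
  · exact mul_le_mul_of_nonneg_left (Real.rpow_le_rpow_of_exponent_le hX0 (by linarith)) hk1.le
  · exact mul_le_mul_of_nonneg_left (Real.rpow_le_rpow_of_exponent_le hX0 (by linarith)) hk2.le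

/-- from the local statement to the global one. -/
theorem all_of_local (θ : Fin 4 → 𝓞 L) (C : ℕ) (w : ℝ) (hw' : w ≤ 0.349)
    (hloc : ∀ m1 m2 : ℝ, 0 ≤ m1 → 0 ≤ m2 →
    ∃ ε : ℝ, 0 < ε ∧ ∃ K : ℝ, 0 < K ∧ ∀ (X T : ℝ) (S : Finset ℤ),
      K ≤ X → X ≤ T ^ 4 → X ^ (w - ε) ≤ T → T ≤ X ^ (w + ε) →
      (∀ N ∈ S, ∃ (l1 l2 : Fin 4 → ℤ) (p : ℕ) (c : ℤ) (z : Fin 4 → ℤ) (s t : ℤ), Red l1 l2 ∧
        (dot l1 l1 : ℝ) * dot l2 l2 ≤ C * T ^ (4 / 3 : ℝ) ∧ Pt θ C X T l1 l2 N p c z s t ∧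
        X ^ (2 * (m1 - ε)) ≤ dot l1 l1 ∧ (dot l1 l1 : ℝ) ≤ X ^ (2 * (m1 + ε)) ∧
        X ^ (2 * (m2 - ε)) ≤ dot l2 l2 ∧ (dot l2 l2 : ℝ) ≤ X ^ (2 * (m2 + ε))) →
      (S.card : ℝ) ≤ X ^ (1 - ε)) :
    ∃ ε : ℝ, 0 < ε ∧ ∃ K : ℝ, 0 < K ∧ ∀ (X T : ℝ) (S : Finset ℤ),
      K ≤ X → X ≤ T ^ 4 → X ^ (w - ε) ≤ T → T ≤ X ^ (w + ε) →
      (∀ N ∈ S, ∃ (l1 l2 : Fin 4 → ℤ) (p : ℕ) (c : ℤ) (z : Fin 4 → ℤ) (s t : ℤ), Red l1 l2 ∧
        (dot l1 l1 : ℝ) * dot l2 l2 ≤ C * T ^ (4 / 3 : ℝ) ∧ Pt θ C X T l1 l2 N p c z s t) →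
      (S.card : ℝ) ≤ X ^ (1 - ε) := by
  classical
  have hcomp : PairsOn θ C w (Set.Icc 0 1 ×ˢ Set.Icc 0 1) := by
    refine (isCompact_Icc.prod isCompact_Icc).induction_on (pairsOn_empty θ C w)
      (fun s t hst ht => pairsOn_mono θ C w hst ht) (fun s t hs ht => pairsOn_union θ C w hs ht) ?_
    intro m hm
    obtain ⟨ε, hε, K, hK, h⟩ := hloc m.1 m.2 hm.1.1 hm.2.1
    refine ⟨Set.Ioo (m.1 - ε) (m.1 + ε) ×ˢ Set.Ioo (m.2 - ε) (m.2 + ε),
      mem_nhdsWithin_of_mem_nhds (prod_mem_nhds (Ioo_mem_nhds (by linarith) (by linarith))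
        (Ioo_mem_nhds (by linarith) (by linarith))), ε, hε, 1, max K 2, one_pos,
      lt_max_of_lt_right (by norm_num), fun X T S hX hXT hT1 hT2 hS => ?_⟩
    have hXK : K ≤ X := (le_max_left _ _).trans hX
    have hX2 : 2 ≤ X := (le_max_right _ _).trans hX
    rw [one_mul]
    refine h X T S hXK hXT hT1 hT2 fun N hN => ?_
    obtain ⟨l1, l2, p, c, z, u, t', a1, a2, a3, a4⟩ := hS N hN
    have p1 : (0 : ℝ) < dot l1 l1 := by exact_mod_cast dot_pos a1.1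
    have p2 : (0 : ℝ) < dot l2 l2 := by
      have : dot l1 l1 ≤ dot l2 l2 := a1.2.1
      have : (dot l1 l1 : ℝ) ≤ dot l2 l2 := by exact_mod_cast this
      linarith
    obtain ⟨q1, q2⟩ := exp_of_log X (dot l1 l1) m.1 ε (by linarith) p1 a4.1
    obtain ⟨q3, q4⟩ := exp_of_log X (dot l2 l2) m.2 ε (by linarith) p2 a4.2
    exact ⟨l1, l2, p, c, z, u, t', a1, a2, a3, q1, q2, q3, q4⟩
  obtain ⟨ε, hε, k, K, hk, hK, h⟩ := hcomp
  refine ⟨min (ε / 2) (1 / 4), by positivity, max (max K (C + 2)) (k ^ (2 / ε)),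
    lt_max_of_lt_left (lt_max_of_lt_left (by linarith)), fun X T S hX hXT hT1 hT2 hS => ?_⟩
  have hXK : K ≤ X := (le_max_left _ _).trans ((le_max_left _ _).trans hX)
  have hXC : (C : ℝ) + 2 ≤ X := (le_max_right _ _).trans ((le_max_left _ _).trans hX)
  have hXk : k ^ (2 / ε) ≤ X := (le_max_right _ _).trans hX
  have hX1 : 1 < X := by linarith
  have hX0 : 0 < X := by linarith
  have m1 := min_le_left (ε / 2) (1 / 4 : ℝ)
  have m2 := min_le_right (ε / 2) (1 / 4 : ℝ)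
  have hT0 : 0 < T := lt_of_lt_of_le (by positivity) hT1
  have hl : 0 < Real.log X := Real.log_pos hX1
  have hTX : T ^ (4 / 3 : ℝ) ≤ X := by
    calc T ^ (4 / 3 : ℝ) ≤ (X ^ (w + min (ε / 2) (1 / 4))) ^ (4 / 3 : ℝ) :=
          Real.rpow_le_rpow hT0.le hT2 (by norm_num)
      _ = X ^ ((w + min (ε / 2) (1 / 4)) * (4 / 3)) := by rw [← Real.rpow_mul hX0.le]
      _ ≤ X ^ (1 : ℝ) := by
          apply Real.rpow_le_rpow_of_exponent_le hX1.le
          norm_num at hw'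
          linarith
      _ = X := Real.rpow_one X
  have e1 := h X T S hXK hXT
    ((Real.rpow_le_rpow_of_exponent_le hX1.le (by linarith)).trans hT1)
    (hT2.trans (Real.rpow_le_rpow_of_exponent_le hX1.le (by linarith))) (by
      intro N hN
      obtain ⟨l1, l2, p, c, z, u, t', a1, a2, a3⟩ := hS N hN
      refine ⟨l1, l2, p, c, z, u, t', a1, a2, a3, ?_⟩
      have p1 : (1 : ℝ) ≤ dot l1 l1 := by exact_mod_cast dot_pos a1.1
      have p3 : (dot l1 l1 : ℝ) ≤ dot l2 l2 := by exact_mod_cast a1.2.1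
      have p4 : (dot l2 l2 : ℝ) ≤ X ^ 2 := by
        have p5 : (dot l2 l2 : ℝ) ≤ dot l1 l1 * dot l2 l2 := by nlinarith
        have p6 : (C : ℝ) * T ^ (4 / 3 : ℝ) ≤ X * X :=
          mul_le_mul (by linarith) hTX (by positivity) hX0.le
        nlinarith
      have p7 : Real.log (dot l2 l2) ≤ 2 * Real.log X := by
        have := Real.log_le_log (by linarith) p4
        rw [Real.log_pow] at this
        exact_mod_cast this
      have p8 : Real.log (dot l1 l1) ≤ Real.log (dot l2 l2) := Real.log_le_log (by linarith) p3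
      have p9 : 0 ≤ Real.log (dot l1 l1) := Real.log_nonneg p1
      refine ⟨⟨?_, ?_⟩, ?_, ?_⟩
      · exact div_nonneg p9 (by positivity)
      · rw [div_le_one (by positivity)]
        linarith
      · exact div_nonneg (p9.trans p8) (by positivity)
      · rw [div_le_one (by positivity)]
        exact p7)
  refine e1.trans ?_
  have e2 : k ≤ X ^ (ε / 2) := by
    calc k = (k ^ (2 / ε)) ^ (ε / 2) := by
          rw [← Real.rpow_mul hk.le]
          have : 2 / ε * (ε / 2) = 1 := by field_simp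
          rw [this, Real.rpow_one]
      _ ≤ X ^ (ε / 2) := Real.rpow_le_rpow (by positivity) hXk (by positivity)
  calc k * X ^ (1 - ε) ≤ X ^ (ε / 2) * X ^ (1 - ε) :=
        mul_le_mul_of_nonneg_right e2 (by positivity)
    _ = X ^ (ε / 2 + (1 - ε)) := by rw [← Real.rpow_add hX0]
    _ ≤ X ^ (1 - min (ε / 2) (1 / 4)) := Real.rpow_le_rpow_of_exponent_le hX1.le (by linarith)

end Vale.Agent.P018.Q
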