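import Mathlib
import Vale.Agent.P018.Q.Defs
import Vale.Agent.P018.K.Final

/-! # P018, quartics: the data attached to the pairs `(n, p)`. -/

namespace Vale.Agent.P018.Q

open Polynomial NumberField Finset

/-! ### Sizes -/

theorem data_upper {R : Type*} [CommRing R] (ψ : R →+* ℂ) (t : R) (y : Fin 4 → ℤ) (B : ℝ)
    (hB : ∀ j, |(y j : ℝ)| ≤ B) : ‖ψ (K.ell t y)‖ ≤ B * ∑ j : Fin 4, ‖ψ t‖ ^ (j : ℕ) := by
  rw [K.loc_map_ell]
  unfold K.ell
  rw [mul_sum]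
  refine (norm_sum_le _ _).trans (sum_le_sum fun j _ => ?_)
  rw [norm_mul, norm_pow, Complex.norm_intCast]
  exact mul_le_mul_of_nonneg_right (hB j) (by positivity)

theorem data_low (x : Fin 4 → ℝ) (U W : ℝ) (h0 : ∀ i, 0 ≤ x i) (h1 : ∀ i, x i ≤ U) (hU : 0 < U)
    (hW : W ≤ ∏ i, x i) (i : Fin 4) : W / U ^ 3 ≤ x i := by
  rw [div_le_iff₀ (by positivity)]
  refine hW.trans ?_
  rw [← mul_prod_erase univ x (mem_univ i)]
  refine mul_le_mul_of_nonneg_left ?_ (h0 i)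
  calc ∏ j ∈ univ.erase i, x j ≤ ∏ _j ∈ univ.erase i, U :=
        prod_le_prod (fun j _ => h0 j) fun j _ => h1 j
    _ = U ^ 3 := by
        rw [prod_const, card_erase_of_mem (mem_univ i)]
        simp

theorem data_sizes {L : Type} [Field L] [NumberField L] (θ : Fin 4 → 𝓞 L) :
    ∃ A : ℝ, 1 ≤ A ∧ ∀ (φ : L →+* ℂ) (y : Fin 4 → ℤ) (B W : ℝ) (m : ℤ), 0 < B →
      (∀ j, |(y j : ℝ)| ≤ B) → ∏ i, K.ell (θ i) y = ((m : ℤ) : 𝓞 L) → W ≤ |(m : ℝ)| →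
      ∀ i, ‖φ (K.ell (θ i) y : 𝓞 L)‖ ≤ A * B ∧
        W / (A * B) ^ 3 ≤ ‖φ (K.ell (θ i) y : 𝓞 L)‖ := by
  classical
  refine ⟨1 + ∑ φ : L →+* ℂ, ∑ i, ∑ j : Fin 4, ‖φ (θ i : L)‖ ^ (j : ℕ), ?_, ?_⟩
  · have : 0 ≤ ∑ φ : L →+* ℂ, ∑ i, ∑ j : Fin 4, ‖φ (θ i : L)‖ ^ (j : ℕ) :=
      sum_nonneg fun _ _ => sum_nonneg fun _ _ => sum_nonneg fun _ _ => by positivity
    linarith
  intro φ y B W m hB hy hm hW
  set A : ℝ := 1 + ∑ φ : L →+* ℂ, ∑ i, ∑ j : Fin 4, ‖φ (θ i : L)‖ ^ (j : ℕ) with hA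
  have hAi : ∀ i, ∑ j : Fin 4, ‖φ (θ i : L)‖ ^ (j : ℕ) ≤ A := by
    intro i
    have h1 : ∑ j : Fin 4, ‖φ (θ i : L)‖ ^ (j : ℕ) ≤ ∑ i, ∑ j : Fin 4, ‖φ (θ i : L)‖ ^ (j : ℕ) :=
      single_le_sum (f := fun i => ∑ j : Fin 4, ‖φ (θ i : L)‖ ^ (j : ℕ))
        (fun _ _ => sum_nonneg fun _ _ => by positivity) (mem_univ i)
    have h2 : ∑ i, ∑ j : Fin 4, ‖φ (θ i : L)‖ ^ (j : ℕ) ≤
        ∑ φ : L →+* ℂ, ∑ i, ∑ j : Fin 4, ‖φ (θ i : L)‖ ^ (j : ℕ) :=
      single_le_sum (f := fun φ : L →+* ℂ => ∑ i, ∑ j : Fin 4, ‖φ (θ i : L)‖ ^ (j : ℕ))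
        (fun _ _ => sum_nonneg fun _ _ => sum_nonneg fun _ _ => by positivity) (mem_univ φ)
    linarith
  have hA1 : 1 ≤ A := by
    have : 0 ≤ ∑ φ : L →+* ℂ, ∑ i, ∑ j : Fin 4, ‖φ (θ i : L)‖ ^ (j : ℕ) :=
      sum_nonneg fun _ _ => sum_nonneg fun _ _ => sum_nonneg fun _ _ => by positivity
    linarith
  have hup : ∀ i, ‖φ (K.ell (θ i) y : 𝓞 L)‖ ≤ A * B := by
    intro i
    have h1 := data_upper (φ.comp (algebraMap (𝓞 L) L)) (θ i) y B hy
    have h2 : B * ∑ j : Fin 4, ‖(φ.comp (algebraMap (𝓞 L) L)) (θ i)‖ ^ (j : ℕ) ≤ B * A :=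
      mul_le_mul_of_nonneg_left (hAi i) hB.le
    have h3 : ‖(φ.comp (algebraMap (𝓞 L) L)) (K.ell (θ i) y)‖ ≤ A * B := by
      rw [mul_comm A B]
      exact h1.trans h2
    exact h3
  intro i
  refine ⟨hup i, data_low (fun i => ‖φ (K.ell (θ i) y : 𝓞 L)‖) (A * B) W
    (fun i => norm_nonneg _) hup (by positivity) ?_ i⟩
  have h1 : ∏ i, ‖φ (K.ell (θ i) y : 𝓞 L)‖ = |(m : ℝ)| := by
    rw [← norm_prod]
    have h2 : ∏ i, φ ((K.ell (θ i) y : 𝓞 L) : L) =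
        (φ.comp (algebraMap (𝓞 L) L)) (∏ i, K.ell (θ i) y) := by
      rw [map_prod]
      rfl
    rw [h2, hm, map_intCast, Complex.norm_intCast]
  rw [h1]
  exact hW

/-- lower bounds for the conjugates. -/
theorem dat_lower {L : Type} [Field L] [NumberField L] (θ : Fin 4 → 𝓞 L) (C : ℕ) :
    ∃ K1 : ℝ, 0 < K1 ∧ ∀ (X T : ℝ) (N : ℤ) (p : ℕ) (c : ℤ) (y z : Fin 4 → ℤ), 1 ≤ T →
      Dat θ C X T N p c y z → ∀ (φ : L →+* ℂ) (i : Fin 4),
        K1 * T ≤ ‖φ (K.ell (θ i) y : 𝓞 L)‖ ∧ ‖φ (K.ell (θ i) y : 𝓞 L)‖ ≤ K1⁻¹ * T := by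
  obtain ⟨A, hA1, hA⟩ := data_sizes θ
  have hC0 : (0 : ℝ) ≤ C := Nat.cast_nonneg C
  have hU : 1 ≤ A * (C + 1) := by nlinarith
  refine ⟨((A * (C + 1)) ^ 3)⁻¹, by positivity, ?_⟩
  intro X T N p c y z hT hd φ i
  have hT0 : 0 < T := by linarith
  have hC1 : (1 : ℝ) ≤ C := by
    have h1 := Int.one_le_abs hd.c0
    have h2 := hd.cC
    have h3 : (1 : ℤ) ≤ C := by omega
    exact_mod_cast h3
  obtain ⟨c', hc'0, -, hc'⟩ := hd.nrm
  have hW : T ^ 4 ≤ |(((p : ℤ) * c' : ℤ) : ℝ)| := by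
    push_cast
    rw [abs_mul, abs_of_nonneg (show (0 : ℝ) ≤ (p : ℝ) by positivity)]
    have h1 : (1 : ℝ) ≤ |(c' : ℝ)| := by exact_mod_cast Int.one_le_abs hc'0
    have h2 := hd.lo
    have h3 : (0 : ℝ) ≤ p := by positivity
    nlinarith
  obtain ⟨h1, h2⟩ := hA φ y (C * T) (T ^ 4) _ (by positivity) hd.hy hc' hW i
  have hAC : 0 < A * (C * T) := by positivity
  constructor
  · refine le_trans ?_ h2
    rw [le_div_iff₀ (by positivity)]
    have h3 : (A * (C * T)) ^ 3 ≤ (A * (C + 1)) ^ 3 * T ^ 3 := by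
      rw [← mul_pow]
      apply pow_le_pow_left₀ hAC.le
      nlinarith [mul_pos (show 0 < A by linarith) hT0]
    calc ((A * (C + 1)) ^ 3)⁻¹ * T * (A * (C * T)) ^ 3
        ≤ ((A * (C + 1)) ^ 3)⁻¹ * T * ((A * (C + 1)) ^ 3 * T ^ 3) :=
          mul_le_mul_of_nonneg_left h3 (by positivity)
      _ = T ^ 4 := by field_simp
  · refine h1.trans ?_
    rw [inv_inv]
    have h3 : A * (C + 1) ≤ (A * (C + 1)) ^ 3 := le_self_pow₀ hU (by norm_num)
    have h4 : A * (C * T) ≤ A * (C + 1) * T := by nlinarith [mul_pos (show 0 < A by linarith) hT0]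
    exact h4.trans (mul_le_mul_of_nonneg_right h3 hT0.le)

/-- to bound the number of pairs it is enough to bound the number of `N = a0 n`. -/
theorem pairs_le (f : ℤ[X]) (hirr : Irreducible (f.map (Int.castRingHom ℚ)))
    (hd : f.natDegree = 4) (a0 : ℤ) (ha0 : a0 ≠ 0) : ∃ X1 : ℕ, ∀ X P : ℕ, X1 ≤ X → X ≤ P →
    (pairs f 2 X P).card ≤ 4 * ((pairs f 2 X P).image (fun w => a0 * (w.1 : ℤ))).card := by
  classical
  obtain ⟨X1, hX1⟩ := K.loc_mult_p f hirr (by omega) 2 (by norm_num)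
  refine ⟨X1, fun X P h1 h2 => ?_⟩
  refine card_le_mul_card_image _ 4 ?_
  intro b hb
  obtain ⟨w, hw, rfl⟩ := mem_image.1 hb
  refine le_trans (card_le_card ?_) ((hX1 X P h1 h2 w.1).trans hd.le)
  intro v hv
  rw [mem_filter] at hv ⊢
  refine ⟨hv.1, ?_⟩
  have := mul_left_cancel₀ ha0 hv.2
  exact_mod_cast this

/-! ### Interpolation -/

/-- the value of the derivative of the polynomial at the node. -/
def dval {R : Type*} [CommRing R] (θ : Fin 4 → R) (i : Fin 4) : R :=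
  ∏ j ∈ univ.erase i, (θ i - θ j)

/-- the interpolation polynomial. -/
noncomputable def ipol {R : Type*} [CommRing R] (θ : Fin 4 → R) (i : Fin 4) : R[X] :=
  C (∏ k ∈ univ.erase i, dval θ k) * ∏ j ∈ univ.erase i, (X - C (θ j))

theorem ipol_eval {R : Type*} [CommRing R] (θ : Fin 4 → R) (i l : Fin 4) :
    (ipol θ i).eval (θ l) = if l = i then ∏ k, dval θ k else 0 := by
  unfold ipol
  rw [eval_mul, eval_C, eval_prod]
  simp only [eval_sub, eval_X, eval_C]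
  split_ifs with h
  · subst h
    rw [← mul_prod_erase univ (fun k => dval θ k) (mem_univ l), mul_comm]
    rfl
  · have h1 : ∏ j ∈ univ.erase i, (θ l - θ j) = 0 :=
      prod_eq_zero (mem_erase.2 ⟨h, mem_univ l⟩) (sub_self _)
    rw [h1, mul_zero]

theorem ipol_degree {R : Type*} [CommRing R] [IsDomain R] (θ : Fin 4 → R) (i : Fin 4) :
    (ipol θ i).natDegree ≤ 3 := by
  unfold ipol
  refine natDegree_C_mul_le _ _ |>.trans ?_
  rw [natDegree_prod_of_monic _ _ fun j _ => monic_X_sub_C _]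
  simp [card_erase_of_mem]

/-- the interpolating polynomial of the values `γ`. -/
noncomputable def hpol {R : Type*} [CommRing R] (θ γ : Fin 4 → R) : R[X] :=
  ∑ i, C (γ i) * ipol θ i

theorem hpol_eval {R : Type*} [CommRing R] (θ γ : Fin 4 → R) (l : Fin 4) :
    (hpol θ γ).eval (θ l) = (∏ k, dval θ k) * γ l := by
  unfold hpol
  rw [eval_finsetSum, sum_eq_single l]
  · rw [eval_mul, eval_C, ipol_eval, if_pos rfl, mul_comm]
  · intro b _ hb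
    rw [eval_mul, eval_C, ipol_eval, if_neg (Ne.symm hb), mul_zero]
  · simp

theorem hpol_degree {R : Type*} [CommRing R] [IsDomain R] (θ γ : Fin 4 → R) :
    (hpol θ γ).natDegree ≤ 3 := by
  unfold hpol
  refine natDegree_sum_le_of_forall_le _ _ fun i _ => ?_
  exact (natDegree_C_mul_le _ _).trans (ipol_degree θ i)

/-- the product of the derivatives is an integer. -/
theorem dval_prod {R : Type*} [CommRing R] [IsDomain R] {G : ℤ[X]} (hGd : G.natDegree = 4)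
    (θ : Fin 4 → R) (hθ : G.map (algebraMap ℤ R) = ∏ i, (X - C (θ i))) :
    ∃ D : ℤ, (D : R) = ∏ k, dval θ k := by
  refine ⟨_, (K.sm_resultant hGd θ hθ (derivative G)).trans ?_⟩
  refine prod_congr rfl fun i _ => ?_
  rw [← derivative_map, hθ]
  have h := Lagrange.eval_nodal_derivative_eval_node_eq (s := (univ : Finset (Fin 4))) (v := θ)
    (mem_univ i)
  unfold Lagrange.nodal at h
  rw [h, eval_prod]
  simp [dval]

/-- a family of conjugates is given by a rational polynomial. -/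
theorem data_conj {L : Type} [Field L] [NumberField L] {G : ℤ[X]} (hG : G.Monic)
    (hGd : G.natDegree = 4) (hGi : Irreducible (G.map (Int.castRingHom ℚ)))
    (θ : Fin 4 → 𝓞 L) (hθ : G.map (algebraMap ℤ (𝓞 L)) = ∏ i, (X - C (θ i)))
    (y : Fin 4 → ℤ) (hy : y ≠ 0) (c N : ℤ) (γ : Fin 4 → 𝓞 L)
    (h : ∀ i, (c : 𝓞 L) ^ 2 * ((N : 𝓞 L) - θ i) = K.ell (θ i) y ^ 2 * γ i) :
    ∃ q : ℚ[X], q.natDegree ≤ 3 ∧ ∀ i, aeval (θ i : L) q = (γ i : L) := by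
  have hinj : Function.Injective (Int.castRingHom ℚ) := Int.cast_injective
  have hGm : (G.map (Int.castRingHom ℚ)).Monic := hG.map _
  have h2 : (G.map (Int.castRingHom ℚ)).natDegree = G.natDegree :=
    natDegree_map_eq_of_injective hinj G
  have h3 : ((K.smPoly y).map (Int.castRingHom ℚ)).natDegree = (K.smPoly y).natDegree :=
    natDegree_map_eq_of_injective hinj _
  have h0 : K.smPoly y ≠ 0 := K.sm_ne_zero hy
  have hcop : IsCoprime (G.map (Int.castRingHom ℚ)) ((K.smPoly y).map (Int.castRingHom ℚ)) := by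
    rw [hGi.coprime_iff_not_dvd]
    intro hdvd
    have h4 : (K.smPoly y).map (Int.castRingHom ℚ) ≠ 0 := (Polynomial.map_ne_zero_iff hinj).2 h0
    have h5 := Polynomial.natDegree_le_of_dvd hdvd h4
    rw [h2, h3, hGd] at h5
    have hh := K.sm_degree y
    rw [Polynomial.degree_eq_natDegree h0] at hh
    have h6 : (K.smPoly y).natDegree < 4 := by exact_mod_cast hh
    omega
  obtain ⟨v, u, huv⟩ := hcop
  have hroot : ∀ i, aeval (θ i : L) (G.map (Int.castRingHom ℚ)) = 0 := by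
    intro i
    have e1 : (G.map (algebraMap ℤ (𝓞 L))).eval (θ i) = 0 := by
      rw [hθ, eval_prod]
      exact prod_eq_zero (mem_univ i) (by simp)
    have e2 : aeval (θ i : L) (G.map (Int.castRingHom ℚ)) =
        algebraMap (𝓞 L) L ((G.map (algebraMap ℤ (𝓞 L))).eval (θ i)) := by
      rw [aeval_def, eval₂_map, eval_map, hom_eval₂]
      congr 1
      exact RingHom.ext_int _ _
    rw [e2, e1, map_zero]
  have hell : ∀ i, aeval (θ i : L) ((K.smPoly y).map (Int.castRingHom ℚ)) =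
      ((K.ell (θ i) y : 𝓞 L) : L) := by
    intro i
    rw [← K.sm_eval y (θ i)]
    have e2 : aeval (θ i : L) ((K.smPoly y).map (Int.castRingHom ℚ)) =
        algebraMap (𝓞 L) L (((K.smPoly y).map (algebraMap ℤ (𝓞 L))).eval (θ i)) := by
      rw [aeval_def, eval₂_map, eval_map, hom_eval₂]
      congr 1
      exact RingHom.ext_int _ _
    rw [e2]
  have hu : ∀ i, aeval (θ i : L) u * ((K.ell (θ i) y : 𝓞 L) : L) = 1 := by
    intro i
    have e1 := congrArg (aeval (θ i : L)) huv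
    rw [map_add, map_mul, map_mul, hroot, mul_zero, zero_add, hell, map_one] at e1
    exact e1
  set q0 : ℚ[X] := C ((c : ℚ) ^ 2) * (C (N : ℚ) - X) * u ^ 2 with hq0
  refine ⟨q0 %ₘ (G.map (Int.castRingHom ℚ)), ?_, ?_⟩
  · have hdeg := natDegree_modByMonic_lt q0 hGm (by
      intro h1
      have := congrArg natDegree h1
      rw [h2, hGd] at this
      simp at this)
    omega
  · intro i
    rw [aeval_modByMonic_eq_self_of_root (hroot i), hq0]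
    simp only [map_mul, map_sub, map_pow, aeval_X, aeval_C]
    have e1 := congrArg (algebraMap (𝓞 L) L) (h i)
    simp only [map_mul, map_sub, map_pow, map_intCast] at e1 ⊢
    have e2 := hu i
    calc (c : L) ^ 2 * ((N : L) - (θ i : L)) * (aeval (θ i : L) u) ^ 2
        = ((K.ell (θ i) y : 𝓞 L) : L) ^ 2 * (γ i : L) * (aeval (θ i : L) u) ^ 2 := by rw [e1]
      _ = (aeval (θ i : L) u * ((K.ell (θ i) y : 𝓞 L) : L)) ^ 2 * (γ i : L) := by ring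
      _ = (γ i : L) := by rw [e2, one_pow, one_mul]

/-- the coordinates. -/
theorem data_coord {L : Type} [Field L] [NumberField L] (θ : Fin 4 → 𝓞 L)
    (hinj : Function.Injective θ) (D : ℤ)
    (hD : (D : 𝓞 L) = ∏ k, dval θ k) (γ : Fin 4 → 𝓞 L) (q : ℚ[X]) (hq : q.natDegree ≤ 3)
    (hqγ : ∀ i, aeval (θ i : L) q = (γ i : L)) :
    ∃ z : Fin 4 → ℤ, (∀ j : Fin 4, (hpol θ γ).coeff j = ((z j : ℤ) : 𝓞 L)) ∧
      ∀ i, (D : 𝓞 L) * γ i = K.ell (θ i) z := by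
  have hinjL : Function.Injective (algebraMap (𝓞 L) L) := RingOfIntegers.coe_injective
  have h1 : (hpol θ γ).map (algebraMap (𝓞 L) L) = (C (D : ℚ) * q).map (algebraMap ℚ L) := by
    apply Polynomial.eq_of_degrees_lt_of_eval_index_eq (v := fun i => (θ i : L)) (univ : Finset (Fin 4))
    · intro i _ j _ hij
      exact hinj (hinjL hij)
    · rw [card_univ, Fintype.card_fin]
      refine lt_of_le_of_lt (degree_map_le.trans degree_le_natDegree) ?_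
      have := hpol_degree θ γ
      exact_mod_cast (by omega : (hpol θ γ).natDegree < 4)
    · rw [card_univ, Fintype.card_fin]
      refine lt_of_le_of_lt (degree_map_le.trans degree_le_natDegree) ?_
      have := (natDegree_C_mul_le (D : ℚ) q).trans hq
      exact_mod_cast (by omega : (C (D : ℚ) * q).natDegree < 4)
    · intro i _
      have e1 : eval (θ i : L) ((hpol θ γ).map (algebraMap (𝓞 L) L)) =
          algebraMap (𝓞 L) L ((hpol θ γ).eval (θ i)) := by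
        rw [eval_map]
        exact eval₂_at_apply (algebraMap (𝓞 L) L) (θ i)
      have e2 : eval (θ i : L) ((C (D : ℚ) * q).map (algebraMap ℚ L)) = (D : L) * (γ i : L) := by
        rw [Polynomial.map_mul, eval_mul, map_C, eval_C, eval_map, ← aeval_def, hqγ, map_intCast]
      rw [e1, e2, hpol_eval, ← hD, map_mul, map_intCast]
  have h2 : ∀ j : Fin 4, ∃ z : ℤ, (hpol θ γ).coeff j = ((z : ℤ) : 𝓞 L) := by
    intro j
    have e1 := congrArg (fun p => p.coeff (j : ℕ)) h1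
    simp only [coeff_map, coeff_C_mul] at e1
    have e2 : IsIntegral ℤ (algebraMap ℚ L ((D : ℚ) * q.coeff j)) := by
      rw [← e1]
      exact ((hpol θ γ).coeff j).2
    have e3 : IsIntegral ℤ ((D : ℚ) * q.coeff j) :=
      (isIntegral_algebraMap_iff (algebraMap ℚ L).injective).1 e2
    obtain ⟨z, hz⟩ := IsIntegrallyClosed.isIntegral_iff.1 e3
    refine ⟨z, hinjL ?_⟩
    rw [e1, ← hz, map_intCast]
    simp
  choose z hz using h2
  refine ⟨z, hz, fun i => ?_⟩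
  rw [hD, ← hpol_eval, eval_eq_sum_range' (n := 4) (by have := hpol_degree θ γ; omega),
    Finset.sum_range]
  unfold K.ell
  exact sum_congr rfl fun j _ => by rw [hz]

/-- the data of all pairs `(n, p)` with `p² ∣ f(n)`, `p ~ P ≥ X`. -/
theorem exists_dat (f : ℤ[X]) (hirr : Irreducible (f.map (Int.castRingHom ℚ)))
    (hd : f.natDegree = 4) :
    ∃ (L : Type) (_ : Field L) (_ : NumberField L) (θ : Fin 4 → 𝓞 L) (G : ℤ[X]) (a0 : ℤ) (C1 : ℕ),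
      a0 ≠ 0 ∧ G.Monic ∧ G.natDegree = 4 ∧ Irreducible (G.map (Int.castRingHom ℚ)) ∧
      Function.Injective θ ∧ G.map (algebraMap ℤ (𝓞 L)) = ∏ i, (X - C (θ i)) ∧
      ∀ X P : ℕ, C1 ≤ X → X ≤ P → ∀ w ∈ pairs f 2 X P, ∃ (c : ℤ) (y z : Fin 4 → ℤ),
        Dat θ C1 X ((P : ℝ) ^ (1 / 4 : ℝ)) (a0 * w.1) w.2 c y z := by
  classical
  have h0 := K.exists_field f hirr (by omega)
  rw [hd] at h0
  obtain ⟨L, _, _, θ, G, a0, ha0, hGm, hGd, hGi, hθi, hθ, hGe⟩ := h0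
  obtain ⟨Cs, hCs1, hsmall⟩ := K.exists_small L (by norm_num) G hGm hGd hGi θ hθ 2 (by norm_num)
  obtain ⟨D, hD⟩ := dval_prod hGd θ hθ
  obtain ⟨A, hA1, hA⟩ := data_sizes θ
  obtain ⟨σ⟩ : Nonempty (L →+* ℂ) := inferInstance
  obtain ⟨ψ, hψ⟩ : ∃ ψ : 𝓞 L →+* ℂ, ∀ x : 𝓞 L, ψ x = σ x :=
    ⟨σ.comp (algebraMap (𝓞 L) L), fun _ => rfl⟩
  have hD0 : D ≠ 0 := by
    rintro rfl
    have h1 : ∏ k, dval θ k ≠ 0 := by
      refine prod_ne_zero_iff.2 fun k _ => prod_ne_zero_iff.2 fun j hj => ?_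
      rw [sub_ne_zero]
      exact fun h => (mem_erase.1 hj).1 (hθi h).symm
    exact h1 (by rw [← hD]; simp)
  -- the constants
  obtain ⟨E, hE⟩ : ∃ E : ℝ, E = ∑ i, ∑ j : Fin 4, ‖ψ ((ipol θ i).coeff j)‖ := ⟨_, rfl⟩
  obtain ⟨M, hM⟩ : ∃ M : ℝ, M = ∑ i, ‖ψ (θ i)‖ := ⟨_, rfl⟩
  have hE0 : 0 ≤ E := by
    rw [hE]
    exact sum_nonneg fun _ _ => sum_nonneg fun _ _ => norm_nonneg _
  have hM0 : 0 ≤ M := by
    rw [hM]
    exact sum_nonneg fun _ _ => norm_nonneg _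
  have hMi : ∀ i, ‖ψ (θ i)‖ ≤ M := by
    intro i
    rw [hM]
    exact single_le_sum (f := fun i => ‖ψ (θ i)‖) (fun _ _ => norm_nonneg _) (mem_univ i)
  obtain ⟨KZ, hKZ⟩ : ∃ KZ : ℝ, KZ = (Cs : ℝ) ^ 2 * (|(a0 : ℝ)| + M) * (A * 2) ^ 6 * E :=
    ⟨_, rfl⟩
  refine ⟨L, inferInstance, inferInstance, θ, G, a0,
    Cs ^ 2 * D.natAbs + Cs + 2 + a0.natAbs + ⌈KZ⌉₊, ha0, hGm, hGd, hGi, hθi, hθ, ?_⟩
  intro X P hX hXP w hw
  rw [pairs, mem_filter, mem_product, mem_Icc, mem_Ioc] at hw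
  obtain ⟨⟨⟨hw1, hw2⟩, hw3, hw4⟩, hwp, hwd⟩ := hw
  obtain ⟨T, hT⟩ : ∃ T : ℝ, T = (P : ℝ) ^ (1 / 4 : ℝ) := ⟨_, rfl⟩
  rw [← hT]
  have hX2 : 2 ≤ X := by omega
  have hP1 : (1 : ℝ) ≤ P := by exact_mod_cast (by omega : 1 ≤ P)
  have hT1 : 1 ≤ T := by
    rw [hT]
    exact Real.one_le_rpow hP1 (by norm_num)
  have hT4 : T ^ 4 = P := by
    rw [hT, ← Real.rpow_natCast, ← Real.rpow_mul (by linarith)]
    norm_num
  obtain ⟨y, c, γ, hy0, hyp, hc0, hcC, hprod, heq⟩ := hsmall w.2 (a0 * w.1) hwp (by omega) (by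
    rw [hGe]
    exact hwd.mul_left _)
  obtain ⟨q, hq, hqγ⟩ := data_conj hGm hGd hGi θ hθ y hy0 c (a0 * w.1) γ heq
  obtain ⟨z, hz1, hz2⟩ := data_coord θ hθi D hD γ q hq hqγ
  have hXr : (1 : ℝ) ≤ X := by exact_mod_cast (by omega : 1 ≤ X)
  have hyT : ∀ j, |(y j : ℝ)| ≤ 2 * T := by
    intro j
    have h10 : |(y j : ℝ)| ^ 4 ≤ (2 * T) ^ 4 := by
      have h11 : (|(y j : ℝ)|) ^ 4 ≤ (w.2 : ℝ) := by exact_mod_cast hyp j
      have h12 : (w.2 : ℝ) ≤ 2 * P := by exact_mod_cast hw4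
      rw [mul_pow, hT4]
      nlinarith
    exact (pow_le_pow_iff_left₀ (abs_nonneg _) (by linarith) (by norm_num)).1 h10
  have hlo : T ^ 4 ≤ (w.2 : ℝ) := by
    rw [hT4]
    exact_mod_cast hw3.le
  have hW : T ^ 4 ≤ |(((w.2 : ℤ) * c : ℤ) : ℝ)| := by
    push_cast
    rw [abs_mul, abs_of_nonneg (show (0 : ℝ) ≤ (w.2 : ℝ) by positivity)]
    have h1 : (1 : ℝ) ≤ |(c : ℝ)| := by exact_mod_cast Int.one_le_abs hc0
    have h3 : (0 : ℝ) ≤ w.2 := by positivity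
    nlinarith
  have hsz : ∀ i, T ^ 4 / (A * (2 * T)) ^ 3 ≤ ‖ψ (K.ell (θ i) y)‖ := by
    intro i
    rw [hψ]
    exact (hA σ y (2 * T) (T ^ 4) _ (by positivity) hyT hprod hW i).2
  have hcr : |(c : ℝ)| ≤ Cs := by exact_mod_cast hcC
  have hNr : ‖ψ (((a0 * w.1 : ℤ) : 𝓞 L))‖ ≤ |(a0 : ℝ)| * X := by
    rw [map_intCast, Complex.norm_intCast]
    push_cast
    rw [abs_mul, abs_of_nonneg (show (0 : ℝ) ≤ (w.1 : ℝ) by positivity)]
    exact mul_le_mul_of_nonneg_left (by exact_mod_cast hw2) (abs_nonneg _)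
  -- the size of `γ`
  have hγ : ∀ i, ‖ψ (γ i)‖ ≤ (Cs : ℝ) ^ 2 * (|(a0 : ℝ)| + M) * (A * 2) ^ 6 * (X / T ^ 2) := by
    intro i
    have e1 := congrArg (fun x => ‖ψ x‖) (heq i)
    simp only [map_mul, map_pow, map_sub, norm_mul, norm_pow] at e1
    have e2 : ‖ψ ((a0 * w.1 : ℤ) : 𝓞 L) - ψ (θ i)‖ ≤ (|(a0 : ℝ)| + M) * X := by
      have e3 := hMi i
      refine (norm_sub_le _ _).trans ?_
      nlinarith
    have e4 : ‖ψ (c : 𝓞 L)‖ ≤ Cs := by
      rw [map_intCast, Complex.norm_intCast]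
      exact hcr
    have e5 : T / (A * 2) ^ 3 ≤ ‖ψ (K.ell (θ i) y)‖ := by
      refine le_trans (le_of_eq ?_) (hsz i)
      have : T ≠ 0 := by linarith
      have : A ≠ 0 := by linarith
      field_simp
      try ring
    have e6 : 0 < T / (A * 2) ^ 3 := by positivity
    have e7 : (T / (A * 2) ^ 3) ^ 2 * ‖ψ (γ i)‖ ≤ (Cs : ℝ) ^ 2 * ((|(a0 : ℝ)| + M) * X) := by
      calc (T / (A * 2) ^ 3) ^ 2 * ‖ψ (γ i)‖ ≤ ‖ψ (K.ell (θ i) y)‖ ^ 2 * ‖ψ (γ i)‖ :=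
            mul_le_mul_of_nonneg_right (pow_le_pow_left₀ e6.le e5 2) (norm_nonneg _)
        _ = ‖ψ (c : 𝓞 L)‖ ^ 2 * ‖ψ ((a0 * w.1 : ℤ) : 𝓞 L) - ψ (θ i)‖ := e1.symm
        _ ≤ _ := mul_le_mul (pow_le_pow_left₀ (norm_nonneg _) e4 2) e2 (norm_nonneg _)
            (by positivity)
    have e8 : ‖ψ (γ i)‖ = (T / (A * 2) ^ 3) ^ 2 * ‖ψ (γ i)‖ * ((A * 2) ^ 6 / T ^ 2) := by
      have : T ≠ 0 := by linarith
      have : A ≠ 0 := by linarith
      field_simp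
      try ring
    rw [e8]
    calc (T / (A * 2) ^ 3) ^ 2 * ‖ψ (γ i)‖ * ((A * 2) ^ 6 / T ^ 2)
        ≤ (Cs : ℝ) ^ 2 * ((|(a0 : ℝ)| + M) * X) * ((A * 2) ^ 6 / T ^ 2) :=
          mul_le_mul_of_nonneg_right e7 (by positivity)
      _ = _ := by ring
  have hzT : ∀ j, |(z j : ℝ)| ≤ KZ * X / T ^ 2 := by
    intro j
    have e1 : |(z j : ℝ)| = ‖ψ ((hpol θ γ).coeff j)‖ := by
      rw [hz1 j, map_intCast, Complex.norm_intCast]
    rw [e1]
    unfold hpol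
    rw [finsetSum_coeff, map_sum]
    refine (norm_sum_le _ _).trans ?_
    have e2 : ∀ i ∈ (univ : Finset (Fin 4)), ‖ψ ((C (γ i) * ipol θ i).coeff j)‖ ≤
        (Cs : ℝ) ^ 2 * (|(a0 : ℝ)| + M) * (A * 2) ^ 6 * (X / T ^ 2) *
          ∑ j : Fin 4, ‖ψ ((ipol θ i).coeff j)‖ := by
      intro i _
      rw [coeff_C_mul, map_mul, norm_mul]
      exact mul_le_mul (hγ i) (single_le_sum (f := fun j : Fin 4 => ‖ψ ((ipol θ i).coeff j)‖)
        (fun _ _ => norm_nonneg _) (mem_univ j)) (norm_nonneg _) (by positivity)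
    refine (sum_le_sum e2).trans ?_
    rw [← mul_sum, ← hE, hKZ]
    apply le_of_eq
    ring
  refine ⟨c ^ 2 * D, y, z, ?_⟩
  have hKZc : KZ ≤ ((Cs ^ 2 * D.natAbs + Cs + 2 + a0.natAbs + ⌈KZ⌉₊ : ℕ) : ℝ) := by
    have e1 := Nat.le_ceil KZ
    have e2 : (⌈KZ⌉₊ : ℝ) ≤ ((Cs ^ 2 * D.natAbs + Cs + 2 + a0.natAbs + ⌈KZ⌉₊ : ℕ) : ℝ) := by
      exact_mod_cast Nat.le_add_left _ _
    linarith
  constructor
  · exact hwp
  · exact hlo
  · rw [hT4]
    exact_mod_cast hw4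
  · exact mul_ne_zero (pow_ne_zero 2 hc0) hD0
  · rw [abs_mul, abs_pow]
    have e1 : |c| ^ 2 ≤ (Cs : ℤ) ^ 2 := pow_le_pow_left₀ (abs_nonneg _) hcC 2
    push_cast
    have e3 : |c| ^ 2 * |D| ≤ (Cs : ℤ) ^ 2 * |D| := mul_le_mul_of_nonneg_right e1 (abs_nonneg _)
    have e4 : (0 : ℤ) ≤ ⌈KZ⌉₊ := Int.natCast_nonneg _
    have e5 := abs_nonneg a0
    linarith
  · refine ⟨c, hc0, ?_, hprod⟩
    refine hcC.trans ?_
    have : Cs ≤ Cs ^ 2 * D.natAbs + Cs + 2 + a0.natAbs + ⌈KZ⌉₊ := by omega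
    exact_mod_cast this
  · intro i
    have e1 := heq i
    have e2 := hz2 i
    rw [← e2]
    push_cast at e1 ⊢
    linear_combination (D : 𝓞 L) * e1
  · push_cast
    rw [abs_mul, abs_of_nonneg (show (0 : ℝ) ≤ (w.1 : ℝ) by positivity)]
    have e1 : |(a0 : ℝ)| = (a0.natAbs : ℝ) := by
      rw [Nat.cast_natAbs]
      push_cast
      rfl
    have e2 : (w.1 : ℝ) ≤ X := by exact_mod_cast hw2
    refine mul_le_mul ?_ e2 (by positivity) (by positivity)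
    rw [e1]
    have : a0.natAbs ≤ Cs ^ 2 * D.natAbs + Cs + 2 + a0.natAbs + ⌈KZ⌉₊ := by omega
    exact_mod_cast this
  · intro j
    refine (hyT j).trans (mul_le_mul_of_nonneg_right ?_ (by linarith))
    have : 2 ≤ Cs ^ 2 * D.natAbs + Cs + 2 + a0.natAbs + ⌈KZ⌉₊ := by omega
    exact_mod_cast this
  · intro j
    refine (hzT j).trans ?_
    rw [mul_div_assoc, mul_div_assoc]
    exact mul_le_mul_of_nonneg_right hKZc (by positivity)

end Vale.Agent.P018.Q
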