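import Mathlib
import Vale.Agent.P018.Q.Data

/-! # P018, quartics: the three families of estimates (statements as definitions). -/

namespace Vale.Agent.P018.Q

open Polynomial

/-- the local estimate near the exponent `a`. -/
def Near (f : ℤ[X]) (a : ℝ) : Prop := ∃ ε : ℝ, 0 < ε ∧ K.FinP f 2 (Set.Ioo (a - ε) (a + ε))

end Vale.Agent.P018.Q
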