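import Mathlib
import Vale.Agent.P018.Q.PairDefs

/-! # P018, quartics, family (A): numerical verification. -/

namespace Vale.Agent.P018.Q

open Finset

/-- the admissible exponents. -/
def AdmA (w m1 m2 : ℝ) : Prop :=
  ∃ β : ℝ, 0 < β ∧ 5 * m1 + 3 * m2 + β < 1 ∧ NumRel w m1 m2 β ∧ NumCurve w m1 β

/-- `∑_{a ≤ H} min(K, H - a)`. -/
theorem na_sum_min (K H : ℕ) (h : K ≤ H) :
    ∑ a ∈ range (H + 1), (min (K : ℝ) ((H : ℝ) - a)) = K * H - K ^ 2 / 2 + K / 2 := by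
  induction H, h using Nat.le_induction with
  | base =>
    have h1 : ∀ a ∈ range (K + 1), min (K : ℝ) ((K : ℝ) - a) = (K : ℝ) - a := by
      intro a _
      exact min_eq_right (by linarith [Nat.cast_nonneg (α := ℝ) a])
    rw [sum_congr rfl h1, sum_sub_distrib, sum_const, card_range, nsmul_eq_mul]
    have h2 : ∑ a ∈ range (K + 1), (a : ℝ) = K * (K + 1) / 2 := by
      clear h1
      induction K with
      | zero => simp
      | succ K ih =>
        rw [sum_range_succ, ih]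
        push_cast
        ring
    rw [h2]
    push_cast
    ring
  | succ H hKH ih =>
    rw [sum_range_succ']
    have h1 : ∀ a ∈ range (H + 1), min (K : ℝ) (((H + 1 : ℕ) : ℝ) - ((a + 1 : ℕ) : ℝ)) =
        min (K : ℝ) ((H : ℝ) - a) := by
      intro a _
      congr 1
      push_cast
      ring
    rw [sum_congr rfl h1, ih]
    have h2 : min (K : ℝ) (((H + 1 : ℕ) : ℝ) - ((0 : ℕ) : ℝ)) = K := by
      refine min_eq_left ?_
      push_cast
      have : (K : ℝ) ≤ H := by exact_mod_cast hKH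
      linarith
    rw [h2]
    push_cast
    ring

/-- `∑_{b < k} (c - b m)`. -/
theorem na_sum_lin (c m : ℝ) (k : ℕ) :
    ∑ b ∈ range k, (c - b * m) = k * c - m * (k * (k - 1) / 2) := by
  induction k with
  | zero => simp
  | succ k ih =>
    rw [sum_range_succ, ih]
    push_cast
    ring

theorem na_sum_tri (c m : ℝ) (n : ℕ) :
    ∑ α ∈ range n, (((2 * n - 2 * α : ℕ) : ℝ) * c -
      m * (((2 * n - 2 * α : ℕ) : ℝ) * (((2 * n - 2 * α : ℕ) : ℝ) - 1) / 2)) =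
      n * (n + 1) * c - m * (n * (n + 1) * (4 * n - 1) / 6) := by
  induction n with
  | zero => simp
  | succ n ih =>
    rw [sum_range_succ']
    have h1 : ∀ α ∈ range n, (((2 * (n + 1) - 2 * (α + 1) : ℕ) : ℝ) * c -
        m * (((2 * (n + 1) - 2 * (α + 1) : ℕ) : ℝ) *
          (((2 * (n + 1) - 2 * (α + 1) : ℕ) : ℝ) - 1) / 2)) =
        (((2 * n - 2 * α : ℕ) : ℝ) * c -
      m * (((2 * n - 2 * α : ℕ) : ℝ) * (((2 * n - 2 * α : ℕ) : ℝ) - 1) / 2)) := by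
      intro α _
      have : 2 * (n + 1) - 2 * (α + 1) = 2 * n - 2 * α := by omega
      rw [this]
    rw [sum_congr rfl h1, ih]
    simp only [mul_zero, Nat.sub_zero]
    push_cast
    ring

/-- upper bound for the number of conditions. -/
theorem na_cond (n K H0 : ℕ) (V m1 : ℝ) (hV : 0 ≤ V) (hm1 : 0 ≤ m1) (hm : m1 ≤ V / 2) :
    ∑ α ∈ range (H0 + 1), ∑ b ∈ (range (10 * n + 1)).filter (fun b => 2 * α + b < 4 * n),
        max 0 ((min (K : ℝ) ((H0 : ℝ) - α) - (10 * n : ℕ) * V / 2) + (10 * n : ℕ) * V - b * m1) ≤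
      2 * n * (2 * n + 1) * (K + 5 * n * V) - m1 * (2 * n * (2 * n + 1) * (8 * n - 1) / 6) := by
  have h1 : ∀ α ∈ range (H0 + 1), ∑ b ∈ (range (10 * n + 1)).filter (fun b => 2 * α + b < 4 * n),
        max 0 ((min (K : ℝ) ((H0 : ℝ) - α) - (10 * n : ℕ) * V / 2) + (10 * n : ℕ) * V - b * m1) ≤
      ∑ b ∈ range (4 * n - 2 * α), ((K + 5 * n * V) - b * m1) := by
    intro α _
    have h2 : (range (10 * n + 1)).filter (fun b => 2 * α + b < 4 * n) ⊆ range (4 * n - 2 * α) := by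
      intro b hb
      rw [mem_filter, mem_range] at hb
      rw [mem_range]
      omega
    have h3 : ∀ b ∈ range (4 * n - 2 * α), 0 ≤ (K + 5 * n * V) - b * m1 := by
      intro b hb
      rw [mem_range] at hb
      have h4 : (b : ℝ) ≤ 4 * n := by exact_mod_cast (show b ≤ 4 * n by omega)
      have h5 : (b : ℝ) * m1 ≤ 4 * n * (V / 2) := mul_le_mul h4 hm hm1 (by positivity)
      have h6 : 0 ≤ (n : ℝ) * V := by positivity
      have h7 : (0 : ℝ) ≤ K := Nat.cast_nonneg _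
      nlinarith
    refine (sum_le_sum fun b hb => ?_).trans (sum_le_sum_of_subset_of_nonneg h2 fun b hb _ => h3 b hb)
    refine max_le (h3 b (h2 hb)) ?_
    have := min_le_left (K : ℝ) ((H0 : ℝ) - α)
    push_cast
    linarith
  refine (sum_le_sum h1).trans ?_
  have h4 : ∀ α, 0 ≤ ∑ b ∈ range (4 * n - 2 * α), ((K + 5 * n * V) - b * m1) := by
    intro α
    refine sum_nonneg fun b hb => ?_
    rw [mem_range] at hb
    have h4 : (b : ℝ) ≤ 4 * n := by exact_mod_cast (show b ≤ 4 * n by omega)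
    have h5 : (b : ℝ) * m1 ≤ 4 * n * (V / 2) := mul_le_mul h4 hm hm1 (by positivity)
    have h6 : 0 ≤ (n : ℝ) * V := by positivity
    have h7 : (0 : ℝ) ≤ K := Nat.cast_nonneg _
    nlinarith
  have h5 : ∑ α ∈ range (H0 + 1), ∑ b ∈ range (4 * n - 2 * α), (((K : ℝ) + 5 * n * V) - b * m1) ≤
      ∑ α ∈ range (2 * n), ∑ b ∈ range (4 * n - 2 * α), (((K : ℝ) + 5 * n * V) - b * m1) := by
    rw [sum_subset (s₁ := range (2 * n)) (s₂ := range (2 * n + (H0 + 1)))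
      (range_subset_range.2 (by omega))
      (f := fun α => ∑ b ∈ range (4 * n - 2 * α), (((K : ℝ) + 5 * n * V) - b * m1))]
    · exact sum_le_sum_of_subset_of_nonneg (range_subset_range.2 (by omega)) fun a _ _ => h4 a
    · intro α _ hα
      rw [mem_range] at hα
      rw [show 4 * n - 2 * α = 0 by omega]
      simp
  refine h5.trans (le_of_eq ?_)
  have h6 := na_sum_tri (K + 5 * n * V) m1 (2 * n)
  rw [← sum_congr rfl fun α _ => na_sum_lin (K + 5 * n * V) m1 (2 * (2 * n) - 2 * α)] at h6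
  rw [show (4 * n) = 2 * (2 * n) by ring, h6]
  push_cast
  ring

/-- the real inequality behind the relation step. -/
theorem na_main (n K H V m1 β h κ : ℝ) (hn : n = 1000000) (hκ : κ = h - 4 / 25)
    (hK1 : 10 * n * κ - 1 ≤ K) (hK2 : K ≤ 10 * n * κ) (hH1 : 10 * n * h - 2 ≤ H)
    (hH2 : H + 1 ≤ 10 * n * h) (hV : 0 ≤ V) (hV1 : V ≤ 1) (hm1 : 0 ≤ m1) (hm2 : m1 ≤ 1)
    (hβ : 0 < β) (hβ1 : β ≤ 1) (hh0 : 4 / 25 + 1 / 100 ≤ h) (hh1 : h ≤ 1)
    (hG : 1 / 5000 ≤ κ ^ 2 / 2 - 2 / 25 * V + 8 / 375 * m1 - β * h / 8) :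
    4 * (2 * n * (2 * n + 1) * (K + 5 * n * V) - m1 * (2 * n * (2 * n + 1) * (8 * n - 1) / 6)) +
      β * ((H + 1) * (5 * n * (5 * n + 1) / 2)) + 1 ≤
      (10 * n + 1) * (K * H - K ^ 2 / 2 + K / 2) := by
  subst hn
  subst hκ
  -- lower bound of the right hand side
  have hκ0 : 1 / 100 ≤ h - 4 / 25 := by linarith
  have e1 : (10 * 1000000 * (h - 4 / 25) - 1) * ((10 * 1000000 * h - 2) - 10 * 1000000 * (h - 4 / 25) / 2) ≤
      K * (H - K / 2) := by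
    refine mul_le_mul hK1 (by linarith) (by linarith) (by linarith)
  have e2 : K * H - K ^ 2 / 2 + K / 2 = K * (H - K / 2) + K / 2 := by ring
  rw [e2]
  have hK0 : 0 ≤ K := by linarith
  have e3 : β * ((H + 1) * (5 * 1000000 * (5 * 1000000 + 1) / 2)) ≤
      β * ((10 * 1000000 * h) * (5 * 1000000 * (5 * 1000000 + 1) / 2)) := by
    gcongr
  have e4 : 0 ≤ K * (H - K / 2) := le_trans (by nlinarith) e1
  have e5 : β * h ≤ 1 := by nlinarith
  nlinarith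

/-- all nontrivial exponents are admissible. -/
theorem admA (w m1 m2 : ℝ) (hw : 1 / 4 ≤ w) (hw' : w ≤ 0.349) (h0 : 0 ≤ m1) (h1 : m1 ≤ m2)
    (h2 : m1 + m2 ≤ 2 / 3 * w) (h3 : 1 - 2 * w ≤ 4 * m1 + 2 * m2) : AdmA w m1 m2 := by
  norm_num at hw'
  obtain ⟨β, hβ⟩ : ∃ β : ℝ, β = 999 / 1000 - 5 * m1 - 3 * m2 := ⟨_, rfl⟩
  have hβ0 : 0 < β := by rw [hβ]; linarith
  refine ⟨β, hβ0, by linarith, ?_, ?_⟩
  swap
  · unfold NumCurve
    norm_num
    rw [hβ]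
    linarith
  obtain ⟨V, hV⟩ : ∃ V : ℝ, V = m1 + m2 := ⟨_, rfl⟩
  obtain ⟨h, hh⟩ : ∃ h : ℝ, h = 3 / 5 * w + β / 2 + V / 2 := ⟨_, rfl⟩
  obtain ⟨κ, hκ⟩ : ∃ κ : ℝ, κ = h - 4 / 25 := ⟨_, rfl⟩
  have hV0 : 0 ≤ V := by linarith
  have hhl : 4 / 25 + 1 / 100 ≤ h := by linarith
  have hhu : h ≤ 1 := by linarith
  have hG : 1 / 5000 ≤ κ ^ 2 / 2 - 2 / 25 * V + 8 / 375 * m1 - β * h / 8 := by
    obtain ⟨x, hx⟩ : ∃ x : ℝ, x = 2 / 3 * w - V := ⟨_, rfl⟩
    obtain ⟨y, hy⟩ : ∃ y : ℝ, y = 1 / 3 * w - m1 := ⟨_, rfl⟩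
    have hx0 : 0 ≤ x := by linarith
    have hy0 : 0 ≤ y := by linarith
    have hVx : V = 2 / 3 * w - x := by linarith
    have hmy : m1 = 1 / 3 * w - y := by linarith
    have hβx : β = 999 / 1000 - 8 / 3 * w + 3 * x + 2 * y := by linarith
    have hhx : h = 999 / 2000 - 2 / 5 * w + x + y := by linarith
    rw [hκ, hβx, hhx, hVx, hmy]
    nlinarith [mul_nonneg hx0 hy0, mul_nonneg hx0 (show 0 ≤ w - 1 / 4 by linarith),
      mul_nonneg hy0 (show 0 ≤ w - 1 / 4 by linarith), mul_nonneg (show 0 ≤ w - 1 / 4 by linarith)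
      (show 0 ≤ 349 / 1000 - w by linarith), mul_nonneg hx0 (show 0 ≤ 349 / 1000 - w by linarith),
      mul_nonneg hy0 (show 0 ≤ 349 / 1000 - w by linarith), mul_nonneg hx0 hx0, mul_nonneg hy0 hy0]
  obtain ⟨K, hK⟩ : ∃ K : ℕ, K = ⌊10 * (1000000 : ℝ) * κ⌋₊ := ⟨_, rfl⟩
  obtain ⟨H0, hH0⟩ : ∃ H0 : ℕ, H0 = ⌊10 * (1000000 : ℝ) * h⌋₊ - 1 := ⟨_, rfl⟩
  have hK1 : 10 * (1000000 : ℝ) * κ - 1 ≤ K := by
    rw [hK]
    linarith [Nat.lt_floor_add_one (10 * (1000000 : ℝ) * κ)]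
  have hK2 : (K : ℝ) ≤ 10 * (1000000 : ℝ) * κ := by
    rw [hK]
    exact Nat.floor_le (by rw [hκ]; linarith)
  have hfl : 1 ≤ ⌊10 * (1000000 : ℝ) * h⌋₊ := (Nat.one_le_floor_iff _).2 (by linarith)
  have hH0c : (H0 : ℝ) = (⌊10 * (1000000 : ℝ) * h⌋₊ : ℝ) - 1 := by
    rw [hH0, Nat.cast_sub hfl, Nat.cast_one]
  have hH1 : 10 * (1000000 : ℝ) * h - 2 ≤ H0 := by
    rw [hH0c]
    linarith [Nat.lt_floor_add_one (10 * (1000000 : ℝ) * h)]
  have hH2 : (H0 : ℝ) + 1 ≤ 10 * (1000000 : ℝ) * h := by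
    rw [hH0c]
    linarith [Nat.floor_le (show 0 ≤ 10 * (1000000 : ℝ) * h by linarith)]
  have hKH : K ≤ H0 := by
    have : (K : ℝ) ≤ H0 := by rw [hκ] at hK2; linarith
    exact_mod_cast this
  refine ⟨4 * 1000000, 10 * 1000000, H0, 5 * 1000000,
    fun a => min (K : ℝ) ((H0 : ℝ) - a) - (10 * 1000000 : ℕ) * V / 2, 1, by norm_num, one_pos,
    ?_, ?_, ?_⟩
  · intro a _ a' ha'
    have : (a' : ℝ) ≤ a := by exact_mod_cast ha'
    have := min_le_min_left (K : ℝ) (show (H0 : ℝ) - a ≤ (H0 : ℝ) - a' by linarith)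
    simp only
    linarith
  · intro a _
    have := min_le_right (K : ℝ) ((H0 : ℝ) - a)
    push_cast
    linarith
  · have h5 := na_cond 1000000 K H0 V m1 hV0 h0 (by linarith)
    have h6 := na_sum_min K H0 hKH
    have h7 := na_main 1000000 K H0 V m1 β h κ rfl hκ hK1 hK2 hH1 hH2 hV0 (by linarith) h0
      (by linarith) hβ0 (by linarith) hhl hhu hG
    rw [← hV]
    have h8 : ∑ a ∈ range (H0 + 1), (((10 * 1000000 : ℕ) : ℝ) + 1) *
        (min (K : ℝ) ((H0 : ℝ) - a) - (10 * 1000000 : ℕ) * V / 2) +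
        (H0 + 1) * (((10 * 1000000 : ℕ) : ℝ) * (((10 * 1000000 : ℕ) : ℝ) + 1) / 2 * V) =
        (((10 * 1000000 : ℕ) : ℝ) + 1) * (K * H0 - K ^ 2 / 2 + K / 2) := by
      rw [← h6, ← mul_sum, sum_sub_distrib, sum_const, card_range, nsmul_eq_mul]
      push_cast
      ring
    have h9 : ∑ a ∈ range (H0 + 1), ((((10 * 1000000 : ℕ) : ℝ) + 1) *
        (min (K : ℝ) ((H0 : ℝ) - a) - (10 * 1000000 : ℕ) * V / 2) +
        ((10 * 1000000 : ℕ) : ℝ) * (((10 * 1000000 : ℕ) : ℝ) + 1) / 2 * V) =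
        (((10 * 1000000 : ℕ) : ℝ) + 1) * (K * H0 - K ^ 2 / 2 + K / 2) := by
      rw [← h8, sum_add_distrib, sum_const, card_range, nsmul_eq_mul]
      push_cast
      ring
    push_cast at h5 h7 h9 ⊢
    linarith

end Vale.Agent.P018.Q
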