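import Mathlib
import Vale.Agent.P018.Q.Defs

/-! # P018, quartics: a Bezout bound for rational points. -/

namespace Vale.Agent.P018.Q

open Polynomial Finset

/-- the value of `g(κ, σ)`: `κ` is the outer variable. -/
noncomputable def ev (g : ℚ[X][X]) (κ σ : ℚ) : ℚ := (g.map (evalRingHom σ)).eval κ

theorem natDegree_det_le' {n : ℕ} (M : Matrix (Fin n) (Fin n) ℚ[X]) (d : ℕ)
    (h : ∀ i j, (M i j).natDegree ≤ d) : M.det.natDegree ≤ n * d := by
  rw [Matrix.det_apply]
  refine natDegree_sum_le_of_forall_le _ _ fun σ _ => ?_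
  refine (natDegree_smul_le _ _).trans ?_
  refine (natDegree_prod_le _ _).trans ?_
  refine (Finset.sum_le_sum fun i _ => h _ _).trans ?_
  simp

theorem natDegree_resultant_le {g Ψ : ℚ[X][X]} {D : ℕ} {m n : ℕ}
    (h1 : ∀ i, (g.coeff i).natDegree ≤ D) (h2 : ∀ i, (Ψ.coeff i).natDegree ≤ D) :
    (resultant g Ψ m n).natDegree ≤ (m + n) * D := by
  refine natDegree_det_le' _ _ fun i j => ?_
  simp only [sylvester, Matrix.of_apply]
  refine Fin.addCases (fun j => ?_) (fun j => ?_) j
  · simp only [Fin.addCases_left]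
    split_ifs
    · exact h2 _
    · simp
  · simp only [Fin.addCases_right]
    split_ifs
    · exact h1 _
    · simp

theorem C_dvd_of_map_eq_zero {g : ℚ[X][X]} {σ : ℚ} (h : g.map (evalRingHom σ) = 0) :
    C (X - C σ) ∣ g := by
  rw [C_dvd_iff_dvd_coeff]
  intro i
  rw [dvd_iff_isRoot, IsRoot.def]
  have := congrArg (fun p => p.coeff i) h
  simpa using this

theorem resultant_ne_zero_of {g Ψ : ℚ[X][X]} (hg : Irreducible g) (hd : g.natDegree ≠ 0)
    (h : ¬ g ∣ Ψ) : resultant g Ψ ≠ 0 := by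
  have hp : g.IsPrimitive := hg.isPrimitive hd
  let φ := algebraMap ℚ[X] (FractionRing ℚ[X])
  have hφ : Function.Injective φ := IsFractionRing.injective _ _
  have hirr : Irreducible (g.map φ) := hp.irreducible_iff_irreducible_map_fraction_map.1 hg
  have hcop : IsCoprime (g.map φ) (Ψ.map φ) := by
    rcases (hirr.coprime_iff_not_dvd (n := Ψ.map φ)) with ⟨_, h2⟩
    exact h2 fun hdvd => h (hp.dvd_of_fraction_map_dvd_fraction_map hdvd)
  intro h0
  have h1 : resultant (g.map φ) (Ψ.map φ) = 0 := by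
    have := resultant_map_map g Ψ g.natDegree Ψ.natDegree φ
    rw [h0, map_zero] at this
    rwa [natDegree_map_eq_of_injective hφ, natDegree_map_eq_of_injective hφ]
  exact (resultant_eq_zero_iff.1 h1).2 hcop

theorem card_fiber_le {S : Finset (ℚ × ℚ)} {g : ℚ[X][X]} {D : ℕ} (hd : g.natDegree ≤ D)
    (h : ∀ z ∈ S, ev g z.1 z.2 = 0) (σ : ℚ) (h0 : g.map (evalRingHom σ) ≠ 0) :
    (S.filter fun z => z.2 = σ).card ≤ D := by
  have h1 : (S.filter fun z => z.2 = σ).card =
      ((S.filter fun z => z.2 = σ).image Prod.fst).card := by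
    rw [Finset.card_image_of_injOn]
    intro x hx y hy hxy
    simp only [Finset.coe_filter, Set.mem_setOf_eq] at hx hy
    exact Prod.ext hxy (hx.2.trans hy.2.symm)
  rw [h1]
  have h2 : ((S.filter fun z => z.2 = σ).image Prod.fst) ⊆ (g.map (evalRingHom σ)).roots.toFinset := by
    intro κ hκ
    obtain ⟨z, hz, rfl⟩ := Finset.mem_image.1 hκ
    obtain ⟨hz1, rfl⟩ := Finset.mem_filter.1 hz
    rw [Multiset.mem_toFinset, mem_roots h0]
    exact h z hz1
  refine (Finset.card_le_card h2).trans ?_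
  refine (Multiset.toFinset_card_le _).trans ?_
  exact (card_roots' _).trans (natDegree_map_le.trans hd)

/-- Bezout for rational points. -/
theorem bezout2 (D1 D2 : ℕ) : ∃ C : ℕ, ∀ g Ψ : ℚ[X][X], Irreducible g → ¬ g ∣ Ψ →
    BiDeg D1 D1 g → BiDeg D2 D2 Ψ → ∀ S : Finset (ℚ × ℚ),
    (∀ z ∈ S, ev g z.1 z.2 = 0 ∧ ev Ψ z.1 z.2 = 0) → S.card ≤ C := by
  refine ⟨D1 * ((D1 + D2) * (D1 + D2)) + D2 * D1, fun g Ψ hg hdvd hg1 hΨ S hS => ?_⟩
  by_cases hd : g.natDegree = 0
  · -- `g` does not depend on `κ`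
    obtain ⟨g0, rfl⟩ : ∃ g0, g = C g0 := ⟨_, eq_C_of_natDegree_eq_zero hd⟩
    have hg0 : Irreducible g0 := Irreducible.of_map (f := (C : ℚ[X] →+* ℚ[X][X])) hg
    have h1 : (S.image Prod.snd).card ≤ D1 := by
      have : S.image Prod.snd ⊆ g0.roots.toFinset := by
        intro σ hσ
        obtain ⟨z, hz, rfl⟩ := Finset.mem_image.1 hσ
        rw [Multiset.mem_toFinset, mem_roots hg0.ne_zero]
        have := (hS z hz).1
        simpa [ev] using this
      refine (Finset.card_le_card this).trans ?_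
      refine (Multiset.toFinset_card_le _).trans ?_
      refine (card_roots' _).trans ?_
      simpa using hg1.2 0
    have h2 : S.card ≤ D2 * (S.image Prod.snd).card := by
      refine Finset.card_le_mul_card_image S D2 fun σ hσ => ?_
      obtain ⟨z, hz, rfl⟩ := Finset.mem_image.1 hσ
      refine card_fiber_le hΨ.1 (fun z hz => (hS z hz).2) _ fun h0 => hdvd ?_
      have h3 : (X - C z.2) ∣ g0 := by
        rw [dvd_iff_isRoot]
        have := (hS z hz).1
        simpa [ev] using this
      have h4 : Associated (X - C z.2) g0 :=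
        (irreducible_X_sub_C z.2).associated_of_dvd hg0 h3
      exact (map_dvd (C : ℚ[X] →+* ℚ[X][X]) h4.symm.dvd).trans (C_dvd_of_map_eq_zero h0)
    calc S.card ≤ D2 * (S.image Prod.snd).card := h2
      _ ≤ D2 * D1 := Nat.mul_le_mul_left _ h1
      _ ≤ _ := Nat.le_add_left _ _
  · have hp : g.IsPrimitive := hg.isPrimitive hd
    have hr : resultant g Ψ ≠ 0 := resultant_ne_zero_of hg hd hdvd
    obtain ⟨p, q, -, -, e⟩ := exists_mul_add_mul_eq_C_resultant (m := g.natDegree)
      (n := Ψ.natDegree) g Ψ le_rfl le_rfl (Or.inl hd)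
    have h1 : (S.image Prod.snd).card ≤ (D1 + D2) * (D1 + D2) := by
      have : S.image Prod.snd ⊆ (resultant g Ψ).roots.toFinset := by
        intro σ hσ
        obtain ⟨z, hz, rfl⟩ := Finset.mem_image.1 hσ
        rw [Multiset.mem_toFinset, mem_roots hr, IsRoot.def]
        have h3 := congrArg (fun P : ℚ[X][X] => (P.map (evalRingHom z.2)).eval z.1) e
        have h4 := (hS z hz).1
        have h5 := (hS z hz).2
        unfold ev at h4 h5
        simp only [Polynomial.map_add, Polynomial.map_mul, eval_add, eval_mul, h4, h5, zero_mul,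
          add_zero, map_C, eval_C, coe_evalRingHom] at h3
        exact h3.symm
      refine (Finset.card_le_card this).trans ?_
      refine (Multiset.toFinset_card_le _).trans ?_
      refine (card_roots' _).trans ?_
      refine (natDegree_resultant_le (D := D1 + D2) (fun i => (hg1.2 i).trans (Nat.le_add_right _ _))
        (fun i => (hΨ.2 i).trans (Nat.le_add_left _ _))).trans ?_
      exact Nat.mul_le_mul_right _ (add_le_add hg1.1 hΨ.1)
    have h2 : S.card ≤ D1 * (S.image Prod.snd).card := by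
      refine Finset.card_le_mul_card_image S D1 fun σ hσ => ?_
      refine card_fiber_le hg1.1 (fun z hz => (hS z hz).1) _ fun h0 => ?_
      exact not_isUnit_X_sub_C σ (isPrimitive_iff_isUnit_of_C_dvd.1 hp _ (C_dvd_of_map_eq_zero h0))
    calc S.card ≤ D1 * (S.image Prod.snd).card := h2
      _ ≤ D1 * ((D1 + D2) * (D1 + D2)) := Nat.mul_le_mul_left _ h1
      _ ≤ _ := Nat.le_add_right _ _

end Vale.Agent.P018.Q
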