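import Mathlib
import Vale.Agent.P018.Q.Bezout2

/-! # P018, quartics: heights of factors, nonvanishing, prime numbers. -/

namespace Vale.Agent.P018.Q

open Polynomial Finset

/-- coefficients of the polynomial with the variables exchanged. -/
theorem ht_coeff_swap {R : Type*} [CommRing R] (p : R[X][X]) (i j : ℕ) :
    ((Bivariate.swap p).coeff i).coeff j = (p.coeff j).coeff i := by
  induction p using Polynomial.induction_on' with
  | add p q hp hq => simp only [map_add, coeff_add, hp, hq]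
  | monomial n a =>
    induction a using Polynomial.induction_on' with
    | add p q hp hq => simp only [map_add, coeff_add, hp, hq]
    | monomial m r =>
      rw [Bivariate.swap_monomial_monomial]
      simp only [coeff_monomial]
      split_ifs with h1 h2 h2
      · simp only [coeff_monomial, h1, h2, if_true]
      · simp only [coeff_monomial, h2, if_false, coeff_zero]
      · simp only [coeff_monomial, h1, if_false, coeff_zero]
      · simp only [coeff_zero]

theorem ht_inner_le_iff {R : Type*} [CommRing R] (p : R[X][X]) (D : ℕ) :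
    (∀ i, (p.coeff i).natDegree ≤ D) ↔ (Bivariate.swap p).natDegree ≤ D := by
  simp only [natDegree_le_iff_coeff_eq_zero]
  constructor
  · intro h N hN
    ext j
    rw [ht_coeff_swap, h j N hN, coeff_zero]
  · intro h i N hN
    rw [← ht_coeff_swap, h N hN, coeff_zero]

theorem ht_biDeg {f F : ℤ[X][X]} {D : ℕ} (h : BiDeg D D F) (hF : F ≠ 0) (hd : f ∣ F) :
    BiDeg D D f := by
  refine ⟨(natDegree_le_of_dvd hd hF).trans h.1, ?_⟩
  rw [ht_inner_le_iff]
  refine (natDegree_le_of_dvd (map_dvd Bivariate.swap hd) ?_).trans ((ht_inner_le_iff F D).1 h.2)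
  rwa [Ne, EmbeddingLike.map_eq_zero_iff]

section loc

attribute [local instance] Polynomial.algebra

theorem ht_prime_map {f : ℤ[X][X]} (hf : Prime f)
    (hu : ¬ IsUnit (f.map (mapRingHom (Int.castRingHom ℚ)))) :
    Prime (f.map (mapRingHom (Int.castRingHom ℚ))) := by
  have h1 : IsLocalization ((nonZeroDivisors ℤ).map (C : ℤ →+* ℤ[X])) ℚ[X] :=
    Polynomial.isLocalization (nonZeroDivisors ℤ) ℚ
  have h2 : IsLocalization (((nonZeroDivisors ℤ).map (C : ℤ →+* ℤ[X])).map
      (C : ℤ[X] →+* ℤ[X][X])) ℚ[X][X] :=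
    Polynomial.isLocalization _ ℚ[X]
  have h0 : f.map (mapRingHom (Int.castRingHom ℚ)) ≠ 0 := by
    rw [Ne, Polynomial.map_eq_zero_iff]
    · exact hf.ne_zero
    · exact Polynomial.map_injective _ (RingHom.injective_int _)
  have h3 : (Ideal.span {f} : Ideal ℤ[X][X]).IsPrime :=
    (Ideal.span_singleton_prime hf.ne_zero).2 hf
  have h4 := IsLocalization.isPrime_of_isPrime_disjoint (((nonZeroDivisors ℤ).map
      (C : ℤ →+* ℤ[X])).map (C : ℤ[X] →+* ℤ[X][X])) ℚ[X][X] (Ideal.span {f}) h3 ?_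
  · rw [Ideal.map_span, Set.image_singleton] at h4
    exact (Ideal.span_singleton_prime h0).1 h4
  · rw [Set.disjoint_left]
    rintro _ ⟨_, ⟨n, hn, rfl⟩, rfl⟩ hx
    rw [SetLike.mem_coe, Ideal.mem_span_singleton] at hx
    refine hu (isUnit_of_dvd_unit (map_dvd (mapRingHom (mapRingHom (Int.castRingHom ℚ))) hx) ?_)
    have hn0 : (Int.castRingHom ℚ) n ≠ 0 := by
      rw [eq_intCast]
      exact_mod_cast nonZeroDivisors.ne_zero hn
    have e : mapRingHom (mapRingHom (Int.castRingHom ℚ)) (C (C n)) =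
        C (C ((Int.castRingHom ℚ) n)) := by
      rw [coe_mapRingHom, map_C, coe_mapRingHom, map_C]
    rw [e]
    exact ((isUnit_iff_ne_zero.2 hn0).map C).map C

end loc

/-- Gauss: a factor over `ℚ` comes from a factor over `ℤ`. -/
theorem ht_int_factor {F : ℤ[X][X]} (hF : F ≠ 0) {g : ℚ[X][X]} (hg : Irreducible g)
    (hd : g ∣ F.map (mapRingHom (Int.castRingHom ℚ))) :
    ∃ f : ℤ[X][X], f ∣ F ∧ Associated g (f.map (mapRingHom (Int.castRingHom ℚ))) := by
  have h1 := UniqueFactorizationMonoid.factors_prod hF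
  have h2 : g ∣ ((UniqueFactorizationMonoid.factors F).map
      (mapRingHom (mapRingHom (Int.castRingHom ℚ)))).prod := by
    rw [← map_multiset_prod]
    exact hd.trans (map_dvd (mapRingHom (mapRingHom (Int.castRingHom ℚ))) h1.symm.dvd)
  obtain ⟨f, hf, hgf⟩ := hg.prime.exists_mem_multiset_map_dvd h2
  have hfp := UniqueFactorizationMonoid.prime_of_factor f hf
  have hfF : f ∣ F := (Multiset.dvd_prod hf).trans h1.dvd
  refine ⟨f, hfF, ?_⟩
  have hgf' : g ∣ f.map (mapRingHom (Int.castRingHom ℚ)) := hgf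
  have := ht_prime_map hfp fun hu => hg.not_isUnit (isUnit_of_dvd_unit hgf' hu)
  exact hg.associated_of_dvd this.irreducible hgf'

/-- Kronecker substitution. -/
theorem ht_coeff_kron {G : ℤ[X][X]} {D : ℕ} (h : ∀ i, (G.coeff i).natDegree ≤ D) (i j : ℕ)
    (hj : j ≤ D) : (G.eval (X ^ (D + 1))).coeff ((D + 1) * i + j) = (G.coeff i).coeff j := by
  rw [eval_eq_sum_range' (n := G.natDegree + 1 + (i + 1)) (by omega), finsetSum_coeff,
    Finset.sum_eq_single i]
  · rw [← pow_mul, coeff_mul_X_pow', if_pos (Nat.le_add_right _ _), Nat.add_sub_cancel_left]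
  · intro k _ hk
    rw [← pow_mul, coeff_mul_X_pow']
    split_ifs with h1
    · apply coeff_eq_zero_of_natDegree_lt
      refine (h k).trans_lt ?_
      have h2 : k < i := by
        by_contra h3
        have h4 : i + 1 ≤ k := by omega
        have : (D + 1) * (i + 1) ≤ (D + 1) * k := Nat.mul_le_mul_left _ h4
        nlinarith
      have : (D + 1) * (k + 1) ≤ (D + 1) * i := Nat.mul_le_mul_left _ h2
      have h5 : (D + 1) * (k + 1) = (D + 1) * k + (D + 1) := by ring
      omega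
    · rfl
  · intro hk
    exact absurd (Finset.mem_range.2 (by omega)) hk

theorem ht_natDegree_kron {G : ℤ[X][X]} {D : ℕ} (h : BiDeg D D G) :
    (G.eval (X ^ (D + 1))).natDegree ≤ (D + 1) * D + D := by
  rw [eval_eq_sum_range]
  refine natDegree_sum_le_of_forall_le _ _ fun k hk => ?_
  have h1 : k ≤ D := (Nat.lt_succ_iff.1 (Finset.mem_range.1 hk)).trans h.1
  refine natDegree_mul_le.trans ?_
  rw [← pow_mul, natDegree_X_pow]
  have : (D + 1) * k ≤ (D + 1) * D := Nat.mul_le_mul_left _ h1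
  have := h.2 k
  omega

theorem ht_mignotte {P Q : ℤ[X]} (hP : P ≠ 0) (hQ : Q ∣ P) {n H : ℕ} (hn : P.natDegree ≤ n)
    (hH : ∀ i, |P.coeff i| ≤ H) (k : ℕ) : |Q.coeff k| ≤ (2 : ℤ) ^ n * (n + 1) * H := by
  obtain ⟨K, rfl⟩ := hQ
  have hinj : Function.Injective (Int.castRingHom ℂ) := RingHom.injective_int _
  have hK : K ≠ 0 := right_ne_zero_of_mul hP
  have hQ0 : Q ≠ 0 := left_ne_zero_of_mul hP
  have h1 : 1 ≤ (K.map (Int.castRingHom ℂ)).mahlerMeasure := by
    apply one_le_mahlerMeasure_of_one_le_norm_leadingCoeff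
    rw [leadingCoeff_map_of_injective hinj]
    have : (1 : ℤ) ≤ |K.leadingCoeff| := Int.one_le_abs (leadingCoeff_ne_zero.2 hK)
    rw [eq_intCast, Complex.norm_intCast]
    exact_mod_cast this
  have h2 := norm_coeff_le_choose_mul_mahlerMeasure_of_one_le_mahlerMeasure k
    (Q.map (Int.castRingHom ℂ)) (K.map (Int.castRingHom ℂ)) h1
  rw [← Polynomial.map_mul] at h2
  have h3 := mahlerMeasure_le_sqrt_natDegree_add_one_mul_supNorm
    ((Q * K).map (Int.castRingHom ℂ))
  have h4 : ((Q * K).map (Int.castRingHom ℂ)).supNorm ≤ H := by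
    obtain ⟨i, hi⟩ := exists_eq_supNorm (p := (Q * K).map (Int.castRingHom ℂ))
    rw [hi, coeff_map, eq_intCast, Complex.norm_intCast]
    exact_mod_cast hH i
  have h5 : ((Q * K).map (Int.castRingHom ℂ)).natDegree ≤ n := natDegree_map_le.trans hn
  have h6 : (Q.map (Int.castRingHom ℂ)).natDegree ≤ n :=
    natDegree_map_le.trans ((natDegree_le_of_dvd (dvd_mul_right Q K) hP).trans hn)
  have h7 : √((((Q * K).map (Int.castRingHom ℂ)).natDegree : ℝ) + 1) ≤ (n : ℝ) + 1 := by
    rw [Real.sqrt_le_left (by positivity)]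
    have : (((Q * K).map (Int.castRingHom ℂ)).natDegree : ℝ) ≤ n := by exact_mod_cast h5
    nlinarith [(Nat.cast_nonneg n : (0 : ℝ) ≤ n)]
  have h8 : (((Q.map (Int.castRingHom ℂ)).natDegree.choose k : ℕ) : ℝ) ≤ 2 ^ n := by
    have : (Q.map (Int.castRingHom ℂ)).natDegree.choose k ≤ 2 ^ n :=
      (Nat.choose_le_two_pow _ _).trans (Nat.pow_le_pow_right (by norm_num) h6)
    exact_mod_cast this
  have h9 : (((|Q.coeff k| : ℤ)) : ℝ) ≤ 2 ^ n * (n + 1) * H := by
    have e : ‖(Q.map (Int.castRingHom ℂ)).coeff k‖ = ((|Q.coeff k| : ℤ) : ℝ) := by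
      rw [coeff_map, eq_intCast, Complex.norm_intCast]
      push_cast
      rfl
    rw [← e]
    calc ‖(Q.map (Int.castRingHom ℂ)).coeff k‖ ≤ _ := h2
      _ ≤ 2 ^ n * (((n : ℝ) + 1) * H) := by
        refine mul_le_mul h8 (h3.trans ?_) (mahlerMeasure_nonneg _) (by positivity)
        exact mul_le_mul h7 h4 (supNorm_nonneg _) (by positivity)
      _ = _ := by ring
  exact_mod_cast h9

/-- an irreducible factor over `ℚ` of an integer polynomial in two variables has an integral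
multiple with coefficients bounded by a power of the height. -/
theorem factor_height (D : ℕ) : ∃ C : ℕ, ∀ (H : ℕ) (F : ℤ[X][X]) (g : ℚ[X][X]), 2 ≤ H → F ≠ 0 →
    BiDeg D D F → (∀ i j, |(F.coeff i).coeff j| ≤ H) → Irreducible g →
    g ∣ F.map (mapRingHom (Int.castRingHom ℚ)) →
    ∃ (g' : ℤ[X][X]), Associated g (g'.map (mapRingHom (Int.castRingHom ℚ))) ∧ BiDeg D D g' ∧
      g' ∣ F ∧ (∀ i j, |(g'.coeff i).coeff j| ≤ (H : ℤ) ^ C) := by
  obtain ⟨n, hn⟩ : ∃ n : ℕ, n = (D + 1) * D + D := ⟨_, rfl⟩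
  refine ⟨n + n + 1, fun H F g hH hF hFD hFH hg hd => ?_⟩
  obtain ⟨f, hfF, hgf⟩ := ht_int_factor hF hg hd
  have hfD := ht_biDeg hFD hF hfF
  refine ⟨f, hgf, hfD, hfF, fun i j => ?_⟩
  have hP0 : F.eval (X ^ (D + 1)) ≠ 0 := by
    intro h0
    apply hF
    ext i j
    rw [coeff_zero, coeff_zero]
    by_cases hj : j ≤ D
    · rw [← ht_coeff_kron hFD.2 i j hj, h0, coeff_zero]
    · exact coeff_eq_zero_of_natDegree_lt ((hFD.2 i).trans_lt (not_le.1 hj))
  have hQP : f.eval (X ^ (D + 1)) ∣ F.eval (X ^ (D + 1)) :=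
    map_dvd (evalRingHom (X ^ (D + 1))) hfF
  have hPH : ∀ k, |(F.eval (X ^ (D + 1))).coeff k| ≤ H := by
    intro k
    have h1 : k = (D + 1) * (k / (D + 1)) + k % (D + 1) := (Nat.div_add_mod k (D + 1)).symm
    have h2 : k % (D + 1) ≤ D := Nat.lt_succ_iff.1 (Nat.mod_lt _ (Nat.succ_pos D))
    rw [h1, ht_coeff_kron hFD.2 _ _ h2]
    exact hFH _ _
  have hfin : (2 : ℤ) ^ n * (n + 1) * H ≤ (H : ℤ) ^ (n + n + 1) := by
    have h1 : 2 ^ n * (n + 1) * H ≤ H ^ (n + n + 1) := by
      have h2 : 2 ^ n ≤ H ^ n := Nat.pow_le_pow_left hH n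
      have h3 : n + 1 ≤ H ^ n := (Nat.lt_two_pow_self).trans_le h2
      calc 2 ^ n * (n + 1) * H ≤ H ^ n * H ^ n * H :=
            Nat.mul_le_mul_right _ (Nat.mul_le_mul h2 h3)
        _ = H ^ (n + n + 1) := by rw [pow_succ, pow_add]
    exact_mod_cast h1
  by_cases hj : j ≤ D
  · rw [← ht_coeff_kron hfD.2 i j hj]
    exact (ht_mignotte hP0 hQP (hn ▸ ht_natDegree_kron hFD) hPH _).trans hfin
  · rw [coeff_eq_zero_of_natDegree_lt ((hfD.2 i).trans_lt (not_le.1 hj)), abs_zero]
    positivity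


/-- an additive degree function: it is positive at non-units. -/
theorem ht_card_le {s : Multiset ℚ[X][X]} (hs : ∀ g ∈ s, Irreducible g) :
    s.card ≤ s.prod.natDegree + s.prod.leadingCoeff.natDegree := by
  induction s using Multiset.induction_on with
  | empty => simp
  | cons g s ih =>
    have hg := hs g (Multiset.mem_cons_self _ _)
    have hs' : ∀ g ∈ s, Irreducible g := fun x hx => hs x (Multiset.mem_cons_of_mem hx)
    have ih' := ih hs'
    have h0 : s.prod ≠ 0 := by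
      rw [Ne, Multiset.prod_eq_zero_iff]
      exact fun h => (hs' 0 h).ne_zero rfl
    rw [Multiset.prod_cons, Multiset.card_cons, natDegree_mul hg.ne_zero h0, leadingCoeff_mul,
      natDegree_mul (leadingCoeff_ne_zero.2 hg.ne_zero) (leadingCoeff_ne_zero.2 h0)]
    have h1 : 1 ≤ g.natDegree + g.leadingCoeff.natDegree := by
      by_contra hcon
      have h2 : g.natDegree = 0 := by omega
      have h3 : g.leadingCoeff.natDegree = 0 := by omega
      have h4 : g = C g.leadingCoeff := by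
        conv_lhs => rw [eq_C_of_natDegree_eq_zero h2]
        rw [leadingCoeff, h2]
      have h5 : g.leadingCoeff = C (g.leadingCoeff.coeff 0) := eq_C_of_natDegree_eq_zero h3
      have h6 : g.leadingCoeff.coeff 0 ≠ 0 := by
        intro h6
        rw [h6, C_0] at h5
        exact hg.ne_zero (leadingCoeff_eq_zero.1 h5)
      apply hg.not_isUnit
      rw [h4, h5]
      exact ((isUnit_iff_ne_zero.2 h6).map C).map C
    omega

theorem ht_ev_mul (g h : ℚ[X][X]) (κ σ : ℚ) : ev (g * h) κ σ = ev g κ σ * ev h κ σ := by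
  rw [ev, Polynomial.map_mul, eval_mul]
  rfl

theorem ht_ev_multiset {s : Multiset ℚ[X][X]} {κ σ : ℚ} (h : ev s.prod κ σ = 0) :
    ∃ g ∈ s, ev g κ σ = 0 := by
  induction s using Multiset.induction_on with
  | empty => simp [ev] at h
  | cons g s ih =>
    rw [Multiset.prod_cons, ht_ev_mul] at h
    rcases mul_eq_zero.1 h with h | h
    · exact ⟨g, Multiset.mem_cons_self _ _, h⟩
    · obtain ⟨g', hg', h'⟩ := ih h
      exact ⟨g', Multiset.mem_cons_of_mem hg', h'⟩

theorem ht_ev_of_dvd {g h : ℚ[X][X]} {κ σ : ℚ} (hd : g ∣ h) (hg : ev g κ σ = 0) :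
    ev h κ σ = 0 := by
  obtain ⟨k, rfl⟩ := hd
  rw [ht_ev_mul, hg, zero_mul]

/-- the number of irreducible factors, as a finite set of integer polynomials. -/
theorem factor_set (D : ℕ) : ∃ C : ℕ, ∀ (H : ℕ) (F : ℤ[X][X]), 2 ≤ H → F ≠ 0 →
    BiDeg D D F → (∀ i j, |(F.coeff i).coeff j| ≤ H) →
    ∃ T : Finset (ℤ[X][X]), T.card ≤ C ∧
      (∀ g ∈ T, Irreducible (g.map (mapRingHom (Int.castRingHom ℚ))) ∧ BiDeg D D g ∧
        (∀ i j, |(g.coeff i).coeff j| ≤ (H : ℤ) ^ C)) ∧
      (∀ κ σ : ℚ, ev (F.map (mapRingHom (Int.castRingHom ℚ))) κ σ = 0 →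
        ∃ g ∈ T, ev (g.map (mapRingHom (Int.castRingHom ℚ))) κ σ = 0) := by
  classical
  obtain ⟨C1, hC1⟩ := factor_height D
  refine ⟨C1 + (D + D), fun H F hH hF hFD hFH => ?_⟩
  have hinj : Function.Injective (mapRingHom (Int.castRingHom ℚ)) :=
    Polynomial.map_injective _ (RingHom.injective_int _)
  obtain ⟨FQ, hFQ⟩ : ∃ FQ, FQ = F.map (mapRingHom (Int.castRingHom ℚ)) := ⟨_, rfl⟩
  have hFQ0 : FQ ≠ 0 := by
    rw [hFQ, Ne, Polynomial.map_eq_zero_iff hinj]
    exact hF
  have h1 := UniqueFactorizationMonoid.factors_prod hFQ0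
  have hirr : ∀ g ∈ UniqueFactorizationMonoid.factors FQ, Irreducible g :=
    fun g hg => UniqueFactorizationMonoid.irreducible_of_factor g hg
  have hdvd : ∀ g ∈ UniqueFactorizationMonoid.factors FQ, g ∣ FQ :=
    fun g hg => (Multiset.dvd_prod hg).trans h1.dvd
  have key : ∀ g : ℚ[X][X], ∃ g' : ℤ[X][X], g ∈ UniqueFactorizationMonoid.factors FQ →
      Associated g (g'.map (mapRingHom (Int.castRingHom ℚ))) ∧ BiDeg D D g' ∧
      g' ∣ F ∧ (∀ i j, |(g'.coeff i).coeff j| ≤ (H : ℤ) ^ C1) := by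
    intro g
    by_cases hg : g ∈ UniqueFactorizationMonoid.factors FQ
    · obtain ⟨g', hg'⟩ := hC1 H F g hH hF hFD hFH (hirr g hg) (hFQ ▸ hdvd g hg)
      exact ⟨g', fun _ => hg'⟩
    · exact ⟨0, fun h => absurd h hg⟩
  choose f hf using key
  have hH1 : (1 : ℤ) ≤ H := by exact_mod_cast (by omega : 1 ≤ H)
  refine ⟨((UniqueFactorizationMonoid.factors FQ).map f).toFinset, ?_, ?_, ?_⟩
  · refine (Multiset.toFinset_card_le _).trans ?_
    rw [Multiset.card_map]
    have h2 := ht_card_le hirr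
    have hp0 : (UniqueFactorizationMonoid.factors FQ).prod ≠ 0 := by
      intro h0
      rw [h0] at h1
      exact hFQ0 ((associated_zero_iff_eq_zero _).1 h1.symm)
    have h3 : (UniqueFactorizationMonoid.factors FQ).prod.natDegree ≤ D := by
      refine (natDegree_le_of_dvd h1.dvd hFQ0).trans ?_
      rw [hFQ]
      exact natDegree_map_le.trans hFD.1
    have h4 : (UniqueFactorizationMonoid.factors FQ).prod.leadingCoeff.natDegree ≤ D := by
      have h5 : (UniqueFactorizationMonoid.factors FQ).prod.leadingCoeff ∣ FQ.leadingCoeff := by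
        obtain ⟨k, hk⟩ := h1.dvd
        have hk' := congrArg leadingCoeff hk
        rw [leadingCoeff_mul] at hk'
        exact ⟨_, hk'⟩
      refine (natDegree_le_of_dvd h5 (leadingCoeff_ne_zero.2 hFQ0)).trans ?_
      rw [hFQ, leadingCoeff, coeff_map]
      exact natDegree_map_le.trans (hFD.2 _)
    omega
  · intro g' hg'
    rw [Multiset.mem_toFinset, Multiset.mem_map] at hg'
    obtain ⟨g, hg, rfl⟩ := hg'
    obtain ⟨h2, h3, -, h5⟩ := hf g hg
    refine ⟨h2.irreducible (hirr g hg), h3, fun i j => (h5 i j).trans ?_⟩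
    exact pow_le_pow_right₀ hH1 (Nat.le_add_right _ _)
  · intro κ σ h0
    rw [← hFQ] at h0
    obtain ⟨g, hg, h2⟩ := ht_ev_multiset (ht_ev_of_dvd h1.symm.dvd h0)
    refine ⟨f g, Multiset.mem_toFinset.2 (Multiset.mem_map_of_mem f hg), ?_⟩
    exact ht_ev_of_dvd (hf g hg).1.dvd h2

/-- a canonical choice of the representatives: associated members are equal. -/
theorem factor_normal : ∃ nf : ℤ[X][X] → ℤ[X][X], ∀ g g' : ℤ[X][X],
    Irreducible (g.map (mapRingHom (Int.castRingHom ℚ))) →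
    Irreducible (g'.map (mapRingHom (Int.castRingHom ℚ))) →
    (Associated (g.map (mapRingHom (Int.castRingHom ℚ))) (g'.map (mapRingHom (Int.castRingHom ℚ)))
      ↔ nf g = nf g') := by
  classical
  let mk : ℤ[X][X] → Associates ℚ[X][X] := fun g =>
    Associates.mk (g.map (mapRingHom (Int.castRingHom ℚ)))
  let nf : ℤ[X][X] → ℤ[X][X] := fun g =>
    if h : ∃ g0, mk g0 = mk g then h.choose else 0
  have key : ∀ g, mk (nf g) = mk g := by
    intro g
    have h : ∃ g0, mk g0 = mk g := ⟨g, rfl⟩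
    have : nf g = h.choose := dif_pos h
    rw [this]
    exact h.choose_spec
  refine ⟨nf, fun g g' _ _ => ⟨fun h => ?_, fun h => ?_⟩⟩
  · have h1 : mk g = mk g' := Associates.mk_eq_mk_iff_associated.2 h
    show (if h : ∃ g0, mk g0 = mk g then h.choose else 0) =
      (if h : ∃ g0, mk g0 = mk g' then h.choose else 0)
    rw [h1]
  · have h1 : mk g = mk g' := by rw [← key g, ← key g', h]
    exact Associates.mk_eq_mk_iff_associated.1 h1

/-- a nonzero integer of size `≤ H^C` is divisible by at most `C / η` primes `> H^η`. -/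
theorem few_bad_primes (M C r : ℕ) (H b : ℕ) (n : ℤ) (ℓ : Fin M → ℕ) (hinj : Function.Injective ℓ)
    (hℓ : ∀ i, (ℓ i).Prime ∧ b < ℓ i) (hH : 2 ≤ H) (hn : n ≠ 0) (hnC : |n| ≤ (H : ℤ) ^ C)
    (hr : (H : ℕ) ^ C < b ^ (r + 1)) :
    (univ.filter (fun i => ((ℓ i : ℤ)) ∣ n)).card ≤ r := by
  by_contra hcon
  push Not at hcon
  obtain ⟨S, hS, hcard⟩ := Finset.exists_subset_card_eq (Nat.succ_le_of_lt hcon)
  have h1 : ∏ p ∈ S.image ℓ, p ∣ n.natAbs := by
    refine Finset.prod_primes_dvd _ (fun a ha => ?_) (fun a ha => ?_)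
    · obtain ⟨i, -, rfl⟩ := Finset.mem_image.1 ha
      exact (hℓ i).1.prime
    · obtain ⟨i, hi, rfl⟩ := Finset.mem_image.1 ha
      exact Int.natCast_dvd.1 (Finset.mem_filter.1 (hS hi)).2
  rw [Finset.prod_image (fun x _ y _ h => hinj h)] at h1
  have h2 : b ^ (r + 1) ≤ ∏ i ∈ S, ℓ i := by
    have h3 : b ^ (r + 1) = ∏ i ∈ S, b := by
      rw [Finset.prod_const, hcard]
    rw [h3]
    exact Finset.prod_le_prod' fun i _ => (hℓ i).2.le
  have h4 : ∏ i ∈ S, ℓ i ≤ n.natAbs := Nat.le_of_dvd (Int.natAbs_pos.2 hn) h1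
  have h5 : n.natAbs ≤ H ^ C := by
    have : ((n.natAbs : ℕ) : ℤ) ≤ ((H ^ C : ℕ) : ℤ) := by
      rw [Int.natCast_natAbs]
      exact_mod_cast hnC
    exact_mod_cast this
  omega

end Vale.Agent.P018.Q
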