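import Mathlib

/-! # P018, quartics: spaces of bivariate polynomials with a weighted degree. -/

namespace Vale.Agent.P018.Q.Lev

open Polynomial

/-- polynomials of degree `< J` in the outer variable, the coefficient of `κ^m` has degree
`≤ w + 2 ε m`. -/
def F (ε J w : ℕ) : Submodule ℚ ℚ[X][X] where
  carrier := {Ψ | ∀ m r, (J ≤ m ∨ w + 2 * ε * m < r) → (Ψ.coeff m).coeff r = 0}
  add_mem' := by intro a b ha hb m r h; simp [ha m r h, hb m r h]
  zero_mem' := by intro m r _; simp
  smul_mem' := by intro c a ha m r h; simp [ha m r h]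

theorem mem_F {ε J w : ℕ} {Ψ : ℚ[X][X]} :
    Ψ ∈ F ε J w ↔ ∀ m r, (J ≤ m ∨ w + 2 * ε * m < r) → (Ψ.coeff m).coeff r = 0 := Iff.rfl

theorem mem_of_monomials (S : Submodule ℚ ℚ[X][X]) (Ψ : ℚ[X][X])
    (h : ∀ m r, (Ψ.coeff m).coeff r ≠ 0 → monomial m (monomial r (1 : ℚ)) ∈ S) : Ψ ∈ S := by
  rw [Ψ.as_sum_support]
  refine Submodule.sum_mem _ fun m _ => ?_
  have e : monomial m (Ψ.coeff m) =
      ∑ r ∈ (Ψ.coeff m).support, monomial m (monomial r ((Ψ.coeff m).coeff r)) := by
    rw [← map_sum, ← (Ψ.coeff m).as_sum_support]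
  rw [e]
  refine Submodule.sum_mem _ fun r hr => ?_
  have h1 := h m r (mem_support_iff.1 hr)
  have : monomial m (monomial r ((Ψ.coeff m).coeff r)) =
      ((Ψ.coeff m).coeff r) • monomial m (monomial r (1 : ℚ)) := by
    rw [smul_monomial, smul_monomial, smul_eq_mul, mul_one]
  rw [this]
  exact S.smul_mem _ h1

theorem coeff_big {J : ℕ} {N : Fin J → ℕ} (c : (m : Fin J) → Fin (N m) → ℚ) (m' r' : ℕ) :
    ((∑ m : Fin J, ∑ r : Fin (N m),
      monomial (m : ℕ) (monomial (r : ℕ) (c m r)) : ℚ[X][X]).coeff m').coeff r' =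
    if h : m' < J then (if h' : r' < N ⟨m', h⟩ then c ⟨m', h⟩ ⟨r', h'⟩ else 0) else 0 := by
  simp only [finsetSum_coeff, coeff_monomial]
  split_ifs with h h'
  · rw [Finset.sum_eq_single (⟨m', h⟩ : Fin J)]
    · rw [Finset.sum_eq_single (⟨r', h'⟩ : Fin (N ⟨m', h⟩))]
      · simp [coeff_monomial]
      · intro b _ hb
        have : (b : ℕ) ≠ r' := fun e => hb (Fin.ext e)
        simp [coeff_monomial, this]
      · simp
    · intro b _ hb
      have : (b : ℕ) ≠ m' := fun e => hb (Fin.ext e)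
      simp [coeff_monomial, this]
    · simp
  · rw [Finset.sum_eq_zero]
    intro b _
    by_cases hb : (b : ℕ) = m'
    · subst hb
      refine Finset.sum_eq_zero fun r _ => ?_
      have : (r : ℕ) ≠ r' := fun e => h' (e ▸ r.2)
      simp [coeff_monomial, this]
    · simp [hb]
  · rw [Finset.sum_eq_zero]
    intro b _
    have : (b : ℕ) ≠ m' := fun e => h (e ▸ b.2)
    simp [this]

/-- coefficients of an element of `F`. -/
noncomputable def toPi (ε J w : ℕ) : F ε J w →ₗ[ℚ] ((m : Fin J) → (Fin (w + 2 * ε * m + 1) → ℚ)) where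
  toFun Ψ := fun m r => ((Ψ : ℚ[X][X]).coeff m).coeff r
  map_add' := by intro a b; ext m r; simp
  map_smul' := by intro a b; ext m r; simp

theorem toPi_bij (ε J w : ℕ) : Function.Bijective (toPi ε J w) := by
  constructor
  · rw [injective_iff_map_eq_zero]
    intro Ψ h
    apply Subtype.ext
    ext m r
    by_cases hm : m < J
    · by_cases hr : r < w + 2 * ε * m + 1
      · exact congrFun (congrFun h ⟨m, hm⟩) ⟨r, hr⟩
      · simpa using Ψ.2 m r (Or.inr (by omega))
    · simpa using Ψ.2 m r (Or.inl (by omega))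
  · intro c
    refine ⟨⟨∑ m : Fin J, ∑ r : Fin (w + 2 * ε * m + 1),
      monomial (m : ℕ) (monomial (r : ℕ) (c m r)), ?_⟩, ?_⟩
    · intro m r h
      rw [coeff_big]
      split_ifs with h1 h2
      · exfalso
        rcases h with h | h
        · omega
        · simp only at h2; omega
      · rfl
      · rfl
    · ext m r
      show ((∑ m : Fin J, ∑ r : Fin (w + 2 * ε * m + 1),
        monomial (m : ℕ) (monomial (r : ℕ) (c m r)) : ℚ[X][X]).coeff m).coeff r = _
      rw [coeff_big]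
      have h1 := r.2
      rw [dif_pos m.2, dif_pos h1]

noncomputable instance (ε J w : ℕ) : Module.Finite ℚ (F ε J w) :=
  Module.Finite.of_injective (toPi ε J w) (toPi_bij ε J w).1

theorem finrank_F (ε J w : ℕ) :
    Module.finrank ℚ (F ε J w) = ∑ m ∈ Finset.range J, (w + 2 * ε * m + 1) := by
  rw [LinearEquiv.finrank_eq (LinearEquiv.ofBijective _ (toPi_bij ε J w)),
    Module.finrank_pi_fintype, Finset.sum_range]
  refine Finset.sum_congr rfl fun m _ => ?_
  simp

theorem finrank_F' (ε J w : ℕ) :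
    Module.finrank ℚ (F ε J w) + ε * J = J * (w + 1) + ε * J * J := by
  rw [finrank_F]
  induction J with
  | zero => simp
  | succ J ih =>
    rw [Finset.sum_range_succ]
    nlinarith [ih]


/-! ### weighted degree -/

theorem coeff_swap (p : ℚ[X][X]) (m r : ℕ) :
    ((Bivariate.swap p).coeff r).coeff m = (p.coeff m).coeff r := by
  induction p using Polynomial.induction_on' with
  | add p q hp hq => simp only [map_add, coeff_add, hp, hq]
  | monomial n f =>
    induction f using Polynomial.induction_on' with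
    | add f h hf hh => simp only [map_add, coeff_add, hf, hh]
    | monomial k c =>
      rw [Bivariate.swap_monomial_monomial]
      simp only [coeff_monomial]
      split_ifs with h1 h2 h2 <;> simp_all [coeff_monomial]

/-- the weighted degree (shifted by `2 ε` times the degree). -/
noncomputable def D (ε : ℕ) (Ψ : ℚ[X][X]) : ℕ :=
  (Bivariate.swap (scaleRoots Ψ (X ^ (2 * ε)))).natDegree

theorem D_mul {ε : ℕ} {p q : ℚ[X][X]} (hp : p ≠ 0) (hq : q ≠ 0) :
    D ε (p * q) = D ε p + D ε q := by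
  unfold D
  rw [mul_scaleRoots_of_noZeroDivisors, map_mul, natDegree_mul]
  · exact (map_ne_zero_iff _ (Bivariate.swap (R := ℚ)).injective).2 (scaleRoots_ne_zero hp _)
  · exact (map_ne_zero_iff _ (Bivariate.swap (R := ℚ)).injective).2 (scaleRoots_ne_zero hq _)

theorem coeff_le_D (ε : ℕ) (Ψ : ℚ[X][X]) (m r : ℕ) (h : (Ψ.coeff m).coeff r ≠ 0) :
    r + 2 * ε * (Ψ.natDegree - m) ≤ D ε Ψ := by
  unfold D
  apply le_natDegree_of_ne_zero
  intro h0
  have h1 : ((Bivariate.swap (scaleRoots Ψ (X ^ (2 * ε)))).coeff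
      (r + 2 * ε * (Ψ.natDegree - m))).coeff m = 0 := by rw [h0]; simp
  rw [coeff_swap, coeff_scaleRoots, ← pow_mul, coeff_mul_X_pow] at h1
  exact h h1

theorem D_le {ε : ℕ} {Ψ : ℚ[X][X]} {n : ℕ}
    (h : ∀ m r, (Ψ.coeff m).coeff r ≠ 0 → r + 2 * ε * (Ψ.natDegree - m) ≤ n) : D ε Ψ ≤ n := by
  unfold D
  rw [natDegree_le_iff_coeff_eq_zero]
  intro N hN
  ext m
  rw [coeff_swap, coeff_scaleRoots, ← pow_mul, coeff_mul_X_pow']
  split_ifs with h1
  · by_contra h2
    have := h m _ h2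
    omega
  · simp

theorem mem_of_mul {ε j w w' : ℕ} (hε : ε ≤ 1) (hw : w' + 2 = w + 2 * ε)
    {g H : ℚ[X][X]} (hg2 : 2 ≤ g.natDegree) (hD : 2 + 2 * ε * g.natDegree ≤ D ε g + 2 * ε)
    (h : g * H ∈ F ε (j + 1) w) : H ∈ F ε (j - 1) w' := by
  by_cases hH : H = 0
  · subst hH; exact Submodule.zero_mem _
  have hg0 : g ≠ 0 := by rintro rfl; simp at hg2
  have hgH : g * H ≠ 0 := mul_ne_zero hg0 hH
  have hdeg : (g * H).natDegree ≤ j := by
    rw [natDegree_le_iff_coeff_eq_zero]
    intro N hN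
    ext r
    simpa using h N r (Or.inl (by omega))
  rw [natDegree_mul hg0 hH] at hdeg
  have hDl : D ε (g * H) ≤ w + 2 * ε * (g.natDegree + H.natDegree) := by
    apply D_le
    intro m r hmr
    have h1 : r ≤ w + 2 * ε * m := by
      by_contra h2
      exact hmr (h m r (Or.inr (by omega)))
    have h3 : m ≤ (g * H).natDegree :=
      le_natDegree_of_ne_zero (by intro h0; rw [h0] at hmr; simp at hmr)
    rw [natDegree_mul hg0 hH] at h3 ⊢
    obtain ⟨k, hk⟩ := Nat.exists_eq_add_of_le h3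
    rw [hk, Nat.add_sub_cancel_left]
    linarith [mul_add (2 * ε) m k]
  rw [D_mul hg0 hH] at hDl
  intro m r hmr
  by_contra hne
  have h4 := coeff_le_D ε H m r hne
  have h5 : m ≤ H.natDegree :=
    le_natDegree_of_ne_zero (by intro h0; rw [h0] at hne; simp at hne)
  rcases hmr with h6 | h6
  · omega
  · interval_cases ε <;> simp at * <;> omega

theorem finrank_quot {ε j w w' : ℕ} (hε : ε ≤ 1) (hw : w' + 2 = w + 2 * ε)
    {g : ℚ[X][X]} (hg2 : 2 ≤ g.natDegree) (hD : 2 + 2 * ε * g.natDegree ≤ D ε g + 2 * ε) :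
    Module.finrank ℚ (F ε (j + 1) w) ≤ Module.finrank ℚ (Submodule.map (Submodule.mkQ
        ((Ideal.span {g}).restrictScalars ℚ)) (F ε (j + 1) w)) +
      Module.finrank ℚ (F ε (j - 1) w') := by
  set I : Submodule ℚ ℚ[X][X] := (Ideal.span {g}).restrictScalars ℚ with hI
  set f : F ε (j + 1) w →ₗ[ℚ] (ℚ[X][X] ⧸ I) := I.mkQ.comp (F ε (j + 1) w).subtype with hf
  have h1 := LinearMap.finrank_range_add_finrank_ker (K := ℚ) (V := F ε (j + 1) w)
    (V₂ := ℚ[X][X] ⧸ I) f
  have h2 : LinearMap.range f = Submodule.map I.mkQ (F ε (j + 1) w) := by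
    rw [hf, LinearMap.range_comp, Submodule.range_subtype]
  have h3 : Submodule.map (F ε (j + 1) w).subtype (LinearMap.ker f) ≤
      Submodule.map (LinearMap.mulLeft ℚ g) (F ε (j - 1) w') := by
    rintro _ ⟨Ψ, hΨ, rfl⟩
    have h4 : (Ψ : ℚ[X][X]) ∈ I := by
      have : f Ψ = 0 := hΨ
      rwa [hf, LinearMap.comp_apply, Submodule.mkQ_apply, Submodule.Quotient.mk_eq_zero] at this
    rw [hI, Submodule.restrictScalars_mem, Ideal.mem_span_singleton] at h4
    obtain ⟨H, hH⟩ := h4
    refine ⟨H, ?_, ?_⟩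
    · exact mem_of_mul hε hw hg2 hD (hH ▸ Ψ.2)
    · rw [LinearMap.mulLeft_apply, ← hH]; rfl
  have h5 : Module.finrank ℚ (LinearMap.ker f) ≤ Module.finrank ℚ (F ε (j - 1) w') := by
    rw [← Submodule.finrank_map_subtype_eq]
    exact (Submodule.finrank_mono h3).trans (Submodule.finrank_map_le _ _)
  rw [← h2]
  omega

end Vale.Agent.P018.Q.Lev
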