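import Mathlib
import Vale.Agent.P018.Q.LevA

/-! # P018, quartics: the spaces spanned by the functions `x^μ σ^a`. -/

namespace Vale.Agent.P018.Q.Lev

open Polynomial

/-- span of the functions `x^μ σ^a`. -/
noncomputable def W (x : Fin 4 → ℚ[X][X]) (j l : ℕ) : Submodule ℚ ℚ[X][X] :=
  Submodule.span ℚ {Ψ | ∃ (μ : Fin 4 → ℕ) (a : ℕ), ∑ m, μ m = j ∧ a ≤ l ∧
    Ψ = (∏ m, x m ^ μ m) * C (X ^ a)}

theorem W_mono {x : Fin 4 → ℚ[X][X]} {j l l' : ℕ} (h : l ≤ l') : W x j l ≤ W x j l' :=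
  Submodule.span_mono (by rintro _ ⟨μ, a, h1, h2, rfl⟩; exact ⟨μ, a, h1, h2.trans h, rfl⟩)

theorem mul_sigma {x : Fin 4 → ℚ[X][X]} {j l : ℕ} (b : ℕ) {p : ℚ[X][X]} (hp : p ∈ W x j l) :
    p * C (X ^ b) ∈ W x j (l + b) := by
  unfold W at hp
  induction hp using Submodule.span_induction with
  | mem p hp =>
    obtain ⟨μ, a, h1, h2, rfl⟩ := hp
    exact Submodule.subset_span ⟨μ, a + b, h1, by omega, by rw [pow_add, C_mul]; ring⟩
  | zero => rw [zero_mul]; exact zero_mem _
  | add p q _ _ hp hq => rw [add_mul]; exact add_mem hp hq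
  | smul c p _ hp => rw [smul_mul_assoc]; exact Submodule.smul_mem _ _ hp

theorem mul_mon {x : Fin 4 → ℚ[X][X]} {j j' l : ℕ} (ν : Fin 4 → ℕ) (hν : ∑ m, ν m = j')
    {p : ℚ[X][X]} (hp : p ∈ W x j l) : (∏ m, x m ^ ν m) * p ∈ W x (j + j') l := by
  unfold W at hp
  induction hp using Submodule.span_induction with
  | mem p hp =>
    obtain ⟨μ, a, h1, h2, rfl⟩ := hp
    refine Submodule.subset_span ⟨fun m => μ m + ν m, a, ?_, h2, ?_⟩
    · rw [Finset.sum_add_distrib, h1, hν]
    · simp only [pow_add, Finset.prod_mul_distrib]; ring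
  | zero => rw [mul_zero]; exact zero_mem _
  | add p q _ _ hp hq => rw [mul_add]; exact add_mem hp hq
  | smul c p _ hp => rw [mul_smul_comm]; exact Submodule.smul_mem _ _ hp

theorem F_sigma {ε J w b : ℕ} {p : ℚ[X][X]} (hp : p ∈ F ε J w) :
    p * C (X ^ b) ∈ F ε J (w + b) := by
  intro m r h
  rw [coeff_mul_C, coeff_mul_X_pow']
  split_ifs with h1
  · exact hp m (r - b) (by omega)
  · rfl

theorem F_mono {ε J w w' : ℕ} (h : w ≤ w') : F ε J w ≤ F ε J w' := by
  intro p hp m r h1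
  exact hp m r (by omega)

theorem monomial_mem_F {ε J w m r : ℕ} (hm : m < J) (hr : r ≤ w + 2 * ε * m) :
    (monomial m (monomial r (1 : ℚ)) : ℚ[X][X]) ∈ F ε J w := by
  intro m' r' h
  rw [coeff_monomial]
  split_ifs with h1
  · rw [coeff_monomial, if_neg]
    subst h1
    omega
  · simp

theorem mem_F_bound {ε J w : ℕ} {p : ℚ[X][X]} (hp : p ∈ F ε J w) {m r : ℕ}
    (h : (p.coeff m).coeff r ≠ 0) : m < J ∧ r ≤ w + 2 * ε * m := by
  by_contra h1
  exact h (hp m r (by omega))

theorem step {x : Fin 4 → ℚ[X][X]} {ε j l v : ℕ} (hj : F ε (j + 1) (v + 1) ≤ W x j (l + 1))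
    {q : ℚ[X][X]} (hq : q ∈ F ε (j + 1) v) {p : ℚ[X][X]} (hp : p ∈ W x 1 1) :
    p * q ∈ W x (j + 1) (l + 1) := by
  unfold W at hp
  induction hp using Submodule.span_induction with
  | mem p hp =>
    obtain ⟨μ, a, h1, h2, rfl⟩ := hp
    have h3 : q * C (X ^ a) ∈ W x j (l + 1) :=
      hj (F_mono (by omega) (F_sigma (b := a) hq))
    have h4 := mul_mon μ h1 h3
    rwa [show (∏ m, x m ^ μ m) * (q * C (X ^ a)) = (∏ m, x m ^ μ m) * C (X ^ a) * q by ring] at h4
  | zero => rw [zero_mul]; exact zero_mem _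
  | add p q _ _ hp hq => rw [add_mul]; exact add_mem hp hq
  | smul c p _ hp => rw [smul_mul_assoc]; exact Submodule.smul_mem _ _ hp

theorem F_le_W {x : Fin 4 → ℚ[X][X]} {ε c : ℕ} (hb : F ε 2 (c + 1) ≤ W x 1 1) (j : ℕ) :
    ∀ l, F ε (j + 2) (c * (j + 1) + l + 1) ≤ W x (j + 1) (l + 1) := by
  induction j with
  | zero =>
    intro l p hp
    refine mem_of_monomials _ _ fun m r hmr => ?_
    obtain ⟨h1, h2⟩ := mem_F_bound hp hmr
    by_cases h3 : r ≤ c + 1 + 2 * ε * m
    · exact W_mono (by omega) (hb (monomial_mem_F h1 h3))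
    · obtain ⟨b, hb'⟩ := Nat.exists_eq_add_of_le (not_le.1 h3).le
      have h4 := mul_sigma b (hb (monomial_mem_F (r := c + 1 + 2 * ε * m) h1 le_rfl))
      have h5 : (monomial m (monomial (c + 1 + 2 * ε * m) (1 : ℚ)) : ℚ[X][X]) * C (X ^ b) =
          monomial m (monomial r 1) := by
        rw [monomial_mul_C, monomial_mul_X_pow, hb']
      rw [h5] at h4
      refine W_mono ?_ h4
      simp only [Nat.zero_add, mul_one] at h2
      omega
  | succ j ih =>
    intro l p hp
    refine mem_of_monomials _ _ fun m r hmr => ?_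
    obtain ⟨h1, h2⟩ := mem_F_bound hp hmr
    obtain ⟨m1, m2, hm, hm1, hm2⟩ : ∃ m1 m2, m1 + m2 = m ∧ m1 < 2 ∧ m2 < j + 2 := by
      rcases m with _ | m
      · exact ⟨0, 0, rfl, by omega, by omega⟩
      · exact ⟨1, m, by omega, by omega, by omega⟩
    have e1 : c * (j + 1 + 1) = c * (j + 1) + c := by ring
    have e2 : 2 * ε * m = 2 * ε * m1 + 2 * ε * m2 := by rw [← hm]; ring
    rw [e1, e2] at h2
    obtain ⟨r1, r2, hr, hr1, hr2⟩ : ∃ r1 r2, r1 + r2 = r ∧ r1 ≤ c + 1 + 2 * ε * m1 ∧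
        r2 ≤ c * (j + 1) + l + 2 * ε * m2 := by
      by_cases h : r ≤ c + 1 + 2 * ε * m1
      · exact ⟨r, 0, rfl, h, by omega⟩
      · exact ⟨c + 1 + 2 * ε * m1, r - (c + 1 + 2 * ε * m1), by omega, le_rfl, by omega⟩
    have h3 := step (ih l) (monomial_mem_F (ε := ε) hm2 hr2)
      (hb (monomial_mem_F (ε := ε) hm1 hr1))
    rwa [monomial_mul_monomial, monomial_mul_monomial, hm, hr, mul_one] at h3

/-! ### independence of the first eight functions -/

theorem key {K : Type*} [Field K] (θ : Fin 4 → K) (hθ : Function.Injective θ) (π : Fin 4 → K[X])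
    (hπ : ∀ j, (π j).natDegree = 1) (hcop : ∀ i j, i ≠ j → IsCoprime (π i) (π j))
    (A B : Fin 2 → K[X]) (z : Fin 2 → Fin 4 → K[X])
    (heq : ∀ i j, B i - C (θ j) * A i = π j ^ 2 * ∑ m : Fin 4, z i m * C (θ j ^ (m : ℕ)))
    (hdet : A 0 * B 1 - A 1 * B 0 ≠ 0) (lam : Fin 4 → K[X]) (hlam : ∀ m, (lam m).natDegree ≤ 1)
    (h0 : ∀ i, ∑ m, lam m * z i m = 0) : ∀ m, lam m = 0 := by
  classical
  set V : Matrix (Fin 4) (Fin 4) K[X] := (Matrix.vandermonde θ).map C with hV
  have hVdet : (Matrix.vandermonde θ).det ≠ 0 := Matrix.det_vandermonde_ne_zero_iff.2 hθ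
  set U : Matrix (Fin 4) (Fin 4) K[X] := ((Matrix.vandermonde θ)⁻¹).map C with hU
  have hUV : U * V = 1 := by
    rw [hU, hV, ← Matrix.map_mul, Matrix.nonsing_inv_mul _ (isUnit_iff_ne_zero.2 hVdet)]
    rw [Matrix.map_one _ C_0 C_1]
  -- `z i = U u i`
  set u : Fin 2 → Fin 4 → K[X] := fun i j => ∑ m : Fin 4, z i m * C (θ j ^ (m : ℕ)) with hu
  have hz : ∀ i m, z i m = ∑ j, U m j * u i j := by
    intro i m
    have h1 : u i = V.mulVec (z i) := by
      funext j
      simp only [hu, hV, Matrix.mulVec, dotProduct, Matrix.map_apply, Matrix.vandermonde_apply]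
      exact Finset.sum_congr rfl fun m _ => mul_comm _ _
    have h2 : U.mulVec (u i) = z i := by rw [h1, Matrix.mulVec_mulVec, hUV, Matrix.one_mulVec]
    rw [← h2]
    rfl
  set lj : Fin 4 → K[X] := fun j => ∑ m, lam m * U m j with hlj
  have hsum : ∀ i, ∑ j, lj j * u i j = 0 := by
    intro i
    rw [← h0 i]
    simp only [hz, hlj, Finset.sum_mul, Finset.mul_sum]
    rw [Finset.sum_comm]
    exact Finset.sum_congr rfl fun m _ => Finset.sum_congr rfl fun j _ => by ring
  have hljdeg : ∀ j, (lj j).natDegree ≤ 1 := by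
    intro j
    refine natDegree_sum_le_of_forall_le _ _ fun m _ => ?_
    rw [hU, Matrix.map_apply]
    exact (natDegree_mul_C_le _ _).trans (hlam m)
  set P : Fin 4 → K[X] := fun j => ∏ k ∈ Finset.univ.erase j, π k ^ 2 with hP
  have hPj : ∀ j, π j ^ 2 * P j = ∏ k, π k ^ 2 := by
    intro j
    rw [hP]
    exact Finset.mul_prod_erase Finset.univ (fun k => π k ^ 2) (Finset.mem_univ j)
  have hS : ∀ i, (∑ j, lj j * P j) * B i = (∑ j, C (θ j) * (lj j * P j)) * A i := by
    intro i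
    have h1 : (∏ k, π k ^ 2) * ∑ j, lj j * u i j = 0 := by rw [hsum i, mul_zero]
    have h2 : (∏ k, π k ^ 2) * ∑ j, lj j * u i j =
        ∑ j, lj j * P j * (B i - C (θ j) * A i) := by
      rw [Finset.mul_sum]
      refine Finset.sum_congr rfl fun j _ => ?_
      rw [heq i j, ← hPj j]
      ring
    rw [h2] at h1
    rw [← sub_eq_zero, ← h1, Finset.sum_mul, Finset.sum_mul, ← Finset.sum_sub_distrib]
    exact Finset.sum_congr rfl fun j _ => by ring
  have hS0 : ∑ j, lj j * P j = 0 := by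
    have h1 : (∑ j, lj j * P j) * (A 0 * B 1 - A 1 * B 0) = 0 := by
      have e0 := hS 0
      have e1 := hS 1
      linear_combination A 0 * e1 - A 1 * e0
    rcases mul_eq_zero.1 h1 with h | h
    · exact h
    · exact absurd h hdet
  have hlj0 : ∀ j, lj j = 0 := by
    intro j
    have h1 : π j ^ 2 ∣ lj j * P j := by
      rw [← Finset.add_sum_erase Finset.univ (fun j => lj j * P j) (Finset.mem_univ j)] at hS0
      have h2 : π j ^ 2 ∣ ∑ k ∈ Finset.univ.erase j, lj k * P k := by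
        refine Finset.dvd_sum fun k hk => Dvd.dvd.mul_left ?_ _
        refine Finset.dvd_prod_of_mem (fun k => π k ^ 2) ?_
        rw [Finset.mem_erase]
        exact ⟨(Finset.ne_of_mem_erase hk).symm, Finset.mem_univ _⟩
      rw [eq_neg_of_add_eq_zero_left hS0]
      exact (dvd_neg).2 h2
    have h3 : IsCoprime (π j ^ 2) (P j) := by
      refine IsCoprime.prod_right fun k hk => ?_
      exact (hcop j k (Finset.ne_of_mem_erase hk).symm).pow
    have h4 : π j ^ 2 ∣ lj j := h3.dvd_of_dvd_mul_right h1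
    by_contra h5
    have h6 := natDegree_le_of_dvd h4 h5
    rw [natDegree_pow, hπ j] at h6
    have := hljdeg j
    omega
  intro m
  have h7 : lam m = ∑ j, lj j * V j m := by
    have h8 : Matrix.vecMul lam (U * V) = lam := by rw [hUV, Matrix.vecMul_one]
    rw [← Matrix.vecMul_vecMul] at h8
    rw [← h8]
    simp only [Matrix.vecMul, dotProduct, hlj]
  rw [h7]
  exact Finset.sum_eq_zero fun j _ => by rw [hlj0 j, zero_mul]


theorem smul_eq_CC (c : ℚ) (p : ℚ[X][X]) : c • p = C (C c) * p := by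
  ext m r
  simp

theorem base {K : Type*} [Field K] [Algebra ℚ K] (θ : Fin 4 → K) (hθ : Function.Injective θ)
    (π : Fin 4 → K[X]) (hπ : ∀ j, (π j).natDegree = 1)
    (hcop : ∀ i j, i ≠ j → IsCoprime (π i) (π j))
    (A B : Fin 2 → K[X]) (z : Fin 2 → Fin 4 → ℚ[X])
    (heq : ∀ i j, B i - C (θ j) * A i =
      π j ^ 2 * ∑ m : Fin 4, (z i m).map (algebraMap ℚ K) * C (θ j ^ (m : ℕ)))
    (hdet : A 0 * B 1 - A 1 * B 0 ≠ 0) {ε c : ℕ} (hc : c + ε = 2)
    (hz0 : ∀ m, (z 0 m).natDegree ≤ c) (hz1 : ∀ m, (z 1 m).natDegree ≤ c + 2 * ε) :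
    F ε 2 (c + 1) ≤ W (fun m => C (z 0 m) + C (z 1 m) * X) 1 1 := by
  set x : Fin 4 → ℚ[X][X] := fun m => C (z 0 m) + C (z 1 m) * X with hx
  set v : Fin 4 × Fin 2 → ℚ[X][X] := fun i => x i.1 * C (X ^ (i.2 : ℕ)) with hv
  have hli : LinearIndependent ℚ v := by
    rw [Fintype.linearIndependent_iff]
    intro w hw
    set lam : Fin 4 → ℚ[X] := fun m => C (w (m, 0)) + C (w (m, 1)) * X with hlam
    have h1 : ∑ m, C (lam m) * x m = 0 := by
      rw [← hw, Fintype.sum_prod_type]
      refine Finset.sum_congr rfl fun m _ => ?_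
      simp only [Fin.sum_univ_two, hv, hlam, Fin.val_zero, Fin.val_one, pow_zero, pow_one,
        map_one, mul_one]
      rw [smul_eq_CC, smul_eq_CC]
      simp only [C_add, C_mul]
      ring
    have h2 : ∀ i : Fin 2, ∑ m, lam m * z i m = 0 := by
      intro i
      have h3 : (∑ m, C (lam m) * x m).coeff i = 0 := by rw [h1]; simp
      rw [finsetSum_coeff] at h3
      rw [← h3]
      refine Finset.sum_congr rfl fun m _ => ?_
      fin_cases i <;> simp [hx]
    have h4 := key θ hθ π hπ hcop A B (fun i m => (z i m).map (algebraMap ℚ K)) heq hdet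
      (fun m => (lam m).map (algebraMap ℚ K)) (by
        intro m
        refine natDegree_map_le.trans ?_
        simp only [hlam]
        compute_degree) (by
        intro i
        have := congrArg (Polynomial.map (algebraMap ℚ K)) (h2 i)
        simpa [Polynomial.map_sum] using this)
    have h5 : ∀ m, lam m = 0 := by
      intro m
      exact (Polynomial.map_eq_zero_iff (algebraMap ℚ K).injective).1 (h4 m)
    rintro ⟨m, a⟩
    have h6 := congrArg (fun p => p.coeff (a : ℕ)) (h5 m)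
    fin_cases a <;> simpa [hlam] using h6
  have h7 : Submodule.span ℚ (Set.range v) ≤ F ε 2 (c + 1) := by
    rw [Submodule.span_le]
    rintro _ ⟨⟨m, a⟩, rfl⟩
    have h8 : x m ∈ F ε 2 c := by
      intro n r hnr
      simp only [hx, coeff_add, coeff_C, coeff_C_mul, coeff_X]
      rcases n with _ | _ | n
      · simp
        exact coeff_eq_zero_of_natDegree_lt (by have := hz0 m; omega)
      · simp
        exact coeff_eq_zero_of_natDegree_lt (by have := hz1 m; omega)
      · simp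
    exact F_mono (by have := a.2; omega) (F_sigma (b := (a : ℕ)) h8)
  have h9 : Submodule.span ℚ (Set.range v) = F ε 2 (c + 1) := by
    refine Submodule.eq_of_le_of_finrank_eq h7 ?_
    rw [finrank_span_eq_card hli, finrank_F]
    simp [Finset.sum_range_succ]
    omega
  rw [← h9, Submodule.span_le]
  rintro _ ⟨⟨m, a⟩, rfl⟩
  refine Submodule.subset_span ⟨Pi.single m 1, a, ?_, by have := a.2; omega, ?_⟩
  · simp
  · rw [Finset.prod_eq_single m]
    · simp [hv]
    · intro b _ hb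
      simp [hb]
    · simp

end Vale.Agent.P018.Q.Lev
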