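import Mathlib
import Vale.Agent.P018.Q.LevB

/-! # P018, quartics: ranks modulo an irreducible polynomial. -/

namespace Vale.Agent.P018.Q.Lev

open Polynomial

/-- the weighted degree of the modulus is large enough. -/
theorem D_ge {ε : ℕ} (hε : ε ≤ 1) {g : ℚ[X][X]} (hg : Irreducible g) (hg2 : 2 ≤ g.natDegree)
    (hg4 : ε = 0 → ∃ i, 2 ≤ (g.coeff i).natDegree) :
    2 + 2 * ε * g.natDegree ≤ D ε g + 2 * ε := by
  interval_cases ε
  · obtain ⟨i, hi⟩ := hg4 rfl
    have h1 : (g.coeff i).coeff (g.coeff i).natDegree ≠ 0 := by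
      intro h
      have : g.coeff i = 0 := leadingCoeff_eq_zero.1 h
      rw [this] at hi
      simp at hi
    have := coeff_le_D 0 g i _ h1
    omega
  · have h0 : g.coeff 0 ≠ 0 := by
      intro h
      have h1 : (X : ℚ[X][X]) ∣ g := X_dvd_iff.2 h
      have h2 : Associated (X : ℚ[X][X]) g := (irreducible_X).associated_of_dvd hg h1
      have h3 := natDegree_eq_of_degree_eq (degree_eq_degree_of_associated h2)
      rw [natDegree_X] at h3
      omega
    have h1 : (g.coeff 0).coeff (g.coeff 0).natDegree ≠ 0 := by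
      intro h
      exact h0 (leadingCoeff_eq_zero.1 h)
    have := coeff_le_D 1 g 0 _ h1
    omega

theorem finite_W (x : Fin 4 → ℚ[X][X]) (j l : ℕ) : FiniteDimensional ℚ (W x j l) := by
  refine FiniteDimensional.span_of_finite ℚ ?_
  refine Set.Finite.subset (((Set.finite_Iic (fun _ : Fin 4 => j)).prod
    (Set.finite_Iic l)).image fun p => (∏ m, x m ^ p.1 m) * C (X ^ p.2)) ?_
  rintro _ ⟨μ, a, h1, h2, rfl⟩
  refine ⟨(μ, a), ⟨?_, h2⟩, rfl⟩
  intro m
  rw [← h1]
  exact Finset.single_le_sum (fun _ _ => Nat.zero_le _) (Finset.mem_univ m)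

theorem rank_W {ε c : ℕ} (hc : c + ε = 2) {x : Fin 4 → ℚ[X][X]} (hb : F ε 2 (c + 1) ≤ W x 1 1)
    {g : ℚ[X][X]} (hg : Irreducible g) (hg2 : 2 ≤ g.natDegree)
    (hg4 : ε = 0 → ∃ i, 2 ≤ (g.coeff i).natDegree) {j l : ℕ} (hj : 1 ≤ j) (hl : 1 ≤ l)
    (hε : ε ≤ 1) :
    6 * j + 2 * l ≤ Module.finrank ℚ (Submodule.map (Submodule.mkQ
        ((Ideal.span {g}).restrictScalars ℚ)) (W x j l)) := by
  obtain ⟨j, rfl⟩ := Nat.exists_eq_add_of_le' hj
  obtain ⟨l, rfl⟩ := Nat.exists_eq_add_of_le' hl
  have h1 := F_le_W hb j l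
  have := finite_W x (j + 1) (l + 1)
  have h2 : Module.finrank ℚ (Submodule.map (Submodule.mkQ
        ((Ideal.span {g}).restrictScalars ℚ)) (F ε (j + 2) (c * (j + 1) + l + 1))) ≤
      Module.finrank ℚ (Submodule.map (Submodule.mkQ
        ((Ideal.span {g}).restrictScalars ℚ)) (W x (j + 1) (l + 1))) :=
    Submodule.finrank_mono (Submodule.map_mono h1)
  refine le_trans ?_ h2
  obtain ⟨w', hw'⟩ : ∃ w', w' + 2 = c * (j + 1) + l + 1 + 2 * ε := by
    refine ⟨c * (j + 1) + l + 1 + 2 * ε - 2, ?_⟩
    have : c * (j + 1) = c * j + c := by ring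
    omega
  have h3 := finrank_quot (ε := ε) (j := j + 1) (w := c * (j + 1) + l + 1) (w' := w') hε hw' hg2
    (D_ge hε hg hg2 hg4)
  have h4 := finrank_F' ε (j + 1 + 1) (c * (j + 1) + l + 1)
  have h5 := finrank_F' ε (j + 1 - 1) w'
  rw [Nat.add_sub_cancel] at h5 h3
  have h6 : j + 2 = j + 1 + 1 := rfl
  rw [h6]
  generalize Module.finrank ℚ (F ε (j + 1 + 1) (c * (j + 1) + l + 1)) = f1 at *
  generalize Module.finrank ℚ (F ε j w') = f2 at *
  generalize Module.finrank ℚ (Submodule.map (Submodule.mkQ
        ((Ideal.span {g}).restrictScalars ℚ)) (F ε (j + 1 + 1) (c * (j + 1) + l + 1))) = f3 at *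
  interval_cases ε
  · obtain rfl : c = 2 := by omega
    nlinarith
  · obtain rfl : c = 1 := by omega
    nlinarith

/-- choosing independent elements level by level. -/
theorem choose_levels {Q : Type*} [AddCommGroup Q] [Module ℚ Q] (S : ℕ → Set Q) (N : ℕ)
    (hS : ∀ k < N, k < Module.finrank ℚ (Submodule.span ℚ (S k))) :
    ∃ v : ℕ → Q, (∀ k < N, v k ∈ S k) ∧
      ∀ w : ℕ → ℚ, ∑ k ∈ Finset.range N, w k • v k = 0 → ∀ k < N, w k = 0 := by
  classical
  induction N with
  | zero => exact ⟨fun _ => 0, by simp, by simp⟩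
  | succ N ih =>
    obtain ⟨v, hv1, hv2⟩ := ih (fun k hk => hS k (by omega))
    obtain ⟨s, hs1, hs2⟩ : ∃ s ∈ S N, s ∉ Submodule.span ℚ (v '' (Finset.range N : Set ℕ)) := by
      by_contra h
      push Not at h
      have h1 : Submodule.span ℚ (S N) ≤ Submodule.span ℚ (v '' (Finset.range N : Set ℕ)) :=
        Submodule.span_le.2 h
      have hfin : (v '' (Finset.range N : Set ℕ)).Finite := (Finset.finite_toSet _).image _
      have := FiniteDimensional.span_of_finite ℚ hfin
      have h2 := Submodule.finrank_mono h1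
      have h3 : Module.finrank ℚ (Submodule.span ℚ (v '' (Finset.range N : Set ℕ))) ≤ N := by
        rw [← Finset.coe_image]
        exact (finrank_span_finset_le_card _).trans
          (Finset.card_image_le.trans (by simp))
      have := hS N (by omega)
      omega
    refine ⟨Function.update v N s, ?_, ?_⟩
    · intro k hk
      by_cases h : k = N
      · subst h; simpa using hs1
      · rw [Function.update_of_ne h]; exact hv1 k (by omega)
    · intro w hw
      rw [Finset.sum_range_succ, Function.update_self] at hw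
      have h1 : ∑ k ∈ Finset.range N, w k • Function.update v N s k =
          ∑ k ∈ Finset.range N, w k • v k := by
        refine Finset.sum_congr rfl fun k hk => ?_
        rw [Function.update_of_ne (by have := Finset.mem_range.1 hk; omega)]
      rw [h1] at hw
      have hN : w N = 0 := by
        by_contra hne
        apply hs2
        have h2 : s = ∑ k ∈ Finset.range N, (-(w N)⁻¹ * w k) • v k := by
          have h3 : w N • s = - ∑ k ∈ Finset.range N, w k • v k :=
            eq_neg_of_add_eq_zero_right hw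
          have h4 : s = (w N)⁻¹ • (w N • s) := by rw [smul_smul, inv_mul_cancel₀ hne, one_smul]
          rw [h4, h3, smul_neg, Finset.smul_sum, ← Finset.sum_neg_distrib]
          refine Finset.sum_congr rfl fun k _ => ?_
          rw [smul_smul, neg_mul, neg_smul]
        rw [h2]
        refine Submodule.sum_mem _ fun k hk => Submodule.smul_mem _ _ (Submodule.subset_span ?_)
        exact ⟨k, by simpa using hk, rfl⟩
      rw [hN, zero_smul, add_zero] at hw
      intro k hk
      by_cases h : k = N
      · rw [h]; exact hN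
      · exact hv2 w hw k (by omega)

end Vale.Agent.P018.Q.Lev
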