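import Mathlib
import Vale.Agent.P018.Q.Kappa
import Vale.Agent.P018.Q.LevC

/-! # P018, quartics: ranks of the functions `γ^j σ^l` on curves of the kappa model. -/

namespace Vale.Agent.P018.Q

open Polynomial NumberField

/-- the polynomial in `κ` (outer variable) and `σ` (inner variable) attached to
`z^μ s^a t^(...)` at level `t'`. -/
noncomputable def psi (A : Fin 2 → ℤ[X]) (Z : Fin 2 → Fin 4 → ℤ[X]) (R t' : ℕ) (μ : Fin 4 → ℕ)
    (a : ℕ) : ℤ[X][X] :=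
  (C (A 0) + C (A 1) * X) ^ (R - t') * (∏ m, (C (Z 0 m) + C (Z 1 m) * X) ^ μ m) * C (X ^ a)

/-- the level of the `k`-th function. -/
def lev (i k : ℕ) : ℕ := if k < 6 * i + 2 then 0 else (k - (6 * i + 2)) / 10 + 1

variable {L : Type} [Field L] [NumberField L]

namespace Lev

/-- the functions `x_m`. -/
noncomputable def xf (Z : Fin 2 → Fin 4 → ℤ[X]) (m : Fin 4) : ℚ[X][X] :=
  C ((Z 0 m).map (Int.castRingHom ℚ)) + C ((Z 1 m).map (Int.castRingHom ℚ)) * X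

theorem psi_map (A : Fin 2 → ℤ[X]) (Z : Fin 2 → Fin 4 → ℤ[X]) (R t' : ℕ) (μ : Fin 4 → ℕ)
    (a : ℕ) : (psi A Z R t' μ a).map (mapRingHom (Int.castRingHom ℚ)) =
      (C ((A 0).map (Int.castRingHom ℚ)) + C ((A 1).map (Int.castRingHom ℚ)) * X) ^ (R - t') *
        ((∏ m, xf Z m ^ μ m) * C (X ^ a)) := by
  simp only [psi, xf, Polynomial.map_mul, Polynomial.map_pow, Polynomial.map_add, map_C, map_X,
    Polynomial.map_prod, coe_mapRingHom, mul_assoc]

omit [NumberField L] in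
theorem Lam_ne_zero {θ : Fin 4 → 𝓞 L} {l1 l2 : Fin 4 → ℤ}
    {d : Fin 2 → ℕ} {A B : Fin 2 → ℤ[X]} {Z : Fin 2 → Fin 4 → ℤ[X]} {Λ : ℤ[X]} {e : ℤ}
    (hl1 : ∀ j, K.ell (θ j) l1 ≠ 0) (hK : KData θ l1 l2 d A B Z Λ e) : Λ ≠ 0 := by
  rintro rfl
  have h := hK.hΛ
  rw [Polynomial.map_zero] at h
  obtain ⟨j, -, hj⟩ := Finset.prod_eq_zero_iff.1 h.symm
  have h1 := congrArg (fun p => p.coeff 1) hj
  simp [piPoly] at h1
  exact hl1 j h1

omit [NumberField L] in
theorem det_ne_zero {θ : Fin 4 → 𝓞 L} {l1 l2 : Fin 4 → ℤ}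
    {d : Fin 2 → ℕ} {A B : Fin 2 → ℤ[X]} {Z : Fin 2 → Fin 4 → ℤ[X]} {Λ : ℤ[X]} {e : ℤ}
    (hl1 : ∀ j, K.ell (θ j) l1 ≠ 0) (hK : KData θ l1 l2 d A B Z Λ e) :
    A 0 * B 1 - A 1 * B 0 ≠ 0 := by
  rw [hK.det]
  exact mul_ne_zero (C_ne_zero.2 hK.c0) (pow_ne_zero _ (Lam_ne_zero hl1 hK))

/-- the base case. -/
theorem base_K {θ : Fin 4 → 𝓞 L} (hθ : Function.Injective θ) {l1 l2 : Fin 4 → ℤ}
    {d : Fin 2 → ℕ} {A B : Fin 2 → ℤ[X]} {Z : Fin 2 → Fin 4 → ℤ[X]} {Λ : ℤ[X]} {e : ℤ}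
    (hl1 : ∀ j, K.ell (θ j) l1 ≠ 0) (hnd : NonDeg θ l1 l2) (hK : KData θ l1 l2 d A B Z Λ e) :
    ∃ ε c : ℕ, ε ≤ 1 ∧ c + ε = 2 ∧ (ε = 0 → d 0 = 4) ∧ F ε 2 (c + 1) ≤ W (xf Z) 1 1 := by
  obtain ⟨ε, c, hε, hc, hε4, hz0, hz1⟩ : ∃ ε c : ℕ, ε ≤ 1 ∧ c + ε = 2 ∧ (ε = 0 → d 0 = 4) ∧
      (∀ m, (Z 0 m).natDegree ≤ c) ∧ (∀ m, (Z 1 m).natDegree ≤ c + 2 * ε) := by
    have hd := hK.dZ
    rcases hK.dd with ⟨h0, h1⟩ | ⟨h0, h1⟩
    · refine ⟨0, 2, by omega, rfl, fun _ => h0, fun m => ?_, fun m => ?_⟩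
      · have := hd 0 m; omega
      · have := hd 1 m; omega
    · refine ⟨1, 1, le_rfl, rfl, fun h => absurd h (by omega), fun m => ?_, fun m => ?_⟩
      · have := hd 0 m; omega
      · have := hd 1 m; omega
  refine ⟨ε, c, hε, hc, hε4, ?_⟩
  have hinj : Function.Injective (algebraMap (𝓞 L) L) := FaithfulSMul.algebraMap_injective _ _
  have hp : ∀ j, (piPoly θ l1 l2 j).map (algebraMap (𝓞 L) L) =
      C (algebraMap (𝓞 L) L (K.ell (θ j) l1)) * X + C (algebraMap (𝓞 L) L (K.ell (θ j) l2)) := by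
    intro j
    simp [piPoly]
  have hcomp : ∀ p : ℤ[X], (p.map (algebraMap ℤ (𝓞 L))).map (algebraMap (𝓞 L) L) =
      p.map (algebraMap ℤ L) := by
    intro p
    rw [Polynomial.map_map]
    congr 1
  have hcomp2 : ∀ p : ℤ[X], (p.map (Int.castRingHom ℚ)).map (algebraMap ℚ L) =
      p.map (algebraMap ℤ L) := by
    intro p
    rw [Polynomial.map_map]
    congr 1
    exact RingHom.ext_int _ _
  refine base (K := L) (fun j => algebraMap (𝓞 L) L (θ j)) (fun i j h => hθ (hinj h))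
    (fun j => (piPoly θ l1 l2 j).map (algebraMap (𝓞 L) L)) ?_ ?_
    (fun i => (A i).map (algebraMap ℤ L)) (fun i => (B i).map (algebraMap ℤ L))
    (fun i m => (Z i m).map (Int.castRingHom ℚ)) ?_ ?_ hc ?_ ?_
  · intro j
    rw [hp j]
    exact natDegree_linear ((map_ne_zero_iff _ hinj).2 (hl1 j))
  · intro i j hij
    have hne := hnd i j hij
    set a := algebraMap (𝓞 L) L (K.ell (θ i) l1)
    set b := algebraMap (𝓞 L) L (K.ell (θ i) l2)
    set a' := algebraMap (𝓞 L) L (K.ell (θ j) l1)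
    set b' := algebraMap (𝓞 L) L (K.ell (θ j) l2)
    have hne' : a' * b - a * b' ≠ 0 := by
      intro h
      apply hne
      apply hinj
      rw [map_mul, map_mul]
      linear_combination -h
    refine ⟨C ((a' * b - a * b')⁻¹ * a'), C (-(a' * b - a * b')⁻¹ * a), ?_⟩
    rw [hp i, hp j]
    have h1 : C ((a' * b - a * b')⁻¹ * a') * (C a * X + C b) +
        C (-(a' * b - a * b')⁻¹ * a) * (C a' * X + C b') =
        C ((a' * b - a * b')⁻¹ * (a' * b - a * b')) := by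
      simp only [C_mul, C_neg, C_sub]
      ring
    rw [h1, inv_mul_cancel₀ hne', C_1]
  · intro i j
    have h1 := congrArg (Polynomial.map (algebraMap (𝓞 L) L)) (hK.eq i j)
    simp only [Polynomial.map_sub, Polynomial.map_mul, Polynomial.map_pow, Polynomial.map_sum,
      map_C, hcomp] at h1
    simp only [hcomp2]
    rw [h1]
    simp [map_pow]
  · have h1 := det_ne_zero hl1 hK
    have hinj2 : Function.Injective (algebraMap ℤ L) := FaithfulSMul.algebraMap_injective _ _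
    have h2 := (Polynomial.map_ne_zero_iff hinj2).2 h1
    simpa only [Polynomial.map_sub, Polynomial.map_mul] using h2
  · intro m
    exact natDegree_map_le.trans (hz0 m)
  · intro m
    exact natDegree_map_le.trans (hz1 m)

end Lev

/-- the functions `z^μ σ^a`, `|μ| = j`, `a ≤ l`, span a space of dimension `≥ 6 j + 2 l` modulo any
irreducible `g` of degree `≥ 2` in `κ` (and in `σ`, in the case `d = (4, 4)`). -/
theorem rank_mod {θ : Fin 4 → 𝓞 L} (hθ : Function.Injective θ) {l1 l2 : Fin 4 → ℤ}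
    {d : Fin 2 → ℕ} {A B : Fin 2 → ℤ[X]} {Z : Fin 2 → Fin 4 → ℤ[X]} {Λ : ℤ[X]} {e : ℤ}
    (hl1 : ∀ j, K.ell (θ j) l1 ≠ 0) (hnd : NonDeg θ l1 l2) (hK : KData θ l1 l2 d A B Z Λ e)
    (g : ℚ[X][X]) (hg : Irreducible g) (hg2 : 2 ≤ g.natDegree)
    (hg4 : d 0 = 4 → ∃ i, 2 ≤ (g.coeff i).natDegree) (j l : ℕ) (hj : 1 ≤ j) (hl : 1 ≤ l) :
    6 * j + 2 * l ≤ Module.finrank ℚ (Submodule.map (Submodule.mkQ
        ((Ideal.span {g}).restrictScalars ℚ))
      (Submodule.span ℚ {Ψ : ℚ[X][X] | ∃ (μ : Fin 4 → ℕ) (a : ℕ), ∑ m, μ m = j ∧ a ≤ l ∧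
        Ψ = (psi A Z 0 0 μ a).map (mapRingHom (Int.castRingHom ℚ))})) := by
  obtain ⟨ε, c, hε, hc, hε4, hb⟩ := Lev.base_K hθ hl1 hnd hK
  have h := Lev.rank_W hc hb hg hg2 (fun h => hg4 (hε4 h)) hj hl hε
  have h2 : Submodule.span ℚ {Ψ : ℚ[X][X] | ∃ (μ : Fin 4 → ℕ) (a : ℕ), ∑ m, μ m = j ∧ a ≤ l ∧
        Ψ = (psi A Z 0 0 μ a).map (mapRingHom (Int.castRingHom ℚ))} = Lev.W (Lev.xf Z) j l := by
    simp only [Lev.psi_map, Nat.sub_self, pow_zero, one_mul]
    rfl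
  rw [h2]
  exact h

/-- an independent family modulo `g`, with `6 i + 10 t + 2` elements of level `≤ t`. -/
theorem exists_levels {θ : Fin 4 → 𝓞 L} (hθ : Function.Injective θ) {l1 l2 : Fin 4 → ℤ}
    {d : Fin 2 → ℕ} {A B : Fin 2 → ℤ[X]} {Z : Fin 2 → Fin 4 → ℤ[X]} {Λ : ℤ[X]} {e : ℤ}
    (hl1 : ∀ j, K.ell (θ j) l1 ≠ 0) (hnd : NonDeg θ l1 l2) (hK : KData θ l1 l2 d A B Z Λ e)
    (g : ℚ[X][X]) (hg : Irreducible g) (hg2 : 2 ≤ g.natDegree)
    (hg4 : d 0 = 4 → ∃ i, 2 ≤ (g.coeff i).natDegree) (i R : ℕ) (hi : 1 ≤ i) :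
    ∃ (μ : ℕ → Fin 4 → ℕ) (a : ℕ → ℕ),
      (∀ k < 6 * i + 10 * R + 2, ∑ m, μ k m = i + lev i k ∧ a k ≤ 1 + 2 * lev i k) ∧
      ∀ w : ℕ → ℚ, g ∣ ∑ k ∈ Finset.range (6 * i + 10 * R + 2),
          C (C (w k)) * (psi A Z R (lev i k) (μ k) (a k)).map (mapRingHom (Int.castRingHom ℚ)) →
        ∀ k < 6 * i + 10 * R + 2, w k = 0 := by
  obtain ⟨ε, c, hε, hc, hε4, hb⟩ := Lev.base_K hθ hl1 hnd hK
  set I : Submodule ℚ ℚ[X][X] := (Ideal.span {g}).restrictScalars ℚ with hI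
  set α : ℚ[X][X] := C ((A 0).map (Int.castRingHom ℚ)) + C ((A 1).map (Int.castRingHom ℚ)) * X
    with hα
  have hαg : ¬ g ∣ α := by
    intro h
    have hα0 : α ≠ 0 := by
      intro h0
      have hi : Function.Injective (Int.castRingHom ℚ) := Int.cast_injective
      have h1 : A 0 = 0 := by
        have := congrArg (fun p => p.coeff 0) h0
        simp [hα] at this
        exact (Polynomial.map_eq_zero_iff hi).1 this
      have h2 : A 1 = 0 := by
        have := congrArg (fun p => p.coeff 1) h0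
        simp [hα] at this
        exact (Polynomial.map_eq_zero_iff hi).1 this
      apply Lev.det_ne_zero hl1 hK
      rw [h1, h2]; simp
    have h1 := natDegree_le_of_dvd h hα0
    have h2 : α.natDegree ≤ 1 := by
      rw [hα]
      compute_degree
    omega
  have hgp : Prime g := hg.prime
  have hcancel : ∀ n (p : ℚ[X][X]), g ∣ α ^ n * p → g ∣ p := by
    intro n p h
    rcases hgp.dvd_or_dvd h with h | h
    · exact absurd (hgp.dvd_of_dvd_pow h) hαg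
    · exact h
  set S : ℕ → Set (ℚ[X][X] ⧸ I) := fun k => I.mkQ '' {Ψ | ∃ (μ : Fin 4 → ℕ) (a : ℕ),
    ∑ m, μ m = i + lev i k ∧ a ≤ 1 + 2 * lev i k ∧
      Ψ = (psi A Z R (lev i k) μ a).map (mapRingHom (Int.castRingHom ℚ))} with hS
  obtain ⟨v, hv1, hv2⟩ := Lev.choose_levels S (6 * i + 10 * R + 2) (by
    intro k hk
    have hrank := Lev.rank_W hc hb hg hg2 (fun h => hg4 (hε4 h)) (j := i + lev i k)
      (l := 1 + 2 * lev i k) (by omega) (by omega) hε
    have hk' : k < 6 * (i + lev i k) + 2 * (1 + 2 * lev i k) := by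
      unfold lev
      split_ifs with h
      · omega
      · omega
    refine lt_of_lt_of_le hk' (hrank.trans ?_)
    set n := R - lev i k
    have hspan : Submodule.span ℚ (S k) = Submodule.map I.mkQ
        (Submodule.map (LinearMap.mulLeft ℚ (α ^ n))
          (Lev.W (Lev.xf Z) (i + lev i k) (1 + 2 * lev i k))) := by
      have hset : {Ψ | ∃ (μ : Fin 4 → ℕ) (a : ℕ), ∑ m, μ m = i + lev i k ∧
          a ≤ 1 + 2 * lev i k ∧
          Ψ = (psi A Z R (lev i k) μ a).map (mapRingHom (Int.castRingHom ℚ))} =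
          (LinearMap.mulLeft ℚ (α ^ n)) '' {Ψ | ∃ (μ : Fin 4 → ℕ) (a : ℕ),
            ∑ m, μ m = i + lev i k ∧ a ≤ 1 + 2 * lev i k ∧
            Ψ = (∏ m, Lev.xf Z m ^ μ m) * C (X ^ a)} := by
        ext Ψ
        constructor
        · rintro ⟨μ, a, h1, h2, rfl⟩
          exact ⟨_, ⟨μ, a, h1, h2, rfl⟩, by rw [Lev.psi_map]; rfl⟩
        · rintro ⟨_, ⟨μ, a, h1, h2, rfl⟩, rfl⟩
          exact ⟨μ, a, h1, h2, by rw [Lev.psi_map]; rfl⟩
      simp only [hS]
      rw [hset, Lev.W, Submodule.map_span, Submodule.map_span]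
    have hle : I ≤ I.comap (LinearMap.mulLeft ℚ (α ^ n)) := by
      intro p hp
      rw [hI, Submodule.restrictScalars_mem, Ideal.mem_span_singleton] at hp
      rw [Submodule.mem_comap, hI, Submodule.restrictScalars_mem, Ideal.mem_span_singleton]
      exact Dvd.dvd.mul_left hp _
    set M : (ℚ[X][X] ⧸ I) →ₗ[ℚ] (ℚ[X][X] ⧸ I) := I.mapQ I (LinearMap.mulLeft ℚ (α ^ n)) hle
      with hM
    have hMinj : Function.Injective M := by
      rw [injective_iff_map_eq_zero]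
      intro y hy
      obtain ⟨p, rfl⟩ := I.mkQ_surjective y
      rw [Submodule.mkQ_apply, hM, Submodule.mapQ_apply, Submodule.Quotient.mk_eq_zero, hI,
        Submodule.restrictScalars_mem, Ideal.mem_span_singleton] at hy
      rw [Submodule.mkQ_apply, Submodule.Quotient.mk_eq_zero, hI,
        Submodule.restrictScalars_mem, Ideal.mem_span_singleton]
      exact hcancel n p hy
    have hmap : Submodule.map I.mkQ
        (Submodule.map (LinearMap.mulLeft ℚ (α ^ n))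
          (Lev.W (Lev.xf Z) (i + lev i k) (1 + 2 * lev i k))) =
        Submodule.map M (Submodule.map I.mkQ
          (Lev.W (Lev.xf Z) (i + lev i k) (1 + 2 * lev i k))) := by
      rw [← Submodule.map_comp, ← Submodule.map_comp]
      congr 1
    rw [hspan, hmap]
    rw [← LinearEquiv.finrank_eq (Submodule.equivMapOfInjective M hMinj _)])
  choose! Φ hΦ hΦv using hv1
  choose! μ a hμ ha hΦe using hΦ
  refine ⟨μ, a, fun k hk => ⟨hμ k hk, ha k hk⟩, fun w hw k hk => hv2 w ?_ k hk⟩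
  have h1 : ∑ k ∈ Finset.range (6 * i + 10 * R + 2), w k • v k =
      I.mkQ (∑ k ∈ Finset.range (6 * i + 10 * R + 2),
          C (C (w k)) * (psi A Z R (lev i k) (μ k) (a k)).map (mapRingHom (Int.castRingHom ℚ))) := by
    rw [map_sum]
    refine Finset.sum_congr rfl fun k hk => ?_
    have hk' := Finset.mem_range.1 hk
    rw [← Lev.smul_eq_CC, map_smul, ← hΦe k hk', hΦv k hk']
  rw [h1, Submodule.mkQ_apply, Submodule.Quotient.mk_eq_zero, hI,
        Submodule.restrictScalars_mem, Ideal.mem_span_singleton]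
  exact hw

end Vale.Agent.P018.Q
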