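import Mathlib
import Vale.Agent.P018.Q.PairDefs
import Vale.Agent.P018.Q.KapB

/-! # P018, quartics, family (A): the curve step at given exponents, one class. -/

set_option linter.unusedVariables false

namespace Vale.Agent.P018.Q

open Polynomial NumberField Finset

theorem pc_sum_lev (i R : ℕ) : ∑ k ∈ range (6 * i + 10 * R + 2), lev i k = 5 * (R * (R + 1)) := by
  induction R with
  | zero =>
    refine Finset.sum_eq_zero fun k hk => ?_
    rw [mem_range] at hk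
    rw [lev, if_pos (by omega)]
  | succ R ih =>
    have h1 : 6 * i + 10 * (R + 1) + 2 = 6 * i + 10 * R + 2 + 10 := by ring
    have h2 : ∀ r < 10, lev i (6 * i + 10 * R + 2 + r) = R + 1 := by
      intro r hr
      rw [lev, if_neg (by omega)]
      omega
    rw [h1, Finset.sum_range_add, ih]
    rw [Finset.sum_congr rfl fun r hr => h2 r (mem_range.1 hr), Finset.sum_const, card_range]
    simp only [smul_eq_mul]
    ring

/-- choice of the parameters -/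
theorem pc_choose (w m1 β : ℝ) (hw : 0 < w) (hw' : w ≤ 1 / 2) (hm1 : 0 ≤ m1) (hm : m1 < w)
    (hβ : 0 < β) (hcur : NumCurve w m1 β) :
    ∃ (j : ℕ) (ε : ℝ), 1 ≤ j ∧ 0 < ε ∧ ε ≤ β / 2 ∧
      (1 - 2 * w + 2 * ε) * ((2305 * j ^ 2 + 75 * j : ℕ) : ℝ) +
        (w - m1 + 2 * ε) * ((1210 * j ^ 2 + 280 * j + 2 : ℕ) : ℝ) + 1 ≤
      (β - ε) * ((14450 * j ^ 2 + 255 * j + 1 : ℕ) : ℝ) := by
  have hcur' : 23.05 * (1 - 2 * w) + 12.1 * (w - m1) < 144.5 * β := hcur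
  set gap := 144.5 * β - (23.05 * (1 - 2 * w) + 12.1 * (w - m1)) with hgap
  have hg : 0 < gap := by rw [hgap]; linarith
  obtain ⟨j0, hj0⟩ := exists_nat_gt (4 / gap)
  set j := j0 + 1 with hj
  have hj1 : (1 : ℝ) ≤ j := by rw [hj]; push_cast; linarith [Nat.cast_nonneg (α := ℝ) j0]
  have hjg : 4 < gap * j := by
    have h1 : 4 / gap < j := by
      rw [hj]
      push_cast
      linarith
    rw [div_lt_iff₀ hg] at h1
    linarith
  set D : ℝ := 21480 * (j : ℝ) ^ 2 + 965 * j + 5 with hD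
  have hD0 : 0 < D := by positivity
  refine ⟨j, min (β / 2) (1 / D), by omega, lt_min (by linarith) (by positivity),
    min_le_left _ _, ?_⟩
  set ε := min (β / 2) (1 / D) with hε
  have hεD : ε * D ≤ 1 := by
    have : ε ≤ 1 / D := min_le_right _ _
    calc ε * D ≤ 1 / D * D := by gcongr
      _ = 1 := by field_simp
  push_cast
  have h2 : 100 * gap * (j : ℝ) ^ 2 ≥ 400 * j := by
    nlinarith
  have h3 : (1 - 2 * w) * (75 * j) ≤ 75 * (j : ℝ) := by nlinarith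
  have h4 : (w - m1) * (280 * j + 2) ≤ 280 * (j : ℝ) + 2 := by
    have : w - m1 ≤ 1 := by linarith
    nlinarith
  have h5 : 0 ≤ β * (255 * j + 1) := by positivity
  have h6 : (1 - 2 * w + 2 * ε) * (2305 * (j : ℝ) ^ 2 + 75 * j) +
      (w - m1 + 2 * ε) * (1210 * (j : ℝ) ^ 2 + 280 * j + 2) + 1 -
      (β - ε) * (14450 * (j : ℝ) ^ 2 + 255 * j + 1) =
      ε * D + 1 + (1 - 2 * w) * (75 * j) + (w - m1) * (280 * j + 2) - β * (255 * j + 1)
        - 100 * gap * (j : ℝ) ^ 2 := by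
    rw [hD, hgap]
    ring
  linarith

/-- the numerical inequalities -/
theorem pc_num {n : ℕ} (hn : 1 ≤ n) (e1 e2 : ℕ → ℕ) (Gz Sg : ℝ) (hG : 0 < Gz) (hS : 0 < Sg)
    (q : ℕ) (hq : 1 ≤ q)
    (h : (2 * n : ℝ) ^ n * (Gz ^ (∑ k ∈ range n, e1 k) * Sg ^ (∑ k ∈ range n, e2 k)) <
      (q : ℝ) ^ (n * (n - 1) / 2)) :
    ∃ W : ℕ → ℝ, (∀ k, 0 ≤ W k) ∧
      (q : ℝ) ^ (n * (n + 1) / 2) < ∏ k ∈ range n, ((⌊W k⌋₊ : ℝ) + 1) ∧
      ∑ k ∈ range n, W k * (Gz ^ e1 k * Sg ^ e2 k) < (q : ℝ) ^ n := by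
  have hn0 : (0 : ℝ) < n := by exact_mod_cast hn
  have hq0 : (0 : ℝ) < q := by exact_mod_cast hq
  refine ⟨fun k => (q : ℝ) ^ n / (2 * n * (Gz ^ e1 k * Sg ^ e2 k)), fun k => by positivity, ?_, ?_⟩
  · have h1 : ∏ k ∈ range n, ((q : ℝ) ^ n / (2 * n * (Gz ^ e1 k * Sg ^ e2 k))) ≤
        ∏ k ∈ range n, ((⌊(q : ℝ) ^ n / (2 * n * (Gz ^ e1 k * Sg ^ e2 k))⌋₊ : ℝ) + 1) :=
      Finset.prod_le_prod (fun k _ => by positivity) fun k _ => (Nat.lt_floor_add_one _).le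
    refine lt_of_lt_of_le ?_ h1
    have h0 : ∏ k ∈ range n, (Gz ^ e1 k * Sg ^ e2 k) =
        Gz ^ (∑ k ∈ range n, e1 k) * Sg ^ (∑ k ∈ range n, e2 k) := by
      rw [Finset.prod_mul_distrib, Finset.prod_pow_eq_pow_sum, Finset.prod_pow_eq_pow_sum]
    have h0' : ∏ k ∈ range n, (2 * n * (Gz ^ e1 k * Sg ^ e2 k)) =
        (2 * n : ℝ) ^ n * (Gz ^ (∑ k ∈ range n, e1 k) * Sg ^ (∑ k ∈ range n, e2 k)) := by
      rw [Finset.prod_mul_distrib, h0, Finset.prod_const, card_range]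
    rw [Finset.prod_div_distrib, h0', Finset.prod_const, card_range, lt_div_iff₀ (by positivity)]
    have h2 : n * (n + 1) / 2 + n * (n - 1) / 2 = n * n := by
      have e1 : 2 ∣ n * (n + 1) := (Nat.even_mul_succ_self n).two_dvd
      have e2 : 2 ∣ n * (n - 1) := by
        have := (Nat.even_mul_pred_self n).two_dvd
        exact this
      obtain ⟨a, ha⟩ := e1
      obtain ⟨b, hb⟩ := e2
      rw [ha, hb, Nat.mul_div_cancel_left _ two_pos, Nat.mul_div_cancel_left _ two_pos]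
      have h3 : n * (n + 1) + n * (n - 1) = 2 * (n * n) := by
        obtain ⟨r, rfl⟩ := Nat.exists_eq_add_of_le' hn
        simp only [Nat.add_sub_cancel]
        ring
      omega
    calc (q : ℝ) ^ (n * (n + 1) / 2) *
          ((2 * n : ℝ) ^ n * (Gz ^ (∑ k ∈ range n, e1 k) * Sg ^ (∑ k ∈ range n, e2 k))) <
          (q : ℝ) ^ (n * (n + 1) / 2) * (q : ℝ) ^ (n * (n - 1) / 2) := by
            gcongr
      _ = ((q : ℝ) ^ n) ^ n := by rw [← pow_add, h2, pow_mul]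
  · have h1 : ∀ k ∈ range n, (q : ℝ) ^ n / (2 * n * (Gz ^ e1 k * Sg ^ e2 k)) *
        (Gz ^ e1 k * Sg ^ e2 k) = (q : ℝ) ^ n / (2 * n) := by
      intro k _
      have : Gz ^ e1 k * Sg ^ e2 k ≠ 0 := by positivity
      field_simp
    rw [Finset.sum_congr rfl h1, Finset.sum_const, card_range, nsmul_eq_mul]
    have : (n : ℝ) * ((q : ℝ) ^ n / (2 * n)) = (q : ℝ) ^ n / 2 := by
      field_simp
    rw [this]
    have : 0 < (q : ℝ) ^ n := by positivity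
    linarith

theorem pc_ell {L : Type} [Field L] [NumberField L] {G : ℤ[X]} {θ : Fin 4 → 𝓞 L}
    (hF : Fld G θ) {l1 : Fin 4 → ℤ} (hl1 : l1 ≠ 0) (j : Fin 4) : K.ell (θ j) l1 ≠ 0 := by
  obtain ⟨F, _, _, α, σ, h⟩ := exists_quartic hF.monic hF.deg hF.irr hF.split
  intro h0
  exact ellj_ne_zero h hl1 j (by rw [h0]; simp)

variable {L : Type} [Field L] [NumberField L]

/-- curves of degree `≥ 2`, all points in one class modulo `q`, smooth modulo all primes of `q`. -/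
theorem curve_class {G : ℤ[X]} {θ : Fin 4 → 𝓞 L} (hF : Fld G θ) (C Dg : ℕ) (w m1 β : ℝ)
    (hw : 0 < w) (hw' : w ≤ 1 / 2) (hm1 : 0 ≤ m1) (hm : m1 < w) (hβ : 0 < β)
    (hcur : NumCurve w m1 β) :
    ∃ ε : ℝ, 0 < ε ∧ ∃ K : ℝ, 0 < K ∧ ∀ (X T : ℝ) (l1 l2 : Fin 4 → ℤ) (d : Fin 2 → ℕ)
      (A B : Fin 2 → ℤ[X]) (Z : Fin 2 → Fin 4 → ℤ[X]) (Λ : ℤ[X]) (e : ℤ) (g : ℤ[X][X]) (q : ℕ)
      (x0 y0 v : ℤ) (S : Finset ℤ),
      K ≤ X → X ≤ T ^ 4 → X ^ (w - ε) ≤ T → T ≤ X ^ (w + ε) →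
      X ^ (2 * (m1 - ε)) ≤ dot l1 l1 → dot l1 l1 ≤ dot l2 l2 → l1 ≠ 0 → NonDeg θ l1 l2 →
      KData θ l1 l2 d A B Z Λ e →
      Irreducible (g.map (mapRingHom (Int.castRingHom ℚ))) → BiDeg Dg Dg g → 2 ≤ g.natDegree →
      (d 0 = 4 → ∃ i, 2 ≤ (g.coeff i).natDegree) →
      X ^ (β - ε) ≤ q → (q : ℝ) ≤ X ^ (β + ε) → (q : ℤ) ∣ 1 - v * ev2 (derivative g) x0 y0 →
      (∀ N ∈ S, ∃ (p : ℕ) (c : ℤ) (z : Fin 4 → ℤ) (s t kn kd : ℤ),
        Pt θ C X T l1 l2 N p c z s t ∧ KP A B Z N c s t kn kd z ∧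
        ev (g.map (mapRingHom (Int.castRingHom ℚ))) ((kn : ℚ) / kd) ((s : ℚ) / t) = 0 ∧
        IsCoprime t (q : ℤ) ∧ IsCoprime kd (q : ℤ) ∧ (q : ℤ) ∣ s - x0 * t ∧
        (q : ℤ) ∣ kn - y0 * kd ∧
        IsCoprime (kd * hom 5 (A 0) s t + kn * hom 5 (A 1) s t) (q : ℤ)) →
      (S.card : ℝ) ≤ K := by
  obtain ⟨j, ε, hj, hε, hεβ, hnum⟩ := pc_choose w m1 β hw hw' hm1 hm hβ hcur
  obtain ⟨C1, hC1⟩ := curve_step (L := L) (10 * j) (11 * j) Dg (by omega)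
  set n : ℕ := 6 * (10 * j) + 10 * (11 * j) + 2 with hn
  set E1 : ℕ := 2305 * j ^ 2 + 75 * j with hE1
  set E2 : ℕ := 1210 * j ^ 2 + 280 * j + 2 with hE2
  set E3 : ℕ := 14450 * j ^ 2 + 255 * j + 1 with hE3
  have hs1 : ∑ k ∈ range n, (10 * j + lev (10 * j) k) = E1 := by
    rw [Finset.sum_add_distrib, Finset.sum_const, card_range, hn, pc_sum_lev, hE1]
    simp only [smul_eq_mul]
    ring
  have hs2 : ∑ k ∈ range n, (1 + 2 * lev (10 * j) k) = E2 := by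
    rw [Finset.sum_add_distrib, Finset.sum_const, card_range, ← Finset.mul_sum, hn, pc_sum_lev,
      hE2]
    simp only [smul_eq_mul]
    ring
  have hs3 : n * (n - 1) / 2 = E3 := by
    have h1 : n - 1 = 170 * j + 1 := by omega
    have h2 : n * (n - 1) = 2 * E3 := by
      rw [h1, hn, hE3]
      ring
    rw [h2]
    omega
  set c0 : ℝ := (2 * n : ℝ) ^ n * ((C : ℝ) + 1) ^ (E1 + E2) with hc0
  have hc0' : 0 ≤ c0 := by positivity
  have h2β : (0 : ℝ) ≤ 2 ^ (2 / β) := by positivity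
  have hCC : (0 : ℝ) ≤ (2 * C + 1) * C1 := by positivity
  refine ⟨ε, hε, 1 + 2 ^ (2 / β) + c0 + (2 * C + 1) * C1, by positivity, ?_⟩
  intro X T l1 l2 d A B Z Λ e g q x0 y0 v S hKX hXT hT1 hT2 hl hl12 hl10 hnd hKD hg hgd hg2 hg4
    hq1 hq2 hv hS
  have hX1 : 1 ≤ X := by linarith
  have hX0 : 0 < X := by linarith
  have hcX : c0 < X := by linarith
  have h2X : (2 : ℝ) ^ (2 / β) ≤ X := by linarith
  have hT0 : 0 < T := lt_of_lt_of_le (by positivity) hT1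
  -- `q` is large
  have hq : 2 ≤ q := by
    have h1 : (2 : ℝ) ≤ X ^ (β / 2) := by
      have h2 : ((2 : ℝ) ^ (2 / β)) ^ (β / 2) ≤ X ^ (β / 2) :=
        Real.rpow_le_rpow h2β h2X (by positivity)
      rw [← Real.rpow_mul (by norm_num)] at h2
      have h3 : 2 / β * (β / 2) = 1 := by field_simp
      rw [h3, Real.rpow_one] at h2
      exact h2
    have h2 : X ^ (β / 2) ≤ X ^ (β - ε) := Real.rpow_le_rpow_of_exponent_le hX1 (by linarith)
    have h3 : (2 : ℝ) ≤ q := by linarith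
    exact_mod_cast h3
  set Gz : ℝ := ((C : ℝ) + 1) * X ^ (1 - 2 * w + 2 * ε) with hGz
  set Sg : ℝ := ((C : ℝ) + 1) * X ^ (w - m1 + 2 * ε) with hSg
  have hGz0 : 0 < Gz := by positivity
  have hSg0 : 0 < Sg := by positivity
  have hmain : (2 * n : ℝ) ^ n * (Gz ^ (∑ k ∈ range n, (10 * j + lev (10 * j) k)) *
      Sg ^ (∑ k ∈ range n, (1 + 2 * lev (10 * j) k))) < (q : ℝ) ^ (n * (n - 1) / 2) := by
    rw [hs1, hs2, hs3]
    have h1 : (2 * n : ℝ) ^ n * (Gz ^ E1 * Sg ^ E2) =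
        c0 * X ^ ((1 - 2 * w + 2 * ε) * (E1 : ℝ) + (w - m1 + 2 * ε) * (E2 : ℝ)) := by
      have key : ∀ a b : ℝ, (2 * n : ℝ) ^ n * ((((C : ℝ) + 1) * X ^ a) ^ E1 *
          (((C : ℝ) + 1) * X ^ b) ^ E2) = c0 * X ^ (a * (E1 : ℝ) + b * (E2 : ℝ)) := by
        intro a b
        have k1 : X ^ (a * (E1 : ℝ) + b * (E2 : ℝ)) = (X ^ a) ^ E1 * (X ^ b) ^ E2 := by
          rw [Real.rpow_add hX0, Real.rpow_mul hX0.le, Real.rpow_mul hX0.le, Real.rpow_natCast,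
            Real.rpow_natCast]
        rw [k1, hc0, pow_add, mul_pow ((C : ℝ) + 1), mul_pow ((C : ℝ) + 1)]
        ring
      exact key _ _
    rw [h1]
    have h2 : c0 * X ^ ((1 - 2 * w + 2 * ε) * (E1 : ℝ) + (w - m1 + 2 * ε) * (E2 : ℝ)) <
        X * X ^ ((1 - 2 * w + 2 * ε) * (E1 : ℝ) + (w - m1 + 2 * ε) * (E2 : ℝ)) := by
      gcongr
    have h3 : X * X ^ ((1 - 2 * w + 2 * ε) * (E1 : ℝ) + (w - m1 + 2 * ε) * (E2 : ℝ)) =
        X ^ ((1 - 2 * w + 2 * ε) * (E1 : ℝ) + (w - m1 + 2 * ε) * (E2 : ℝ) + 1) := by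
      rw [Real.rpow_add hX0 _ 1, Real.rpow_one]
      ring
    have h4 : X ^ ((1 - 2 * w + 2 * ε) * (E1 : ℝ) + (w - m1 + 2 * ε) * (E2 : ℝ) + 1) ≤
        X ^ ((β - ε) * (E3 : ℝ)) := Real.rpow_le_rpow_of_exponent_le hX1 hnum
    have h5 : X ^ ((β - ε) * (E3 : ℝ)) ≤ (q : ℝ) ^ E3 := by
      rw [Real.rpow_mul hX0.le, Real.rpow_natCast]
      exact pow_le_pow_left₀ (by positivity) hq1 _
    linarith
  obtain ⟨W, hW0, hW1, hW2⟩ := pc_num (n := n) (by omega) (fun k => 10 * j + lev (10 * j) k)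
    (fun k => 1 + 2 * lev (10 * j) k) Gz Sg hGz0 hSg0 q (by omega) hmain
  -- the functions of the point
  choose! p c z s t kn kd hpt using hS
  have hdot : 0 < (dot l1 l1 : ℝ) := lt_of_lt_of_le (by positivity) hl
  have hsq : ∀ a : ℤ, (a : ℝ) ^ 2 * dot l1 l1 ≤ C * T ^ 2 → |(a : ℝ)| ≤ Sg := by
    intro a ha
    refine abs_le_of_sq_le_sq ?_ hSg0.le
    have h1 : (a : ℝ) ^ 2 * X ^ (2 * (m1 - ε)) ≤ C * (X ^ (w + ε)) ^ 2 := by
      calc (a : ℝ) ^ 2 * X ^ (2 * (m1 - ε)) ≤ (a : ℝ) ^ 2 * dot l1 l1 := by gcongr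
        _ ≤ C * T ^ 2 := ha
        _ ≤ C * (X ^ (w + ε)) ^ 2 := by gcongr
    have h2 : (X ^ (w + ε)) ^ 2 = X ^ (2 * (m1 - ε)) * (X ^ (w - m1 + 2 * ε)) ^ 2 := by
      rw [← Real.rpow_natCast (X ^ (w + ε)), ← Real.rpow_natCast (X ^ (w - m1 + 2 * ε)),
        ← Real.rpow_mul hX0.le, ← Real.rpow_mul hX0.le, ← Real.rpow_add hX0]
      congr 1
      push_cast
      ring
    have h3 : 0 < X ^ (2 * (m1 - ε)) := by positivity
    have h4 : (a : ℝ) ^ 2 ≤ C * (X ^ (w - m1 + 2 * ε)) ^ 2 := by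
      rw [h2] at h1
      have h5 : (a : ℝ) ^ 2 * X ^ (2 * (m1 - ε)) ≤
          C * (X ^ (w - m1 + 2 * ε)) ^ 2 * X ^ (2 * (m1 - ε)) := by linarith
      exact le_of_mul_le_mul_right h5 h3
    rw [hSg, mul_pow]
    refine h4.trans ?_
    have h6 : (C : ℝ) ≤ ((C : ℝ) + 1) ^ 2 := by nlinarith [Nat.cast_nonneg (α := ℝ) C]
    gcongr
  have hclass : ∀ b ∈ (Finset.Icc (-(C : ℤ)) C), (S.filter fun N => c N = b).card ≤ C1 := by
    intro b _
    rcases eq_or_ne b 0 with rfl | hb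
    · have : (S.filter fun N => c N = 0) = ∅ := by
        rw [Finset.filter_eq_empty_iff]
        intro N hN
        exact (hpt N hN).1.dat.c0
      rw [this]
      simp
    · refine hC1 hF.inj (pc_ell hF hl10) hnd hKD g hg hgd hg2 hg4 q hq n (by omega) b hb Gz Sg W hW0
        (S.filter fun N => c N = b) s t kn kd z x0 y0 v ?_ hv hW1 hW2
      intro N hN
      rw [Finset.mem_filter] at hN
      obtain ⟨hN, hcN⟩ := hN
      obtain ⟨h1, h2, h3, h4, h5, h6, h7, h8⟩ := hpt N hN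
      refine ⟨h4, h5, h2.t0, h6, h7, h3, h8, h2.eqN, ?_, ?_, ?_, ?_⟩
      · intro m
        rw [h2.eqz m, hcN]
      · intro m
        refine (h1.dat.hz m).trans ?_
        have e1 : (X ^ (w - ε)) ^ 2 ≤ T ^ 2 := pow_le_pow_left₀ (by positivity) hT1 2
        have e2 : (C : ℝ) * X / T ^ 2 ≤ C * X / (X ^ (w - ε)) ^ 2 := by
          gcongr
        have e3 : (C : ℝ) * X / (X ^ (w - ε)) ^ 2 = C * X ^ (1 - 2 * w + 2 * ε) := by
          rw [← Real.rpow_natCast (X ^ (w - ε)), ← Real.rpow_mul hX0.le, mul_div_assoc]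
          congr 1
          have e4 : X ^ (1 - 2 * w + 2 * ε) = X ^ (1 - (w - ε) * ((2 : ℕ) : ℝ)) := by
            congr 1
            push_cast
            ring
          rw [e4, Real.rpow_sub hX0, Real.rpow_one]
        rw [e3] at e2
        refine e2.trans ?_
        rw [hGz]
        gcongr
        linarith
      · exact hsq _ h1.hs
      · refine hsq _ (le_trans ?_ h1.ht)
        have : (dot l1 l1 : ℝ) ≤ dot l2 l2 := by exact_mod_cast hl12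
        gcongr
  have hcard : S.card ≤ C1 * (Finset.Icc (-(C : ℤ)) C).card :=
    Finset.card_le_mul_card_image_of_maps_to (f := c) (fun N hN => by
      rw [Finset.mem_Icc, ← abs_le]
      exact (hpt N hN).1.dat.cC) C1 hclass
  have hcard2 : (Finset.Icc (-(C : ℤ)) C).card = 2 * C + 1 := by
    rw [Int.card_Icc]
    omega
  rw [hcard2] at hcard
  have h1 : (S.card : ℝ) ≤ C1 * (2 * C + 1) := by exact_mod_cast hcard
  linarith

end Vale.Agent.P018.Q
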