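import Mathlib
import Vale.Agent.P018.Q.PairDefs
import Vale.Agent.P018.K.Small

/-! # P018, quartics: conjugates and norm of `ell (θ j) l`. -/

namespace Vale.Agent.P018.Q

open Polynomial NumberField Finset

variable {L : Type} [Field L] [NumberField L]

/-- bounds for the conjugates. -/
theorem ell_bound (θ : Fin 4 → 𝓞 L) : ∃ K1 : ℝ, 1 ≤ K1 ∧ ∀ (l : Fin 4 → ℤ) (φ : L →+* ℂ) (j : Fin 4),
    ‖φ (K.ell (θ j) l : 𝓞 L)‖ ^ 2 ≤ K1 * dot l l := by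
  classical
  refine ⟨1 + ∑ φ : L →+* ℂ, ∑ j : Fin 4, ∑ i : Fin 4, (‖φ (θ j : 𝓞 L)‖ ^ (i : ℕ)) ^ 2, ?_, ?_⟩
  · have : 0 ≤ ∑ φ : L →+* ℂ, ∑ j : Fin 4, ∑ i : Fin 4, (‖φ (θ j : 𝓞 L)‖ ^ (i : ℕ)) ^ 2 :=
      Finset.sum_nonneg fun φ _ => Finset.sum_nonneg fun j _ => Finset.sum_nonneg fun i _ =>
        by positivity
    linarith
  · intro l φ j
    have h1 : φ ((K.ell (θ j) l : 𝓞 L) : L) =
        ∑ i : Fin 4, (l i : ℂ) * φ (θ j : 𝓞 L) ^ (i : ℕ) := by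
      unfold K.ell
      simp
    have h2 : ‖φ ((K.ell (θ j) l : 𝓞 L) : L)‖ ≤
        ∑ i : Fin 4, |(l i : ℝ)| * ‖φ (θ j : 𝓞 L)‖ ^ (i : ℕ) := by
      rw [h1]
      refine (norm_sum_le _ _).trans (le_of_eq (Finset.sum_congr rfl fun i _ => ?_))
      rw [norm_mul, norm_pow, Complex.norm_intCast]
    have h3 : (∑ i : Fin 4, |(l i : ℝ)| * ‖φ (θ j : 𝓞 L)‖ ^ (i : ℕ)) ^ 2 ≤
        (∑ i : Fin 4, |(l i : ℝ)| ^ 2) * ∑ i : Fin 4, (‖φ (θ j : 𝓞 L)‖ ^ (i : ℕ)) ^ 2 :=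
      Finset.sum_mul_sq_le_sq_mul_sq _ _ _
    have h4 : (∑ i : Fin 4, |(l i : ℝ)| ^ 2) = (dot l l : ℝ) := by
      unfold dot
      push_cast
      refine Finset.sum_congr rfl fun i _ => ?_
      rw [sq_abs, sq]
    have h5 : (∑ i : Fin 4, (‖φ (θ j : 𝓞 L)‖ ^ (i : ℕ)) ^ 2) ≤
        1 + ∑ φ : L →+* ℂ, ∑ j : Fin 4, ∑ i : Fin 4, (‖φ (θ j : 𝓞 L)‖ ^ (i : ℕ)) ^ 2 := by
      have h6 : (∑ i : Fin 4, (‖φ (θ j : 𝓞 L)‖ ^ (i : ℕ)) ^ 2) ≤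
          ∑ j : Fin 4, ∑ i : Fin 4, (‖φ (θ j : 𝓞 L)‖ ^ (i : ℕ)) ^ 2 :=
        Finset.single_le_sum (f := fun j => ∑ i : Fin 4, (‖φ (θ j : 𝓞 L)‖ ^ (i : ℕ)) ^ 2)
          (fun j _ => Finset.sum_nonneg fun i _ => by positivity) (Finset.mem_univ j)
      have h7 : (∑ j : Fin 4, ∑ i : Fin 4, (‖φ (θ j : 𝓞 L)‖ ^ (i : ℕ)) ^ 2) ≤
          ∑ φ : L →+* ℂ, ∑ j : Fin 4, ∑ i : Fin 4, (‖φ (θ j : 𝓞 L)‖ ^ (i : ℕ)) ^ 2 :=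
        Finset.single_le_sum
          (f := fun φ : L →+* ℂ => ∑ j : Fin 4, ∑ i : Fin 4, (‖φ (θ j : 𝓞 L)‖ ^ (i : ℕ)) ^ 2)
          (fun φ _ => Finset.sum_nonneg fun j _ => Finset.sum_nonneg fun i _ => by positivity)
          (Finset.mem_univ φ)
      linarith
    have h8 : (0 : ℝ) ≤ dot l l := by
      rw [← h4]
      positivity
    calc ‖φ ((K.ell (θ j) l : 𝓞 L) : L)‖ ^ 2
        ≤ (∑ i : Fin 4, |(l i : ℝ)| * ‖φ (θ j : 𝓞 L)‖ ^ (i : ℕ)) ^ 2 :=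
          pow_le_pow_left₀ (norm_nonneg _) h2 2
      _ ≤ (dot l l : ℝ) * ∑ i : Fin 4, (‖φ (θ j : 𝓞 L)‖ ^ (i : ℕ)) ^ 2 := by
          rw [← h4]
          exact h3
      _ ≤ (dot l l : ℝ) * (1 + ∑ φ : L →+* ℂ, ∑ j : Fin 4, ∑ i : Fin 4,
          (‖φ (θ j : 𝓞 L)‖ ^ (i : ℕ)) ^ 2) := mul_le_mul_of_nonneg_left h5 h8
      _ = _ := mul_comm _ _

/-- the norm of `ell (θ j) l` is a rational integer. -/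
theorem norm_int {G : ℤ[X]} {θ : Fin 4 → 𝓞 L} (hF : Fld G θ) : ∃ K1 : ℝ, 1 ≤ K1 ∧
    ∀ l : Fin 4 → ℤ, l ≠ 0 → ∃ N1 : ℤ, N1 ≠ 0 ∧ ∏ j, K.ell (θ j) l = (N1 : 𝓞 L) ∧
      |(N1 : ℝ)| ≤ K1 * (dot l l : ℝ) ^ 2 := by
  obtain ⟨K1, hK1, hK⟩ := ell_bound θ
  obtain ⟨φ⟩ : Nonempty (L →+* ℂ) := inferInstance
  refine ⟨K1 ^ 2, one_le_pow₀ hK1, ?_⟩
  intro l hl
  have h1 := K.sm_resultant hF.deg θ hF.split (K.smPoly l)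
  simp only [K.sm_eval] at h1
  have h2 := K.sm_resultant_ne hF.deg hF.irr (K.sm_ne_zero hl) (K.sm_degree l)
  refine ⟨_, h2, h1.symm, ?_⟩
  have h3 : ‖φ ((∏ j, K.ell (θ j) l : 𝓞 L) : L)‖ =
      |((resultant G (K.smPoly l) G.natDegree (K.smPoly l).natDegree : ℤ) : ℝ)| := by
    rw [← h1]
    simp
  have h4 : ‖φ ((∏ j, K.ell (θ j) l : 𝓞 L) : L)‖ = ∏ j, ‖φ ((K.ell (θ j) l : 𝓞 L) : L)‖ := by
    have h5 : ∀ x : 𝓞 L, φ (x : L) = (φ.comp (algebraMap (𝓞 L) L)) x := fun _ => rfl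
    simp only [h5]
    rw [map_prod, norm_prod]
  rw [← h3, h4]
  have h6 : (∏ j, ‖φ ((K.ell (θ j) l : 𝓞 L) : L)‖) ^ 2 ≤ (K1 * dot l l) ^ 4 := by
    rw [← Finset.prod_pow]
    calc ∏ j : Fin 4, ‖φ ((K.ell (θ j) l : 𝓞 L) : L)‖ ^ 2 ≤ ∏ _j : Fin 4, (K1 * dot l l : ℝ) :=
          Finset.prod_le_prod (fun j _ => by positivity) fun j _ => hK l φ j
      _ = (K1 * dot l l) ^ 4 := by simp
  have h7 : (0 : ℝ) ≤ K1 * dot l l :=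
    (by positivity : (0 : ℝ) ≤ ‖φ ((K.ell (θ 0) l : 𝓞 L) : L)‖ ^ 2).trans (hK l φ 0)
  have h8 : (∏ j, ‖φ ((K.ell (θ j) l : 𝓞 L) : L)‖) ^ 2 ≤ ((K1 * dot l l) ^ 2) ^ 2 := by
    rw [← pow_mul]
    exact h6
  have h9 := abs_le_of_sq_le_sq' h8 (by positivity)
  calc _ ≤ (K1 * dot l l : ℝ) ^ 2 := h9.2
    _ = _ := by ring

end Vale.Agent.P018.Q
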