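import Mathlib

/-! # P018, quartics, family (A): the numerical part of the relation step at given exponents. -/

namespace Vale.Agent.P018.Q

open Finset

theorem rq_sq {X : ℝ} (hX : 0 < X) (u : ℝ) : X ^ (2 * u) = (X ^ u) ^ 2 := by
  rw [two_mul, Real.rpow_add hX, sq]

theorem rq_sqrt_le {X u a : ℝ} (hX : 0 < X) (h : a ≤ X ^ (2 * u)) : Real.sqrt a ≤ X ^ u := by
  rw [rq_sq hX] at h
  exact (Real.sqrt_le_left (Real.rpow_pos_of_pos hX u).le).2 h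

theorem rq_le_sqrt {X u a : ℝ} (hX : 0 < X) (h : X ^ (2 * u) ≤ a) : X ^ u ≤ Real.sqrt a := by
  rw [rq_sq hX] at h
  exact Real.le_sqrt_of_sq_le h

theorem rq_gauss (D : ℕ) : ∑ b ∈ range (D + 1), (b : ℝ) = D * (D + 1) / 2 := by
  induction D with
  | zero => simp
  | succ n ih =>
    rw [Finset.sum_range_succ, ih]
    push_cast
    ring

theorem rq_half (ν : ℕ) : ((ν * (ν + 1) / 2 : ℕ) : ℝ) = (ν : ℝ) * (ν + 1) / 2 := by
  have h : 2 ∣ ν * (ν + 1) := (Nat.even_mul_succ_self ν).two_dvd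
  rw [Nat.cast_div h (by norm_num)]
  push_cast
  ring

/-- the bound for the coefficients of the expansion. -/
theorem rq_bd (Nd D : ℕ) (ω : ℕ → ℝ) (X K0 K1 L1 L2 m1 m2 ε : ℝ) (hX : 1 ≤ X) (hK0 : 1 ≤ K0)
    (hK1 : 1 ≤ K1) (hL1 : 0 ≤ L1) (hL2 : 0 ≤ L2) (h1 : L1 ≤ X ^ (m1 + ε))
    (h2 : L2 ≤ X ^ (m2 + ε)) (hε : 0 ≤ ε) (hω : ∀ a ≤ Nd, ∀ a' ≤ a, ω a ≤ ω a') (α b' : ℕ)
    (hb' : b' ≤ D) :
    ∑ a ∈ range (Nd + 1), ∑ b ∈ range (D + 1), (X ^ ω a * L1 ^ b * L2 ^ (D - b)) *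
      (a.choose α : ℝ) * ((D - b).choose b' : ℝ) * K0 ^ (a - α) * (K1 * L2) ^ b *
      (K1 * L1) ^ (D - b - b') ≤
      (((Nd : ℝ) + 1) * ((D : ℝ) + 1) * (2 ^ Nd * 2 ^ D * K0 ^ Nd * K1 ^ D)) *
        X ^ (ω α + D * (m1 + m2) - b' * m1 + 2 * D * ε) := by
  have hX0 : 0 < X := by linarith
  have hterm : ∀ a ∈ range (Nd + 1), ∀ b ∈ range (D + 1), (X ^ ω a * L1 ^ b * L2 ^ (D - b)) *
      (a.choose α : ℝ) * ((D - b).choose b' : ℝ) * K0 ^ (a - α) * (K1 * L2) ^ b *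
      (K1 * L1) ^ (D - b - b') ≤ (2 ^ Nd * 2 ^ D * K0 ^ Nd * K1 ^ D) *
        X ^ (ω α + D * (m1 + m2) - b' * m1 + 2 * D * ε) := by
    intro a ha b hb
    rw [Finset.mem_range] at ha hb
    have hR : 0 ≤ (2 ^ Nd * 2 ^ D * K0 ^ Nd * K1 ^ D) *
        X ^ (ω α + D * (m1 + m2) - b' * m1 + 2 * D * ε) := by positivity
    by_cases h3 : a < α
    · rw [Nat.choose_eq_zero_of_lt h3]
      simpa using hR
    by_cases h4 : D - b < b'
    · rw [Nat.choose_eq_zero_of_lt h4]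
      simpa using hR
    have hpow : L1 ^ b * L2 ^ (D - b) * (K1 * L2) ^ b * (K1 * L1) ^ (D - b - b') =
        K1 ^ (D - b') * (L1 ^ (D - b') * L2 ^ D) := by
      have e1 : b + (D - b - b') = D - b' := by omega
      have e2 : (D - b) + b = D := by omega
      calc L1 ^ b * L2 ^ (D - b) * (K1 * L2) ^ b * (K1 * L1) ^ (D - b - b')
          = (K1 ^ b * K1 ^ (D - b - b')) * ((L1 ^ b * L1 ^ (D - b - b')) *
              (L2 ^ (D - b) * L2 ^ b)) := by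
            rw [mul_pow, mul_pow]; ring
        _ = K1 ^ (D - b') * (L1 ^ (D - b') * L2 ^ D) := by
            rw [← pow_add, ← pow_add, ← pow_add, e1, e2]
    have c1 : X ^ ω a ≤ X ^ ω α :=
      Real.rpow_le_rpow_of_exponent_le hX (hω a (by omega) α (by omega))
    have c2 : (a.choose α : ℝ) ≤ 2 ^ Nd := by
      have h5 : a.choose α ≤ 2 ^ Nd :=
        (Nat.choose_le_two_pow a α).trans (Nat.pow_le_pow_right (by norm_num) (by omega))
      exact_mod_cast h5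
    have c3 : ((D - b).choose b' : ℝ) ≤ 2 ^ D := by
      have h5 : (D - b).choose b' ≤ 2 ^ D :=
        (Nat.choose_le_two_pow _ _).trans (Nat.pow_le_pow_right (by norm_num) (by omega))
      exact_mod_cast h5
    have c4 : K0 ^ (a - α) ≤ K0 ^ Nd := pow_le_pow_right₀ hK0 (by omega)
    have c5 : K1 ^ (D - b') ≤ K1 ^ D := pow_le_pow_right₀ hK1 (by omega)
    have c6 : L1 ^ (D - b') ≤ X ^ ((m1 + ε) * ((D - b' : ℕ) : ℝ)) := by
      rw [Real.rpow_mul_natCast hX0.le]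
      exact pow_le_pow_left₀ hL1 h1 _
    have c7 : L2 ^ D ≤ X ^ ((m2 + ε) * (D : ℝ)) := by
      rw [Real.rpow_mul_natCast hX0.le]
      exact pow_le_pow_left₀ hL2 h2 _
    have c8 : X ^ ω α * (X ^ ((m1 + ε) * ((D - b' : ℕ) : ℝ)) * X ^ ((m2 + ε) * (D : ℝ))) ≤
        X ^ (ω α + D * (m1 + m2) - b' * m1 + 2 * D * ε) := by
      rw [← Real.rpow_add hX0, ← Real.rpow_add hX0]
      refine Real.rpow_le_rpow_of_exponent_le hX ?_
      rw [Nat.cast_sub hb']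
      have : 0 ≤ (b' : ℝ) * ε := by positivity
      nlinarith
    calc (X ^ ω a * L1 ^ b * L2 ^ (D - b)) * (a.choose α : ℝ) * ((D - b).choose b' : ℝ) *
          K0 ^ (a - α) * (K1 * L2) ^ b * (K1 * L1) ^ (D - b - b')
        = X ^ ω a * (a.choose α : ℝ) * ((D - b).choose b' : ℝ) * K0 ^ (a - α) *
            (L1 ^ b * L2 ^ (D - b) * (K1 * L2) ^ b * (K1 * L1) ^ (D - b - b')) := by ring
      _ = X ^ ω a * (a.choose α : ℝ) * ((D - b).choose b' : ℝ) * K0 ^ (a - α) *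
            (K1 ^ (D - b') * (L1 ^ (D - b') * L2 ^ D)) := by rw [hpow]
      _ ≤ X ^ ω α * 2 ^ Nd * 2 ^ D * K0 ^ Nd * (K1 ^ D *
            (X ^ ((m1 + ε) * ((D - b' : ℕ) : ℝ)) * X ^ ((m2 + ε) * (D : ℝ)))) := by
          gcongr
      _ = (2 ^ Nd * 2 ^ D * K0 ^ Nd * K1 ^ D) * (X ^ ω α *
            (X ^ ((m1 + ε) * ((D - b' : ℕ) : ℝ)) * X ^ ((m2 + ε) * (D : ℝ)))) := by ring
      _ ≤ _ := by
          refine mul_le_mul_of_nonneg_left c8 ?_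
          positivity
  calc _ ≤ ∑ a ∈ range (Nd + 1), ∑ b ∈ range (D + 1), ((2 ^ Nd * 2 ^ D * K0 ^ Nd * K1 ^ D) *
        X ^ (ω α + D * (m1 + m2) - b' * m1 + 2 * D * ε)) :=
        Finset.sum_le_sum fun a ha => Finset.sum_le_sum fun b hb => hterm a ha b hb
    _ = _ := by
        rw [Finset.sum_const, Finset.sum_const, Finset.card_range, Finset.card_range,
          nsmul_eq_mul, nsmul_eq_mul]
        push_cast
        ring

/-- the pigeonhole inequality. -/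
theorem rq_pig (M D Nd ν q : ℕ) (ω : ℕ → ℝ) (m1 m2 β ε η δ X K0 : ℝ) (W Bd : ℕ → ℕ → ℝ)
    (hX : 1 < X) (hη : 0 ≤ η)
    (hBd0 : ∀ α b, 0 ≤ K0 * Bd α b + 1)
    (hBd : ∀ α ≤ Nd, ∀ b ≤ D, K0 * Bd α b + 1 ≤
      X ^ (max 0 (ω α + D * (m1 + m2) - b * m1) + η))
    (hW : ∀ a ≤ Nd, ∀ b ≤ D, X ^ (ω a + b * (m1 - ε) + (D - b) * (m2 - ε)) ≤ W a b)
    (hq : (q : ℝ) ≤ X ^ (β + ε))
    (hN2 : 4 * ∑ α ∈ range (Nd + 1), ∑ b ∈ (range (D + 1)).filter (fun b => 2 * α + b < M),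
        max 0 (ω α + D * (m1 + m2) - b * m1) + β * ((Nd + 1) * (ν * (ν + 1) / 2)) + δ ≤
      ∑ a ∈ range (Nd + 1), ((D + 1) * ω a + D * (D + 1) / 2 * (m1 + m2)))
    (hsmall : 4 * η * (((Nd : ℝ) + 1) * (D + 1)) +
      ε * (((Nd : ℝ) + 1) * (ν * (ν + 1) / 2) + ((Nd : ℝ) + 1) * (D * (D + 1))) < δ) :
    (∏ α ∈ range (Nd + 1), ∏ b ∈ (range (D + 1)).filter (fun b => 2 * α + b < M),
        (K0 * Bd α b + 1) ^ 4) * (q : ℝ) ^ ((Nd + 1) * (ν * (ν + 1) / 2)) <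
        ∏ a ∈ range (Nd + 1), ∏ b ∈ range (D + 1), ((⌊W a b⌋₊ : ℝ) + 1) := by
  have hX0 : 0 < X := by linarith
  -- the left side
  have hL : ∏ α ∈ range (Nd + 1), ∏ b ∈ (range (D + 1)).filter (fun b => 2 * α + b < M),
      (K0 * Bd α b + 1) ^ 4 ≤ X ^ (∑ α ∈ range (Nd + 1),
        ∑ b ∈ (range (D + 1)).filter (fun b => 2 * α + b < M),
          (max 0 (ω α + D * (m1 + m2) - b * m1) + η) * 4) := by
    rw [Real.rpow_sum_of_pos hX0]
    refine Finset.prod_le_prod (fun α _ => Finset.prod_nonneg fun b _ =>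
      pow_nonneg (hBd0 α b) 4) fun α hα => ?_
    rw [Real.rpow_sum_of_pos hX0]
    refine Finset.prod_le_prod (fun b _ => pow_nonneg (hBd0 α b) 4) fun b hb => ?_
    rw [Finset.mem_range] at hα
    rw [Finset.mem_filter, Finset.mem_range] at hb
    have h1 := pow_le_pow_left₀ (hBd0 α b) (hBd α (by omega) b (by omega)) 4
    have h2 := Real.rpow_mul_natCast hX0.le (max 0 (ω α + D * (m1 + m2) - b * m1) + η) 4
    rw [Nat.cast_ofNat] at h2
    rw [h2]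
    exact h1
  have hexp1 : ∑ α ∈ range (Nd + 1), ∑ b ∈ (range (D + 1)).filter (fun b => 2 * α + b < M),
      (max 0 (ω α + D * (m1 + m2) - b * m1) + η) * 4 ≤
      4 * ∑ α ∈ range (Nd + 1), ∑ b ∈ (range (D + 1)).filter (fun b => 2 * α + b < M),
        max 0 (ω α + D * (m1 + m2) - b * m1) + 4 * η * (((Nd : ℝ) + 1) * (D + 1)) := by
    have h1 : ∑ α ∈ range (Nd + 1), ∑ b ∈ (range (D + 1)).filter (fun b => 2 * α + b < M),
        (max 0 (ω α + D * (m1 + m2) - b * m1) + η) * 4 ≤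
        ∑ α ∈ range (Nd + 1), (4 * ∑ b ∈ (range (D + 1)).filter (fun b => 2 * α + b < M),
          max 0 (ω α + D * (m1 + m2) - b * m1) + 4 * η * ((D : ℝ) + 1)) := by
      refine Finset.sum_le_sum fun α _ => ?_
      rw [← Finset.sum_mul, Finset.sum_add_distrib, Finset.sum_const, nsmul_eq_mul]
      have h2 : (((range (D + 1)).filter (fun b => 2 * α + b < M)).card : ℝ) ≤ (D : ℝ) + 1 := by
        have h3 := Finset.card_filter_le (range (D + 1)) (fun b => 2 * α + b < M)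
        rw [Finset.card_range] at h3
        exact_mod_cast h3
      have h4 := mul_le_mul_of_nonneg_right h2 hη
      linarith
    refine h1.trans (le_of_eq ?_)
    rw [Finset.sum_add_distrib, ← Finset.mul_sum, Finset.sum_const, Finset.card_range,
      nsmul_eq_mul]
    push_cast
    ring
  have hQ : (q : ℝ) ^ ((Nd + 1) * (ν * (ν + 1) / 2)) ≤
      X ^ ((β + ε) * (((Nd : ℝ) + 1) * (ν * (ν + 1) / 2))) := by
    have h1 := pow_le_pow_left₀ (Nat.cast_nonneg q) hq ((Nd + 1) * (ν * (ν + 1) / 2))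
    rw [← Real.rpow_mul_natCast hX0.le, Nat.cast_mul, rq_half] at h1
    push_cast at h1
    exact h1
  -- the right side
  have hRt : X ^ (∑ a ∈ range (Nd + 1), ∑ b ∈ range (D + 1),
      (ω a + b * (m1 - ε) + (D - b) * (m2 - ε))) ≤
      ∏ a ∈ range (Nd + 1), ∏ b ∈ range (D + 1), ((⌊W a b⌋₊ : ℝ) + 1) := by
    rw [Real.rpow_sum_of_pos hX0]
    refine Finset.prod_le_prod (fun a _ => (Real.rpow_pos_of_pos hX0 _).le) fun a ha => ?_
    rw [Real.rpow_sum_of_pos hX0]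
    refine Finset.prod_le_prod (fun b _ => (Real.rpow_pos_of_pos hX0 _).le) fun b hb => ?_
    rw [Finset.mem_range] at ha hb
    exact (hW a (by omega) b (by omega)).trans (Nat.lt_floor_add_one _).le
  have hexp2 : ∑ a ∈ range (Nd + 1), ∑ b ∈ range (D + 1),
      (ω a + b * (m1 - ε) + (D - b) * (m2 - ε)) =
      ∑ a ∈ range (Nd + 1), ((D + 1) * ω a + D * (D + 1) / 2 * (m1 + m2)) -
        ε * (((Nd : ℝ) + 1) * (D * (D + 1))) := by
    have h1 : ∀ a, ∑ b ∈ range (D + 1), (ω a + b * (m1 - ε) + ((D : ℝ) - b) * (m2 - ε)) =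
        ((D + 1) * ω a + D * (D + 1) / 2 * (m1 + m2)) - ε * (D * (D + 1)) := by
      intro a
      rw [Finset.sum_add_distrib, Finset.sum_add_distrib, Finset.sum_const, ← Finset.sum_mul,
        ← Finset.sum_mul, Finset.sum_sub_distrib, rq_gauss, Finset.sum_const, Finset.card_range,
        nsmul_eq_mul, nsmul_eq_mul]
      push_cast
      ring
    rw [Finset.sum_congr rfl fun a _ => h1 a, Finset.sum_sub_distrib, Finset.sum_const,
      Finset.card_range, nsmul_eq_mul]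
    push_cast
    ring
  calc (∏ α ∈ range (Nd + 1), ∏ b ∈ (range (D + 1)).filter (fun b => 2 * α + b < M),
        (K0 * Bd α b + 1) ^ 4) * (q : ℝ) ^ ((Nd + 1) * (ν * (ν + 1) / 2))
      ≤ X ^ (∑ α ∈ range (Nd + 1), ∑ b ∈ (range (D + 1)).filter (fun b => 2 * α + b < M),
          (max 0 (ω α + D * (m1 + m2) - b * m1) + η) * 4) *
        X ^ ((β + ε) * (((Nd : ℝ) + 1) * (ν * (ν + 1) / 2))) :=
        mul_le_mul hL hQ (by positivity) (Real.rpow_pos_of_pos hX0 _).le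
    _ = X ^ ((∑ α ∈ range (Nd + 1), ∑ b ∈ (range (D + 1)).filter (fun b => 2 * α + b < M),
          (max 0 (ω α + D * (m1 + m2) - b * m1) + η) * 4) +
          (β + ε) * (((Nd : ℝ) + 1) * (ν * (ν + 1) / 2))) := by
        rw [Real.rpow_add hX0]
    _ < X ^ (∑ a ∈ range (Nd + 1), ∑ b ∈ range (D + 1),
          (ω a + b * (m1 - ε) + (D - b) * (m2 - ε))) := by
        refine Real.rpow_lt_rpow_of_exponent_lt hX ?_
        rw [hexp2]
        linarith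
    _ ≤ _ := hRt

/-- the size of the value at a point. -/
theorem rq_size (M D Nd ν q p C : ℕ) (ω : ℕ → ℝ) (w β ε δ X T L1 L2 N s t : ℝ) (hX : 1 < X)
    (hT1 : X ^ (w - ε) ≤ T) (hT2 : T ≤ X ^ (w + ε)) (hp : T ^ 4 ≤ p) (hq : X ^ (β - ε) ≤ q)
    (hL1 : 0 ≤ L1) (hL2 : 0 ≤ L2)
    (hN : |N| ≤ C * X) (hs : s ^ 2 * L1 ^ 2 ≤ C * T ^ 2) (ht : t ^ 2 * L2 ^ 2 ≤ C * T ^ 2)
    (hω : ∀ a ≤ Nd, ω a + a + D * w + δ ≤ 4 * w * M + β * ν)
    (hε : ε * (D + 4 * M + ν) ≤ δ / 2)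
    (hc : ((Nd : ℝ) + 1) * (D + 1) * ((C : ℝ) + 1) ^ (Nd + D) < X ^ (δ / 2)) :
    (∑ a ∈ range (Nd + 1), ∑ b ∈ range (D + 1),
      (X ^ ω a * L1 ^ b * L2 ^ (D - b)) * |N| ^ a * |s| ^ b * |t| ^ (D - b)) <
      (p : ℝ) ^ M * (q : ℝ) ^ ν := by
  have hX0 : 0 < X := by linarith
  have hT0 : 0 < T := (Real.rpow_pos_of_pos hX0 _).trans_le hT1
  have hC0 : (0 : ℝ) ≤ C := Nat.cast_nonneg C
  have hroot : ∀ u v : ℝ, 0 ≤ v → u ^ 2 * v ^ 2 ≤ C * T ^ 2 → |u| * v ≤ ((C : ℝ) + 1) * T := by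
    intro u v hv h
    refine abs_le_of_sq_le_sq' ?_ (by positivity) |>.2
    rw [mul_pow, sq_abs, mul_pow]
    nlinarith [sq_nonneg T, sq_nonneg (C : ℝ), mul_nonneg hC0 (sq_nonneg T),
      mul_nonneg (sq_nonneg (C : ℝ)) (sq_nonneg T)]
  have hs' := hroot s L1 hL1 hs
  have ht' := hroot t L2 hL2 ht
  have hterm : ∀ a ∈ range (Nd + 1), ∀ b ∈ range (D + 1),
      (X ^ ω a * L1 ^ b * L2 ^ (D - b)) * |N| ^ a * |s| ^ b * |t| ^ (D - b) ≤
        ((C : ℝ) + 1) ^ (Nd + D) * X ^ (4 * w * M + β * ν - δ + D * ε) := by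
    intro a ha b hb
    rw [Finset.mem_range] at ha hb
    have e1 : (|s| * L1) ^ b * (|t| * L2) ^ (D - b) ≤ (((C : ℝ) + 1) * T) ^ D := by
      calc (|s| * L1) ^ b * (|t| * L2) ^ (D - b)
          ≤ (((C : ℝ) + 1) * T) ^ b * (((C : ℝ) + 1) * T) ^ (D - b) := by gcongr
        _ = _ := by
            rw [← pow_add]
            congr 1
            omega
    have e2 : |N| ^ a ≤ (((C : ℝ) + 1) * X) ^ a := by
      refine pow_le_pow_left₀ (abs_nonneg _) (hN.trans ?_) a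
      nlinarith
    have e3 : T ^ D ≤ X ^ ((w + ε) * D) := by
      rw [Real.rpow_mul_natCast hX0.le]
      exact pow_le_pow_left₀ hT0.le hT2 _
    have e4 : ((C : ℝ) + 1) ^ a * ((C : ℝ) + 1) ^ D ≤ ((C : ℝ) + 1) ^ (Nd + D) := by
      rw [← pow_add]
      exact pow_le_pow_right₀ (by linarith) (by omega)
    have e5 : X ^ ω a * X ^ (a : ℝ) * X ^ ((w + ε) * D) ≤
        X ^ (4 * w * M + β * ν - δ + D * ε) := by
      rw [← Real.rpow_add hX0, ← Real.rpow_add hX0]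
      refine Real.rpow_le_rpow_of_exponent_le hX.le ?_
      have := hω a (by omega)
      linarith
    calc (X ^ ω a * L1 ^ b * L2 ^ (D - b)) * |N| ^ a * |s| ^ b * |t| ^ (D - b)
        = X ^ ω a * |N| ^ a * ((|s| * L1) ^ b * (|t| * L2) ^ (D - b)) := by
          rw [mul_pow, mul_pow]; ring
      _ ≤ X ^ ω a * (((C : ℝ) + 1) * X) ^ a * (((C : ℝ) + 1) * T) ^ D := by gcongr
      _ = (((C : ℝ) + 1) ^ a * ((C : ℝ) + 1) ^ D) * (X ^ ω a * X ^ (a : ℝ) * T ^ D) := by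
          rw [mul_pow, mul_pow, Real.rpow_natCast]; ring
      _ ≤ ((C : ℝ) + 1) ^ (Nd + D) * (X ^ ω a * X ^ (a : ℝ) * X ^ ((w + ε) * D)) := by gcongr
      _ ≤ _ := mul_le_mul_of_nonneg_left e5 (by positivity)
  calc (∑ a ∈ range (Nd + 1), ∑ b ∈ range (D + 1),
      (X ^ ω a * L1 ^ b * L2 ^ (D - b)) * |N| ^ a * |s| ^ b * |t| ^ (D - b))
      ≤ ∑ a ∈ range (Nd + 1), ∑ b ∈ range (D + 1),
        (((C : ℝ) + 1) ^ (Nd + D) * X ^ (4 * w * M + β * ν - δ + D * ε)) :=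
        Finset.sum_le_sum fun a ha => Finset.sum_le_sum fun b hb => hterm a ha b hb
    _ = (((Nd : ℝ) + 1) * (D + 1) * ((C : ℝ) + 1) ^ (Nd + D)) *
        X ^ (4 * w * M + β * ν - δ + D * ε) := by
        rw [Finset.sum_const, Finset.sum_const, Finset.card_range, Finset.card_range,
          nsmul_eq_mul, nsmul_eq_mul]
        push_cast
        ring
    _ < X ^ (δ / 2) * X ^ (4 * w * M + β * ν - δ + D * ε) :=
        mul_lt_mul_of_pos_right hc (Real.rpow_pos_of_pos hX0 _)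
    _ = X ^ (δ / 2 + (4 * w * M + β * ν - δ + D * ε)) := (Real.rpow_add hX0 _ _).symm
    _ ≤ X ^ ((w - ε) * ((4 * M : ℕ) : ℝ) + (β - ε) * (ν : ℝ)) := by
        refine Real.rpow_le_rpow_of_exponent_le hX.le ?_
        push_cast
        linarith
    _ = (X ^ (w - ε)) ^ (4 * M) * (X ^ (β - ε)) ^ ν := by
        rw [Real.rpow_add hX0, Real.rpow_mul_natCast hX0.le, Real.rpow_mul_natCast hX0.le]
    _ ≤ T ^ (4 * M) * (q : ℝ) ^ ν := by
        have := Real.rpow_pos_of_pos hX0 (w - ε)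
        have := Real.rpow_pos_of_pos hX0 (β - ε)
        gcongr
    _ ≤ (p : ℝ) ^ M * (q : ℝ) ^ ν := by
        rw [pow_mul]
        gcongr

/-- the choice of the small exponents. -/
theorem rq_eps (M D Nd ν : ℕ) (w m2 β δ : ℝ) (hm : m2 < w) (hβ : 0 < β) (hδ : 0 < δ) :
    ∃ ε η : ℝ, 0 < ε ∧ 0 < η ∧ 2 * D * ε ≤ η / 2 ∧
      4 * η * (((Nd : ℝ) + 1) * (D + 1)) +
        ε * (((Nd : ℝ) + 1) * (ν * (ν + 1) / 2) + ((Nd : ℝ) + 1) * (D * (D + 1))) < δ ∧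
      ε * (D + 4 * M + ν) ≤ δ / 2 ∧ ε ≤ (w - m2) / 4 ∧ ε ≤ β / 2 := by
  set n1 : ℝ := ((Nd : ℝ) + 1) * (D + 1) with hn1
  have hn1' : 0 < n1 := by positivity
  set η : ℝ := δ / (16 * n1) with hη
  have hη0 : 0 < η := by positivity
  set μ : ℝ := min (min (δ / 4) (η / 4)) (min ((w - m2) / 4) (β / 2)) with hμ
  have hμ0 : 0 < μ := by
    rw [hμ]
    refine lt_min (lt_min (by positivity) (by positivity)) (lt_min ?_ (by positivity))
    linarith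
  have hμ1 : μ ≤ δ / 4 := (min_le_left _ _).trans (min_le_left _ _)
  have hμ2 : μ ≤ η / 4 := (min_le_left _ _).trans (min_le_right _ _)
  have hμ3 : μ ≤ (w - m2) / 4 := (min_le_right _ _).trans (min_le_left _ _)
  have hμ4 : μ ≤ β / 2 := (min_le_right _ _).trans (min_le_right _ _)
  set Z : ℝ := 1 + D + 4 * M + ν + (((Nd : ℝ) + 1) * (ν * (ν + 1) / 2) +
    ((Nd : ℝ) + 1) * (D * (D + 1))) with hZ
  have hZ0 : 0 < Z := by positivity
  have key : ∀ y : ℝ, y ≤ Z → μ / Z * y ≤ μ := by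
    intro y hy
    rw [div_mul_eq_mul_div, div_le_iff₀ hZ0]
    exact mul_le_mul_of_nonneg_left hy hμ0.le
  have p1 : (0 : ℝ) ≤ D := Nat.cast_nonneg D
  have p2 : (0 : ℝ) ≤ 4 * M := by positivity
  have p3 : (0 : ℝ) ≤ ν := Nat.cast_nonneg ν
  have p4 : (0 : ℝ) ≤ ((Nd : ℝ) + 1) * (ν * (ν + 1) / 2) + ((Nd : ℝ) + 1) * (D * (D + 1)) := by
    positivity
  have k0 := key 1 (by rw [hZ]; linarith)
  have k1 := key D (by rw [hZ]; linarith)
  have k2 := key (D + 4 * M + ν) (by rw [hZ]; linarith)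
  have k3 := key (((Nd : ℝ) + 1) * (ν * (ν + 1) / 2) + ((Nd : ℝ) + 1) * (D * (D + 1)))
    (by rw [hZ]; linarith)
  have hηn : 4 * η * n1 = δ / 4 := by
    rw [hη]
    field_simp
    ring
  refine ⟨μ / Z, η, by positivity, hη0, ?_, ?_, ?_, ?_, ?_⟩
  · linarith
  · rw [hηn]
    linarith
  · linarith
  · linarith
  · linarith

/-- the real numbers which have to be exceeded. -/
theorem rq_large (x1 x2 x3 x4 x5 a b c d : ℝ) (ha : 0 < a) (hb : 0 < b) (hc : 0 < c)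
    (hd : 0 < d) : ∃ K : ℝ, 1 < K ∧ ∀ X, K ≤ X → x1 ≤ X ^ a ∧ x2 < X ^ b ∧ x3 < X ^ c ∧
      x4 < X ∧ x5 < X ∧ 2 ≤ X ^ d := by
  have h1 := (tendsto_rpow_atTop ha).eventually_ge_atTop x1
  have h2 := (tendsto_rpow_atTop hb).eventually_gt_atTop x2
  have h3 := (tendsto_rpow_atTop hc).eventually_gt_atTop x3
  have h4 := Filter.eventually_gt_atTop x4
  have h5 := Filter.eventually_gt_atTop x5
  have h6 := (tendsto_rpow_atTop hd).eventually_ge_atTop 2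
  obtain ⟨K, hK⟩ := Filter.eventually_atTop.1 (((((h1.and h2).and h3).and h4).and h5).and h6)
  refine ⟨max K 2, lt_of_lt_of_le (by norm_num) (le_max_right _ _), fun X hX => ?_⟩
  obtain ⟨⟨⟨⟨⟨g1, g2⟩, g3⟩, g4⟩, g5⟩, g6⟩ := hK X ((le_max_left _ _).trans hX)
  exact ⟨g1, g2, g3, g4, g5, g6⟩

/-- the boxes of the pigeonhole principle. -/
theorem rq_box (e D ε η X K0 Cst B : ℝ) (hX1 : 1 < X) (hK0 : 1 ≤ K0) (hC : 0 ≤ Cst)
    (hη : 0 < η) (hDε : 2 * D * ε ≤ η / 2) (h1 : B ≤ Cst * X ^ (e + 2 * D * ε))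
    (g1 : K0 * Cst + 1 ≤ X ^ (η / 2)) : K0 * B + 1 ≤ X ^ (max 0 e + η) := by
  have hX0 : 0 < X := by linarith
  have hK00 : 0 ≤ K0 := by linarith
  have h2 : X ^ (e + 2 * D * ε) ≤ X ^ (max 0 e + η / 2) := by
    refine Real.rpow_le_rpow_of_exponent_le hX1.le ?_
    have := le_max_right 0 e
    linarith
  have h3 : 1 ≤ X ^ (max 0 e + η / 2) := by
    refine Real.one_le_rpow hX1.le ?_
    have := le_max_left 0 e
    linarith
  calc K0 * B + 1 ≤ K0 * (Cst * X ^ (max 0 e + η / 2)) + X ^ (max 0 e + η / 2) := by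
        refine add_le_add (mul_le_mul_of_nonneg_left (h1.trans ?_) hK00) h3
        exact mul_le_mul_of_nonneg_left h2 hC
    _ = (K0 * Cst + 1) * X ^ (max 0 e + η / 2) := by ring
    _ ≤ X ^ (η / 2) * X ^ (max 0 e + η / 2) :=
        mul_le_mul_of_nonneg_right g1 (Real.rpow_pos_of_pos hX0 _).le
    _ = X ^ (max 0 e + η) := by
        rw [← Real.rpow_add hX0]
        congr 1
        ring

/-- lower bound for the weights. -/
theorem rq_Wl (D a b : ℕ) (u m1 m2 ε X L1 L2 : ℝ) (hX0 : 0 < X) (hb : b ≤ D)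
    (h1 : X ^ (m1 - ε) ≤ L1) (h2 : X ^ (m2 - ε) ≤ L2) :
    X ^ (u + b * (m1 - ε) + ((D : ℝ) - b) * (m2 - ε)) ≤ X ^ u * L1 ^ b * L2 ^ (D - b) := by
  rw [Real.rpow_add hX0, Real.rpow_add hX0, mul_comm (b : ℝ), mul_comm ((D : ℝ) - b),
    Real.rpow_mul_natCast hX0.le, ← Nat.cast_sub hb, Real.rpow_mul_natCast hX0.le]
  have h3 := Real.rpow_pos_of_pos hX0 (m1 - ε)
  have h4 := Real.rpow_pos_of_pos hX0 (m2 - ε)
  have h5 := Real.rpow_pos_of_pos hX0 u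
  have h6 : 0 ≤ L1 := h3.le.trans h1
  have h7 : 0 ≤ L2 := h4.le.trans h2
  gcongr

/-- upper bound for the weights. -/
theorem rq_Wu (D b C0 : ℕ) (u S m1 m2 ε X Y L1 L2 : ℝ) (hX1 : 1 < X) (hXY : X ≤ Y) (hb : b ≤ D)
    (hL10 : 0 ≤ L1) (hL20 : 0 ≤ L2) (hL1u : L1 ≤ X ^ (m1 + ε)) (hL2u : L2 ≤ X ^ (m2 + ε))
    (hm1 : 0 ≤ m1 + ε) (hm2 : 0 ≤ m2 + ε) (hu : |u| ≤ S)
    (hC : S + D * (m1 + ε) + D * (m2 + ε) ≤ C0) :
    X ^ u * L1 ^ b * L2 ^ (D - b) ≤ Y ^ C0 := by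
  have hX0 : 0 < X := by linarith
  have h1 : L1 ^ b ≤ X ^ ((m1 + ε) * (b : ℝ)) := by
    rw [Real.rpow_mul_natCast hX0.le]
    exact pow_le_pow_left₀ hL10 hL1u _
  have h2 : L2 ^ (D - b) ≤ X ^ ((m2 + ε) * ((D - b : ℕ) : ℝ)) := by
    rw [Real.rpow_mul_natCast hX0.le]
    exact pow_le_pow_left₀ hL20 hL2u _
  have h5 : (m1 + ε) * (b : ℝ) ≤ D * (m1 + ε) := by
    rw [mul_comm]
    have : (b : ℝ) ≤ D := by exact_mod_cast hb
    exact mul_le_mul_of_nonneg_right this hm1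
  have h6 : (m2 + ε) * ((D - b : ℕ) : ℝ) ≤ D * (m2 + ε) := by
    rw [mul_comm]
    have : ((D - b : ℕ) : ℝ) ≤ D := by exact_mod_cast Nat.sub_le _ _
    exact mul_le_mul_of_nonneg_right this hm2
  calc X ^ u * L1 ^ b * L2 ^ (D - b)
      ≤ X ^ u * X ^ ((m1 + ε) * (b : ℝ)) * X ^ ((m2 + ε) * ((D - b : ℕ) : ℝ)) := by
        have := Real.rpow_pos_of_pos hX0 u
        gcongr
    _ = X ^ (u + (m1 + ε) * (b : ℝ) + (m2 + ε) * ((D - b : ℕ) : ℝ)) := by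
        rw [Real.rpow_add hX0, Real.rpow_add hX0]
    _ ≤ X ^ (C0 : ℝ) := by
        refine Real.rpow_le_rpow_of_exponent_le hX1.le ?_
        have h7 := le_abs_self u
        linarith
    _ = X ^ C0 := Real.rpow_natCast X C0
    _ ≤ Y ^ C0 := pow_le_pow_left₀ hX0.le hXY _

/-- the norm of `l2` is smaller than the prime. -/
theorem rq_N2 (w m2 ε X T Kb d N2 : ℝ) (hX1 : 1 < X) (hT1 : X ^ (w - ε) ≤ T) (hKb : 0 ≤ Kb)
    (hd0 : 0 ≤ d) (hd : d ≤ X ^ (2 * (m2 + ε))) (hN : N2 ≤ Kb * d ^ 2)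
    (g3 : Kb < X ^ (2 * (w - m2))) (hεm : ε ≤ (w - m2) / 4) : N2 < T ^ 4 := by
  have hX0 : 0 < X := by linarith
  have hp := Real.rpow_pos_of_pos hX0 (2 * (m2 + ε))
  calc N2 ≤ Kb * d ^ 2 := hN
    _ ≤ Kb * (X ^ (2 * (m2 + ε))) ^ 2 := by gcongr
    _ < X ^ (2 * (w - m2)) * (X ^ (2 * (m2 + ε))) ^ 2 :=
        mul_lt_mul_of_pos_right g3 (by positivity)
    _ = X ^ (2 * (w - m2) + 2 * (m2 + ε) * ((2 : ℕ) : ℝ)) := by
        rw [Real.rpow_add hX0, Real.rpow_mul_natCast hX0.le]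
    _ ≤ X ^ ((w - ε) * ((4 : ℕ) : ℝ)) := by
        refine Real.rpow_le_rpow_of_exponent_le hX1.le ?_
        push_cast
        linarith
    _ = (X ^ (w - ε)) ^ 4 := by rw [Real.rpow_mul_natCast hX0.le]
    _ ≤ T ^ 4 := pow_le_pow_left₀ (Real.rpow_pos_of_pos hX0 _).le hT1 4

end Vale.Agent.P018.Q
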