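import Mathlib
import Vale.Agent.P018.Q.Defs

/-! # P018, quartics: coordinates in the relation step. -/

namespace Vale.Agent.P018.Q

open Polynomial NumberField Finset

section

variable {R : Type*} [CommRing R]

/-- coordinates modulo `G`. -/
theorem rc_ell (G : ℤ[X]) (hG : G.Monic) (hGd : G.natDegree = 4) (θ : R) (hθ : aeval θ G = 0)
    (P : ℤ[X]) : K.ell θ (fun i : Fin 4 => (P %ₘ G).coeff i) = aeval θ P := by
  have h1 : aeval θ P = aeval θ (P %ₘ G) := by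
    conv_lhs => rw [← modByMonic_add_div P G]
    rw [map_add, map_mul, hθ, zero_mul, add_zero]
  have h2 : (P %ₘ G).natDegree < 4 := by
    rw [← hGd]
    exact natDegree_modByMonic_lt _ hG (by
      rintro rfl
      simp at hGd)
  rw [h1, aeval_eq_sum_range' h2, Finset.sum_range]
  unfold K.ell
  refine Finset.sum_congr rfl fun i _ => ?_
  rw [zsmul_eq_mul]

/-- the polynomial with the value `ell θ l`. -/
noncomputable def rcP (l : Fin 4 → ℤ) : ℤ[X] := ∑ j : Fin 4, C (l j) * X ^ (j : ℕ)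

theorem rc_P (θ : R) (l : Fin 4 → ℤ) : aeval θ (rcP l) = K.ell θ l := by
  unfold rcP K.ell
  rw [map_sum]
  refine Finset.sum_congr rfl fun j _ => ?_
  simp

theorem rc_ell_sum {ι : Type*} (s : Finset ι) (θ : R) (f : ι → ℤ) (v : ι → Fin 4 → ℤ) :
    K.ell θ (fun i => ∑ x ∈ s, f x * v x i) = ∑ x ∈ s, (f x : R) * K.ell θ (v x) := by
  unfold K.ell
  simp_rw [Finset.mul_sum, Int.cast_sum, Finset.sum_mul]
  rw [Finset.sum_comm]
  refine Finset.sum_congr rfl fun x _ => Finset.sum_congr rfl fun j _ => ?_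
  push_cast
  ring

end

/-- the inverse of the Vandermonde matrix. -/
theorem rc_vander {L : Type*} [Field L] [NumberField L] (θ : Fin 4 → 𝓞 L)
    (hθ : Function.Injective θ) : ∃ K0 : ℝ, 1 ≤ K0 ∧
      (∀ (φ : L →+* ℂ) (j : Fin 4), ‖φ (θ j : 𝓞 L)‖ ≤ K0) ∧
      ∀ (v : Fin 4 → ℤ) (B : ℝ), (∀ (φ : L →+* ℂ) (j : Fin 4),
        ‖φ (K.ell (θ j) v : 𝓞 L)‖ ≤ B) → ∀ i, 2 * |(v i : ℝ)| ≤ K0 * B := by
  classical
  obtain ⟨φ₀⟩ : Nonempty (L →+* ℂ) := inferInstance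
  set x : Fin 4 → ℂ := fun j => φ₀ (θ j : 𝓞 L) with hx
  set M : Matrix (Fin 4) (Fin 4) ℂ := Matrix.vandermonde x with hM
  have hinj : Function.Injective x := fun i j h => hθ (RingOfIntegers.ext (φ₀.injective h))
  have hdet : IsUnit M.det := isUnit_iff_ne_zero.2 (Matrix.det_vandermonde_ne_zero_iff.2 hinj)
  set S : ℝ := ∑ i, ∑ j, ‖M⁻¹ i j‖ with hS
  set T : ℝ := ∑ φ : L →+* ℂ, ∑ j, ‖φ (θ j : 𝓞 L)‖ with hT
  have hS0 : 0 ≤ S := Finset.sum_nonneg fun i _ => Finset.sum_nonneg fun j _ => norm_nonneg _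
  have hT0 : 0 ≤ T := Finset.sum_nonneg fun i _ => Finset.sum_nonneg fun j _ => norm_nonneg _
  refine ⟨1 + T + 2 * S, by linarith, fun φ j => ?_, fun v B hv i => ?_⟩
  · have h1 : ‖φ (θ j : 𝓞 L)‖ ≤ ∑ j, ‖φ (θ j : 𝓞 L)‖ :=
      Finset.single_le_sum (f := fun j => ‖φ (θ j : 𝓞 L)‖) (fun _ _ => norm_nonneg _)
        (Finset.mem_univ j)
    have h2 : ∑ j, ‖φ (θ j : 𝓞 L)‖ ≤ T :=
      Finset.single_le_sum (f := fun φ : L →+* ℂ => ∑ j, ‖φ (θ j : 𝓞 L)‖)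
        (fun _ _ => Finset.sum_nonneg fun _ _ => norm_nonneg _) (Finset.mem_univ φ)
    linarith
  · have hB : 0 ≤ B := (norm_nonneg _).trans (hv φ₀ 0)
    have h1 : M.mulVec (fun i => ((v i : ℤ) : ℂ)) = fun j => φ₀ (K.ell (θ j) v : 𝓞 L) := by
      funext j
      have e0 : φ₀ (K.ell (θ j) v : 𝓞 L) = (φ₀.comp (algebraMap (𝓞 L) L)) (K.ell (θ j) v) := rfl
      rw [Matrix.mulVec, dotProduct, e0]
      unfold K.ell
      rw [map_sum]
      refine Finset.sum_congr rfl fun k _ => ?_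
      rw [hM, Matrix.vandermonde_apply, map_mul, map_pow, map_intCast, mul_comm]
      rfl
    have h2 : (fun i => ((v i : ℤ) : ℂ)) = M⁻¹.mulVec fun j => φ₀ (K.ell (θ j) v : 𝓞 L) := by
      rw [← h1, Matrix.mulVec_mulVec, Matrix.nonsing_inv_mul _ hdet, Matrix.one_mulVec]
    have h3 : ((v i : ℤ) : ℂ) = ∑ j, M⁻¹ i j * φ₀ (K.ell (θ j) v : 𝓞 L) := congrFun h2 i
    have h4 : |(v i : ℝ)| ≤ S * B := by
      have h5 : |(v i : ℝ)| = ‖((v i : ℤ) : ℂ)‖ := by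
        rw [Complex.norm_intCast]
      rw [h5, h3]
      refine (norm_sum_le _ _).trans ?_
      have h6 : ∑ j, ‖M⁻¹ i j‖ ≤ S :=
        Finset.single_le_sum (f := fun i => ∑ j, ‖M⁻¹ i j‖)
          (fun _ _ => Finset.sum_nonneg fun _ _ => norm_nonneg _) (Finset.mem_univ i)
      calc ∑ j, ‖M⁻¹ i j * φ₀ (K.ell (θ j) v : 𝓞 L)‖ ≤ ∑ j, ‖M⁻¹ i j‖ * B := by
            refine Finset.sum_le_sum fun j _ => ?_
            rw [norm_mul]
            exact mul_le_mul_of_nonneg_left (hv φ₀ j) (norm_nonneg _)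
        _ = (∑ j, ‖M⁻¹ i j‖) * B := by rw [Finset.sum_mul]
        _ ≤ S * B := mul_le_mul_of_nonneg_right h6 hB
    nlinarith [mul_nonneg hT0 hB]

end Vale.Agent.P018.Q
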