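import Mathlib

/-! # P018, quartics: the comaximality half of the relation step. -/

namespace Vale.Agent.P018.Q

open NumberField Finset

section ring

variable {R : Type*} [CommRing R]

theorem rd_pow {k a b : R} (h : k ∈ Ideal.span {a, b}) (m : ℕ) :
    k ^ (2 * m) ∈ Ideal.span {a ^ m, b ^ m} := by
  obtain ⟨u, v, rfl⟩ := Ideal.mem_span_pair.1 h
  refine Ideal.add_pow_mem_of_pow_mem_of_le (m := m) (n := m) _ ?_ ?_ (by omega)
  · rw [mul_pow]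
    exact Ideal.mul_mem_left _ _ (Ideal.subset_span (by simp))
  · rw [mul_pow]
    exact Ideal.mul_mem_left _ _ (Ideal.subset_span (by simp))

theorem rd_mul {k a b x : R} (h : k ∈ Ideal.span {a, b}) (ha : a ∣ x) (hb : b ∣ x) :
    a * b ∣ k * x := by
  obtain ⟨u, v, rfl⟩ := Ideal.mem_span_pair.1 h
  obtain ⟨y, hy⟩ := ha
  obtain ⟨z, hz⟩ := hb
  refine ⟨u * z + v * y, ?_⟩
  calc (u * a + v * b) * x = u * a * x + v * b * x := by ring
    _ = u * a * (b * z) + v * b * (a * y) := by rw [← hz, ← hy]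
    _ = a * b * (u * z + v * y) := by ring

theorem rd_span {k k' a b c : R} (h : k ∈ Ideal.span {a, c}) (h' : k' ∈ Ideal.span {b, c}) :
    k * k' ∈ Ideal.span {a * b, c} := by
  obtain ⟨u, v, rfl⟩ := Ideal.mem_span_pair.1 h
  obtain ⟨u', v', rfl⟩ := Ideal.mem_span_pair.1 h'
  exact Ideal.mem_span_pair.2 ⟨u * u', u * a * v' + v * (u' * b) + v * c * v', by ring⟩

/-- four pairwise almost comaximal elements. -/
theorem rd_four {k x : R} {A : Fin 4 → R} (h : ∀ i j, i ≠ j → k ∈ Ideal.span {A i, A j})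
    (hx : ∀ j, A j ∣ x) : ∏ j, A j ∣ k ^ 6 * x := by
  have h1 : A 0 * A 1 ∣ k * x := rd_mul (h 0 1 (by decide)) (hx 0) (hx 1)
  have h2 : k * k ∈ Ideal.span {A 0 * A 1, A 2} := rd_span (h 0 2 (by decide)) (h 1 2 (by decide))
  have h3 : A 0 * A 1 * A 2 ∣ k * k * (k * x) :=
    rd_mul h2 h1 (Dvd.dvd.mul_left (hx 2) _)
  have h4 : A 0 * A 1 ∣ k * x := h1
  have h5 : k * k ∈ Ideal.span {A 0 * A 1, A 3} := rd_span (h 0 3 (by decide)) (h 1 3 (by decide))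
  have h6 : k * k * k ∈ Ideal.span {A 0 * A 1 * A 2, A 3} := rd_span h5 (h 2 3 (by decide))
  have h7 : A 0 * A 1 * A 2 * A 3 ∣ k * k * k * (k * k * (k * x)) :=
    rd_mul h6 h3 (Dvd.dvd.mul_left (Dvd.dvd.mul_left (hx 3) _) _)
  rw [Fin.prod_univ_four]
  have h8 : k ^ 6 * x = k * k * k * (k * k * (k * x)) := by ring
  rw [h8]
  exact h7

end ring

/-- divisibility of rational integers in the ring of integers. -/
theorem rd_int (L : Type*) [Field L] [NumberField L] {a b : ℤ} (h : (a : 𝓞 L) ∣ (b : 𝓞 L)) :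
    a ∣ b := by
  obtain ⟨x, hx⟩ := h
  have h1 := congrArg (Algebra.norm ℤ) hx
  rw [map_mul] at h1
  have h2 : ∀ a : ℤ, Algebra.norm ℤ ((a : ℤ) : 𝓞 L) = a ^ Module.finrank ℤ (𝓞 L) := by
    intro a
    have := Algebra.norm_algebraMap (R := ℤ) (S := 𝓞 L) a
    simpa using this
  rw [h2, h2] at h1
  have h3 : Module.finrank ℤ (𝓞 L) ≠ 0 := Module.finrank_pos.ne'
  exact (Int.pow_dvd_pow_iff h3).1 ⟨_, h1⟩

theorem rd_cop {p : ℕ} (hp : p.Prime) {a : ℤ} (ha : a ≠ 0) (hap : |a| < p) :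
    IsCoprime (p : ℤ) a := by
  rw [Prime.coprime_iff_not_dvd (Nat.prime_iff_prime_int.1 hp)]
  intro h
  have h1 := Int.le_of_dvd (abs_pos.2 ha) ((dvd_abs _ _).2 h)
  omega

/-- the comaximality half of the relation step. -/
theorem rel_div {L : Type*} [Field L] [NumberField L] (θ : Fin 4 → 𝓞 L)
    (hθ : Function.Injective θ) : ∃ Δ : ℤ, Δ ≠ 0 ∧
      ∀ (π γ lam : Fin 4 → 𝓞 L) (N c c' N2 x : ℤ) (p m Nd D : ℕ), p.Prime → c ≠ 0 → |c| < p →
        N2 ≠ 0 → |N2| < p → |Δ| < p →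
        (∀ i, (c : 𝓞 L) * ((N : 𝓞 L) - θ i) = π i ^ 2 * γ i) →
        ∏ i, π i = (((p : ℤ) * c' : ℤ) : 𝓞 L) → ∏ i, lam i = (N2 : 𝓞 L) →
        (∀ j, π j ^ m ∣ (c : 𝓞 L) ^ Nd * lam j ^ D * (x : 𝓞 L)) → (p : ℤ) ^ m ∣ x := by
  classical
  set d : 𝓞 L := ∏ q ∈ (univ : Finset (Fin 4 × Fin 4)) with q.1 ≠ q.2, (θ q.1 - θ q.2) with hd
  have hd0 : d ≠ 0 := by
    rw [hd, Finset.prod_ne_zero_iff]
    intro q hq
    rw [Finset.mem_filter] at hq
    exact sub_ne_zero.2 fun h => hq.2 (hθ h)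
  have hdΔ : d ∣ ((Ideal.absNorm (Ideal.span {d}) : ℤ) : 𝓞 L) := by
    rw [← Ideal.mem_span_singleton]
    exact_mod_cast Ideal.absNorm_mem (Ideal.span {d})
  have hΔ0 : (Ideal.absNorm (Ideal.span {d}) : ℤ) ≠ 0 := by
    rw [Nat.cast_ne_zero, Ne, Ideal.absNorm_eq_zero_iff, Ideal.span_singleton_eq_bot]
    exact hd0
  refine ⟨Ideal.absNorm (Ideal.span {d}), hΔ0, ?_⟩
  generalize (Ideal.absNorm (Ideal.span {d}) : ℤ) = Δ at hdΔ hΔ0
  intro π γ lam N c c' N2 x p m Nd D hp hc hcp hN2 hN2p hΔp heq hprod hlam hdiv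
  -- the integer in all the ideals
  have hk : ∀ i j, i ≠ j → (((c * Δ : ℤ)) : 𝓞 L) ∈ Ideal.span {π i, π j} := by
    intro i j hij
    have h1 : θ i - θ j ∣ (Δ : 𝓞 L) := by
      refine dvd_trans ?_ hdΔ
      rw [hd]
      exact Finset.dvd_prod_of_mem (fun q : Fin 4 × Fin 4 => θ q.1 - θ q.2)
        (Finset.mem_filter.2 ⟨Finset.mem_univ (i, j), hij⟩)
    obtain ⟨w, hw⟩ := h1
    have h2 : (c : 𝓞 L) * (θ i - θ j) = π j ^ 2 * γ j - π i ^ 2 * γ i := by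
      rw [← heq i, ← heq j]
      ring
    rw [Int.cast_mul, hw, ← mul_assoc, h2]
    exact Ideal.mem_span_pair.2 ⟨-(π i * γ i * w), π j * γ j * w, by ring⟩
  have hk' : ∀ i j, i ≠ j → (((c * Δ : ℤ)) : 𝓞 L) ^ (2 * m) ∈ Ideal.span {π i ^ m, π j ^ m} :=
    fun i j hij => rd_pow (hk i j hij) m
  have hx : ∀ j, π j ^ m ∣ (((c ^ Nd * N2 ^ D * x : ℤ)) : 𝓞 L) := by
    intro j
    have h1 : lam j ∣ (N2 : 𝓞 L) := hlam ▸ Finset.dvd_prod_of_mem lam (Finset.mem_univ j)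
    obtain ⟨w, hw⟩ := h1
    have h2 : (((c ^ Nd * N2 ^ D * x : ℤ)) : 𝓞 L) =
        (c : 𝓞 L) ^ Nd * lam j ^ D * (x : 𝓞 L) * w ^ D := by
      push_cast
      rw [hw]
      ring
    rw [h2]
    exact Dvd.dvd.mul_right (hdiv j) _
  have h4 := rd_four (A := fun j => π j ^ m) hk' hx
  rw [Finset.prod_pow, hprod] at h4
  have h5 : (((p : ℤ) ^ m : ℤ) : 𝓞 L) ∣
      (((c * Δ) ^ (2 * m)) ^ 6 * (c ^ Nd * N2 ^ D * x) : ℤ) := by
    refine dvd_trans ?_ (show ((((p : ℤ) * c' : ℤ) : 𝓞 L)) ^ m ∣ _ by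
      push_cast at h4 ⊢
      exact h4)
    push_cast
    rw [mul_pow]
    exact dvd_mul_right _ _
  have h6 := rd_int L h5
  have hc1 : IsCoprime ((p : ℤ) ^ m) (((c * Δ) ^ (2 * m)) ^ 6 * (c ^ Nd * N2 ^ D)) := by
    have a1 := rd_cop hp hc hcp
    have a2 := rd_cop hp hΔ0 hΔp
    have a3 := rd_cop hp hN2 hN2p
    exact IsCoprime.pow_left (IsCoprime.mul_right
      (IsCoprime.pow_right (IsCoprime.pow_right (a1.mul_right a2)))
      (IsCoprime.mul_right a1.pow_right a3.pow_right))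
  rw [← mul_assoc] at h6
  exact hc1.dvd_of_dvd_mul_left h6

end Vale.Agent.P018.Q
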