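import Mathlib

/-! # P018, quartics: the expansions of the relation step. -/

namespace Vale.Agent.P018.Q

open Finset

section

variable {R : Type*} [CommRing R]

/-- the binomial theorem with a fixed range. -/
theorem re_add_pow (x y : R) {a N : ℕ} (h : a ≤ N) :
    (x + y) ^ a = ∑ α ∈ range (N + 1), x ^ α * y ^ (a - α) * (a.choose α : R) := by
  rw [add_pow]
  refine Finset.sum_subset (Finset.range_mono (by omega)) fun α _ hα => ?_
  rw [Finset.mem_range, not_lt] at hα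
  rw [Nat.choose_eq_zero_of_lt (by omega), Nat.cast_zero, mul_zero]

/-- the terms of the expansion at the conjugate `θ`. -/
theorem re_term {Nd D a b : ℕ} (ha : a ≤ Nd) (hb : b ≤ D) (n θ lam1 lam2 s t : R) :
    lam2 ^ D * (n ^ a * s ^ b * t ^ (D - b)) =
      ∑ α ∈ range (Nd + 1), ∑ β ∈ range (D + 1),
        (n - θ) ^ α * (lam1 * s + lam2 * t) ^ β * s ^ (D - β) *
          (((a.choose α : ℕ) : R) * θ ^ (a - α) * lam2 ^ b * (((D - b).choose β : ℕ) : R) *
            (-lam1) ^ (D - b - β)) := by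
  have h1 : n ^ a = ∑ α ∈ range (Nd + 1), (n - θ) ^ α * θ ^ (a - α) * (a.choose α : R) := by
    rw [← re_add_pow (n - θ) θ ha, sub_add_cancel]
  have h2 : (lam2 * t) ^ (D - b) = ∑ β ∈ range (D + 1),
      (lam1 * s + lam2 * t) ^ β * (-(lam1 * s)) ^ (D - b - β) * ((D - b).choose β : R) := by
    rw [← re_add_pow (lam1 * s + lam2 * t) (-(lam1 * s)) (show D - b ≤ D by omega)]
    congr 1
    ring
  have h3 : lam2 ^ D * (n ^ a * s ^ b * t ^ (D - b)) =
      n ^ a * (lam2 ^ b * s ^ b * (lam2 * t) ^ (D - b)) := by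
    have h4 : lam2 ^ D = lam2 ^ b * lam2 ^ (D - b) := by
      rw [← pow_add]
      congr 1
      omega
    rw [h4, mul_pow]
    ring
  rw [h3, h2, h1, Finset.sum_mul]
  refine Finset.sum_congr rfl fun α _ => ?_
  rw [Finset.mul_sum, Finset.mul_sum]
  refine Finset.sum_congr rfl fun β _ => ?_
  by_cases hβ : β ≤ D - b
  · have h5 : s ^ (D - β) = s ^ b * s ^ (D - b - β) := by
      rw [← pow_add]
      congr 1
      omega
    rw [h5, neg_pow (lam1 * s), neg_pow lam1, mul_pow]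
    ring
  · rw [Nat.choose_eq_zero_of_lt (show D - b < β by omega)]
    simp

/-- the expansion of the value at the conjugate `θ`. -/
theorem re_val (Nd D : ℕ) (f : ℕ → ℕ → R) (n θ lam1 lam2 s t : R) :
    lam2 ^ D * ∑ a ∈ range (Nd + 1), n ^ a * ∑ b ∈ range (D + 1), f a b * s ^ b * t ^ (D - b) =
      ∑ α ∈ range (Nd + 1), ∑ β ∈ range (D + 1),
        (n - θ) ^ α * (lam1 * s + lam2 * t) ^ β * s ^ (D - β) *
          ∑ a ∈ range (Nd + 1), ∑ b ∈ range (D + 1), f a b *
            (((a.choose α : ℕ) : R) * θ ^ (a - α) * lam2 ^ b * (((D - b).choose β : ℕ) : R) *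
              (-lam1) ^ (D - b - β)) := by
  have h1 : lam2 ^ D * ∑ a ∈ range (Nd + 1), n ^ a * ∑ b ∈ range (D + 1),
      f a b * s ^ b * t ^ (D - b) =
      ∑ a ∈ range (Nd + 1), ∑ b ∈ range (D + 1),
        f a b * (lam2 ^ D * (n ^ a * s ^ b * t ^ (D - b))) := by
    rw [Finset.mul_sum]
    refine Finset.sum_congr rfl fun a _ => ?_
    rw [Finset.mul_sum, Finset.mul_sum]
    refine Finset.sum_congr rfl fun b _ => ?_
    ring
  rw [h1]
  have h2 : ∀ a ∈ range (Nd + 1), ∀ b ∈ range (D + 1),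
      f a b * (lam2 ^ D * (n ^ a * s ^ b * t ^ (D - b))) =
      ∑ α ∈ range (Nd + 1), ∑ β ∈ range (D + 1),
        (n - θ) ^ α * (lam1 * s + lam2 * t) ^ β * s ^ (D - β) * (f a b *
          (((a.choose α : ℕ) : R) * θ ^ (a - α) * lam2 ^ b * (((D - b).choose β : ℕ) : R) *
            (-lam1) ^ (D - b - β))) := by
    intro a ha b hb
    rw [re_term (Nat.lt_succ_iff.1 (Finset.mem_range.1 ha)) (Nat.lt_succ_iff.1 (Finset.mem_range.1 hb))
      n θ lam1 lam2 s t, Finset.mul_sum]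
    refine Finset.sum_congr rfl fun α _ => ?_
    rw [Finset.mul_sum]
    refine Finset.sum_congr rfl fun β _ => ?_
    ring
  rw [Finset.sum_congr rfl fun a ha => Finset.sum_congr rfl fun b hb => h2 a ha b hb]
  -- exchange the sums
  rw [Finset.sum_congr rfl fun a _ => Finset.sum_comm]
  rw [Finset.sum_comm]
  refine Finset.sum_congr rfl fun α _ => ?_
  rw [Finset.sum_congr rfl fun a _ => Finset.sum_comm]
  rw [Finset.sum_comm]
  refine Finset.sum_congr rfl fun β _ => ?_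
  rw [Finset.mul_sum]
  refine Finset.sum_congr rfl fun a _ => ?_
  rw [Finset.mul_sum]

/-- the divisibility by `π ^ m`. -/
theorem re_dvd (Nd D m : ℕ) (f : ℕ → ℕ → R) (n θ lam1 lam2 s t c γ : R)
    (hc : c * (n - θ) = (lam1 * s + lam2 * t) ^ 2 * γ)
    (h0 : ∀ α ∈ range (Nd + 1), ∀ β ∈ range (D + 1), 2 * α + β < m →
      ∑ a ∈ range (Nd + 1), ∑ b ∈ range (D + 1), f a b *
        (((a.choose α : ℕ) : R) * θ ^ (a - α) * lam2 ^ b * (((D - b).choose β : ℕ) : R) *
          (-lam1) ^ (D - b - β)) = 0) :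
    (lam1 * s + lam2 * t) ^ m ∣ c ^ Nd * lam2 ^ D *
      ∑ a ∈ range (Nd + 1), n ^ a * ∑ b ∈ range (D + 1), f a b * s ^ b * t ^ (D - b) := by
  rw [mul_assoc, re_val, Finset.mul_sum]
  refine Finset.dvd_sum fun α hα => ?_
  rw [Finset.mul_sum]
  refine Finset.dvd_sum fun β hβ => ?_
  by_cases h : 2 * α + β < m
  · rw [h0 α hα β hβ h, mul_zero, mul_zero]
    exact dvd_zero _
  · have h1 : c ^ Nd = c ^ (Nd - α) * c ^ α := by
      rw [← pow_add]
      congr 1
      rw [Finset.mem_range] at hα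
      omega
    have h2 : c ^ α * (n - θ) ^ α = (lam1 * s + lam2 * t) ^ (2 * α) * γ ^ α := by
      rw [← mul_pow, hc, mul_pow, ← pow_mul]
    have h3 : (lam1 * s + lam2 * t) ^ m ∣ (lam1 * s + lam2 * t) ^ (2 * α + β) :=
      pow_dvd_pow _ (by omega)
    refine h3.trans ?_
    rw [h1]
    refine ⟨c ^ (Nd - α) * γ ^ α * s ^ (D - β) *
      ∑ a ∈ range (Nd + 1), ∑ b ∈ range (D + 1), f a b *
        (((a.choose α : ℕ) : R) * θ ^ (a - α) * lam2 ^ b * (((D - b).choose β : ℕ) : R) *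
          (-lam1) ^ (D - b - β)), ?_⟩
    rw [pow_add]
    linear_combination (c ^ (Nd - α) * (lam1 * s + lam2 * t) ^ β * s ^ (D - β) *
      ∑ a ∈ range (Nd + 1), ∑ b ∈ range (D + 1), f a b *
        (((a.choose α : ℕ) : R) * θ ^ (a - α) * lam2 ^ b * (((D - b).choose β : ℕ) : R) *
          (-lam1) ^ (D - b - β))) * h2

/-- the expansion at a residue class. -/
theorem re_shift (D : ℕ) (f : ℕ → R) (σ x t : R) :
    ∑ b ∈ range (D + 1), f b * (σ * t + x) ^ b * t ^ (D - b) =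
      ∑ r ∈ range (D + 1), x ^ r * t ^ (D - r) *
        ∑ b ∈ range (D + 1), f b * (((b.choose r : ℕ) : R) * σ ^ (b - r)) := by
  have h1 : ∀ b ∈ range (D + 1), f b * (σ * t + x) ^ b * t ^ (D - b) =
      ∑ r ∈ range (D + 1), x ^ r * t ^ (D - r) * (f b * (((b.choose r : ℕ) : R) * σ ^ (b - r))) := by
    intro b hb
    rw [add_comm (σ * t) x, re_add_pow x (σ * t) (show b ≤ D by simpa [Nat.lt_succ_iff] using hb),
      Finset.mul_sum, Finset.sum_mul]
    refine Finset.sum_congr rfl fun r _ => ?_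
    by_cases hr : r ≤ b
    · have h2 : t ^ (D - r) = t ^ (b - r) * t ^ (D - b) := by
        rw [← pow_add]
        congr 1
        rw [Finset.mem_range] at hb
        omega
      rw [h2, mul_pow]
      ring
    · rw [Nat.choose_eq_zero_of_lt (by omega)]
      simp
  rw [Finset.sum_congr rfl h1, Finset.sum_comm]
  refine Finset.sum_congr rfl fun r _ => ?_
  rw [Finset.mul_sum]

end

/-- the divisibility by `q ^ ν`. -/
theorem re_dvd_q (D ν : ℕ) (q : ℤ) (f : ℕ → ℤ) (σ s t : ℤ) (hq : q ∣ s - σ * t)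
    (h : ∀ r < ν, q ^ (ν - r) ∣ ∑ b ∈ range (D + 1), f b * (((b.choose r : ℕ) : ℤ) * σ ^ (b - r))) :
    q ^ ν ∣ ∑ b ∈ range (D + 1), f b * s ^ b * t ^ (D - b) := by
  have h1 : s = σ * t + (s - σ * t) := by ring
  rw [h1, re_shift]
  refine Finset.dvd_sum fun r _ => ?_
  by_cases hr : r < ν
  · have h2 : q ^ ν = q ^ r * q ^ (ν - r) := by
      rw [← pow_add]
      congr 1
      omega
    rw [h2]
    refine mul_dvd_mul (Dvd.dvd.mul_right ?_ _) (h r hr)
    exact pow_dvd_pow_of_dvd (by simpa using hq) r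
  · refine Dvd.dvd.mul_right (Dvd.dvd.mul_right ?_ _) _
    exact (pow_dvd_pow q (by omega)).trans (pow_dvd_pow_of_dvd (by simpa using hq) r)

end Vale.Agent.P018.Q
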