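import Mathlib

/-! # P018, quartics: the pigeonhole principle of the relation step. -/

namespace Vale.Agent.P018.Q

open Finset

/-- integer vectors in a box with prescribed linear data. -/
theorem rel_pigeon {ι κ τ : Type} [Fintype ι] [Fintype κ] [Fintype τ] (w : ι → ℕ)
    (U : ι → κ → ℤ) (B : κ → ℝ) (R : ι → τ → ℤ) (M : τ → ℕ) (hM : ∀ t, 0 < M t)
    (hU : ∀ f : ι → ℤ, (∀ i, 0 ≤ f i ∧ f i ≤ w i) → ∀ k,
      |((∑ i, f i * U i k : ℤ) : ℝ)| ≤ B k)
    (hcard : (∏ k, (2 * B k + 1)) * ∏ t, (M t : ℝ) < ∏ i, ((w i : ℝ) + 1)) :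
    ∃ f : ι → ℤ, f ≠ 0 ∧ (∀ i, |f i| ≤ w i) ∧ (∀ k, ∑ i, f i * U i k = 0) ∧
      ∀ t, (M t : ℤ) ∣ ∑ i, f i * R i t := by
  classical
  have hB : ∀ k, 0 ≤ B k := by
    intro k
    have h := hU 0 (fun i => ⟨le_rfl, by simp⟩) k
    exact (abs_nonneg _).trans h
  set S : Finset (ι → ℤ) := Fintype.piFinset fun i => Finset.Icc (0 : ℤ) (w i) with hS
  set T : Finset ((κ → ℤ) × (τ → ℤ)) := (Fintype.piFinset fun k =>
    Finset.Icc (-⌊B k⌋) ⌊B k⌋) ×ˢ (Fintype.piFinset fun t => Finset.Ico (0 : ℤ) (M t)) with hT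
  have hScard : (S.card : ℝ) = ∏ i, ((w i : ℝ) + 1) := by
    rw [hS, Fintype.card_piFinset]
    push_cast
    refine Finset.prod_congr rfl fun i _ => ?_
    rw [Int.card_Icc]
    have h : ((w i : ℤ) + 1 - 0).toNat = w i + 1 := by omega
    rw [h]
    push_cast
    ring
  have hTcard : (T.card : ℝ) ≤ (∏ k, (2 * B k + 1)) * ∏ t, (M t : ℝ) := by
    rw [hT, Finset.card_product, Fintype.card_piFinset, Fintype.card_piFinset]
    push_cast
    have h1 : ∏ t, ((Finset.Ico (0 : ℤ) (M t)).card : ℝ) = ∏ t, (M t : ℝ) := by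
      refine Finset.prod_congr rfl fun t _ => ?_
      rw [Int.card_Ico]
      simp
    rw [h1]
    refine mul_le_mul_of_nonneg_right ?_ (Finset.prod_nonneg fun t _ => Nat.cast_nonneg _)
    refine Finset.prod_le_prod (fun k _ => Nat.cast_nonneg _) fun k _ => ?_
    rw [Int.card_Icc]
    have h2 : (0 : ℤ) ≤ ⌊B k⌋ := Int.floor_nonneg.2 (hB k)
    have h3 : ((⌊B k⌋ + 1 - -⌊B k⌋).toNat : ℤ) = 2 * ⌊B k⌋ + 1 := by
      rw [Int.toNat_of_nonneg (by omega)]
      ring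
    have h4 : ((⌊B k⌋ + 1 - -⌊B k⌋).toNat : ℝ) = 2 * (⌊B k⌋ : ℝ) + 1 := by exact_mod_cast h3
    rw [h4]
    have h5 := Int.floor_le (B k)
    linarith
  have hlt : T.card < S.card := by
    have h : (T.card : ℝ) < S.card := by
      rw [hScard]
      exact hTcard.trans_lt hcard
    exact_mod_cast h
  have hmaps : ∀ f ∈ S, ((fun k => ∑ i, f i * U i k, fun t => (∑ i, f i * R i t) % (M t : ℤ)) :
      (κ → ℤ) × (τ → ℤ)) ∈ T := by
    intro f hf
    rw [hS, Fintype.mem_piFinset] at hf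
    rw [hT, Finset.mem_product, Fintype.mem_piFinset, Fintype.mem_piFinset]
    refine ⟨fun k => ?_, fun t => ?_⟩
    · have h1 := hU f (fun i => Finset.mem_Icc.1 (hf i)) k
      rw [abs_le] at h1
      rw [Finset.mem_Icc]
      have h2 : (∑ i, f i * U i k) ≤ ⌊B k⌋ := Int.le_floor.2 h1.2
      have h3 : -(∑ i, f i * U i k) ≤ ⌊B k⌋ := Int.le_floor.2 (by push_cast at h1 ⊢; linarith [h1.1])
      exact ⟨by linarith, h2⟩
    · rw [Finset.mem_Ico]
      have h1 : (0 : ℤ) < M t := by exact_mod_cast hM t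
      exact ⟨Int.emod_nonneg _ h1.ne', Int.emod_lt_of_pos _ h1⟩
  obtain ⟨f, hf, f', hf', hne, heq⟩ := Finset.exists_ne_map_eq_of_card_lt_of_maps_to hlt hmaps
  rw [hS, Fintype.mem_piFinset] at hf hf'
  rw [Prod.mk.injEq] at heq
  refine ⟨f - f', sub_ne_zero.2 hne, fun i => ?_, fun k => ?_, fun t => ?_⟩
  · have h1 := Finset.mem_Icc.1 (hf i)
    have h2 := Finset.mem_Icc.1 (hf' i)
    rw [Pi.sub_apply, abs_le]
    constructor <;> linarith [h1.1, h1.2, h2.1, h2.2]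
  · have h1 := congrFun heq.1 k
    simp only [Pi.sub_apply, sub_mul, Finset.sum_sub_distrib]
    linarith
  · have h1 := congrFun heq.2 t
    simp only [Pi.sub_apply, sub_mul, Finset.sum_sub_distrib]
    exact Int.ModEq.dvd (show (∑ i, f' i * R i t) ≡ (∑ i, f i * R i t) [ZMOD (M t : ℤ)] from h1.symm)

end Vale.Agent.P018.Q
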