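import Mathlib
import Vale.Agent.P018.Q.RelPig

/-! # P018, quartics: the pigeonhole principle of the relation step, in the form with ranges. -/

namespace Vale.Agent.P018.Q

open Finset

theorem rp_sum (n m : ℕ) (F : ℕ → ℕ → ℤ) :
    ∑ x : Fin n × Fin m, F x.1 x.2 = ∑ a ∈ range n, ∑ b ∈ range m, F a b := by
  rw [Fintype.sum_prod_type, Finset.sum_range]
  exact Finset.sum_congr rfl fun a _ => by rw [Finset.sum_range]

theorem rp_prod (n m : ℕ) (F : ℕ → ℕ → ℝ) :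
    ∏ x : Fin n × Fin m, F x.1 x.2 = ∏ a ∈ range n, ∏ b ∈ range m, F a b := by
  rw [Fintype.prod_prod_type, Finset.prod_range]
  exact Finset.prod_congr rfl fun a _ => by rw [Finset.prod_range]

theorem rp_gauss (ν : ℕ) : ∑ r ∈ range ν, (ν - r) = ν * (ν + 1) / 2 := by
  have h1 : ∑ r ∈ range ν, (ν - r) = ∑ r ∈ range ν, (ν - 1 - r + 1) := by
    refine Finset.sum_congr rfl fun r hr => ?_
    rw [Finset.mem_range] at hr
    omega
  rw [h1, Finset.sum_range_reflect (fun j => j + 1) ν]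
  have h2 : ∑ j ∈ range ν, (j + 1) = ∑ j ∈ range (ν + 1), j := by
    rw [Finset.sum_range_succ' (fun j => j) ν]
    simp
  rw [h2, Finset.sum_range_id, Nat.add_sub_cancel, Nat.mul_comm]

/-- the pigeonhole principle. -/
theorem rel_pigeon' (Nd D m ν q : ℕ) (hq : 0 < q) (W Bd : ℕ → ℕ → ℝ) (K0 : ℝ)
    (hW : ∀ a b, 0 ≤ W a b) (U : ℕ → ℕ → ℕ → ℕ → Fin 4 → ℤ) (R : ℕ → ℕ → ℤ)
    (hU : ∀ g : ℕ → ℕ → ℤ, (∀ a b, 0 ≤ g a b ∧ (g a b : ℝ) ≤ W a b) → ∀ α ≤ Nd, ∀ β ≤ D,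
      2 * α + β < m → ∀ i, 2 * |((∑ a ∈ range (Nd + 1), ∑ b ∈ range (D + 1),
        g a b * U a b α β i : ℤ) : ℝ)| ≤ K0 * Bd α β)
    (hcard : (∏ α ∈ range (Nd + 1), ∏ β ∈ (range (D + 1)).filter (fun β => 2 * α + β < m),
        (K0 * Bd α β + 1) ^ 4) * (q : ℝ) ^ ((Nd + 1) * (ν * (ν + 1) / 2)) <
        ∏ a ∈ range (Nd + 1), ∏ b ∈ range (D + 1), ((⌊W a b⌋₊ : ℝ) + 1)) :
    ∃ g : ℕ → ℕ → ℤ, (∃ a ≤ Nd, ∃ b ≤ D, g a b ≠ 0) ∧ (∀ a b, |(g a b : ℝ)| ≤ W a b) ∧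
      (∀ a b, ¬ (a ≤ Nd ∧ b ≤ D) → g a b = 0) ∧
      (∀ α ≤ Nd, ∀ β ≤ D, 2 * α + β < m → ∀ i,
        ∑ a ∈ range (Nd + 1), ∑ b ∈ range (D + 1), g a b * U a b α β i = 0) ∧
      ∀ a ≤ Nd, ∀ r < ν, (q : ℤ) ^ (ν - r) ∣ ∑ b ∈ range (D + 1), g a b * R b r := by
  classical
  -- extension of a function on the box
  have hext : ∀ f : Fin (Nd + 1) × Fin (D + 1) → ℤ, ∃ g : ℕ → ℕ → ℤ,
      (∀ x, f x = g x.1 x.2) ∧ ∀ a b, ¬ (a ≤ Nd ∧ b ≤ D) → g a b = 0 := by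
    intro f
    refine ⟨fun a b => if h : a < Nd + 1 ∧ b < D + 1 then f (⟨a, h.1⟩, ⟨b, h.2⟩) else 0,
      fun x => ?_, fun a b h => ?_⟩
    · beta_reduce
      rw [dif_pos (show (x.1 : ℕ) < Nd + 1 ∧ (x.2 : ℕ) < D + 1 from ⟨x.1.2, x.2.2⟩)]
    · exact dif_neg fun h' => h ⟨by omega, by omega⟩
  obtain ⟨f, hf0, hfw, hfU, hfR⟩ := rel_pigeon (ι := Fin (Nd + 1) × Fin (D + 1))
    (κ := {x : Fin (Nd + 1) × Fin (D + 1) // 2 * (x.1 : ℕ) + x.2 < m} × Fin 4)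
    (τ := Fin (Nd + 1) × Fin ν) (fun x => ⌊W x.1 x.2⌋₊)
    (fun x k => U x.1 x.2 k.1.1.1 k.1.1.2 k.2) (fun k => K0 * Bd k.1.1.1 k.1.1.2 / 2)
    (fun x t => if x.1 = t.1 then R x.2 t.2 else 0) (fun t => q ^ (ν - (t.2 : ℕ)))
    (fun t => pow_pos hq _) (by
      intro f hf k
      obtain ⟨g, hg, hg0⟩ := hext f
      have h1 : ∑ x, f x * U x.1 x.2 k.1.1.1 k.1.1.2 k.2 =
          ∑ a ∈ range (Nd + 1), ∑ b ∈ range (D + 1), g a b * U a b k.1.1.1 k.1.1.2 k.2 := by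
        rw [← rp_sum (Nd + 1) (D + 1) fun a b => g a b * U a b k.1.1.1 k.1.1.2 k.2]
        exact Finset.sum_congr rfl fun x _ => by rw [hg]
      rw [h1]
      have h2 := hU g (fun a b => ?_) k.1.1.1 (by omega) k.1.1.2 (by omega) k.1.2 k.2
      · linarith
      · by_cases h : a ≤ Nd ∧ b ≤ D
        · have h3 := hf (⟨a, by omega⟩, ⟨b, by omega⟩)
          rw [hg] at h3
          refine ⟨h3.1, ?_⟩
          have h4 : ((g a b : ℤ) : ℝ) ≤ ((⌊W a b⌋₊ : ℕ) : ℝ) := by exact_mod_cast h3.2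
          exact h4.trans (Nat.floor_le (hW a b))
        · rw [hg0 a b h]
          exact ⟨le_rfl, by simpa using hW a b⟩) (by
      have e1 : ∏ k : {x : Fin (Nd + 1) × Fin (D + 1) // 2 * (x.1 : ℕ) + x.2 < m} × Fin 4,
          (2 * (K0 * Bd k.1.1.1 k.1.1.2 / 2) + 1) =
          ∏ α ∈ range (Nd + 1), ∏ β ∈ (range (D + 1)).filter (fun β => 2 * α + β < m),
            (K0 * Bd α β + 1) ^ 4 := by
        rw [Fintype.prod_prod_type]
        have e2 : ∀ x : {x : Fin (Nd + 1) × Fin (D + 1) // 2 * (x.1 : ℕ) + x.2 < m},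
            ∏ _y : Fin 4, (2 * (K0 * Bd x.1.1 x.1.2 / 2) + 1) =
            (K0 * Bd x.1.1 x.1.2 + 1) ^ 4 := by
          intro x
          rw [Finset.prod_const, Finset.card_univ, Fintype.card_fin]
          congr 1
          ring
        rw [Finset.prod_congr rfl fun x _ => e2 x]
        rw [← Finset.prod_subtype (univ.filter
          fun x : Fin (Nd + 1) × Fin (D + 1) => 2 * (x.1 : ℕ) + x.2 < m) (fun x => by simp)
          (fun x => (K0 * Bd x.1 x.2 + 1) ^ 4)]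
        rw [Finset.prod_filter, rp_prod (Nd + 1) (D + 1) fun a b =>
          if 2 * a + b < m then (K0 * Bd a b + 1) ^ 4 else 1]
        exact Finset.prod_congr rfl fun a _ => by rw [Finset.prod_filter]
      have e3 : ∏ t : Fin (Nd + 1) × Fin ν, ((q ^ (ν - (t.2 : ℕ)) : ℕ) : ℝ) =
          (q : ℝ) ^ ((Nd + 1) * (ν * (ν + 1) / 2)) := by
        rw [rp_prod (Nd + 1) ν fun _ r => ((q ^ (ν - r) : ℕ) : ℝ)]
        rw [Finset.prod_const, Finset.card_range, Nat.mul_comm, pow_mul]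
        congr 1
        push_cast
        rw [Finset.prod_pow_eq_pow_sum, rp_gauss]
      rw [e1, e3, rp_prod (Nd + 1) (D + 1) fun a b => ((⌊W a b⌋₊ : ℝ) + 1)]
      exact hcard)
  obtain ⟨g, hg, hg0⟩ := hext f
  refine ⟨g, ?_, fun a b => ?_, hg0, fun α hα β hβ h i => ?_, fun a ha r hr => ?_⟩
  · obtain ⟨x, hx⟩ := Function.ne_iff.1 hf0
    rw [hg] at hx
    exact ⟨x.1, by omega, x.2, by omega, hx⟩
  · by_cases h : a ≤ Nd ∧ b ≤ D
    · have h3 := hfw (⟨a, by omega⟩, ⟨b, by omega⟩)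
      rw [hg] at h3
      have h4 : |((g a b : ℤ) : ℝ)| ≤ ((⌊W a b⌋₊ : ℕ) : ℝ) := by exact_mod_cast h3
      exact h4.trans (Nat.floor_le (hW a b))
    · rw [hg0 a b h]
      simpa using hW a b
  · have h1 := hfU (⟨(⟨α, by omega⟩, ⟨β, by omega⟩), h⟩, i)
    rw [← h1, ← rp_sum (Nd + 1) (D + 1) fun a b => g a b * U a b α β i]
    exact Finset.sum_congr rfl fun x _ => by rw [hg]
  · have h1 := hfR (⟨a, by omega⟩, ⟨r, hr⟩)
    have h2 : ∑ x : Fin (Nd + 1) × Fin (D + 1),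
        f x * (if x.1 = (⟨a, by omega⟩ : Fin (Nd + 1)) then R x.2 r else 0) =
        ∑ b ∈ range (D + 1), g a b * R b r := by
      rw [Fintype.sum_prod_type, Finset.sum_range]
      rw [Finset.sum_eq_single (⟨a, by omega⟩ : Fin (Nd + 1))]
      · refine Finset.sum_congr rfl fun b _ => ?_
        rw [if_pos rfl, hg]
      · intro a' _ ha'
        refine Finset.sum_eq_zero fun b _ => ?_
        rw [if_neg ha', mul_zero]
      · intro h
        exact absurd (Finset.mem_univ _) h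
    rw [← h2]
    exact_mod_cast h1

end Vale.Agent.P018.Q
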