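import Mathlib
import Vale.Agent.P018.Q.Defs
import Vale.Agent.P018.Q.RelCoord
import Vale.Agent.P018.Q.RelDiv
import Vale.Agent.P018.Q.RelExp
import Vale.Agent.P018.Q.RelPig2

/-! # P018, quartics: the relation step of family (A), by the pigeonhole principle. -/

namespace Vale.Agent.P018.Q

open Polynomial NumberField Finset

/-- the value of `F(n; s, t)`, homogeneous of degree `D` in `(s, t)`. -/
noncomputable def val {R : Type*} [CommRing R] (Nd D : ℕ) (F : ℤ[X][X]) (N s t : R) : R :=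
  ∑ a ∈ Finset.range (Nd + 1), N ^ a * hom D (F.coeff a) s t

section

variable {R : Type*} [CommRing R]

theorem rs_ell_sum (n k : ℕ) (θ : R) (f : ℕ → ℕ → ℤ) (v : ℕ → ℕ → Fin 4 → ℤ) :
    K.ell θ (fun i => ∑ a ∈ range n, ∑ b ∈ range k, f a b * v a b i) =
      ∑ a ∈ range n, ∑ b ∈ range k, (f a b : R) * K.ell θ (v a b) := by
  have h1 := rc_ell_sum (range n ×ˢ range k) θ (fun x => f x.1 x.2) (fun x => v x.1 x.2)
  rw [Finset.sum_product' (range n) (range k) fun a b => (f a b : R) * K.ell θ (v a b)] at h1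
  rw [← h1]
  congr 1
  funext i
  rw [Finset.sum_product' (range n) (range k) fun a b => f a b * v a b i]

theorem rs_ell_add (θ : R) (s t : ℤ) (l1 l2 : Fin 4 → ℤ) :
    K.ell θ (s • l1 + t • l2) = K.ell θ l1 * s + K.ell θ l2 * t := by
  unfold K.ell
  rw [Finset.sum_mul, Finset.sum_mul, ← Finset.sum_add_distrib]
  refine Finset.sum_congr rfl fun j _ => ?_
  simp only [Pi.add_apply, Pi.smul_apply, smul_eq_mul]
  push_cast
  ring

theorem rs_ell_zero (θ : R) (v : Fin 4 → ℤ) (hv : ∀ i, v i = 0) : K.ell θ v = 0 := by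
  unfold K.ell
  refine Finset.sum_eq_zero fun j _ => ?_
  rw [hv, Int.cast_zero, zero_mul]

end

/-- the polynomial whose value is the coefficient of the expansion. -/
noncomputable def rsP (D : ℕ) (l1 l2 : Fin 4 → ℤ) (a b α β : ℕ) : ℤ[X] :=
  C ((a.choose α : ℕ) : ℤ) * X ^ (a - α) * rcP l2 ^ b * C (((D - b).choose β : ℕ) : ℤ) *
    (-rcP l1) ^ (D - b - β)

theorem rs_P {R : Type*} [CommRing R] (D : ℕ) (l1 l2 : Fin 4 → ℤ) (a b α β : ℕ) (θ : R) :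
    aeval θ (rsP D l1 l2 a b α β) = ((a.choose α : ℕ) : R) * θ ^ (a - α) * K.ell θ l2 ^ b *
      (((D - b).choose β : ℕ) : R) * (-K.ell θ l1) ^ (D - b - β) := by
  unfold rsP
  simp only [map_mul, map_pow, map_neg, aeval_C, aeval_X, rc_P]
  simp

/-- the polynomial with given coefficients. -/
noncomputable def rsF (Nd D : ℕ) (g : ℕ → ℕ → ℤ) : ℤ[X][X] :=
  ∑ a ∈ range (Nd + 1), monomial a (∑ b ∈ range (D + 1), monomial b (g a b))

theorem rs_coeff (Nd D : ℕ) (g : ℕ → ℕ → ℤ) (hg : ∀ a b, ¬ (a ≤ Nd ∧ b ≤ D) → g a b = 0)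
    (a b : ℕ) : ((rsF Nd D g).coeff a).coeff b = g a b := by
  unfold rsF
  rw [finsetSum_coeff]
  simp_rw [coeff_monomial]
  by_cases ha : a ∈ range (Nd + 1)
  · rw [Finset.sum_ite_eq' (range (Nd + 1)) a, if_pos ha, finsetSum_coeff]
    simp_rw [coeff_monomial]
    by_cases hb : b ∈ range (D + 1)
    · rw [Finset.sum_ite_eq' (range (D + 1)) b, if_pos hb]
    · rw [Finset.sum_ite_eq' (range (D + 1)) b, if_neg hb]
      rw [Finset.mem_range] at hb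
      exact (hg a b (by omega)).symm
  · rw [Finset.sum_ite_eq' (range (Nd + 1)) a, if_neg ha, coeff_zero]
    rw [Finset.mem_range] at ha
    exact (hg a b (by omega)).symm

theorem rs_val (Nd D : ℕ) (g : ℕ → ℕ → ℤ) (hg : ∀ a b, ¬ (a ≤ Nd ∧ b ≤ D) → g a b = 0)
    (N s t : ℤ) : val Nd D (rsF Nd D g) N s t =
      ∑ a ∈ range (Nd + 1), N ^ a * ∑ b ∈ range (D + 1), g a b * s ^ b * t ^ (D - b) := by
  unfold val hom
  refine Finset.sum_congr rfl fun a _ => ?_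
  congr 1
  refine Finset.sum_congr rfl fun b _ => ?_
  rw [rs_coeff Nd D g hg]
  rfl

/-- for every residue class `s = σ0 t mod q` there is `F ≠ 0` vanishing at all points. -/
theorem relation_step {L : Type} [Field L] [NumberField L] (G : ℤ[X]) (hG : G.Monic)
    (hGd : G.natDegree = 4) (hGi : Irreducible (G.map (Int.castRingHom ℚ))) (θ : Fin 4 → 𝓞 L)
    (hθ : Function.Injective θ) (hGθ : G.map (algebraMap ℤ (𝓞 L)) = ∏ i, (X - C (θ i))) :
    ∃ (K0 : ℝ) (Δ : ℤ), 1 ≤ K0 ∧ Δ ≠ 0 ∧ ∀ (l1 l2 : Fin 4 → ℤ) (m D Nd ν q : ℕ) (σ0 : ℤ)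
      (E1 E2 : ℝ) (W Bd : ℕ → ℕ → ℝ) (N2 : ℤ), 1 ≤ m → 2 ≤ q → 0 ≤ E1 → 0 ≤ E2 →
      (∀ (φ : L →+* ℂ) (j : Fin 4), ‖φ (K.ell (θ j) l1 : 𝓞 L)‖ ≤ E1) →
      (∀ (φ : L →+* ℂ) (j : Fin 4), ‖φ (K.ell (θ j) l2 : 𝓞 L)‖ ≤ E2) →
      N2 ≠ 0 → ∏ j, K.ell (θ j) l2 = (N2 : 𝓞 L) →
      (∀ a b, 0 ≤ W a b) →
      (∀ α β, 2 * α + β < m → α ≤ Nd → β ≤ D →
        ∑ a ∈ range (Nd + 1), ∑ b ∈ range (D + 1), W a b * (a.choose α : ℝ) *
          ((D - b).choose β : ℝ) * K0 ^ (a - α) * E2 ^ b * E1 ^ (D - b - β) ≤ Bd α β) →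
      ((∏ α ∈ range (Nd + 1), ∏ β ∈ (range (D + 1)).filter (fun β => 2 * α + β < m),
        (K0 * Bd α β + 1) ^ 4) * (q : ℝ) ^ ((Nd + 1) * (ν * (ν + 1) / 2)) <
        ∏ a ∈ range (Nd + 1), ∏ b ∈ range (D + 1), ((⌊W a b⌋₊ : ℝ) + 1)) →
      ∃ F : ℤ[X][X], F ≠ 0 ∧ BiDeg Nd D F ∧ (∀ a b, |((F.coeff a).coeff b : ℝ)| ≤ W a b) ∧
        ∀ (N c c' s t : ℤ) (p : ℕ) (z : Fin 4 → ℤ), p.Prime → ¬ (p ∣ q) →
          c ≠ 0 → |c| < p → |c'| < p → c' ≠ 0 → |N2| < p → |Δ| < p →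
          (∀ i, (c : 𝓞 L) * ((N : 𝓞 L) - θ i) =
            K.ell (θ i) (s • l1 + t • l2) ^ 2 * K.ell (θ i) z) →
          ∏ i, K.ell (θ i) (s • l1 + t • l2) = (((p : ℤ) * c' : ℤ) : 𝓞 L) →
          IsCoprime t (q : ℤ) → (q : ℤ) ∣ s - σ0 * t →
          (∑ a ∈ range (Nd + 1), ∑ b ∈ range (D + 1),
            W a b * |(N : ℝ)| ^ a * |(s : ℝ)| ^ b * |(t : ℝ)| ^ (D - b)) < (p : ℝ) ^ m * q ^ ν →
          val Nd D F N s t = 0 := by
  classical
  obtain ⟨K0, hK1, hKθ, hK⟩ := rc_vander θ hθ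
  obtain ⟨Δ, hΔ0, hΔ⟩ := rel_div θ hθ
  refine ⟨K0, Δ, hK1, hΔ0, ?_⟩
  intro l1 l2 m D Nd ν q σ0 E1 E2 W Bd N2 hm hq hE1 hE2 hl1 hl2 hN2 hlam hW hBd hcard
  have hroot : ∀ j, aeval (θ j) G = 0 := by
    intro j
    rw [aeval_def, ← eval_map, hGθ, eval_prod]
    exact Finset.prod_eq_zero (Finset.mem_univ j) (by simp)
  set U : ℕ → ℕ → ℕ → ℕ → Fin 4 → ℤ := fun a b α β i => (rsP D l1 l2 a b α β %ₘ G).coeff i
    with hU
  have hUval : ∀ j a b α β, K.ell (θ j) (U a b α β) = ((a.choose α : ℕ) : 𝓞 L) *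
      θ j ^ (a - α) * K.ell (θ j) l2 ^ b * (((D - b).choose β : ℕ) : 𝓞 L) *
      (-K.ell (θ j) l1) ^ (D - b - β) := by
    intro j a b α β
    rw [← rs_P D l1 l2 a b α β (θ j), ← rc_ell G hG hGd (θ j) (hroot j)]
  obtain ⟨g, ⟨a₀, ha₀, b₀, hb₀, hg₀⟩, hgW, hg0, hgU, hgR⟩ :=
    rel_pigeon' Nd D m ν q (by omega) W Bd K0 hW U
      (fun b r => ((b.choose r : ℕ) : ℤ) * σ0 ^ (b - r)) (by
        intro g hg α hα β hβ h i
        refine hK (fun i => ∑ a ∈ range (Nd + 1), ∑ b ∈ range (D + 1), g a b * U a b α β i)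
          (Bd α β) (fun φ j => ?_) i
        rw [rs_ell_sum (Nd + 1) (D + 1) (θ j) g fun a b => U a b α β]
        refine le_trans ?_ (hBd α β h hα hβ)
        have e1 : φ ((∑ a ∈ range (Nd + 1), ∑ b ∈ range (D + 1),
            ((g a b : ℤ) : 𝓞 L) * K.ell (θ j) (U a b α β) : 𝓞 L) : L) =
            ∑ a ∈ range (Nd + 1), ∑ b ∈ range (D + 1), ((g a b : ℤ) : ℂ) *
              φ ((K.ell (θ j) (U a b α β) : 𝓞 L) : L) := by
          change (φ.comp (algebraMap (𝓞 L) L)) _ = _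
          rw [map_sum]
          refine Finset.sum_congr rfl fun a _ => ?_
          rw [map_sum]
          refine Finset.sum_congr rfl fun b _ => ?_
          rw [map_mul, map_intCast]
          rfl
        rw [e1]
        refine (norm_sum_le _ _).trans (Finset.sum_le_sum fun a _ => ?_)
        refine (norm_sum_le _ _).trans (Finset.sum_le_sum fun b _ => ?_)
        rw [norm_mul, hUval]
        have e2 : φ (((((a.choose α : ℕ) : 𝓞 L) * θ j ^ (a - α) * K.ell (θ j) l2 ^ b *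
            (((D - b).choose β : ℕ) : 𝓞 L) * (-K.ell (θ j) l1) ^ (D - b - β) : 𝓞 L)) : L) =
            ((a.choose α : ℕ) : ℂ) * φ (θ j : 𝓞 L) ^ (a - α) * φ (K.ell (θ j) l2 : 𝓞 L) ^ b *
            (((D - b).choose β : ℕ) : ℂ) * (-φ (K.ell (θ j) l1 : 𝓞 L)) ^ (D - b - β) := by
          change (φ.comp (algebraMap (𝓞 L) L)) _ = _
          simp only [map_mul, map_pow, map_neg, map_natCast]
          rfl
        rw [e2]
        simp only [norm_mul, norm_pow, norm_neg, Complex.norm_natCast, Complex.norm_intCast]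
        have e3 : |((g a b : ℤ) : ℝ)| ≤ W a b := by
          rw [abs_of_nonneg (by exact_mod_cast (hg a b).1)]
          exact (hg a b).2
        have e4 : ‖φ (θ j : 𝓞 L)‖ ^ (a - α) ≤ K0 ^ (a - α) :=
          pow_le_pow_left₀ (norm_nonneg _) (hKθ φ j) _
        have e5 : ‖φ (K.ell (θ j) l2 : 𝓞 L)‖ ^ b ≤ E2 ^ b :=
          pow_le_pow_left₀ (norm_nonneg _) (hl2 φ j) _
        have e6 : ‖φ (K.ell (θ j) l1 : 𝓞 L)‖ ^ (D - b - β) ≤ E1 ^ (D - b - β) :=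
          pow_le_pow_left₀ (norm_nonneg _) (hl1 φ j) _
        have hK0 : 0 ≤ K0 := by linarith
        have hWab := hW a b
        calc |((g a b : ℤ) : ℝ)| * ((a.choose α : ℝ) * ‖φ (θ j : 𝓞 L)‖ ^ (a - α) *
              ‖φ (K.ell (θ j) l2 : 𝓞 L)‖ ^ b * ((D - b).choose β : ℝ) *
              ‖φ (K.ell (θ j) l1 : 𝓞 L)‖ ^ (D - b - β))
            ≤ W a b * ((a.choose α : ℝ) * K0 ^ (a - α) * E2 ^ b * ((D - b).choose β : ℝ) *
              E1 ^ (D - b - β)) := by gcongr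
          _ = W a b * (a.choose α : ℝ) * ((D - b).choose β : ℝ) * K0 ^ (a - α) * E2 ^ b *
              E1 ^ (D - b - β) := by ring) hcard
  refine ⟨rsF Nd D g, ?_, ⟨?_, ?_⟩, ?_, ?_⟩
  · intro h
    apply hg₀
    rw [← rs_coeff Nd D g hg0, h, coeff_zero, coeff_zero]
  · rw [natDegree_le_iff_coeff_eq_zero]
    intro a ha
    ext b
    rw [rs_coeff Nd D g hg0, coeff_zero]
    exact hg0 a b (by omega)
  · intro a
    rw [natDegree_le_iff_coeff_eq_zero]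
    intro b hb
    rw [rs_coeff Nd D g hg0]
    exact hg0 a b (by omega)
  · intro a b
    rw [rs_coeff Nd D g hg0]
    exact hgW a b
  intro N c c' s t p z hp hpq hc hcp hcp' hc' hN2p hΔp heq hprod htq hst hsize
  rw [rs_val Nd D g hg0]
  set x : ℤ := ∑ a ∈ range (Nd + 1), N ^ a * ∑ b ∈ range (D + 1), g a b * s ^ b * t ^ (D - b)
    with hx
  -- divisibility by the power of `p`
  have h1 : (p : ℤ) ^ m ∣ x := by
    refine hΔ (fun j => K.ell (θ j) (s • l1 + t • l2)) (fun j => K.ell (θ j) z)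
      (fun j => K.ell (θ j) l2) N c c' N2 x p m Nd D hp hc hcp hN2 hN2p hΔp heq hprod hlam
      fun j => ?_
    have h2 := re_dvd Nd D m (fun a b => ((g a b : ℤ) : 𝓞 L)) (N : 𝓞 L) (θ j)
      (K.ell (θ j) l1) (K.ell (θ j) l2) (s : 𝓞 L) (t : 𝓞 L) (c : 𝓞 L) (K.ell (θ j) z) (by
        rw [heq j, rs_ell_add]) (by
        intro α hα β hβ h
        rw [Finset.mem_range] at hα hβ
        rw [← rs_ell_zero (θ j) (fun i => ∑ a ∈ range (Nd + 1), ∑ b ∈ range (D + 1),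
          g a b * U a b α β i) (hgU α (by omega) β (by omega) h)]
        rw [rs_ell_sum (Nd + 1) (D + 1) (θ j) g fun a b => U a b α β]
        refine Finset.sum_congr rfl fun a _ => Finset.sum_congr rfl fun b _ => ?_
        rw [hUval])
    rw [← rs_ell_add] at h2
    have h3 : (x : 𝓞 L) = ∑ a ∈ range (Nd + 1), (N : 𝓞 L) ^ a * ∑ b ∈ range (D + 1),
        ((g a b : ℤ) : 𝓞 L) * (s : 𝓞 L) ^ b * (t : 𝓞 L) ^ (D - b) := by
      rw [hx]
      push_cast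
      rfl
    rw [h3]
    exact h2
  -- divisibility by the power of `q`
  have h2 : (q : ℤ) ^ ν ∣ x := by
    refine Finset.dvd_sum fun a ha => Dvd.dvd.mul_left ?_ _
    rw [Finset.mem_range] at ha
    exact re_dvd_q D ν q (g a) σ0 s t hst fun r hr => hgR a (by omega) r hr
  have h3 : IsCoprime ((p : ℤ) ^ m) ((q : ℤ) ^ ν) := by
    apply IsCoprime.pow
    rw [Prime.coprime_iff_not_dvd (Nat.prime_iff_prime_int.1 hp)]
    intro h
    exact hpq (by exact_mod_cast h)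
  have h4 : (p : ℤ) ^ m * (q : ℤ) ^ ν ∣ x := h3.mul_dvd h1 h2
  refine Int.eq_zero_of_abs_lt_dvd h4 ?_
  have h5 : ((|x| : ℤ) : ℝ) ≤ ∑ a ∈ range (Nd + 1), ∑ b ∈ range (D + 1),
      W a b * |(N : ℝ)| ^ a * |(s : ℝ)| ^ b * |(t : ℝ)| ^ (D - b) := by
    rw [hx]
    push_cast
    refine (Finset.abs_sum_le_sum_abs _ _).trans (Finset.sum_le_sum fun a _ => ?_)
    rw [abs_mul, abs_pow]
    refine (mul_le_mul_of_nonneg_left (Finset.abs_sum_le_sum_abs _ _) (by positivity)).trans ?_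
    rw [Finset.mul_sum]
    refine Finset.sum_le_sum fun b _ => ?_
    rw [abs_mul, abs_mul, abs_pow, abs_pow]
    have e1 := hgW a b
    calc |(N : ℝ)| ^ a * (|(g a b : ℝ)| * |(s : ℝ)| ^ b * |(t : ℝ)| ^ (D - b))
        ≤ |(N : ℝ)| ^ a * (W a b * |(s : ℝ)| ^ b * |(t : ℝ)| ^ (D - b)) := by gcongr
      _ = W a b * |(N : ℝ)| ^ a * |(s : ℝ)| ^ b * |(t : ℝ)| ^ (D - b) := by ring
  have h6 := h5.trans_lt hsize
  exact_mod_cast h6

end Vale.Agent.P018.Q
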