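import Mathlib
import Vale.Agent.P018.Q.PairDefs
import Vale.Agent.P018.Q.PairNorm
import Vale.Agent.P018.Q.PairRelNum
import Vale.Agent.P018.Q.Lattice
import Vale.Agent.P018.Q.Rel

/-! # P018, quartics, family (A): the relation step at given exponents. -/

namespace Vale.Agent.P018.Q

open Polynomial NumberField Finset

variable {L : Type} [Field L] [NumberField L]

theorem rq_conj (θ : Fin 4 → 𝓞 L) (Ka : ℝ) (hKa : 1 ≤ Ka)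
    (hell : ∀ (l : Fin 4 → ℤ) (φ : L →+* ℂ) (j : Fin 4),
      ‖φ (K.ell (θ j) l : 𝓞 L)‖ ^ 2 ≤ Ka * dot l l) (l : Fin 4 → ℤ) (L' : ℝ) (hL' : 0 ≤ L')
    (hsq : L' ^ 2 = dot l l) (φ : L →+* ℂ) (j : Fin 4) :
    ‖φ (K.ell (θ j) l : 𝓞 L)‖ ≤ Ka * L' := by
  have h1 := hell l φ j
  rw [← hsq] at h1
  refine abs_le_of_sq_le_sq' ?_ (by positivity) |>.2
  rw [mul_pow]
  exact h1.trans (mul_le_mul_of_nonneg_right (le_self_pow₀ hKa (by norm_num)) (sq_nonneg _))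

theorem rq_ne {X u : ℝ} {l : Fin 4 → ℤ} (hX : 0 < X) (h : X ^ u ≤ dot l l) : l ≠ 0 := by
  rintro rfl
  have h1 : dot (0 : Fin 4 → ℤ) 0 = 0 := by simp [dot]
  rw [h1] at h
  have h2 := Real.rpow_pos_of_pos hX u
  push_cast at h
  linarith

/-- for every class `s = σ0 t mod q`, `q` of size `X^β`, the points lie on `F(N; s, t) = 0`. -/
theorem rel_class {G : ℤ[X]} {θ : Fin 4 → 𝓞 L} (hF : Fld G θ) (C : ℕ) (w m1 m2 β : ℝ)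
    (hw : 0 < w) (hm1 : 0 ≤ m1) (hm2 : 0 ≤ m2) (hm : m2 < w) (hβ : 0 < β)
    (hrel : NumRel w m1 m2 β) :
    ∃ ε : ℝ, 0 < ε ∧ ∃ (Nd D C0 : ℕ) (K : ℝ), 0 < K ∧ ∀ (H : ℕ) (X T : ℝ) (l1 l2 : Fin 4 → ℤ)
      (q : ℕ) (σ0 : ℤ), K ≤ X → X ≤ H → X ≤ T ^ 4 → X ^ (w - ε) ≤ T → T ≤ X ^ (w + ε) →
      X ^ (2 * (m1 - ε)) ≤ dot l1 l1 → (dot l1 l1 : ℝ) ≤ X ^ (2 * (m1 + ε)) →
      X ^ (2 * (m2 - ε)) ≤ dot l2 l2 → (dot l2 l2 : ℝ) ≤ X ^ (2 * (m2 + ε)) →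
      X ^ (β - ε) ≤ q → (q : ℝ) ≤ X ^ (β + ε) → (∀ p : ℕ, p.Prime → T ^ 4 ≤ p → ¬ p ∣ q) →
      ∃ F : ℤ[X][X], F ≠ 0 ∧ BiDeg Nd D F ∧ (∀ a b, |(F.coeff a).coeff b| ≤ (H : ℤ) ^ C0) ∧
        ∀ (N : ℤ) (p : ℕ) (c : ℤ) (z : Fin 4 → ℤ) (s t : ℤ), Pt θ C X T l1 l2 N p c z s t →
          IsCoprime t (q : ℤ) → (q : ℤ) ∣ s - σ0 * t → val Nd D F N s t = 0 := by
  obtain ⟨M, D, Nd, ν, ω, δ, hM, hδ, hωm, hω1, hN2⟩ := hrel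
  obtain ⟨K0, Δ, hK0, hΔ0, hstep⟩ := relation_step G hF.monic hF.deg hF.irr θ hF.inj hF.split
  obtain ⟨Ka, hKa, hell⟩ := ell_bound θ
  obtain ⟨Kb, hKb, hnorm⟩ := norm_int hF
  obtain ⟨ε, η, hε, hη, hDε, hsmall, hsz, hεm, hεβ⟩ := rq_eps M D Nd ν w m2 β δ hm hβ hδ
  obtain ⟨Cst, hCst⟩ : ∃ Cst : ℝ,
    Cst = (((Nd : ℝ) + 1) * ((D : ℝ) + 1) * (2 ^ Nd * 2 ^ D * K0 ^ Nd * Ka ^ D)) := ⟨_, rfl⟩
  have hCst0 : 0 ≤ Cst := by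
    rw [hCst]
    positivity
  obtain ⟨Kx, hK1, hK⟩ := rq_large (K0 * Cst + 1)
    (((Nd : ℝ) + 1) * (D + 1) * ((C : ℝ) + 1) ^ (Nd + D)) Kb C |(Δ : ℝ)| (η / 2) (δ / 2)
    (2 * (w - m2)) (β / 2) (by positivity) (by positivity) (by linarith) (by positivity)
  refine ⟨ε, hε, Nd, D, ⌈∑ a ∈ range (Nd + 1), |ω a| + D * (m1 + ε) + D * (m2 + ε)⌉₊, Kx,
    by linarith, ?_⟩
  have hceil := Nat.le_ceil (∑ a ∈ range (Nd + 1), |ω a| + D * (m1 + ε) + D * (m2 + ε))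
  generalize ⌈∑ a ∈ range (Nd + 1), |ω a| + D * (m1 + ε) + D * (m2 + ε)⌉₊ = C0 at hceil ⊢
  intro H X T l1 l2 q σ0 hKX hXH hXT hT1 hT2 ha1 hb1 ha2 hb2 hq1 hq2 hpq
  obtain ⟨g1, g2, g3, g4, g5, g6⟩ := hK X hKX
  have hX1 : 1 < X := by linarith
  have hX0 : 0 < X := by linarith
  have hd1 : (0 : ℝ) ≤ dot l1 l1 := by exact_mod_cast dot_nonneg l1
  have hd2 : (0 : ℝ) ≤ dot l2 l2 := by exact_mod_cast dot_nonneg l2
  obtain ⟨L1, hL1⟩ : ∃ L1 : ℝ, L1 = Real.sqrt (dot l1 l1) := ⟨_, rfl⟩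
  obtain ⟨L2, hL2⟩ : ∃ L2 : ℝ, L2 = Real.sqrt (dot l2 l2) := ⟨_, rfl⟩
  have hL10 : 0 ≤ L1 := hL1 ▸ Real.sqrt_nonneg _
  have hL20 : 0 ≤ L2 := hL2 ▸ Real.sqrt_nonneg _
  have hL1sq : L1 ^ 2 = dot l1 l1 := hL1 ▸ Real.sq_sqrt hd1
  have hL2sq : L2 ^ 2 = dot l2 l2 := hL2 ▸ Real.sq_sqrt hd2
  have hL1u : L1 ≤ X ^ (m1 + ε) := hL1 ▸ rq_sqrt_le hX0 hb1
  have hL2u : L2 ≤ X ^ (m2 + ε) := hL2 ▸ rq_sqrt_le hX0 hb2
  have hL1l : X ^ (m1 - ε) ≤ L1 := hL1 ▸ rq_le_sqrt hX0 ha1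
  have hL2l : X ^ (m2 - ε) ≤ L2 := hL2 ▸ rq_le_sqrt hX0 ha2
  -- the norm of `l2`
  obtain ⟨N2, hN20, hN2p, hN2b⟩ := hnorm l2 (rq_ne hX0 ha2)
  have hN2T : |(N2 : ℝ)| < T ^ 4 :=
    rq_N2 w m2 ε X T Kb (dot l2 l2) _ hX1 hT1 (by linarith) hd2 hb2 hN2b g3 hεm
  -- the parameters
  have hK00 : 0 ≤ K0 := by linarith
  have hKa0 : 0 ≤ Ka := by linarith
  have hW0 : ∀ a b, 0 ≤ X ^ ω a * L1 ^ b * L2 ^ (D - b) := by
    intro a b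
    have := Real.rpow_pos_of_pos hX0 (ω a)
    positivity
  have hBd0 : ∀ α b' : ℕ, 0 ≤ ∑ a ∈ range (Nd + 1), ∑ b ∈ range (D + 1),
      (X ^ ω a * L1 ^ b * L2 ^ (D - b)) * (a.choose α : ℝ) * ((D - b).choose b' : ℝ) *
      K0 ^ (a - α) * (Ka * L2) ^ b * (Ka * L1) ^ (D - b - b') := by
    intro α b'
    refine Finset.sum_nonneg fun a _ => Finset.sum_nonneg fun b _ => ?_
    have := hW0 a b
    positivity
  have hBd : ∀ α ≤ Nd, ∀ b' ≤ D, K0 * (∑ a ∈ range (Nd + 1), ∑ b ∈ range (D + 1),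
      (X ^ ω a * L1 ^ b * L2 ^ (D - b)) * (a.choose α : ℝ) * ((D - b).choose b' : ℝ) *
      K0 ^ (a - α) * (Ka * L2) ^ b * (Ka * L1) ^ (D - b - b')) + 1 ≤
      X ^ (max 0 (ω α + D * (m1 + m2) - b' * m1) + η) := by
    intro α hα b' hb'
    refine rq_box _ D ε η X K0 Cst _ hX1 hK0 hCst0 hη hDε ?_ g1
    rw [hCst]
    exact rq_bd Nd D ω X K0 Ka L1 L2 m1 m2 ε hX1.le hK0 hKa hL10 hL20 hL1u hL2u hε.le hωm α b' hb'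
  have hq2' : 2 ≤ q := by
    have h1 : X ^ (β / 2) ≤ X ^ (β - ε) :=
      Real.rpow_le_rpow_of_exponent_le hX1.le (by linarith)
    have h2 : (2 : ℝ) ≤ q := g6.trans (h1.trans hq1)
    exact_mod_cast h2
  have hpig := rq_pig M D Nd ν q ω m1 m2 β ε η δ X K0
    (fun a b => X ^ ω a * L1 ^ b * L2 ^ (D - b))
    (fun α b' => ∑ a ∈ range (Nd + 1), ∑ b ∈ range (D + 1),
      (X ^ ω a * L1 ^ b * L2 ^ (D - b)) * (a.choose α : ℝ) * ((D - b).choose b' : ℝ) *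
      K0 ^ (a - α) * (Ka * L2) ^ b * (Ka * L1) ^ (D - b - b')) hX1 hη.le
    (fun α b => add_nonneg (mul_nonneg hK00 (hBd0 α b)) zero_le_one) hBd
    (fun a _ b hb => rq_Wl D a b (ω a) m1 m2 ε X L1 L2 hX0 hb hL1l hL2l) hq2 hN2 hsmall
  obtain ⟨F, hF0, hFd, hFc, hFv⟩ := hstep l1 l2 M D Nd ν q σ0 (Ka * L1) (Ka * L2)
    (fun a b => X ^ ω a * L1 ^ b * L2 ^ (D - b)) _ N2 hM
    hq2' (mul_nonneg hKa0 hL10) (mul_nonneg hKa0 hL20)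
    (rq_conj θ Ka hKa hell l1 L1 hL10 hL1sq) (rq_conj θ Ka hKa hell l2 L2 hL20 hL2sq)
    hN20 hN2p hW0 (fun α b _ _ _ => le_refl _) hpig
  refine ⟨F, hF0, hFd, ?_, ?_⟩
  · intro a b
    by_cases ha : a ≤ Nd
    · by_cases hb : b ≤ D
      · have h3 : |ω a| ≤ ∑ a ∈ range (Nd + 1), |ω a| :=
          Finset.single_le_sum (f := fun a => |ω a|) (fun _ _ => abs_nonneg _)
            (Finset.mem_range.2 (by omega))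
        have h1 := (hFc a b).trans (rq_Wu D b C0 (ω a) _ m1 m2 ε X H L1 L2 hX1 hXH hb hL10 hL20
          hL1u hL2u (by linarith) (by linarith) h3 hceil)
        exact_mod_cast h1
      · rw [coeff_eq_zero_of_natDegree_lt ((hFd.2 a).trans_lt (by omega))]
        simp
    · rw [coeff_eq_zero_of_natDegree_lt (hFd.1.trans_lt (by omega))]
      simp
  · intro N p c z s t hpt htq hst
    obtain ⟨hdat, hs, ht⟩ := hpt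
    obtain ⟨c', hc'0, hc'C, hprod⟩ := hdat.nrm
    have hXp : X ≤ p := hXT.trans hdat.lo
    have hCp : (C : ℝ) < p := by linarith
    have hCp' : (C : ℤ) < p := by exact_mod_cast hCp
    refine hFv N c c' s t p z hdat.prime (hpq p hdat.prime hdat.lo) hdat.c0
      (hdat.cC.trans_lt hCp') (hc'C.trans_lt hCp') hc'0 ?_ ?_ hdat.eqn hprod htq hst ?_
    · have h1 := hN2T.trans_le hdat.lo
      exact_mod_cast h1
    · have h1 : |(Δ : ℝ)| < p := by linarith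
      exact_mod_cast h1
    · refine rq_size M D Nd ν q p C ω w β ε δ X T L1 L2 N s t hX1 hT1 hT2 hdat.lo hq1 hL10
        hL20 hdat.hN ?_ ?_ hω1 hsz g2
      · rw [hL1sq]
        exact hs
      · rw [hL2sq]
        exact ht

end Vale.Agent.P018.Q
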