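import Mathlib
import Vale.Agent.P018.Q.PairDefs
import Vale.Agent.P018.Q.Rel

/-! # P018, quartics: substitution of the kappa model in a relation `F(n; s, t) = 0`. -/

namespace Vale.Agent.P018.Q

open Polynomial NumberField Finset

/-- `∑ f_a(σ) (B 0 + κ B 1)^a (A 0 + κ A 1)^(Nd - a)`, as a polynomial in `κ` (outer) and `σ`. -/
noncomputable def subK (A B : Fin 2 → ℤ[X]) (Nd : ℕ) (F : ℤ[X][X]) : ℤ[X][X] :=
  ∑ a ∈ range (Nd + 1), C (F.coeff a) * (C (B 0) + C (B 1) * X) ^ a *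
    (C (A 0) + C (A 1) * X) ^ (Nd - a)

theorem subK_ne_zero_aux {K : Type*} [Field K] [CharZero K] (f : ℤ[X] →+* K)
    (hf : Function.Injective f) (A B : Fin 2 → ℤ[X]) (hdet : A 0 * B 1 - A 1 * B 0 ≠ 0) (Nd : ℕ)
    (F : ℤ[X][X]) (hF : F ≠ 0) (hd : F.natDegree ≤ Nd) : subK A B Nd F ≠ 0 := by
  intro h0
  set δ : ℤ[X] := A 0 * B 1 - A 1 * B 0 with hδ
  have hf0 : f δ ≠ 0 := fun h => hdet (hf (by rw [h, map_zero]))
  -- the values of the linear forms at the natural numbers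
  obtain ⟨U, hU⟩ : ∃ U : ℕ → K, ∀ n, U n = f (B 0) + f (B 1) * n := ⟨_, fun _ => rfl⟩
  obtain ⟨V, hV⟩ : ∃ V : ℕ → K, ∀ n, V n = f (A 0) + f (A 1) * n := ⟨_, fun _ => rfl⟩
  have hUV : ∀ m n : ℕ, U m * V n - U n * V m = f δ * ((m : K) - n) := by
    intro m n
    rw [hU, hU, hV, hV, hδ, map_sub, map_mul, map_mul]
    ring
  have hsum : ∀ n : ℕ, ∑ a ∈ range (Nd + 1), f (F.coeff a) * U n ^ a * V n ^ (Nd - a) = 0 := by
    intro n
    have h1 : (subK A B Nd F).eval₂ f (n : K) = 0 := by rw [h0, eval₂_zero]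
    unfold subK at h1
    rw [eval₂_finsetSum] at h1
    rw [← h1]
    refine Finset.sum_congr rfl fun a _ => ?_
    simp only [eval₂_mul, eval₂_pow, eval₂_add, eval₂_C, eval₂_X, hU, hV]
  have hmn : ∀ m n : ℕ, f δ * ((m : K) - n) = 0 → m = n := by
    intro m n h
    exact_mod_cast sub_eq_zero.1 ((mul_eq_zero.1 h).resolve_left hf0)
  have hroot : ∀ n : ℕ, V n ≠ 0 → (F.map f).IsRoot (U n / V n) := by
    intro n hn
    have h1 := hsum n
    have h2 : ∑ a ∈ range (Nd + 1), f (F.coeff a) * U n ^ a * V n ^ (Nd - a) =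
        V n ^ Nd * (F.map f).eval (U n / V n) := by
      rw [eval_eq_sum_range' (n := Nd + 1) (lt_of_le_of_lt natDegree_map_le (by omega)),
        Finset.mul_sum]
      refine Finset.sum_congr rfl fun a ha => ?_
      have ha' : a ≤ Nd := Nat.lt_succ_iff.1 (Finset.mem_range.1 ha)
      have h3 : V n ^ Nd = V n ^ (Nd - a) * V n ^ a := by
        rw [← pow_add, Nat.sub_add_cancel ha']
      have h4 : V n ^ a * (U n / V n) ^ a = U n ^ a := by
        rw [← mul_pow, mul_div_cancel₀ _ hn]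
      rw [coeff_map, h3, ← h4]
      ring
    rw [h2] at h1
    exact (mul_eq_zero.1 h1).resolve_left (pow_ne_zero _ hn)
  have hinj : Set.InjOn (fun n : ℕ => U n / V n) {n | V n ≠ 0} := by
    intro m hm n hn h
    have hm' : V m ≠ 0 := hm
    have hn' : V n ≠ 0 := hn
    have h' : U m / V m = U n / V n := h
    rw [div_eq_div_iff hm' hn'] at h'
    refine hmn m n ?_
    rw [← hUV, h', sub_self]
  have hinf : {n : ℕ | V n ≠ 0}.Infinite := by
    have hfin : {n : ℕ | V n = 0}.Finite := by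
      refine Set.Subsingleton.finite fun m hm n hn => ?_
      have hm' : V m = 0 := hm
      have hn' : V n = 0 := hn
      refine hmn m n ?_
      rw [← hUV, hm', hn', mul_zero, mul_zero, sub_zero]
    exact hfin.infinite_compl
  have h5 : (F.map f) = 0 := by
    refine Polynomial.eq_zero_of_infinite_isRoot _ ((hinf.image hinj).mono ?_)
    rintro _ ⟨n, hn, rfl⟩
    exact hroot n hn
  exact hF ((Polynomial.map_eq_zero_iff hf).1 h5)

theorem subK_ne_zero (A B : Fin 2 → ℤ[X]) (hdet : A 0 * B 1 - A 1 * B 0 ≠ 0) (Nd : ℕ)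
    (F : ℤ[X][X]) (hF : F ≠ 0) (hd : F.natDegree ≤ Nd) : subK A B Nd F ≠ 0 :=
  subK_ne_zero_aux (algebraMap ℤ[X] (FractionRing ℤ[X])) (IsFractionRing.injective _ _) A B hdet
    Nd F hF hd

theorem subK_biDeg (A B : Fin 2 → ℤ[X]) (Nd D : ℕ) (F : ℤ[X][X]) (hF : BiDeg Nd D F)
    (hA : ∀ i, (A i).natDegree ≤ 5) (hB : ∀ i, (B i).natDegree ≤ 5) :
    BiDeg Nd (D + 5 * Nd) (subK A B Nd F) := by
  unfold subK
  refine BiDeg.sum _ fun a ha => ?_
  have ha' : a ≤ Nd := Nat.lt_succ_iff.1 (Finset.mem_range.1 ha)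
  have h1 := ((BiDeg.C_le (hF.2 a)).mul ((BiDeg.lin (hB 0) (hB 1)).pow a)).mul
    ((BiDeg.lin (hA 0) (hA 1)).pow (Nd - a))
  refine h1.mono ?_ ?_
  · omega
  · omega

/-- bounded bidegree and bounded coefficients. -/
def Ht (H : ℕ) (j m c : ℕ) (P : ℤ[X][X]) : Prop :=
  BiDeg j m P ∧ ∀ i k, |(P.coeff i).coeff k| ≤ (H : ℤ) ^ c

theorem Ht.mono {H j m c j' m' c' : ℕ} {P : ℤ[X][X]} (hH : 1 ≤ H) (h : Ht H j m c P)
    (h1 : j ≤ j') (h2 : m ≤ m') (h3 : c ≤ c') : Ht H j' m' c' P :=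
  ⟨h.1.mono h1 h2, fun i k => (h.2 i k).trans (pow_le_pow_right₀ (by exact_mod_cast hH) h3)⟩

theorem Ht.mul {H j m c j' m' c' : ℕ} {P Q : ℤ[X][X]} (hH : 2 ≤ H) (h : Ht H j m c P)
    (h' : Ht H j' m' c' Q) : Ht H (j + j') (m + m') (c + c' + (j + m)) (P * Q) := by
  refine ⟨h.1.mul h'.1, fun i k => ?_⟩
  have hH0 : (0 : ℤ) ≤ H := by positivity
  have hH1 : (2 : ℤ) ≤ H := by exact_mod_cast hH
  have e : ((P * Q).coeff i).coeff k = ∑ x ∈ range (j + 1), ∑ y ∈ range (m + 1),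
      (P.coeff x).coeff y * (if x ≤ i ∧ y ≤ k then (Q.coeff (i - x)).coeff (k - y) else 0) := by
    rw [Polynomial.coeff_mul, Finset.Nat.sum_antidiagonal_eq_sum_range_succ_mk, finsetSum_coeff]
    have h1 : ∀ x, ((P.coeff x) * (Q.coeff (i - x))).coeff k = ∑ y ∈ range (m + 1),
        (P.coeff x).coeff y * (if y ≤ k then (Q.coeff (i - x)).coeff (k - y) else 0) := by
      intro x
      rw [Polynomial.coeff_mul, Finset.Nat.sum_antidiagonal_eq_sum_range_succ_mk]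
      have h2 : ∀ n, ∑ y ∈ range n, (P.coeff x).coeff y *
          (if y ≤ k then (Q.coeff (i - x)).coeff (k - y) else 0) = ∑ y ∈ range n,
          if y ≤ k then (P.coeff x).coeff y * (Q.coeff (i - x)).coeff (k - y) else 0 := by
        intro n
        exact Finset.sum_congr rfl fun y _ => by split_ifs <;> simp
      rcases le_total (k + 1) (m + 1) with hk | hk
      · rw [← Finset.sum_subset (Finset.range_mono hk)]
        · refine Finset.sum_congr rfl fun y hy => ?_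
          rw [if_pos (Nat.lt_succ_iff.1 (Finset.mem_range.1 hy))]
        · intro y _ hy
          rw [if_neg (by rw [Finset.mem_range] at hy; omega), mul_zero]
      · rw [← Finset.sum_subset (Finset.range_mono hk)]
        · refine Finset.sum_congr rfl fun y hy => ?_
          rw [if_pos]
          rw [Finset.mem_range] at hy
          omega
        · intro y _ hy
          rw [Finset.mem_range] at hy
          rw [coeff_eq_zero_of_natDegree_lt (lt_of_le_of_lt (h.1.2 x) (by omega)), zero_mul]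
    simp only [h1]
    rcases le_total (i + 1) (j + 1) with hk | hk
    · rw [← Finset.sum_subset (Finset.range_mono hk)]
      · refine Finset.sum_congr rfl fun x hx => Finset.sum_congr rfl fun y _ => ?_
        have hx' : x ≤ i := Nat.lt_succ_iff.1 (Finset.mem_range.1 hx)
        simp [hx']
      · intro x _ hx
        refine Finset.sum_eq_zero fun y _ => ?_
        rw [if_neg (by rw [Finset.mem_range] at hx; omega), mul_zero]
    · rw [← Finset.sum_subset (Finset.range_mono hk)]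
      · refine Finset.sum_congr rfl fun x hx => Finset.sum_congr rfl fun y _ => ?_
        have hx' : x ≤ i := by
          rw [Finset.mem_range] at hx
          omega
        simp [hx']
      · intro x _ hx
        rw [Finset.mem_range] at hx
        refine Finset.sum_eq_zero fun y _ => ?_
        rw [coeff_eq_zero_of_natDegree_lt (lt_of_le_of_lt h.1.1 (by omega)), coeff_zero, zero_mul]
  rw [e]
  refine (Finset.abs_sum_le_sum_abs _ _).trans ?_
  have h3 : ∀ x ∈ range (j + 1), |∑ y ∈ range (m + 1),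
      (P.coeff x).coeff y * (if x ≤ i ∧ y ≤ k then (Q.coeff (i - x)).coeff (k - y) else 0)| ≤
      (m + 1 : ℕ) * ((H : ℤ) ^ c * (H : ℤ) ^ c') := by
    intro x _
    refine (Finset.abs_sum_le_sum_abs _ _).trans ?_
    have h4 : ∀ y ∈ range (m + 1), |(P.coeff x).coeff y *
        (if x ≤ i ∧ y ≤ k then (Q.coeff (i - x)).coeff (k - y) else 0)| ≤
        (H : ℤ) ^ c * (H : ℤ) ^ c' := by
      intro y _
      rw [abs_mul]
      refine mul_le_mul (h.2 x y) ?_ (abs_nonneg _) (by positivity)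
      split_ifs
      · exact h'.2 _ _
      · rw [abs_zero]
        positivity
    refine (Finset.sum_le_card_nsmul _ _ _ h4).trans (le_of_eq ?_)
    rw [card_range, nsmul_eq_mul]
  refine (Finset.sum_le_card_nsmul _ _ _ h3).trans ?_
  rw [card_range, nsmul_eq_mul]
  have h5 : ((j + 1 : ℕ) : ℤ) ≤ (H : ℤ) ^ j := by
    have : j + 1 ≤ 2 ^ j := Nat.lt_two_pow_self
    calc ((j + 1 : ℕ) : ℤ) ≤ ((2 ^ j : ℕ) : ℤ) := by exact_mod_cast this
      _ = (2 : ℤ) ^ j := by push_cast; rfl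
      _ ≤ (H : ℤ) ^ j := pow_le_pow_left₀ (by norm_num) hH1 j
  have h6 : ((m + 1 : ℕ) : ℤ) ≤ (H : ℤ) ^ m := by
    have : m + 1 ≤ 2 ^ m := Nat.lt_two_pow_self
    calc ((m + 1 : ℕ) : ℤ) ≤ ((2 ^ m : ℕ) : ℤ) := by exact_mod_cast this
      _ = (2 : ℤ) ^ m := by push_cast; rfl
      _ ≤ (H : ℤ) ^ m := pow_le_pow_left₀ (by norm_num) hH1 m
  calc ((j + 1 : ℕ) : ℤ) * ((m + 1 : ℕ) * ((H : ℤ) ^ c * (H : ℤ) ^ c')) ≤
      (H : ℤ) ^ j * ((H : ℤ) ^ m * ((H : ℤ) ^ c * (H : ℤ) ^ c')) :=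
        mul_le_mul h5 (mul_le_mul_of_nonneg_right h6 (by positivity)) (by positivity)
          (by positivity)
    _ = (H : ℤ) ^ (c + c' + (j + m)) := by
        rw [pow_add, pow_add, pow_add]
        ring

theorem Ht.lin {H m c : ℕ} {P Q : ℤ[X]} (hP : P.natDegree ≤ m) (hQ : Q.natDegree ≤ m)
    (h : ∀ k, |P.coeff k| ≤ (H : ℤ) ^ c) (h' : ∀ k, |Q.coeff k| ≤ (H : ℤ) ^ c) :
    Ht H 1 m c (C P + C Q * X) := by
  refine ⟨BiDeg.lin hP hQ, fun i k => ?_⟩
  have hH0 : (0 : ℤ) ≤ (H : ℤ) ^ c := by positivity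
  match i with
  | 0 => simpa using h k
  | 1 => simpa [coeff_C] using h' k
  | (i + 2) => simpa [coeff_C, coeff_X] using hH0

theorem Ht.pow {H m c : ℕ} {P : ℤ[X][X]} (hH : 2 ≤ H) (h : Ht H 1 m c P) (n : ℕ) :
    Ht H n (n * m) (n * (c + (1 + m))) (P ^ n) := by
  induction n with
  | zero =>
    refine ⟨?_, fun i k => ?_⟩
    · rw [pow_zero, Nat.zero_mul]
      exact BiDeg.one
    rw [pow_zero, coeff_one]
    split_ifs
    · rw [coeff_one]
      split_ifs <;> simp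
    · simp
  | succ n ih =>
    rw [pow_succ']
    have h1 := h.mul hH ih
    refine h1.mono (by omega) (by omega) (le_of_eq (by ring)) (le_of_eq (by ring))

theorem subK_height (Nd D C0 : ℕ) : ∃ C1 : ℕ, ∀ (H : ℕ) (A B : Fin 2 → ℤ[X]) (F : ℤ[X][X]),
    2 ≤ H → BiDeg Nd D F → (∀ i, (A i).natDegree ≤ 5) → (∀ i, (B i).natDegree ≤ 5) →
    (∀ i k, |(A i).coeff k| ≤ (H : ℤ) ^ C0) → (∀ i k, |(B i).coeff k| ≤ (H : ℤ) ^ C0) →
    (∀ a b, |(F.coeff a).coeff b| ≤ (H : ℤ) ^ C0) →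
    ∀ i j, |((subK A B Nd F).coeff i).coeff j| ≤ (H : ℤ) ^ C1 := by
  set C2 : ℕ := C0 + Nd * (C0 + (1 + 5)) + (0 + D) + Nd * (C0 + (1 + 5)) + (Nd + (D + Nd * 5))
    with hC2
  refine ⟨Nd + C2, ?_⟩
  intro H A B F hH hF hA hB hA' hB' hF' i j
  have hH0 : (0 : ℤ) ≤ H := by positivity
  have hH1 : (2 : ℤ) ≤ H := by exact_mod_cast hH
  have key : ∀ a ∈ range (Nd + 1), |((C (F.coeff a) * (C (B 0) + C (B 1) * X) ^ a *
    (C (A 0) + C (A 1) * X) ^ (Nd - a)).coeff i).coeff j| ≤ (H : ℤ) ^ C2 := by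
    intro a ha
    have ha' : a ≤ Nd := Nat.lt_succ_iff.1 (Finset.mem_range.1 ha)
    have h1 : Ht H 0 D C0 (C (F.coeff a)) := by
      refine ⟨BiDeg.C_le (hF.2 a), fun i k => ?_⟩
      rw [coeff_C]
      split_ifs
      · exact hF' a k
      · rw [coeff_zero, abs_zero]
        positivity
    have h2 := (Ht.lin (hB 0) (hB 1) (hB' 0) (hB' 1)).pow hH a
    have h3 := (Ht.lin (hA 0) (hA 1) (hA' 0) (hA' 1)).pow hH (Nd - a)
    have h4 := ((h1.mul hH h2).mul hH h3).2 i j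
    refine h4.trans (pow_le_pow_right₀ (by linarith) ?_)
    have h5 : a * (C0 + (1 + 5)) ≤ Nd * (C0 + (1 + 5)) := Nat.mul_le_mul_right _ ha'
    have h6 : (Nd - a) * (C0 + (1 + 5)) ≤ Nd * (C0 + (1 + 5)) :=
      Nat.mul_le_mul_right _ (Nat.sub_le _ _)
    have h7 : a * 5 ≤ Nd * 5 := Nat.mul_le_mul_right _ ha'
    omega
  unfold subK
  rw [finsetSum_coeff, finsetSum_coeff]
  refine (Finset.abs_sum_le_sum_abs _ _).trans ?_
  refine (Finset.sum_le_card_nsmul _ _ _ key).trans ?_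
  rw [card_range, nsmul_eq_mul]
  have h5 : ((Nd + 1 : ℕ) : ℤ) ≤ (H : ℤ) ^ Nd := by
    have : Nd + 1 ≤ 2 ^ Nd := Nat.lt_two_pow_self
    calc ((Nd + 1 : ℕ) : ℤ) ≤ ((2 ^ Nd : ℕ) : ℤ) := by exact_mod_cast this
      _ = (2 : ℤ) ^ Nd := by push_cast; rfl
      _ ≤ (H : ℤ) ^ Nd := pow_le_pow_left₀ (by norm_num) hH1 Nd
  calc ((Nd + 1 : ℕ) : ℤ) * (H : ℤ) ^ C2 ≤ (H : ℤ) ^ Nd * (H : ℤ) ^ C2 :=
        mul_le_mul_of_nonneg_right h5 (pow_nonneg hH0 _)
    _ = (H : ℤ) ^ (Nd + C2) := (pow_add _ _ _).symm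

theorem subK_ev (A B : Fin 2 → ℤ[X]) (Z : Fin 2 → Fin 4 → ℤ[X]) (Nd D : ℕ) (F : ℤ[X][X])
    (hF : BiDeg Nd D F) {N c s t kn kd : ℤ} {z : Fin 4 → ℤ} (hP : KP A B Z N c s t kn kd z)
    (hv : val Nd D F N s t = 0) :
    ev ((subK A B Nd F).map (mapRingHom (Int.castRingHom ℚ))) ((kn : ℚ) / kd) ((s : ℚ) / t) = 0 := by
  have ht : (t : ℚ) ≠ 0 := by exact_mod_cast hP.t0
  have hk : (kd : ℚ) ≠ 0 := by exact_mod_cast hP.k0
  set σ : ℚ := (s : ℚ) / t with hσ
  set κ : ℚ := (kn : ℚ) / kd with hκ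
  have hs : (s : ℚ) = σ * t := by rw [hσ]; field_simp
  set U : ℚ := aeval σ (B 0) + aeval σ (B 1) * κ with hU
  set V : ℚ := aeval σ (A 0) + aeval σ (A 1) * κ with hV
  have hVU : V * (N : ℚ) = U := by
    have h1 := hP.eqN
    have h2 : (kd : ℚ) * V = kd * aeval σ (A 0) + kn * aeval σ (A 1) := by
      rw [hV, hκ]
      field_simp
    have h3 : (kd : ℚ) * U = kd * aeval σ (B 0) + kn * aeval σ (B 1) := by
      rw [hU, hκ]
      field_simp
    rw [← h2, ← h3, mul_assoc] at h1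
    exact mul_left_cancel₀ hk h1
  have hsum : ∑ a ∈ range (Nd + 1), (N : ℚ) ^ a * aeval σ (F.coeff a) = 0 := by
    have h1 : (Int.castRingHom ℚ) (val Nd D F N s t) = 0 := by rw [hv, map_zero]
    unfold val at h1
    rw [map_sum] at h1
    have h2 : ∀ a, (Int.castRingHom ℚ) (N ^ a * hom D (F.coeff a) s t) =
        (t : ℚ) ^ D * ((N : ℚ) ^ a * aeval σ (F.coeff a)) := by
      intro a
      rw [map_mul, map_pow, hom_map]
      simp only [eq_intCast]
      rw [hs, hom_mul D (hF.2 a)]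
      ring
    simp only [h2] at h1
    rw [← Finset.mul_sum] at h1
    exact (mul_eq_zero.1 h1).resolve_left (pow_ne_zero _ ht)
  rw [← evr_rat]
  have h3 : evr (subK A B Nd F) σ κ = ∑ a ∈ range (Nd + 1), aeval σ (F.coeff a) * U ^ a *
      V ^ (Nd - a) := by
    unfold subK
    have h4 : ∀ (S : Finset ℕ) (P : ℕ → ℤ[X][X]), evr (∑ a ∈ S, P a) σ κ =
        ∑ a ∈ S, evr (P a) σ κ := by
      intro S P
      unfold evr
      rw [eval₂_finsetSum]
    rw [h4]
    refine Finset.sum_congr rfl fun a _ => ?_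
    simp only [evr_mul, evr_pow, evr_add, evr_C, evr_X, hU, hV]
  rw [h3]
  have h5 : ∑ a ∈ range (Nd + 1), aeval σ (F.coeff a) * U ^ a * V ^ (Nd - a) =
      V ^ Nd * ∑ a ∈ range (Nd + 1), (N : ℚ) ^ a * aeval σ (F.coeff a) := by
    rw [Finset.mul_sum]
    refine Finset.sum_congr rfl fun a ha => ?_
    have ha' : a ≤ Nd := Nat.lt_succ_iff.1 (Finset.mem_range.1 ha)
    rw [← hVU, mul_pow]
    have h6 : V ^ Nd = V ^ a * V ^ (Nd - a) := by rw [← pow_add, Nat.add_sub_cancel' ha']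
    rw [h6]
    ring
  rw [h5, hsum, mul_zero]

end Vale.Agent.P018.Q
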