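import Mathlib
import Vale.Agent.P018.Q.PairRel
import Vale.Agent.P018.Q.PairCurveA
import Vale.Agent.P018.Q.SubK
import Vale.Agent.P018.Q.Heights
import Vale.Agent.P018.Q.Levels

/-! # P018, quartics, family (A): the curves containing the points of one class. -/

namespace Vale.Agent.P018.Q

open Polynomial NumberField Finset

variable {L : Type} [Field L] [NumberField L]

/-- for every class `s = σ0 t mod q` the points lie on a bounded number of irreducible curves. -/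
theorem class_curves {G : ℤ[X]} {θ : Fin 4 → 𝓞 L} (hF : Fld G θ) (C C0 : ℕ) (w m1 m2 β : ℝ)
    (hw : 0 < w) (hm1 : 0 ≤ m1) (hm2 : 0 ≤ m2) (hm : m2 < w) (hβ : 0 < β)
    (hrel : NumRel w m1 m2 β) :
    ∃ ε : ℝ, 0 < ε ∧ ∃ (Dg C1 : ℕ) (K : ℝ), 0 < K ∧ ∀ (H : ℕ) (X T : ℝ) (l1 l2 : Fin 4 → ℤ)
      (d : Fin 2 → ℕ) (A B : Fin 2 → ℤ[X]) (Z : Fin 2 → Fin 4 → ℤ[X]) (Λ : ℤ[X]) (e : ℤ)
      (q : ℕ) (σ0 : ℤ), K ≤ X → X ≤ H → X ≤ T ^ 4 → X ^ (w - ε) ≤ T → T ≤ X ^ (w + ε) →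
      X ^ (2 * (m1 - ε)) ≤ dot l1 l1 → (dot l1 l1 : ℝ) ≤ X ^ (2 * (m1 + ε)) →
      X ^ (2 * (m2 - ε)) ≤ dot l2 l2 → (dot l2 l2 : ℝ) ≤ X ^ (2 * (m2 + ε)) →
      KData θ l1 l2 d A B Z Λ e →
      (∀ i k, |(A i).coeff k| ≤ (H : ℤ) ^ C0) → (∀ i k, |(B i).coeff k| ≤ (H : ℤ) ^ C0) →
      X ^ (β - ε) ≤ q → (q : ℝ) ≤ X ^ (β + ε) → (∀ p : ℕ, p.Prime → T ^ 4 ≤ p → ¬ p ∣ q) →
      ∃ Cv : Finset (ℤ[X][X]), Cv.card ≤ C1 ∧
        (∀ g ∈ Cv, Irreducible (g.map (mapRingHom (Int.castRingHom ℚ))) ∧ BiDeg Dg Dg g ∧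
          (∀ i j, |(g.coeff i).coeff j| ≤ (H : ℤ) ^ C1)) ∧
        ∀ (N : ℤ) (p : ℕ) (c : ℤ) (z : Fin 4 → ℤ) (s t kn kd : ℤ),
          Pt θ C X T l1 l2 N p c z s t → KP A B Z N c s t kn kd z →
          IsCoprime t (q : ℤ) → (q : ℤ) ∣ s - σ0 * t →
          ∃ g ∈ Cv, ev (g.map (mapRingHom (Int.castRingHom ℚ))) ((kn : ℚ) / kd) ((s : ℚ) / t) = 0 := by
  obtain ⟨ε, hε, Nd, D, Cr, K, hK, hmain⟩ := rel_class hF C w m1 m2 β hw hm1 hm2 hm hβ hrel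
  obtain ⟨Cs, hCs⟩ := subK_height Nd D (max Cr C0)
  obtain ⟨Cf, hCf⟩ := factor_set (Nd + (D + 5 * Nd))
  refine ⟨ε, hε, Nd + (D + 5 * Nd), Cf + (Cs + 1) * Cf, max K 2, lt_max_of_lt_left hK, ?_⟩
  intro H X T l1 l2 d A B Z Λ e q σ0 hKX hXH hXT h1 h2 h3 h4 h5 h6 hKD hA hB h7 h8 h9
  have hX2 : (2 : ℝ) ≤ X := (le_max_right _ _).trans hKX
  have hH2 : 2 ≤ H := by exact_mod_cast hX2.trans hXH
  have hH1 : (1 : ℤ) ≤ H := by exact_mod_cast (by omega : 1 ≤ H)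
  obtain ⟨F, hF0, hFD, hFH, hFv⟩ := hmain H X T l1 l2 q σ0 ((le_max_left _ _).trans hKX) hXH hXT
    h1 h2 h3 h4 h5 h6 h7 h8 h9
  -- degrees
  have hd5 : ∀ i, d i ≤ 5 := by
    intro i
    rcases hKD.dd with h | h
    · fin_cases i
      · exact h.1.le.trans (by norm_num)
      · exact h.2.le.trans (by norm_num)
    · fin_cases i
      · exact h.1.le.trans (by norm_num)
      · exact h.2.le
  have hA5 : ∀ i, (A i).natDegree ≤ 5 := fun i => (hKD.dA i).trans (hd5 i)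
  have hB5 : ∀ i, (B i).natDegree ≤ 5 := fun i => (hKD.dB i).trans (hd5 i)
  -- `l1 ≠ 0`
  have hl1 : l1 ≠ 0 := by
    rintro rfl
    have h10 : (0 : ℝ) < X ^ (2 * (m1 - ε)) := Real.rpow_pos_of_pos (by linarith) _
    have h11 : dot (0 : Fin 4 → ℤ) 0 = 0 := by simp [dot]
    rw [h11] at h3
    push_cast at h3
    linarith
  have hdet := Lev.det_ne_zero (fun j => pc_ell hF hl1 j) hKD
  have hS0 : subK A B Nd F ≠ 0 := subK_ne_zero A B hdet Nd F hF0 hFD.1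
  have hSD : BiDeg (Nd + (D + 5 * Nd)) (Nd + (D + 5 * Nd)) (subK A B Nd F) :=
    (subK_biDeg A B Nd D F hFD hA5 hB5).mono (by omega) (by omega)
  have hSH : ∀ i j, |((subK A B Nd F).coeff i).coeff j| ≤ (H : ℤ) ^ Cs :=
    hCs H A B F hH2 hFD hA5 hB5
      (fun i k => (hA i k).trans (pow_le_pow_right₀ hH1 (le_max_right _ _)))
      (fun i k => (hB i k).trans (pow_le_pow_right₀ hH1 (le_max_right _ _)))
      (fun a b => (hFH a b).trans (pow_le_pow_right₀ hH1 (le_max_left _ _)))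
  have hH3 : 2 ≤ H ^ (Cs + 1) := hH2.trans (Nat.le_self_pow (by omega) H)
  obtain ⟨Cv, hcard, hCv, hev⟩ := hCf (H ^ (Cs + 1)) (subK A B Nd F) hH3 hS0 hSD (by
    intro i j
    push_cast
    exact (hSH i j).trans (pow_le_pow_right₀ hH1 (by omega)))
  refine ⟨Cv, hcard.trans (by omega), fun g hg => ?_, ?_⟩
  · obtain ⟨h20, h21, h22⟩ := hCv g hg
    refine ⟨h20, h21, fun i j => (h22 i j).trans ?_⟩
    push_cast
    rw [← pow_mul]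
    exact pow_le_pow_right₀ hH1 (by omega)
  · intro N p c z s t kn kd hPt hKP hcop hdvd
    exact hev _ _ (subK_ev A B Z Nd D F hFD hKP (hFv N p c z s t hPt hcop hdvd))

end Vale.Agent.P018.Q
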