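import Mathlib
import Vale.Agent.P018.Q.Defs

/-! # P018, quartics: local part of the gap lemma. -/

namespace Vale.Agent.P018.Q.Gap

open Polynomial

/-- the wedge product of two integer vectors -/
def wd (k l : ℤ × ℤ) : ℤ := k.1 * l.2 - l.1 * k.2

section hom

variable {R : Type*} [CommRing R]

theorem hom_map {R' : Type*} [CommRing R'] (φ : R →+* R') (D : ℕ) (A : ℤ[X]) (s t : R) :
    φ (hom D A s t) = hom D A (φ s) (φ t) := by
  simp [hom, map_sum, map_mul, map_pow]

theorem hom_add (D : ℕ) (A B : ℤ[X]) (s t : R) :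
    hom D (A + B) s t = hom D A s t + hom D B s t := by
  simp only [hom, ← Finset.sum_add_distrib]
  refine Finset.sum_congr rfl fun i _ => ?_
  rw [coeff_add]; push_cast; ring

theorem hom_sub (D : ℕ) (A B : ℤ[X]) (s t : R) :
    hom D (A - B) s t = hom D A s t - hom D B s t := by
  simp only [hom, ← Finset.sum_sub_distrib]
  refine Finset.sum_congr rfl fun i _ => ?_
  rw [coeff_sub]; push_cast; ring

theorem hom_zero (D : ℕ) (s t : R) : hom D (0 : ℤ[X]) s t = 0 := by
  simp [hom]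

theorem hom_sum {ι : Type*} (D : ℕ) (S : Finset ι) (f : ι → ℤ[X]) (s t : R) :
    hom D (∑ i ∈ S, f i) s t = ∑ i ∈ S, hom D (f i) s t := by
  classical
  induction S using Finset.induction_on with
  | empty => simp [hom_zero]
  | insert a S ha ih => rw [Finset.sum_insert ha, Finset.sum_insert ha, hom_add, ih]

theorem hom_monomial (D i : ℕ) (hi : i ≤ D) (a : ℤ) (s t : R) :
    hom D (monomial i a) s t = (a : R) * s ^ i * t ^ (D - i) := by
  unfold hom
  rw [Finset.sum_eq_single i]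
  · simp
  · intro j _ hj
    simp [coeff_monomial, hj.symm]
  · intro h; exact absurd (Finset.mem_range.2 (by omega)) h

theorem hom_succ (D : ℕ) (A : ℤ[X]) (hA : A.natDegree ≤ D) (s t : R) :
    hom (D + 1) A s t = t * hom D A s t := by
  unfold hom
  rw [Finset.sum_range_succ, coeff_eq_zero_of_natDegree_lt (by omega), Finset.mul_sum]
  simp only [Int.cast_zero, zero_mul, add_zero]
  refine Finset.sum_congr rfl fun i hi => ?_
  have : i ≤ D := by have := Finset.mem_range.1 hi; omega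
  rw [show D + 1 - i = (D - i) + 1 by omega, pow_succ]
  ring

theorem hom_mul (m n : ℕ) (A B : ℤ[X]) (hA : A.natDegree ≤ m) (hB : B.natDegree ≤ n) (s t : R) :
    hom (m + n) (A * B) s t = hom m A s t * hom n B s t := by
  have h1 : A * B = ∑ i ∈ Finset.range (m + 1), ∑ j ∈ Finset.range (n + 1),
      monomial (i + j) (A.coeff i * B.coeff j) := by
    conv_lhs => rw [as_sum_range' A (m + 1) (by omega), as_sum_range' B (n + 1) (by omega)]
    rw [Finset.sum_mul_sum]
    refine Finset.sum_congr rfl fun i _ => Finset.sum_congr rfl fun j _ => ?_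
    rw [monomial_mul_monomial]
  rw [h1, hom_sum]
  simp only [hom_sum]
  rw [show hom m A s t * hom n B s t = ∑ i ∈ Finset.range (m + 1), ∑ j ∈ Finset.range (n + 1),
    ((A.coeff i : R) * s ^ i * t ^ (m - i)) * ((B.coeff j : R) * s ^ j * t ^ (n - j)) from by
      rw [hom, hom, Finset.sum_mul_sum]]
  refine Finset.sum_congr rfl fun i hi => Finset.sum_congr rfl fun j hj => ?_
  have hi' : i ≤ m := by have := Finset.mem_range.1 hi; omega
  have hj' : j ≤ n := by have := Finset.mem_range.1 hj; omega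
  rw [hom_monomial _ _ (by omega), show m + n - (i + j) = (m - i) + (n - j) by omega, pow_add,
    pow_add]
  push_cast
  ring

/-- derivative in the second variable -/
def dt (d : ℕ) (A : ℤ[X]) (s t : R) : R :=
  ∑ i ∈ Finset.range (d + 1), (A.coeff i : R) * ((d + 1 - i : ℕ) : R) * s ^ i * t ^ (d - i)

theorem dt_map {R' : Type*} [CommRing R'] (φ : R →+* R') (D : ℕ) (A : ℤ[X]) (s t : R) :
    φ (dt D A s t) = dt D A (φ s) (φ t) := by
  simp [dt, map_sum, map_mul, map_pow]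

/-- Euler -/
theorem euler (d : ℕ) (A : ℤ[X]) (s t : R) :
    s * hom d (derivative A) s t + t * dt d A s t = ((d + 1 : ℕ) : R) * hom (d + 1) A s t := by
  have h1 : s * hom d (derivative A) s t
      = ∑ i ∈ Finset.range (d + 2), (i : R) * (A.coeff i : R) * s ^ i * t ^ (d + 1 - i) := by
    rw [Finset.sum_range_succ']
    simp only [hom, Finset.mul_sum, Nat.cast_zero, zero_mul, add_zero]
    refine Finset.sum_congr rfl fun i hi => ?_
    rw [coeff_derivative, show d + 1 - (i + 1) = d - i by omega]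
    push_cast
    ring
  have h2 : t * dt d A s t
      = ∑ i ∈ Finset.range (d + 2), ((d + 1 - i : ℕ) : R) * (A.coeff i : R) * s ^ i
        * t ^ (d + 1 - i) := by
    rw [Finset.sum_range_succ]
    simp only [dt, Finset.mul_sum, Nat.sub_self, Nat.cast_zero, zero_mul, add_zero]
    refine Finset.sum_congr rfl fun i hi => ?_
    have : i ≤ d := by have := Finset.mem_range.1 hi; omega
    rw [show (d + 1 - i) = (d - i) + 1 by omega, pow_succ]
    ring
  rw [h1, h2, ← Finset.sum_add_distrib, hom, Finset.mul_sum]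
  refine Finset.sum_congr rfl fun i hi => ?_
  have : i ≤ d + 1 := by have := Finset.mem_range.1 hi; omega
  rw [Nat.cast_sub this]
  ring

theorem natDegree_wr (d : ℕ) (A B : ℤ[X]) (hA : A.natDegree ≤ d + 1) (hB : B.natDegree ≤ d + 1) :
    (wr A B).natDegree ≤ 2 * d := by
  have hA' : (derivative A).natDegree ≤ d := (natDegree_derivative_le A).trans (by omega)
  have hB' : (derivative B).natDegree ≤ d := (natDegree_derivative_le B).trans (by omega)
  rw [natDegree_le_iff_coeff_eq_zero]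
  intro N hN
  rcases Nat.lt_or_ge (2 * d + 1) N with h | h
  · rw [wr, coeff_sub, coeff_eq_zero_of_natDegree_lt, coeff_eq_zero_of_natDegree_lt, sub_self]
    · exact lt_of_le_of_lt (natDegree_mul_le) (by omega)
    · exact lt_of_le_of_lt (natDegree_mul_le) (by omega)
  · have hN' : N = 2 * d + 1 := by omega
    subst hN'
    rw [wr, coeff_sub, show 2 * d + 1 = (d + 1) + d by omega,
      coeff_mul_add_eq_of_natDegree_le hA hB', show (d + 1) + d = d + (d + 1) by omega,
      coeff_mul_add_eq_of_natDegree_le hA' hB, coeff_derivative, coeff_derivative]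
    ring

theorem wr1 (d : ℕ) (A B : ℤ[X]) (hA : A.natDegree ≤ d + 1) (hB : B.natDegree ≤ d + 1) (s t : R) :
    hom (d + 1) A s t * hom d (derivative B) s t - hom d (derivative A) s t * hom (d + 1) B s t
      = t * hom (2 * d) (wr A B) s t := by
  have hA' : (derivative A).natDegree ≤ d := (natDegree_derivative_le A).trans (by omega)
  have hB' : (derivative B).natDegree ≤ d := (natDegree_derivative_le B).trans (by omega)
  rw [← hom_succ (2 * d) _ (natDegree_wr d A B hA hB), wr, hom_sub,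
    show 2 * d + 1 = (d + 1) + d by omega, hom_mul (d + 1) d A _ hA hB',
    show (d + 1) + d = d + (d + 1) by omega, hom_mul d (d + 1) _ B hA' hB]

theorem wr2' (d : ℕ) (A B : ℤ[X]) (hA : A.natDegree ≤ d + 1) (hB : B.natDegree ≤ d + 1)
    (s t : R) :
    t * (hom (d + 1) A s t * dt d B s t - dt d A s t * hom (d + 1) B s t)
      = t * (- s * hom (2 * d) (wr A B) s t) := by
  have e1 := euler d A s t
  have e2 := euler d B s t
  have e3 := wr1 d A B hA hB s t
  linear_combination (hom (d + 1) A s t) * e2 - (hom (d + 1) B s t) * e1 - s * e3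

theorem wr2 (d : ℕ) (A B : ℤ[X]) (hA : A.natDegree ≤ d + 1) (hB : B.natDegree ≤ d + 1)
    (s t : ℤ) :
    hom (d + 1) A s t * dt d B s t - dt d A s t * hom (d + 1) B s t
      = - s * hom (2 * d) (wr A B) s t := by
  have h := mul_left_cancel₀ (X_ne_zero (R := ℤ))
    (wr2' (R := ℤ[X]) d A B hA hB (C s) X)
  have h2 := congrArg (evalRingHom t) h
  simp only [map_sub, map_mul, map_neg, hom_map, dt_map, coe_evalRingHom, eval_C, eval_X] at h2
  exact h2

end hom

section lin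

/-- the restriction of a form to a line -/
noncomputable def lin (D : ℕ) (A : ℤ[X]) (s t a b : ℤ) : ℤ[X] :=
  hom D A (C s + C a * X) (C t + C b * X)

theorem eval_lin (D : ℕ) (A : ℤ[X]) (s t a b x : ℤ) :
    (lin D A s t a b).eval x = hom D A (s + a * x) (t + b * x) := by
  have := hom_map (evalRingHom x) D A (C s + C a * X) (C t + C b * X)
  simpa [lin] using this

theorem natDegree_lin (D : ℕ) (A : ℤ[X]) (s t a b : ℤ) : (lin D A s t a b).natDegree ≤ D := by
  unfold lin hom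
  refine natDegree_sum_le_of_forall_le _ _ fun i hi => ?_
  have hi' : i ≤ D := by have := Finset.mem_range.1 hi; omega
  have h1 : ∀ u v : ℤ, (C u + C v * X : ℤ[X]).natDegree ≤ 1 := by
    intro u v
    refine (natDegree_add_le _ _).trans ?_
    simp only [natDegree_C, Nat.zero_max]
    exact (natDegree_C_mul_le _ _).trans natDegree_X_le
  have h2 : ∀ (u v : ℤ) (n : ℕ), ((C u + C v * X : ℤ[X]) ^ n).natDegree ≤ n := by
    intro u v n
    refine natDegree_pow_le.trans ?_
    calc n * (C u + C v * X : ℤ[X]).natDegree ≤ n * 1 := Nat.mul_le_mul_left _ (h1 u v)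
      _ = n := by ring
  have h3 : (((A.coeff i : ℤ) : ℤ[X])).natDegree = 0 := natDegree_intCast _
  refine natDegree_mul_le.trans ?_
  have h4 := natDegree_mul_le (p := ((A.coeff i : ℤ) : ℤ[X])) (q := (C s + C a * X : ℤ[X]) ^ i)
  have h5 := h2 s a i
  have h6 := h2 t b (D - i)
  omega

theorem derivative_lin (d : ℕ) (A : ℤ[X]) (s t a b : ℤ) :
    (derivative (lin (d + 1) A s t a b)).eval 0
      = a * hom d (derivative A) s t + b * dt d A s t := by
  have h1 : a * hom d (derivative A) s t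
      = ∑ i ∈ Finset.range (d + 2), A.coeff i * (i : ℤ) * s ^ (i - 1) * a * t ^ (d + 1 - i) := by
    rw [Finset.sum_range_succ']
    simp only [hom, Finset.mul_sum, Nat.cast_zero, mul_zero, zero_mul, add_zero, Int.cast_id]
    refine Finset.sum_congr rfl fun i hi => ?_
    rw [coeff_derivative, show d + 1 - (i + 1) = d - i by omega, Nat.add_sub_cancel]
    push_cast
    ring
  have h2 : b * dt d A s t
      = ∑ i ∈ Finset.range (d + 2), A.coeff i * s ^ i * (((d + 1 - i : ℕ) : ℤ)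
        * t ^ (d + 1 - i - 1) * b) := by
    rw [Finset.sum_range_succ]
    simp only [dt, Finset.mul_sum, Nat.sub_self, Nat.cast_zero, zero_mul, mul_zero, add_zero,
      Int.cast_id]
    refine Finset.sum_congr rfl fun i hi => ?_
    have : i ≤ d := by have := Finset.mem_range.1 hi; omega
    rw [show d + 1 - i - 1 = d - i by omega]
    ring
  rw [h1, h2, ← Finset.sum_add_distrib, lin, hom, derivative_sum, eval_finsetSum]
  refine Finset.sum_congr rfl fun i hi => ?_
  simp only [derivative_mul, derivative_pow, derivative_intCast, derivative_add, derivative_C,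
    derivative_X, zero_add, zero_mul, mul_one, eval_add, eval_mul, eval_pow, eval_C, eval_X,
    eval_intCast, mul_zero, add_zero, Int.cast_id]
  ring

theorem fd (D : ℕ) (hD : 1 ≤ D) (f : ℤ[X]) (hf : f.natDegree ≤ D) (m : ℤ)
    (h : ∀ x : ℤ, m ∣ f.eval x) : m ∣ (D.factorial : ℤ) * (derivative f).eval 0 := by
  set g := divX f with hg
  have hfg : f = X * g + C (f.coeff 0) := by rw [hg, mul_comm]; exact (divX_mul_X_add f).symm
  have hgd : g.natDegree < D := by
    rw [hg, natDegree_divX_eq_natDegree_tsub_one]; omega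
  have hg0 : (derivative f).eval 0 = g.eval 0 := by
    conv_lhs => rw [hfg]
    simp
  have hk : ∀ k : ℕ, ((k : ℤ) + 1) * g.eval ((k : ℤ) + 1) = f.eval ((k : ℤ) + 1) - f.eval 0 := by
    intro k
    conv_rhs => rw [hfg]
    simp
  have h0 := congrFun (Polynomial.fwdDiff_iter_eq_zero_of_degree_lt (P := g) (n := D) hgd) 0
  rw [fwdDiff_iter_eq_sum_shift, Finset.sum_range_succ'] at h0
  simp only [Pi.zero_apply, zero_add, Nat.sub_zero, Nat.choose_zero_right, Nat.cast_one, mul_one,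
    zero_smul, smul_eq_mul, nsmul_eq_mul, Nat.cast_add] at h0
  have h1 : m ∣ (D.factorial : ℤ) * ∑ k ∈ Finset.range D,
      ((-1) ^ (D - (k + 1)) * (D.choose (k + 1) : ℤ)) * g.eval ((k : ℤ) + 1) := by
    rw [Finset.mul_sum]
    refine Finset.dvd_sum fun k hk' => ?_
    have hkD : k + 1 ≤ D := by have := Finset.mem_range.1 hk'; omega
    obtain ⟨r, hr⟩ : (k + 1) ∣ D.factorial := Nat.dvd_factorial (by omega) hkD
    rw [hr]
    push_cast
    rw [show ((k : ℤ) + 1) * (r : ℤ) * ((-1) ^ (D - (k + 1)) * (D.choose (k + 1) : ℤ)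
      * g.eval ((k : ℤ) + 1)) = ((r : ℤ) * ((-1) ^ (D - (k + 1)) * (D.choose (k + 1) : ℤ)))
      * (((k : ℤ) + 1) * g.eval ((k : ℤ) + 1)) by ring, hk k]
    exact Dvd.dvd.mul_left (dvd_sub (h _) (h _)) _
  rw [hg0]
  have h2 : (D.factorial : ℤ) * g.eval 0
      = - ((-1) ^ D * ((D.factorial : ℤ) * ∑ k ∈ Finset.range D,
      ((-1) ^ (D - (k + 1)) * (D.choose (k + 1) : ℤ)) * g.eval ((k : ℤ) + 1))) := by
    have h3 : ∑ k ∈ Finset.range D,
      ((-1) ^ (D - (k + 1)) * (D.choose (k + 1) : ℤ)) * g.eval ((k : ℤ) + 1)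
        = - ((-1) ^ D * g.eval 0) := by
      linarith
    rw [h3]
    have h4 : ((-1 : ℤ) ^ D) * (-1) ^ D = 1 := by rw [← mul_pow]; simp
    linear_combination (- (D.factorial : ℤ) * g.eval 0) * h4
  rw [h2]
  exact (dvd_neg.2 (Dvd.dvd.mul_left h1 _))

end lin

section loc

/-- primitive at `q` -/
def Pq (q : ℕ) (w : ℤ × ℤ) : Prop := ¬ ((q : ℤ) ∣ w.1 ∧ (q : ℤ) ∣ w.2)

/-- `A` and `B` are divisible by `q ^ e` on the ball of level `j` around `k` -/
def Good (D : ℕ) (A B : ℤ[X]) (q e j : ℕ) (k : ℤ × ℤ) : Prop :=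
  ∀ w : ℤ × ℤ, Pq q w → (q : ℤ) ^ j ∣ wd w k →
    (q : ℤ) ^ e ∣ hom D A w.1 w.2 ∧ (q : ℤ) ^ e ∣ hom D B w.1 w.2

theorem Pq_of_coprime (q : ℕ) (hq : q.Prime) (k : ℤ × ℤ) (hk : IsCoprime k.1 k.2) : Pq q k := by
  rintro ⟨h1, h2⟩
  obtain ⟨a, b, hab⟩ := hk
  have : (q : ℤ) ∣ 1 := by
    rw [← hab]; exact dvd_add (Dvd.dvd.mul_left h1 _) (Dvd.dvd.mul_left h2 _)
  exact hq.one_lt.ne' (by
    have := Int.natAbs_dvd_natAbs.2 this
    simpa using this)

/-- the local divisibility (L2) -/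
theorem local_dvd (d : ℕ) (A B : ℤ[X]) (hA : A.natDegree ≤ d + 1) (hB : B.natDegree ≤ d + 1)
    (q : ℕ) (hq : q.Prime) (e j : ℕ) (k : ℤ × ℤ) (hk : IsCoprime k.1 k.2)
    (hg : Good (d + 1) A B q e j k) :
    (q : ℤ) ^ (2 * e) ∣ ((d + 1).factorial : ℤ) * (q : ℤ) ^ j
      * hom (2 * d) (wr A B) k.1 k.2 := by
  obtain ⟨a, b, hab⟩ := hk
  have hw : ∀ x : ℤ, (q : ℤ) ^ e ∣ hom (d + 1) A (k.1 + (q : ℤ) ^ j * (-b) * x)
        (k.2 + (q : ℤ) ^ j * a * x) ∧
      (q : ℤ) ^ e ∣ hom (d + 1) B (k.1 + (q : ℤ) ^ j * (-b) * x)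
        (k.2 + (q : ℤ) ^ j * a * x) := by
    intro x
    refine hg (k.1 + (q : ℤ) ^ j * (-b) * x, k.2 + (q : ℤ) ^ j * a * x) ?_ ?_
    · refine Pq_of_coprime q hq _ ⟨a, b, ?_⟩
      show a * (k.1 + (q : ℤ) ^ j * (-b) * x) + b * (k.2 + (q : ℤ) ^ j * a * x) = 1
      linear_combination hab
    · refine ⟨-x, ?_⟩
      show (k.1 + (q : ℤ) ^ j * (-b) * x) * k.2 - k.1 * (k.2 + (q : ℤ) ^ j * a * x) = _
      linear_combination (- (q : ℤ) ^ j * x) * hab
  have h1 := fd (d + 1) (by omega) (lin (d + 1) A k.1 k.2 ((q : ℤ) ^ j * (-b)) ((q : ℤ) ^ j * a))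
    (natDegree_lin _ _ _ _ _ _) ((q : ℤ) ^ e) (fun x => by rw [eval_lin]; exact (hw x).1)
  have h2 := fd (d + 1) (by omega) (lin (d + 1) B k.1 k.2 ((q : ℤ) ^ j * (-b)) ((q : ℤ) ^ j * a))
    (natDegree_lin _ _ _ _ _ _) ((q : ℤ) ^ e) (fun x => by rw [eval_lin]; exact (hw x).2)
  rw [derivative_lin] at h1 h2
  have h3 : (q : ℤ) ^ e ∣ hom (d + 1) A k.1 k.2 := by simpa using (hw 0).1
  have h4 : (q : ℤ) ^ e ∣ hom (d + 1) B k.1 k.2 := by simpa using (hw 0).2
  have i1 := wr1 (R := ℤ) d A B hA hB k.1 k.2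
  have i2 := wr2 d A B hA hB k.1 k.2
  have key : ((d + 1).factorial : ℤ) * (q : ℤ) ^ j * hom (2 * d) (wr A B) k.1 k.2
      = (((d + 1).factorial : ℤ) * ((q : ℤ) ^ j * (-b) * hom d (derivative A) k.1 k.2
          + (q : ℤ) ^ j * a * dt d A k.1 k.2)) * hom (d + 1) B k.1 k.2
        - hom (d + 1) A k.1 k.2 * (((d + 1).factorial : ℤ) * ((q : ℤ) ^ j * (-b)
          * hom d (derivative B) k.1 k.2 + (q : ℤ) ^ j * a * dt d B k.1 k.2)) := by
    linear_combination (-((d + 1).factorial : ℤ) * (q : ℤ) ^ j * b) * i1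
      + (((d + 1).factorial : ℤ) * (q : ℤ) ^ j * a) * i2
      - (((d + 1).factorial : ℤ) * (q : ℤ) ^ j * hom (2 * d) (wr A B) k.1 k.2) * hab
  rw [key, two_mul, pow_add]
  exact dvd_sub (mul_dvd_mul h1 h4) (mul_dvd_mul h3 h2)

theorem wd_dvd (q : ℕ) (hq : q.Prime) (j : ℕ) (w k l : ℤ × ℤ) (hk : Pq q k)
    (h1 : (q : ℤ) ^ j ∣ wd w k) (h2 : (q : ℤ) ^ j ∣ wd k l) : (q : ℤ) ^ j ∣ wd w l := by
  have hqi : Prime (q : ℤ) := Nat.prime_iff_prime_int.1 hq
  have i1 : k.1 * wd w l = wd w k * l.1 + wd k l * w.1 := by unfold wd; ring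
  have i2 : k.2 * wd w l = wd w k * l.2 + wd k l * w.2 := by unfold wd; ring
  by_cases hc : (q : ℤ) ∣ k.1
  · have hc2 : ¬ (q : ℤ) ∣ k.2 := fun h => hk ⟨hc, h⟩
    have : (q : ℤ) ^ j ∣ k.2 * wd w l := by
      rw [i2]; exact dvd_add (Dvd.dvd.mul_right h1 _) (Dvd.dvd.mul_right h2 _)
    exact hqi.pow_dvd_of_dvd_mul_left j hc2 this
  · have : (q : ℤ) ^ j ∣ k.1 * wd w l := by
      rw [i1]; exact dvd_add (Dvd.dvd.mul_right h1 _) (Dvd.dvd.mul_right h2 _)
    exact hqi.pow_dvd_of_dvd_mul_left j hc this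

theorem wd_comm_dvd (m : ℤ) (k l : ℤ × ℤ) (h : m ∣ wd k l) : m ∣ wd l k := by
  have : wd l k = - wd k l := by unfold wd; ring
  rw [this]; exact (dvd_neg.2 h)

theorem Good.move {D : ℕ} {A B : ℤ[X]} {q e j : ℕ} (hq : q.Prime) {k l : ℤ × ℤ}
    (hl : Pq q l) (hg : Good D A B q e j k) (h : (q : ℤ) ^ j ∣ wd k l) :
    Good D A B q e j l := fun w hw hwl =>
  hg w hw (wd_dvd q hq j w l k hl hwl (wd_comm_dvd _ _ _ h))

/-- same maximal ball -/
def Rel (D : ℕ) (A B : ℤ[X]) (q e : ℕ) (k l : ℤ × ℤ) : Prop :=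
  ∃ j, Good D A B q e j k ∧ (q : ℤ) ^ j ∣ wd k l

theorem Rel.symm {D : ℕ} {A B : ℤ[X]} {q e : ℕ} (hq : q.Prime) {k l : ℤ × ℤ}
    (hl : Pq q l) (h : Rel D A B q e k l) : Rel D A B q e l k := by
  obtain ⟨j, hj, hd⟩ := h
  exact ⟨j, hj.move hq hl hd, wd_comm_dvd _ _ _ hd⟩

theorem Rel.trans {D : ℕ} {A B : ℤ[X]} {q e : ℕ} (hq : q.Prime) {k l m : ℤ × ℤ}
    (hk : Pq q k) (hl : Pq q l) (h1 : Rel D A B q e k l) (h2 : Rel D A B q e l m) :
    Rel D A B q e k m := by
  obtain ⟨j1, g1, d1⟩ := h1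
  obtain ⟨j2, g2, d2⟩ := h2
  rcases le_total j1 j2 with h | h
  · exact ⟨j1, g1, wd_dvd q hq j1 k l m hl d1 ((pow_dvd_pow _ h).trans d2)⟩
  · have d1' : (q : ℤ) ^ j2 ∣ wd k l := (pow_dvd_pow _ h).trans d1
    exact ⟨j2, g2.move hq hk (wd_comm_dvd _ _ _ d1'), wd_dvd q hq j2 k l m hl d1' d2⟩

theorem hom_smul {R : Type*} [CommRing R] (D : ℕ) (A : ℤ[X]) (c s t : R) :
    hom D A (c * s) (c * t) = c ^ D * hom D A s t := by
  unfold hom
  rw [Finset.mul_sum]
  refine Finset.sum_congr rfl fun i hi => ?_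
  have : i ≤ D := by have := Finset.mem_range.1 hi; omega
  rw [mul_pow, mul_pow, show c ^ D = c ^ i * c ^ (D - i) by rw [← pow_add]; congr 1; omega]
  ring

theorem hom_congr (D : ℕ) (A : ℤ[X]) (m s t s' t' : ℤ) (hs : m ∣ s - s') (ht : m ∣ t - t')
    (h : m ∣ hom D A s' t') : m ∣ hom D A s t := by
  have e1 : ((s : ℤ) : ZMod m.natAbs) = (s' : ZMod m.natAbs) := by
    rw [ZMod.intCast_eq_intCast_iff_dvd_sub]
    have : s' - s = -(s - s') := by ring
    rw [this]; exact (dvd_neg.2 (Int.natAbs_dvd.2 hs))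
  have e2 : ((t : ℤ) : ZMod m.natAbs) = (t' : ZMod m.natAbs) := by
    rw [ZMod.intCast_eq_intCast_iff_dvd_sub]
    have : t' - t = -(t - t') := by ring
    rw [this]; exact (dvd_neg.2 (Int.natAbs_dvd.2 ht))
  have e3 : ((hom D A s t : ℤ) : ZMod m.natAbs) = ((hom D A s' t' : ℤ) : ZMod m.natAbs) := by
    have h1 := hom_map (Int.castRingHom (ZMod m.natAbs)) D A s t
    have h2 := hom_map (Int.castRingHom (ZMod m.natAbs)) D A s' t'
    simp only [Int.coe_castRingHom] at h1 h2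
    rw [h1, h2, e1, e2]
  have h4 : ((hom D A s' t' : ℤ) : ZMod m.natAbs) = 0 := by
    rw [ZMod.intCast_zmod_eq_zero_iff_dvd]; exact Int.natAbs_dvd.2 h
  rw [h4, ZMod.intCast_zmod_eq_zero_iff_dvd] at e3
  exact Int.natAbs_dvd.1 e3

theorem good_top (D : ℕ) (A B : ℤ[X]) (q : ℕ) (hq : q.Prime) (e : ℕ) (k : ℤ × ℤ) (hk : Pq q k)
    (hA : (q : ℤ) ^ e ∣ hom D A k.1 k.2) (hB : (q : ℤ) ^ e ∣ hom D B k.1 k.2) :
    Good D A B q e e k := by
  have hqi : Prime (q : ℤ) := Nat.prime_iff_prime_int.1 hq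
  have main : ∀ F : ℤ[X], (q : ℤ) ^ e ∣ hom D F k.1 k.2 → ∀ w : ℤ × ℤ, (q : ℤ) ^ e ∣ wd w k →
      (q : ℤ) ^ e ∣ hom D F w.1 w.2 := by
    intro F hF w hw
    by_cases hc : (q : ℤ) ∣ k.1
    · have hc2 : ¬ (q : ℤ) ∣ k.2 := fun h => hk ⟨hc, h⟩
      have h1 : (q : ℤ) ^ e ∣ hom D F (k.2 * w.1) (k.2 * w.2) := by
        refine hom_congr D F _ _ _ (w.2 * k.1) (w.2 * k.2) ?_ ?_ ?_
        · have : k.2 * w.1 - w.2 * k.1 = wd w k := by unfold wd; ring
          rw [this]; exact hw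
        · have : k.2 * w.2 - w.2 * k.2 = 0 := by ring
          rw [this]; exact dvd_zero _
        · rw [hom_smul]; exact Dvd.dvd.mul_left hF _
      rw [hom_smul] at h1
      exact hqi.pow_dvd_of_dvd_mul_left e (fun h => hc2 (hqi.dvd_of_dvd_pow h)) h1
    · have h1 : (q : ℤ) ^ e ∣ hom D F (k.1 * w.1) (k.1 * w.2) := by
        refine hom_congr D F _ _ _ (w.1 * k.1) (w.1 * k.2) ?_ ?_ ?_
        · have : k.1 * w.1 - w.1 * k.1 = 0 := by ring
          rw [this]; exact dvd_zero _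
        · have : k.1 * w.2 - w.1 * k.2 = - wd w k := by unfold wd; ring
          rw [this]; exact (dvd_neg.2 hw)
        · rw [hom_smul]; exact Dvd.dvd.mul_left hF _
      rw [hom_smul] at h1
      exact hqi.pow_dvd_of_dvd_mul_left e (fun h => hc (hqi.dvd_of_dvd_pow h)) h1
  exact fun w _ hw => ⟨main A hA w hw, main B hB w hw⟩

end loc

section lag

/-- homogenisation over `ℚ` -/
def hQ (D : ℕ) (f : ℚ[X]) (s t : ℚ) : ℚ :=
  ∑ i ∈ Finset.range (D + 1), f.coeff i * s ^ i * t ^ (D - i)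

theorem hQ_sub (D : ℕ) (f g : ℚ[X]) (s t : ℚ) : hQ D (f - g) s t = hQ D f s t - hQ D g s t := by
  simp only [hQ, ← Finset.sum_sub_distrib]
  refine Finset.sum_congr rfl fun i _ => ?_
  rw [coeff_sub]; ring

theorem hQ_C_mul (D : ℕ) (c : ℚ) (f : ℚ[X]) (s t : ℚ) :
    hQ D (C c * f) s t = c * hQ D f s t := by
  simp only [hQ, Finset.mul_sum]
  refine Finset.sum_congr rfl fun i _ => ?_
  rw [coeff_C_mul]; ring

theorem hQ_sum {ι : Type*} (D : ℕ) (S : Finset ι) (f : ι → ℚ[X]) (s t : ℚ) :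
    hQ D (∑ i ∈ S, f i) s t = ∑ i ∈ S, hQ D (f i) s t := by
  classical
  induction S using Finset.induction_on with
  | empty => simp [hQ]
  | insert a S ha ih =>
    rw [Finset.sum_insert ha, Finset.sum_insert ha, ← ih]
    simp only [hQ, ← Finset.sum_add_distrib]
    refine Finset.sum_congr rfl fun i _ => ?_
    rw [coeff_add]; ring

theorem hQ_map (D : ℕ) (A : ℤ[X]) (s t : ℤ) :
    hQ D (A.map (Int.castRingHom ℚ)) s t = ((hom D A s t : ℤ) : ℚ) := by
  simp [hQ, hom]

theorem hQ_ne (D : ℕ) (f : ℚ[X]) (hf : f.natDegree ≤ D) (s t : ℚ) (ht : t ≠ 0) :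
    hQ D f s t = t ^ D * f.eval (s / t) := by
  rw [eval_eq_sum_range' (n := D + 1) (by omega), hQ, Finset.mul_sum]
  refine Finset.sum_congr rfl fun i hi => ?_
  have : i ≤ D := by have := Finset.mem_range.1 hi; omega
  rw [div_pow, show t ^ D = t ^ (D - i) * t ^ i by rw [← pow_add]; congr 1; omega]
  field_simp

theorem hQ_zero' (D : ℕ) (f : ℚ[X]) (s : ℚ) : hQ D f s 0 = f.coeff D * s ^ D := by
  rw [hQ, Finset.sum_range_succ, Finset.sum_eq_zero]
  · simp
  · intro i hi
    have : D - i ≠ 0 := by have := Finset.mem_range.1 hi; omega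
    rw [zero_pow this, mul_zero]

theorem natDegree_prod_lin {ι : Type*} (S : Finset ι) (a b : ι → ℚ) :
    (∏ l ∈ S, (C (a l) * X - C (b l))).natDegree ≤ S.card := by
  refine (natDegree_prod_le _ _).trans ?_
  refine (Finset.sum_le_card_nsmul S _ 1 fun l _ => ?_).trans (by simp)
  refine (natDegree_sub_le _ _).trans ?_
  simp only [natDegree_C, Nat.max_zero]
  exact (natDegree_C_mul_le _ _).trans natDegree_X_le

theorem hQ_prod {ι : Type*} (S : Finset ι) (a b : ι → ℚ) (s t : ℚ) :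
    hQ S.card (∏ l ∈ S, (C (a l) * X - C (b l))) s t = ∏ l ∈ S, (a l * s - b l * t) := by
  by_cases ht : t = 0
  · subst ht
    rw [hQ_zero']
    have h1 : (∏ l ∈ S, (C (a l) * X - C (b l))).coeff S.card = ∏ l ∈ S, a l := by
      have := coeff_prod_of_natDegree_le (s := S) (f := fun l => (C (a l) * X - C (b l))) (n := 1)
        (fun l _ => by
          refine (natDegree_sub_le _ _).trans ?_
          simp only [natDegree_C, Nat.max_zero]
          exact (natDegree_C_mul_le _ _).trans natDegree_X_le)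
      rw [mul_one] at this
      rw [this]
      refine Finset.prod_congr rfl fun l _ => ?_
      simp [coeff_C]
    rw [h1, ← Finset.prod_const, ← Finset.prod_mul_distrib]
    refine Finset.prod_congr rfl fun l _ => ?_
    ring
  · rw [hQ_ne _ _ (natDegree_prod_lin S a b) _ _ ht, eval_prod, ← Finset.prod_const,
      ← Finset.prod_mul_distrib]
    refine Finset.prod_congr rfl fun l _ => ?_
    simp only [eval_sub, eval_mul, eval_C, eval_X]
    field_simp

theorem lagrange (d : ℕ) (A : ℤ[X]) (hA : A.natDegree ≤ d + 1) (k : Fin (d + 2) → ℤ × ℤ)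
    (hk : ∀ m l, m ≠ l → wd (k m) (k l) ≠ 0) (w : ℤ × ℤ) :
    ((hom (d + 1) A w.1 w.2 : ℤ) : ℚ) = ∑ m, ((hom (d + 1) A (k m).1 (k m).2 : ℤ) : ℚ)
      * (∏ l ∈ Finset.univ.erase m, (wd w (k l) : ℚ))
        / (∏ l ∈ Finset.univ.erase m, (wd (k m) (k l) : ℚ)) := by
  classical
  set P : Fin (d + 2) → ℚ[X] := fun m =>
    ∏ l ∈ Finset.univ.erase m, (C ((k l).2 : ℚ) * X - C ((k l).1 : ℚ)) with hP
  set c : Fin (d + 2) → ℚ := fun m => ((hom (d + 1) A (k m).1 (k m).2 : ℤ) : ℚ)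
    / (∏ l ∈ Finset.univ.erase m, (wd (k m) (k l) : ℚ)) with hc
  set h : ℚ[X] := A.map (Int.castRingHom ℚ) - ∑ m, C (c m) * P m with hh
  have hcard : ∀ m : Fin (d + 2), (Finset.univ.erase m).card = d + 1 := by
    intro m; rw [Finset.card_erase_of_mem (Finset.mem_univ m)]; simp
  have hPv : ∀ (m : Fin (d + 2)) (v : ℤ × ℤ), hQ (d + 1) (P m) v.1 v.2
      = ∏ l ∈ Finset.univ.erase m, (wd v (k l) : ℚ) := by
    intro m v
    have := hQ_prod (Finset.univ.erase m) (fun l => ((k l).2 : ℚ)) (fun l => ((k l).1 : ℚ))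
      (v.1 : ℚ) (v.2 : ℚ)
    rw [hcard m] at this
    rw [hP, this]
    refine Finset.prod_congr rfl fun l _ => ?_
    unfold wd
    push_cast
    ring
  have hhv : ∀ v : ℤ × ℤ, hQ (d + 1) h v.1 v.2 = ((hom (d + 1) A v.1 v.2 : ℤ) : ℚ)
      - ∑ m, c m * ∏ l ∈ Finset.univ.erase m, (wd v (k l) : ℚ) := by
    intro v
    rw [hh, hQ_sub, hQ_map, hQ_sum]
    congr 1
    refine Finset.sum_congr rfl fun m _ => ?_
    rw [hQ_C_mul, hPv]
  have hhk : ∀ m, hQ (d + 1) h (k m).1 (k m).2 = 0 := by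
    intro m
    rw [hhv, Finset.sum_eq_single m]
    · rw [hc]
      have : (∏ l ∈ Finset.univ.erase m, (wd (k m) (k l) : ℚ)) ≠ 0 := by
        rw [Finset.prod_ne_zero_iff]
        intro l hl
        have := hk m l (Finset.ne_of_mem_erase hl).symm
        exact_mod_cast this
      field_simp
      ring
    · intro m' _ hm'
      rw [Finset.prod_eq_zero (i := m)]
      · ring
      · exact Finset.mem_erase.2 ⟨hm'.symm, Finset.mem_univ _⟩
      · have : wd (k m) (k m) = 0 := by unfold wd; ring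
        rw [this]; simp
    · intro h; exact absurd (Finset.mem_univ _) h
  have hdeg : h.natDegree ≤ d + 1 := by
    rw [hh]
    refine (natDegree_sub_le _ _).trans (max_le ((natDegree_map_le).trans hA) ?_)
    refine natDegree_sum_le_of_forall_le _ _ fun m _ => ?_
    refine (natDegree_C_mul_le _ _).trans ?_
    have := natDegree_prod_lin (Finset.univ.erase m) (fun l => ((k l).2 : ℚ))
      (fun l => ((k l).1 : ℚ))
    rw [hcard m] at this
    exact this
  -- the roots
  have hz : h = 0 := by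
    by_contra hne
    set Z : Finset (Fin (d + 2)) := Finset.univ.filter fun m => (k m).2 ≠ 0 with hZ
    have hinj : Set.InjOn (fun m => (((k m).1 : ℚ) / ((k m).2 : ℚ))) (Z : Set (Fin (d + 2))) := by
      intro m hm l hl hml
      by_contra hne'
      have hm2 : ((k m).2 : ℚ) ≠ 0 := by
        have := (Finset.mem_filter.1 (Finset.mem_coe.1 hm)).2; exact_mod_cast this
      have hl2 : ((k l).2 : ℚ) ≠ 0 := by
        have := (Finset.mem_filter.1 (Finset.mem_coe.1 hl)).2; exact_mod_cast this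
      simp only at hml
      rw [div_eq_div_iff hm2 hl2] at hml
      have h1 := hk m l hne'
      apply h1
      have : ((wd (k m) (k l) : ℤ) : ℚ) = 0 := by
        unfold wd; push_cast; linarith
      exact_mod_cast this
    have hroots : ∀ m ∈ Z, h.eval (((k m).1 : ℚ) / ((k m).2 : ℚ)) = 0 := by
      intro m hm
      have hm2 : ((k m).2 : ℚ) ≠ 0 := by
        have := (Finset.mem_filter.1 hm).2; exact_mod_cast this
      have h1 := hhk m
      rw [hQ_ne _ _ hdeg _ _ hm2] at h1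
      exact (mul_eq_zero.1 h1).resolve_left (pow_ne_zero _ hm2)
    have hle : Z.card ≤ h.natDegree := by
      rw [← Finset.card_image_of_injOn hinj]
      refine (Finset.card_le_card ?_).trans (h.roots.toFinset_card_le.trans (card_roots' h))
      intro x hx
      obtain ⟨m, hm, rfl⟩ := Finset.mem_image.1 hx
      rw [Multiset.mem_toFinset, mem_roots hne]
      exact hroots m hm
    by_cases hall : ∀ m, (k m).2 ≠ 0
    · have : Z = Finset.univ := Finset.filter_true_of_mem fun m _ => hall m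
      rw [this, Finset.card_univ, Fintype.card_fin] at hle
      omega
    · push Not at hall
      obtain ⟨m0, hm0⟩ := hall
      have hs0 : (k m0).1 ≠ 0 := by
        intro hs
        obtain ⟨l, hl⟩ : ∃ l : Fin (d + 2), m0 ≠ l := by
          by_cases h0 : m0 = 0
          · exact ⟨1, by rw [h0]; exact (Fin.zero_ne_one)⟩
          · exact ⟨0, h0⟩
        apply hk m0 l hl
        unfold wd; rw [hs, hm0]; ring
      have h1 := hhk m0
      rw [hm0, Int.cast_zero, hQ_zero'] at h1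
      have hc0 : h.coeff (d + 1) = 0 := by
        refine (mul_eq_zero.1 h1).resolve_right (pow_ne_zero _ ?_)
        exact_mod_cast hs0
      have hlt : h.natDegree < d + 1 := by
        refine lt_of_le_of_ne hdeg fun heq => ?_
        apply hne
        rw [← leadingCoeff_eq_zero, leadingCoeff, heq, hc0]
      have hZe : Finset.univ.erase m0 ⊆ Z := by
        intro l hl
        refine Finset.mem_filter.2 ⟨Finset.mem_univ _, fun hl0 => ?_⟩
        apply hk m0 l (Finset.ne_of_mem_erase hl).symm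
        unfold wd; rw [hl0, hm0]; ring
      have := Finset.card_le_card hZe
      rw [hcard m0] at this
      omega
  have h2 := hhv w
  rw [hz] at h2
  have h3 : hQ (d + 1) (0 : ℚ[X]) w.1 w.2 = 0 := by simp [hQ]
  rw [h3] at h2
  have h4 : ((hom (d + 1) A w.1 w.2 : ℤ) : ℚ)
      = ∑ m, c m * ∏ l ∈ Finset.univ.erase m, (wd w (k l) : ℚ) := by linarith
  rw [h4]
  refine Finset.sum_congr rfl fun m _ => ?_
  rw [hc]; ring

end lag

section nrm

variable (q : ℕ) [hq : Fact q.Prime]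

theorem norm_prod {ι : Type*} (S : Finset ι) (f : ι → ℚ) :
    padicNorm q (∏ l ∈ S, f l) = ∏ l ∈ S, padicNorm q (f l) := by
  classical
  induction S using Finset.induction_on with
  | empty => simp
  | insert a S ha ih => rw [Finset.prod_insert ha, Finset.prod_insert ha, padicNorm.mul, ih]

theorem norm_wd (w k l : ℤ × ℤ) (hk : Pq q k) (t : ℚ) (h1 : padicNorm q (wd w k : ℤ) ≤ t)
    (h2 : padicNorm q (wd k l : ℤ) ≤ t) : padicNorm q (wd w l : ℤ) ≤ t := by
  have ht : 0 ≤ t := (padicNorm.nonneg _).trans h1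
  have gen : ∀ a b c : ℤ, ¬ (q : ℤ) ∣ a → a * wd w l = wd w k * b + wd k l * c →
      padicNorm q (wd w l : ℤ) ≤ t := by
    intro a b c ha h
    have e1 : padicNorm q (wd w l : ℤ) = padicNorm q ((a * wd w l : ℤ) : ℚ) := by
      rw [Int.cast_mul, padicNorm.mul, (padicNorm.int_eq_one_iff a).2 ha, one_mul]
    rw [e1, h, Int.cast_add, Int.cast_mul, Int.cast_mul]
    refine padicNorm.nonarchimedean.trans (max_le ?_ ?_)
    · rw [padicNorm.mul]
      exact (mul_le_mul h1 (padicNorm.of_int b) (padicNorm.nonneg _) ht).trans (by simp)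
    · rw [padicNorm.mul]
      exact (mul_le_mul h2 (padicNorm.of_int c) (padicNorm.nonneg _) ht).trans (by simp)
  by_cases hc : (q : ℤ) ∣ k.1
  · exact gen k.2 l.2 w.2 (fun h => hk ⟨hc, h⟩) (by unfold wd; ring)
  · exact gen k.1 l.1 w.1 hc (by unfold wd; ring)

theorem few (d : ℕ) (A B : ℤ[X]) (hA : A.natDegree ≤ d + 1) (hB : B.natDegree ≤ d + 1) (e : ℕ)
    (k : Fin (d + 2) → ℤ × ℤ) (hP : ∀ m, Pq q (k m))
    (hAk : ∀ m, (q : ℤ) ^ e ∣ hom (d + 1) A (k m).1 (k m).2)
    (hBk : ∀ m, (q : ℤ) ^ e ∣ hom (d + 1) B (k m).1 (k m).2)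
    (hR : ∀ m l, m ≠ l → ¬ Rel (d + 1) A B q e (k m) (k l)) : False := by
  classical
  have hne : ∀ m l, m ≠ l → wd (k m) (k l) ≠ 0 := by
    intro m l hml h0
    exact hR m l hml ⟨e, good_top _ A B q hq.out e _ (hP m) (hAk m) (hBk m), by
      rw [h0]; exact dvd_zero _⟩
  set P : Fin (d + 2) → ℚ := fun m => ∏ l ∈ Finset.univ.erase m,
    padicNorm q (wd (k m) (k l) : ℤ) with hPdef
  obtain ⟨i, _, hi⟩ := Finset.exists_min_image Finset.univ P ⟨0, Finset.mem_univ _⟩
  have hnon : (Finset.univ.erase i).Nonempty := by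
    rw [← Finset.card_pos, Finset.card_erase_of_mem (Finset.mem_univ i)]; simp
  obtain ⟨m0, hm0, hmin⟩ := Finset.exists_min_image (Finset.univ.erase i)
    (fun m => padicNorm q (wd (k i) (k m) : ℤ)) hnon
  have hm0i : m0 ≠ i := Finset.ne_of_mem_erase hm0
  have hwne : ((wd (k i) (k m0) : ℤ) : ℚ) ≠ 0 := by exact_mod_cast hne i m0 hm0i.symm
  obtain ⟨z, hz⟩ := padicNorm.values_discrete (p := q) hwne
  have hz0 : 0 ≤ z := by
    by_contra hlt
    push Not at hlt
    have h1 := padicNorm.of_int (p := q) (wd (k i) (k m0))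
    rw [hz] at h1
    have hq1 : (1 : ℚ) < q := by exact_mod_cast hq.out.one_lt
    have h2 : (1 : ℚ) < (q : ℚ) ^ (-z) := one_lt_zpow₀ hq1 (by omega)
    linarith
  obtain ⟨j, rfl⟩ := Int.eq_ofNat_of_zero_le hz0
  have hdj : (q : ℤ) ^ j ∣ wd (k i) (k m0) := by
    have := (padicNorm.dvd_iff_norm_le (p := q) (n := j) (z := wd (k i) (k m0))).2 (le_of_eq hz)
    exact_mod_cast this
  refine hR i m0 hm0i.symm ⟨j, ?_, hdj⟩
  intro w hw hwd
  have hwi : padicNorm q (wd w (k i) : ℤ) ≤ padicNorm q (wd (k i) (k m0) : ℤ) := by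
    rw [hz]
    exact (padicNorm.dvd_iff_norm_le (p := q) (n := j)).1 (by exact_mod_cast hwd)
  have hwi' : ∀ l, l ≠ i → padicNorm q (wd w (k i) : ℤ) ≤ padicNorm q (wd (k i) (k l) : ℤ) :=
    fun l hl => hwi.trans (hmin l (Finset.mem_erase.2 ⟨hl, Finset.mem_univ _⟩))
  have hwl : ∀ l, l ≠ i → padicNorm q (wd w (k l) : ℤ) ≤ padicNorm q (wd (k i) (k l) : ℤ) :=
    fun l hl => norm_wd q w (k i) (k l) (hP i) _ (hwi' l hl) le_rfl
  have hPpos : ∀ m, 0 < P m := by
    intro m
    refine Finset.prod_pos fun l hl => ?_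
    refine lt_of_le_of_ne (padicNorm.nonneg _) (Ne.symm (padicNorm.nonzero ?_))
    exact_mod_cast hne m l (Finset.ne_of_mem_erase hl).symm
  have hprod : ∀ m, ∏ l ∈ Finset.univ.erase m, padicNorm q (wd w (k l) : ℤ) ≤ P m := by
    intro m
    by_cases hmi : m = i
    · subst hmi
      exact Finset.prod_le_prod (fun l _ => padicNorm.nonneg _)
        fun l hl => hwl l (Finset.ne_of_mem_erase hl)
    · have him : i ∈ Finset.univ.erase m := Finset.mem_erase.2 ⟨fun h => hmi h.symm,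
        Finset.mem_univ _⟩
      have hmi' : m ∈ Finset.univ.erase i := Finset.mem_erase.2 ⟨hmi, Finset.mem_univ _⟩
      rw [← Finset.mul_prod_erase _ _ him]
      calc padicNorm q (wd w (k i) : ℤ) * ∏ l ∈ (Finset.univ.erase m).erase i,
            padicNorm q (wd w (k l) : ℤ)
          ≤ padicNorm q (wd (k i) (k m) : ℤ) * ∏ l ∈ (Finset.univ.erase m).erase i,
            padicNorm q (wd (k i) (k l) : ℤ) := by
            refine mul_le_mul (hwi' m hmi) ?_ (Finset.prod_nonneg fun l _ => padicNorm.nonneg _)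
              (padicNorm.nonneg _)
            exact Finset.prod_le_prod (fun l _ => padicNorm.nonneg _)
              fun l hl => hwl l (Finset.ne_of_mem_erase hl)
        _ = P i := by
            rw [Finset.erase_right_comm, Finset.mul_prod_erase _
              (fun l => padicNorm q (wd (k i) (k l) : ℤ)) hmi']
        _ ≤ P m := hi m (Finset.mem_univ _)
  have gen : ∀ F : ℤ[X], F.natDegree ≤ d + 1 →
      (∀ m, (q : ℤ) ^ e ∣ hom (d + 1) F (k m).1 (k m).2) →
      (q : ℤ) ^ e ∣ hom (d + 1) F w.1 w.2 := by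
    intro F hF hFk
    have goal : padicNorm q ((hom (d + 1) F w.1 w.2 : ℤ) : ℚ) ≤ (q : ℚ) ^ (-(e : ℤ)) := by
      rw [lagrange d F hF k hne w]
      refine padicNorm.sum_le' (fun m _ => ?_) (by positivity)
      rw [mul_div_assoc, padicNorm.mul, padicNorm.div, norm_prod, norm_prod]
      have h1 : padicNorm q ((hom (d + 1) F (k m).1 (k m).2 : ℤ) : ℚ) ≤ (q : ℚ) ^ (-(e : ℤ)) :=
        (padicNorm.dvd_iff_norm_le (p := q) (n := e)).1 (by exact_mod_cast hFk m)
      have h2 : (∏ l ∈ Finset.univ.erase m, padicNorm q (wd w (k l) : ℤ))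
          / (∏ l ∈ Finset.univ.erase m, padicNorm q (wd (k m) (k l) : ℤ)) ≤ 1 := by
        rw [div_le_one (hPpos m)]
        exact hprod m
      calc _ ≤ (q : ℚ) ^ (-(e : ℤ)) * 1 := by
            refine mul_le_mul h1 h2 ?_ (by positivity)
            exact div_nonneg (Finset.prod_nonneg fun l _ => padicNorm.nonneg _) (hPpos m).le
        _ = _ := mul_one _
    have := (padicNorm.dvd_iff_norm_le (p := q) (n := e)).2 goal
    exact_mod_cast this
  exact ⟨gen A hA hAk, gen B hB hBk⟩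

/-- pairwise inequivalent -/
def Ind (D : ℕ) (A B : ℤ[X]) (q e : ℕ) (T : Finset (ℤ × ℤ)) : Prop :=
  ∀ k ∈ T, ∀ l ∈ T, k ≠ l → ¬ Rel D A B q e k l

theorem classes (d : ℕ) (A B : ℤ[X]) (hA : A.natDegree ≤ d + 1) (hB : B.natDegree ≤ d + 1)
    (e : ℕ) (S : Finset (ℤ × ℤ)) (hP : ∀ k ∈ S, Pq q k)
    (hAk : ∀ k ∈ S, (q : ℤ) ^ e ∣ hom (d + 1) A k.1 k.2)
    (hBk : ∀ k ∈ S, (q : ℤ) ^ e ∣ hom (d + 1) B k.1 k.2) :
    ∃ rep : ℤ × ℤ → ℤ × ℤ, (S.image rep).card ≤ d + 1 ∧
      ∀ k ∈ S, ∀ l ∈ S, rep k = rep l → Rel (d + 1) A B q e k l := by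
  classical
  set 𝒯 := S.powerset.filter (Ind (d + 1) A B q e) with h𝒯
  have h0 : ∅ ∈ 𝒯 := by
    rw [h𝒯, Finset.mem_filter]
    exact ⟨Finset.mem_powerset.2 (Finset.empty_subset _), fun k hk => by simp at hk⟩
  obtain ⟨T, hT, hmax⟩ := Finset.exists_max_image 𝒯 Finset.card ⟨∅, h0⟩
  have hTS : T ⊆ S := Finset.mem_powerset.1 (Finset.mem_filter.1 hT).1
  have hTR : Ind (d + 1) A B q e T := (Finset.mem_filter.1 hT).2
  have hcard : T.card ≤ d + 1 := by
    by_contra hlt
    push Not at hlt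
    obtain ⟨T', hT'T, hT'c⟩ := Finset.exists_subset_card_eq (show d + 2 ≤ T.card by omega)
    let φ : Fin (d + 2) ≃ T' := (T'.equivFinOfCardEq hT'c).symm
    refine few q d A B hA hB e (fun m => (φ m : ℤ × ℤ)) ?_ ?_ ?_ ?_
    · exact fun m => hP _ (hTS (hT'T (φ m).2))
    · exact fun m => hAk _ (hTS (hT'T (φ m).2))
    · exact fun m => hBk _ (hTS (hT'T (φ m).2))
    · intro m l hml
      exact hTR _ (hT'T (φ m).2) _ (hT'T (φ l).2) fun h => hml (φ.injective (Subtype.ext h))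
  have hself : ∀ k ∈ S, Rel (d + 1) A B q e k k := fun k hk =>
    ⟨e, good_top _ A B q hq.out e k (hP k hk) (hAk k hk) (hBk k hk), by
      have : wd k k = 0 := by unfold wd; ring
      rw [this]; exact dvd_zero _⟩
  have hex : ∀ k : ℤ × ℤ, ∃ r : ℤ × ℤ, k ∈ S → r ∈ T ∧ Rel (d + 1) A B q e k r := by
    intro k
    by_cases hk : k ∈ S
    · by_cases hkT : k ∈ T
      · exact ⟨k, fun _ => ⟨hkT, hself k hk⟩⟩
      · have hnot : insert k T ∉ 𝒯 := by
          intro hin
          have := hmax _ hin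
          rw [Finset.card_insert_of_notMem hkT] at this
          omega
        have hsub : insert k T ⊆ S := Finset.insert_subset hk hTS
        have : ¬ ∀ x ∈ insert k T, ∀ y ∈ insert k T, x ≠ y → ¬ Rel (d + 1) A B q e x y := by
          intro hall
          exact hnot (Finset.mem_filter.2 ⟨Finset.mem_powerset.2 hsub, hall⟩)
        push Not at this
        obtain ⟨x, hx, y, hy, hxy, hR⟩ := this
        rcases Finset.mem_insert.1 hx with rfl | hx'
        · rcases Finset.mem_insert.1 hy with rfl | hy'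
          · exact absurd rfl hxy
          · exact ⟨y, fun _ => ⟨hy', hR⟩⟩
        · rcases Finset.mem_insert.1 hy with rfl | hy'
          · exact ⟨x, fun _ => ⟨hx', hR.symm hq.out (hP _ hk)⟩⟩
          · exact absurd hR (hTR x hx' y hy' hxy)
    · exact ⟨k, fun h => absurd h hk⟩
  choose rep hrep using hex
  refine ⟨rep, ?_, ?_⟩
  · refine (Finset.card_le_card ?_).trans hcard
    intro x hx
    obtain ⟨k, hk, rfl⟩ := Finset.mem_image.1 hx
    exact (hrep k hk).1
  · intro k hk l hl hkl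
    have h1 := (hrep k hk).2
    have h2 := (hrep l hl).2
    have hr := hTS (hrep k hk).1
    rw [← hkl] at h2
    exact h1.trans hq.out (hP k hk) (hP _ hr) (h2.symm hq.out (hP _ hr))

end nrm

section glob

/-- **the local part of the gap lemma**: the solutions with `A(k) = c ∣ B(k)` fall into at most
`(d+1) ^ ω(c)` colours, and two solutions `k, l` of the same colour satisfy
`c² ∣ (d+1)! (k ∧ l) W(k)`. -/
theorem gap_local (d : ℕ) (A B : ℤ[X]) (hA : A.natDegree ≤ d + 1) (hB : B.natDegree ≤ d + 1)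
    (c : ℤ) (hc : c ≠ 0) (S : Finset (ℤ × ℤ))
    (hS : ∀ k ∈ S, IsCoprime k.1 k.2 ∧ hom (d + 1) A k.1 k.2 = c ∧
      c ∣ hom (d + 1) B k.1 k.2) :
    ∃ col : ℤ × ℤ → ℕ, (∀ k ∈ S, col k < (d + 1) ^ c.natAbs.primeFactors.card) ∧
      ∀ k ∈ S, ∀ l ∈ S, col k = col l →
        c ^ 2 ∣ ((d + 1).factorial : ℤ) * wd k l * hom (2 * d) (wr A B) k.1 k.2 := by
  classical
  set pf := c.natAbs.primeFactors with hpf
  have hprime : ∀ q ∈ pf, q.Prime := fun q hq => Nat.prime_of_mem_primeFactors hq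
  have hcn : c.natAbs ≠ 0 := Int.natAbs_ne_zero.2 hc
  have hqe : ∀ q : ℕ, (q : ℤ) ^ (c.natAbs.factorization q) ∣ c := by
    intro q
    have h1 : q ^ c.natAbs.factorization q ∣ c.natAbs := Nat.ordProj_dvd _ _
    have h2 : ((q ^ c.natAbs.factorization q : ℕ) : ℤ) ∣ (c.natAbs : ℤ) := by exact_mod_cast h1
    rw [Int.natCast_natAbs] at h2
    push_cast at h2
    exact (dvd_abs _ _).1 h2
  have hex : ∀ q : ℕ, ∃ rep : ℤ × ℤ → ℤ × ℤ, q ∈ pf → (S.image rep).card ≤ d + 1 ∧
      ∀ k ∈ S, ∀ l ∈ S, rep k = rep l →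
        Rel (d + 1) A B q (c.natAbs.factorization q) k l := by
    intro q
    by_cases hq : q ∈ pf
    · have : Fact q.Prime := ⟨hprime q hq⟩
      obtain ⟨rep, h1, h2⟩ := classes q d A B hA hB (c.natAbs.factorization q) S
        (fun k hk => Pq_of_coprime q (hprime q hq) k (hS k hk).1)
        (fun k hk => by rw [(hS k hk).2.1]; exact hqe q)
        (fun k hk => (hqe q).trans (hS k hk).2.2)
      exact ⟨rep, fun _ => ⟨h1, h2⟩⟩
    · exact ⟨id, fun h => absurd h hq⟩
  choose rep hrep using hex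
  set g : ℤ × ℤ → ((q : ℕ) → q ∈ pf → ℤ × ℤ) := fun k q _ => rep q k with hg
  set I := S.image g with hI
  have hIc : I.card ≤ (d + 1) ^ pf.card := by
    have h1 : I ⊆ Finset.pi pf (fun q => S.image (rep q)) := by
      intro x hx
      obtain ⟨k, hk, rfl⟩ := Finset.mem_image.1 hx
      rw [Finset.mem_pi]
      intro q hq
      exact Finset.mem_image_of_mem _ hk
    refine (Finset.card_le_card h1).trans ?_
    rw [Finset.card_pi, ← Finset.prod_const]
    exact Finset.prod_le_prod' fun q hq => (hrep q hq).1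
  refine ⟨fun k => if h : g k ∈ I then (I.equivFin ⟨g k, h⟩ : ℕ) else 0, ?_, ?_⟩
  · intro k hk
    have h : g k ∈ I := Finset.mem_image_of_mem _ hk
    simp only [h, dif_pos]
    exact (Fin.isLt _).trans_le hIc
  · intro k hk l hl hkl
    have h1 : g k ∈ I := Finset.mem_image_of_mem _ hk
    have h2 : g l ∈ I := Finset.mem_image_of_mem _ hl
    simp only [h1, h2, dif_pos] at hkl
    have h3 : g k = g l := by
      have := I.equivFin.injective (Fin.ext hkl)
      exact congrArg Subtype.val this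
    set E : ℤ := ((d + 1).factorial : ℤ) * wd k l * hom (2 * d) (wr A B) k.1 k.2 with hE
    have hq2 : ∀ q ∈ pf, (q : ℤ) ^ (2 * c.natAbs.factorization q) ∣ E := by
      intro q hq
      have h4 : rep q k = rep q l := congrFun (congrFun h3 q) hq
      obtain ⟨j, hj, hd⟩ := (hrep q hq).2 k hk l hl h4
      have h5 := local_dvd d A B hA hB q (hprime q hq) _ j k (hS k hk).1 hj
      refine h5.trans ?_
      obtain ⟨r, hr⟩ := hd
      refine ⟨r, ?_⟩
      rw [hE, hr]; ring
    have hnat : c.natAbs ^ 2 ∣ E.natAbs := by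
      rw [Nat.dvd_iff_prime_pow_dvd_dvd]
      intro p k' hp hpk
      rcases Nat.eq_zero_or_pos k' with rfl | hk'
      · simp
      have hpc : p ∣ c.natAbs := hp.dvd_of_dvd_pow ((dvd_pow_self p hk'.ne').trans hpk)
      have hmem : p ∈ pf := Nat.mem_primeFactors.2 ⟨hp, hpc, hcn⟩
      have h6 : k' ≤ 2 * c.natAbs.factorization p := by
        have := (hp.pow_dvd_iff_le_factorization (pow_ne_zero 2 hcn)).1 hpk
        rw [Nat.factorization_pow] at this
        simpa using this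
      have h7 := Int.natAbs_dvd_natAbs.2 (hq2 p hmem)
      rw [Int.natAbs_pow, Int.natAbs_natCast] at h7
      exact (pow_dvd_pow p h6).trans h7
    have h8 : ((c.natAbs ^ 2 : ℕ) : ℤ) ∣ (E.natAbs : ℤ) := by exact_mod_cast hnat
    rw [Nat.cast_pow, Int.natCast_natAbs, Int.natCast_natAbs, sq_abs] at h8
    exact (dvd_abs _ _).1 h8

/-- consequence for two solutions of the same colour -/
theorem gap_lower (c p w W f : ℤ) (hp : Prime p) (hpc : ¬ p ∣ c) (hpW : p ∣ W) (hW : W ≠ 0)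
    (hw : w ≠ 0) (hf : f ≠ 0) (h : c ^ 2 ∣ f * w * W) : |p| * c ^ 2 ≤ |f| * |w| * |W| := by
  have h1 : IsCoprime p (c ^ 2) := (IsCoprime.pow_right ((hp.coprime_iff_not_dvd).2 hpc))
  have h2 : p * c ^ 2 ∣ f * w * W := h1.mul_dvd (Dvd.dvd.mul_left hpW _) h
  have h3 : |p * c ^ 2| ≤ |f * w * W| :=
    Int.le_of_dvd (abs_pos.2 (mul_ne_zero (mul_ne_zero hf hw) hW)) ((abs_dvd_abs _ _).2 h2)
  rw [abs_mul, abs_mul, abs_mul, abs_pow, sq_abs] at h3
  exact h3

end glob

end Vale.Agent.P018.Q.Gap
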