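import Mathlib
import Vale.Agent.P018.Q.GapLocal

/-! # P018, quartics: real part of the gap lemma. -/

namespace Vale.Agent.P018.Q.Gap

open Polynomial Set

theorem mono_gap (f f' f'' : ℝ → ℝ) (x y : ℝ) (hxy : x < y)
    (h1 : ∀ z ∈ Icc x y, HasDerivAt f (f' z) z) (h2 : ∀ z ∈ Icc x y, HasDerivAt f' (f'' z) z)
    (hne : ∀ z ∈ Icc x y, f' z ≠ 0)
    (h3 : (∀ z ∈ Ioo x y, f'' z ≠ 0) ∨ ∀ z ∈ Ioo x y, f'' z = 0) :
    min |f' x| |f' y| * (y - x) ≤ |f y - f x| := by
  have hcf : ContinuousOn f (Icc x y) := fun z hz => (h1 z hz).continuousAt.continuousWithinAt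
  have hcf' : ContinuousOn f' (Icc x y) := fun z hz => (h2 z hz).continuousAt.continuousWithinAt
  obtain ⟨c, hc, hce⟩ := exists_hasDerivAt_eq_slope f f' hxy hcf
    (fun z hz => h1 z (Ioo_subset_Icc_self hz))
  have hcI := Ioo_subset_Icc_self hc
  have hxI : x ∈ Icc x y := ⟨le_rfl, hxy.le⟩
  have hyI : y ∈ Icc x y := ⟨hxy.le, le_rfl⟩
  have hd : DifferentiableOn ℝ f' (interior (Icc x y)) := by
    rw [interior_Icc]
    exact fun z hz => (h2 z (Ioo_subset_Icc_self hz)).differentiableAt.differentiableWithinAt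
  have hmono : MonotoneOn f' (Icc x y) ∨ AntitoneOn f' (Icc x y) := by
    rcases h3 with h3 | h3
    · rcases hasDerivWithinAt_forall_lt_or_forall_gt_of_forall_ne (convex_Ioo x y)
        (fun z hz => (h2 z (Ioo_subset_Icc_self hz)).hasDerivWithinAt) h3 with h | h
      · right
        refine antitoneOn_of_deriv_nonpos (convex_Icc x y) hcf' hd fun z hz => ?_
        rw [interior_Icc] at hz
        rw [(h2 z (Ioo_subset_Icc_self hz)).deriv]
        exact (h z hz).le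
      · left
        refine monotoneOn_of_deriv_nonneg (convex_Icc x y) hcf' hd fun z hz => ?_
        rw [interior_Icc] at hz
        rw [(h2 z (Ioo_subset_Icc_self hz)).deriv]
        exact (h z hz).le
    · left
      refine monotoneOn_of_deriv_nonneg (convex_Icc x y) hcf' hd fun z hz => ?_
      rw [interior_Icc] at hz
      rw [(h2 z (Ioo_subset_Icc_self hz)).deriv, h3 z hz]
  have hmin : min |f' x| |f' y| ≤ |f' c| := by
    rcases hasDerivWithinAt_forall_lt_or_forall_gt_of_forall_ne (convex_Icc x y)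
      (fun z hz => (h1 z hz).hasDerivWithinAt) hne with h | h
    · rcases hmono with hm | hm
      · refine (min_le_right _ _).trans ?_
        rw [abs_of_neg (h y hyI), abs_of_neg (h c hcI)]
        have := hm hcI hyI hc.2.le
        linarith
      · refine (min_le_left _ _).trans ?_
        rw [abs_of_neg (h x hxI), abs_of_neg (h c hcI)]
        have := hm hxI hcI hc.1.le
        linarith
    · rcases hmono with hm | hm
      · refine (min_le_left _ _).trans ?_
        rw [abs_of_pos (h x hxI), abs_of_pos (h c hcI)]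
        exact hm hxI hcI hc.1.le
      · refine (min_le_right _ _).trans ?_
        rw [abs_of_pos (h y hyI), abs_of_pos (h c hcI)]
        exact hm hcI hyI hc.2.le
  have hyx : 0 < y - x := by linarith
  have e : f y - f x = f' c * (y - x) := by
    rw [hce]; field_simp
  rw [e, abs_mul, abs_of_pos hyx]
  exact mul_le_mul_of_nonneg_right hmin hyx.le

/-- numerator of the second derivative of `B / A` -/
noncomputable def vv (A B : ℤ[X]) : ℤ[X] :=
  derivative (wr A B) * A - 2 * derivative A * wr A B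

/-- the real points where something happens -/
noncomputable def bad (A B : ℤ[X]) : Finset ℝ :=
  ((A * wr A B).map (Int.castRingHom ℝ)).roots.toFinset
    ∪ ((vv A B).map (Int.castRingHom ℝ)).roots.toFinset

theorem hom_real (D : ℕ) (A : ℤ[X]) (hA : A.natDegree ≤ D) (s t : ℤ) (ht : t ≠ 0) :
    ((hom D A s t : ℤ) : ℝ) = (t : ℝ) ^ D * aeval ((s : ℝ) / (t : ℝ)) A := by
  have ht' : (t : ℝ) ≠ 0 := by exact_mod_cast ht
  rw [aeval_eq_sum_range' (n := D + 1) (by omega), hom, Finset.mul_sum]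
  push_cast
  refine Finset.sum_congr rfl fun i hi => ?_
  have : i ≤ D := by have := Finset.mem_range.1 hi; omega
  rw [div_pow, show (t : ℝ) ^ D = (t : ℝ) ^ (D - i) * (t : ℝ) ^ i by
    rw [← pow_add]; congr 1; omega, zsmul_eq_mul]
  field_simp

theorem real_gap (A B : ℤ[X]) (x y : ℝ) (hxy : x < y) (hx : aeval x (A * wr A B) ≠ 0)
    (hy : aeval y (A * wr A B) ≠ 0) (hF : ∀ z ∈ bad A B, ¬ (x ≤ z ∧ z < y)) :
    min |aeval x (wr A B) / (aeval x A) ^ 2| |aeval y (wr A B) / (aeval y A) ^ 2| * (y - x)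
      ≤ |aeval y B / aeval y A - aeval x B / aeval x A| := by
  set W := wr A B with hW
  have hAW : A * W ≠ 0 := by
    rintro h; rw [h] at hx; simp at hx
  have hmap : (A * W).map (Int.castRingHom ℝ) ≠ 0 := by
    rw [Ne, Polynomial.map_eq_zero_iff (RingHom.injective_int _)]; exact hAW
  have hno : ∀ z ∈ Icc x y, aeval z (A * W) ≠ 0 := by
    intro z hz h0
    rcases eq_or_lt_of_le hz.2 with h | h
    · rw [h] at h0; exact hy h0
    · refine hF z (Finset.mem_union_left _ ?_) ⟨hz.1, h⟩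
      rw [Multiset.mem_toFinset, mem_roots hmap, IsRoot.def, eval_map]
      rw [aeval_def] at h0
      exact h0
  have hA0 : ∀ z ∈ Icc x y, aeval z A ≠ 0 := fun z hz h => hno z hz (by rw [map_mul, h, zero_mul])
  have hW0 : ∀ z ∈ Icc x y, aeval z W ≠ 0 := fun z hz h => hno z hz (by rw [map_mul, h, mul_zero])
  refine mono_gap (fun z => aeval z B / aeval z A) (fun z => aeval z W / (aeval z A) ^ 2)
    (fun z => aeval z (vv A B) / (aeval z A) ^ 3) x y hxy ?_ ?_ ?_ ?_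
  · intro z hz
    have h1 := (B.hasDerivAt_aeval z).div (A.hasDerivAt_aeval z) (hA0 z hz)
    have h2 : (aeval z (derivative B) * aeval z A - aeval z B * aeval z (derivative A))
        / (aeval z A) ^ 2 = aeval z W / (aeval z A) ^ 2 := by
      rw [hW, wr, map_sub, map_mul, map_mul]; ring
    rw [← h2]
    exact h1
  · intro z hz
    have h1 := (W.hasDerivAt_aeval z).div ((A.hasDerivAt_aeval z).pow 2)
      (pow_ne_zero 2 (hA0 z hz))
    have h2 : (aeval z (derivative W) * (aeval z A) ^ 2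
        - aeval z W * ((2 : ℕ) * (aeval z A) ^ (2 - 1) * aeval z (derivative A)))
        / ((aeval z A) ^ 2) ^ 2 = aeval z (vv A B) / (aeval z A) ^ 3 := by
      have hA := hA0 z hz
      rw [vv, ← hW, map_sub, map_mul, map_mul, map_mul, map_ofNat]
      field_simp
      push_cast
      ring
    rw [← h2]
    exact h1
  · intro z hz
    exact div_ne_zero (hW0 z hz) (pow_ne_zero 2 (hA0 z hz))
  · by_cases hv : vv A B = 0
    · right
      intro z _
      rw [hv]; simp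
    · left
      intro z hz
      have hzI := Ioo_subset_Icc_self hz
      refine div_ne_zero (fun h0 => ?_) (pow_ne_zero 3 (hA0 z hzI))
      have hmap2 : (vv A B).map (Int.castRingHom ℝ) ≠ 0 := by
        rw [Ne, Polynomial.map_eq_zero_iff (RingHom.injective_int _)]; exact hv
      refine hF z (Finset.mem_union_right _ ?_) ⟨hz.1.le, hz.2⟩
      rw [Multiset.mem_toFinset, mem_roots hmap2, IsRoot.def, eval_map]
      rw [aeval_def] at h0
      exact h0

theorem card_bad (d : ℕ) (A B : ℤ[X]) (hA : A.natDegree ≤ d + 1) (hB : B.natDegree ≤ d + 1) :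
    (bad A B).card ≤ 6 * d + 2 := by
  have hW := natDegree_wr d A B hA hB
  have h1 : ((A * wr A B).map (Int.castRingHom ℝ)).natDegree ≤ 3 * d + 1 :=
    (natDegree_map_le).trans ((natDegree_mul_le).trans (by omega))
  have h2 : ((vv A B).map (Int.castRingHom ℝ)).natDegree ≤ 3 * d + 1 := by
    refine (natDegree_map_le).trans ?_
    unfold vv
    refine (natDegree_sub_le _ _).trans (max_le ?_ ?_)
    · refine (natDegree_mul_le).trans ?_
      have := natDegree_derivative_le (wr A B)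
      omega
    · refine (natDegree_mul_le).trans ?_
      have h3 : (2 * derivative A).natDegree ≤ d := by
        refine (natDegree_mul_le).trans ?_
        have h4 := natDegree_derivative_le A
        have h5 : (2 : ℤ[X]).natDegree = 0 := natDegree_ofNat 2
        omega
      omega
  unfold bad
  refine (Finset.card_union_le _ _).trans ?_
  have h3 := (Multiset.toFinset_card_le ((A * wr A B).map (Int.castRingHom ℝ)).roots).trans
    (card_roots' _)
  have h4 := (Multiset.toFinset_card_le ((vv A B).map (Int.castRingHom ℝ)).roots).trans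
    (card_roots' _)
  omega

/-- position of a real number with respect to the bad points -/
noncomputable def pos (A B : ℤ[X]) (x : ℝ) : ℕ := ((bad A B).filter (· < x)).card

theorem pos_le (A B : ℤ[X]) (x : ℝ) : pos A B x ≤ (bad A B).card := Finset.card_filter_le _ _

theorem pos_eq (A B : ℤ[X]) (x y : ℝ) (hxy : x < y) (h : pos A B x = pos A B y) :
    ∀ z ∈ bad A B, ¬ (x ≤ z ∧ z < y) := by
  intro z hz ⟨h1, h2⟩
  have hsub : (bad A B).filter (· < x) ⊆ (bad A B).filter (· < y) := by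
    intro w hw
    rw [Finset.mem_filter] at hw ⊢
    exact ⟨hw.1, hw.2.trans hxy⟩
  have heq := Finset.eq_of_subset_of_card_le hsub (le_of_eq h.symm)
  have hzy : z ∈ (bad A B).filter (· < y) := Finset.mem_filter.2 ⟨hz, h2⟩
  rw [← heq, Finset.mem_filter] at hzy
  linarith [hzy.2]

theorem pair_gap' (d : ℕ) (A B : ℤ[X]) (hA : A.natDegree ≤ d + 1) (hB : B.natDegree ≤ d + 1)
    (k l : ℤ × ℤ) (c : ℤ) (hc : c ≠ 0) (hkA : hom (d + 1) A k.1 k.2 = c)
    (hlA : hom (d + 1) A l.1 l.2 = c) (hk2 : k.2 ≠ 0) (hl2 : l.2 ≠ 0) (N M : ℤ)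
    (hN : hom (d + 1) B k.1 k.2 = c * N) (hM : hom (d + 1) B l.1 l.2 = c * M)
    (hWk : hom (2 * d) (wr A B) k.1 k.2 ≠ 0) (hWl : hom (2 * d) (wr A B) l.1 l.2 ≠ 0)
    (hpos : pos A B ((k.1 : ℝ) / k.2) = pos A B ((l.1 : ℝ) / l.2))
    (hd1 : |(l.2 : ℝ)| ≤ 2 * |(k.2 : ℝ)|) (hd2 : |(k.2 : ℝ)| ≤ 2 * |(l.2 : ℝ)|)
    (hlt : (k.1 : ℝ) / k.2 < (l.1 : ℝ) / l.2) (m : ℝ) (_hm0 : 0 ≤ m)
    (hmk : m * (c : ℝ) ^ 2 ≤ |(wd k l : ℝ)| * |((hom (2 * d) (wr A B) k.1 k.2 : ℤ) : ℝ)|)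
    (hml : m * (c : ℝ) ^ 2 ≤ |(wd k l : ℝ)| * |((hom (2 * d) (wr A B) l.1 l.2 : ℤ) : ℝ)|) :
    m / 2 ≤ |(M : ℝ) - N| := by
  have hW := natDegree_wr d A B hA hB
  have hk2' : (k.2 : ℝ) ≠ 0 := by exact_mod_cast hk2
  have hl2' : (l.2 : ℝ) ≠ 0 := by exact_mod_cast hl2
  have hc' : (c : ℝ) ≠ 0 := by exact_mod_cast hc
  set x : ℝ := (k.1 : ℝ) / k.2 with hx
  set y : ℝ := (l.1 : ℝ) / l.2 with hy
  have eAk : (c : ℝ) = (k.2 : ℝ) ^ (d + 1) * aeval x A := by
    rw [← hom_real (d + 1) A hA k.1 k.2 hk2, hkA]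
  have eAl : (c : ℝ) = (l.2 : ℝ) ^ (d + 1) * aeval y A := by
    rw [← hom_real (d + 1) A hA l.1 l.2 hl2, hlA]
  have eBk : (c : ℝ) * N = (k.2 : ℝ) ^ (d + 1) * aeval x B := by
    rw [← hom_real (d + 1) B hB k.1 k.2 hk2, hN]; push_cast; ring
  have eBl : (c : ℝ) * M = (l.2 : ℝ) ^ (d + 1) * aeval y B := by
    rw [← hom_real (d + 1) B hB l.1 l.2 hl2, hM]; push_cast; ring
  have eWk := hom_real (2 * d) (wr A B) hW k.1 k.2 hk2
  have eWl := hom_real (2 * d) (wr A B) hW l.1 l.2 hl2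
  rw [← hx] at eWk
  rw [← hy] at eWl
  have hAx : aeval x A ≠ 0 := by
    rintro h; rw [h, mul_zero] at eAk; exact hc' eAk
  have hAy : aeval y A ≠ 0 := by
    rintro h; rw [h, mul_zero] at eAl; exact hc' eAl
  have hWk' : ((hom (2 * d) (wr A B) k.1 k.2 : ℤ) : ℝ) ≠ 0 := by exact_mod_cast hWk
  have hWl' : ((hom (2 * d) (wr A B) l.1 l.2 : ℤ) : ℝ) ≠ 0 := by exact_mod_cast hWl
  have hWx : aeval x (wr A B) ≠ 0 := by
    rintro h; rw [h, mul_zero] at eWk; exact hWk' eWk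
  have hWy : aeval y (wr A B) ≠ 0 := by
    rintro h; rw [h, mul_zero] at eWl; exact hWl' eWl
  have key := real_gap A B x y hlt (by rw [map_mul]; exact mul_ne_zero hAx hWx)
    (by rw [map_mul]; exact mul_ne_zero hAy hWy) (pos_eq A B x y hlt hpos)
  have e1 : aeval x B / aeval x A = (N : ℝ) := by
    rw [div_eq_iff hAx]
    have h1 : (k.2 : ℝ) ^ (d + 1) ≠ 0 := pow_ne_zero _ hk2'
    apply mul_left_cancel₀ h1
    rw [← eBk]
    linear_combination (N : ℝ) * eAk
  have e2 : aeval y B / aeval y A = (M : ℝ) := by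
    rw [div_eq_iff hAy]
    have h1 : (l.2 : ℝ) ^ (d + 1) ≠ 0 := pow_ne_zero _ hl2'
    apply mul_left_cancel₀ h1
    rw [← eBl]
    linear_combination (M : ℝ) * eAl
  have e3 : |aeval x (wr A B) / (aeval x A) ^ 2|
      = |((hom (2 * d) (wr A B) k.1 k.2 : ℤ) : ℝ)| * |(k.2 : ℝ)| ^ 2 / (c : ℝ) ^ 2 := by
    rw [eWk, eAk, ← abs_pow, ← abs_mul, ← abs_of_nonneg (sq_nonneg ((k.2 : ℝ) ^ (d + 1) * aeval x A)),
      ← abs_div]
    congr 1
    rw [mul_pow, ← pow_mul]
    field_simp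
    ring
  have e4 : |aeval y (wr A B) / (aeval y A) ^ 2|
      = |((hom (2 * d) (wr A B) l.1 l.2 : ℤ) : ℝ)| * |(l.2 : ℝ)| ^ 2 / (c : ℝ) ^ 2 := by
    rw [eWl, eAl, ← abs_pow, ← abs_mul, ← abs_of_nonneg (sq_nonneg ((l.2 : ℝ) ^ (d + 1) * aeval y A)),
      ← abs_div]
    congr 1
    rw [mul_pow, ← pow_mul]
    field_simp
    ring
  have e5 : y - x = |(wd k l : ℝ)| / (|(k.2 : ℝ)| * |(l.2 : ℝ)|) := by
    have h1 : 0 < y - x := by linarith
    rw [← abs_of_pos h1, ← abs_mul, ← abs_div, hx, hy, ← abs_neg]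
    congr 1
    unfold wd
    push_cast
    field_simp
    ring
  rw [e1, e2, e3, e4, e5] at key
  refine le_trans ?_ key
  have hkp : 0 < |(k.2 : ℝ)| := abs_pos.2 hk2'
  have hlp : 0 < |(l.2 : ℝ)| := abs_pos.2 hl2'
  have hcp : 0 < (c : ℝ) ^ 2 := by positivity
  rw [min_mul_of_nonneg _ _ (by positivity)]
  refine le_min ?_ ?_
  · have e : |((hom (2 * d) (wr A B) k.1 k.2 : ℤ) : ℝ)| * |(k.2 : ℝ)| ^ 2 / (c : ℝ) ^ 2
        * (|(wd k l : ℝ)| / (|(k.2 : ℝ)| * |(l.2 : ℝ)|))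
        = (|(wd k l : ℝ)| * |((hom (2 * d) (wr A B) k.1 k.2 : ℤ) : ℝ)|) / (c : ℝ) ^ 2
          * (|(k.2 : ℝ)| / |(l.2 : ℝ)|) := by
      field_simp
    rw [e, show m / 2 = m * (1 / 2) by ring]
    refine mul_le_mul ?_ ?_ (by norm_num) (by positivity)
    · rw [le_div_iff₀ hcp]; exact hmk
    · rw [div_le_div_iff₀ (by norm_num) hlp]; linarith
  · have e : |((hom (2 * d) (wr A B) l.1 l.2 : ℤ) : ℝ)| * |(l.2 : ℝ)| ^ 2 / (c : ℝ) ^ 2
        * (|(wd k l : ℝ)| / (|(k.2 : ℝ)| * |(l.2 : ℝ)|))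
        = (|(wd k l : ℝ)| * |((hom (2 * d) (wr A B) l.1 l.2 : ℤ) : ℝ)|) / (c : ℝ) ^ 2
          * (|(l.2 : ℝ)| / |(k.2 : ℝ)|) := by
      field_simp
    rw [e, show m / 2 = m * (1 / 2) by ring]
    refine mul_le_mul ?_ ?_ (by norm_num) (by positivity)
    · rw [le_div_iff₀ hcp]; exact hml
    · rw [div_le_div_iff₀ (by norm_num) hkp]; linarith

theorem sep_card (T : Finset ℤ) (X δ : ℝ) (hδ : 0 < δ) (hX0 : 0 ≤ X)
    (hX : ∀ N ∈ T, |(N : ℝ)| ≤ X)
    (hsep : ∀ N ∈ T, ∀ M ∈ T, N ≠ M → δ ≤ |(M : ℝ) - N|) : (T.card : ℝ) ≤ 1 + 2 * X / δ := by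
  classical
  have hinj : Set.InjOn (fun N : ℤ => ⌊((N : ℝ) + X) / δ⌋₊) (T : Set ℤ) := by
    intro N hN M hM h
    by_contra hne
    have hs := hsep N hN M hM hne
    have hN' := abs_le.1 (hX N hN)
    have hM' := abs_le.1 (hX M hM)
    have a1 : 0 ≤ ((N : ℝ) + X) / δ := div_nonneg (by linarith) hδ.le
    have a2 : 0 ≤ ((M : ℝ) + X) / δ := div_nonneg (by linarith) hδ.le
    have b1 := Nat.floor_le a1
    have b2 := Nat.floor_le a2
    have c1 := Nat.lt_floor_add_one (((N : ℝ) + X) / δ)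
    have c2 := Nat.lt_floor_add_one (((M : ℝ) + X) / δ)
    simp only at h
    rw [h] at b1 c1
    have d1 : |((M : ℝ) + X) / δ - ((N : ℝ) + X) / δ| < 1 := by
      rw [abs_lt]; constructor <;> linarith
    rw [← sub_div, show (M : ℝ) + X - (N + X) = M - N by ring, abs_div, abs_of_pos hδ,
      div_lt_one hδ] at d1
    linarith
  have hsub : T.image (fun N : ℤ => ⌊((N : ℝ) + X) / δ⌋₊) ⊆ Finset.range (⌊2 * X / δ⌋₊ + 1) := by
    intro n hn
    obtain ⟨N, hN, rfl⟩ := Finset.mem_image.1 hn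
    rw [Finset.mem_range, Nat.lt_succ_iff]
    refine Nat.floor_le_floor ?_
    have hN' := abs_le.1 (hX N hN)
    gcongr
    linarith
  have h1 := Finset.card_le_card hsub
  rw [Finset.card_image_of_injOn hinj, Finset.card_range] at h1
  have h2 : (⌊2 * X / δ⌋₊ : ℝ) ≤ 2 * X / δ := Nat.floor_le (by positivity)
  calc (T.card : ℝ) ≤ ((⌊2 * X / δ⌋₊ + 1 : ℕ) : ℝ) := by exact_mod_cast h1
    _ = (⌊2 * X / δ⌋₊ : ℝ) + 1 := by push_cast; ring
    _ ≤ 1 + 2 * X / δ := by linarith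

end Vale.Agent.P018.Q.Gap
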