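import Mathlib
import Vale.Agent.P018.Q.GapReal

/-! # P018, quartics: assembly of the gap lemma. -/

namespace Vale.Agent.P018.Q.Gap

open Polynomial

/-- symmetric form of `pair_gap'` -/
theorem pair_gap (d : ℕ) (A B : ℤ[X]) (hA : A.natDegree ≤ d + 1) (hB : B.natDegree ≤ d + 1)
    (k l : ℤ × ℤ) (c : ℤ) (hc : c ≠ 0) (hkA : hom (d + 1) A k.1 k.2 = c)
    (hlA : hom (d + 1) A l.1 l.2 = c) (hk2 : k.2 ≠ 0) (hl2 : l.2 ≠ 0) (N M : ℤ)
    (hN : hom (d + 1) B k.1 k.2 = c * N) (hM : hom (d + 1) B l.1 l.2 = c * M)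
    (hWk : hom (2 * d) (wr A B) k.1 k.2 ≠ 0) (hWl : hom (2 * d) (wr A B) l.1 l.2 ≠ 0)
    (hpos : pos A B ((k.1 : ℝ) / k.2) = pos A B ((l.1 : ℝ) / l.2))
    (hdy : Nat.log 2 k.2.natAbs = Nat.log 2 l.2.natAbs) (p p' : ℕ) (P : ℝ)
    (hp : p.Prime) (hp' : p'.Prime) (hP : P ≤ p) (hP' : P ≤ p') (hpc : ¬ (p : ℤ) ∣ c)
    (hpc' : ¬ (p' : ℤ) ∣ c) (hpW : (p : ℤ) ∣ hom (2 * d) (wr A B) k.1 k.2)
    (hpW' : (p' : ℤ) ∣ hom (2 * d) (wr A B) l.1 l.2) (hP0 : 0 ≤ P)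
    (h1 : c ^ 2 ∣ ((d + 1).factorial : ℤ) * wd k l * hom (2 * d) (wr A B) k.1 k.2)
    (h2 : c ^ 2 ∣ ((d + 1).factorial : ℤ) * wd l k * hom (2 * d) (wr A B) l.1 l.2)
    (hNM : N ≠ M) : P / (2 * ((d + 1).factorial : ℝ)) ≤ |(M : ℝ) - N| := by
  have hk2' : (k.2 : ℝ) ≠ 0 := by exact_mod_cast hk2
  have hl2' : (l.2 : ℝ) ≠ 0 := by exact_mod_cast hl2
  have hf : ((d + 1).factorial : ℤ) ≠ 0 := by exact_mod_cast (d + 1).factorial_ne_zero
  have hfp : (0 : ℝ) < ((d + 1).factorial : ℝ) := by exact_mod_cast (d + 1).factorial_pos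
  -- dyadic sizes
  have dy : ∀ a b : ℤ, a ≠ 0 → b ≠ 0 → Nat.log 2 a.natAbs = Nat.log 2 b.natAbs →
      |(b : ℝ)| ≤ 2 * |(a : ℝ)| := by
    intro a b ha hb h
    have e1 : 2 ^ Nat.log 2 a.natAbs ≤ a.natAbs :=
      Nat.pow_log_le_self 2 (Int.natAbs_ne_zero.2 ha)
    have e2 : b.natAbs < 2 ^ (Nat.log 2 b.natAbs + 1) :=
      Nat.lt_pow_succ_log_self (by norm_num) _
    rw [← h, pow_succ] at e2
    have e3 : b.natAbs ≤ 2 * a.natAbs := by omega
    have e4 : (b.natAbs : ℝ) ≤ 2 * (a.natAbs : ℝ) := by exact_mod_cast e3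
    rwa [Nat.cast_natAbs, Nat.cast_natAbs, Int.cast_abs, Int.cast_abs] at e4
  have hd1 := dy k.2 l.2 hk2 hl2 hdy
  have hd2 := dy l.2 k.2 hl2 hk2 hdy.symm
  have hne : (k.1 : ℝ) / k.2 ≠ (l.1 : ℝ) / l.2 := by
    intro h
    apply hNM
    have hc' : (c : ℝ) ≠ 0 := by exact_mod_cast hc
    have eAk := hom_real (d + 1) A hA k.1 k.2 hk2
    have eBk := hom_real (d + 1) B hB k.1 k.2 hk2
    have eAl := hom_real (d + 1) A hA l.1 l.2 hl2
    have eBl := hom_real (d + 1) B hB l.1 l.2 hl2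
    rw [hkA] at eAk
    rw [hlA, ← h] at eAl
    rw [hN] at eBk
    rw [hM, ← h] at eBl
    push_cast at eBk eBl
    set x : ℝ := (k.1 : ℝ) / k.2 with hx
    have hAx : aeval x A ≠ 0 := by
      rintro h; rw [h, mul_zero] at eAk; exact hc' eAk
    have q1 : (N : ℝ) * aeval x A = aeval x B := by
      have h1 : (k.2 : ℝ) ^ (d + 1) ≠ 0 := pow_ne_zero _ hk2'
      apply mul_left_cancel₀ h1
      linear_combination eBk - (N : ℝ) * eAk
    have q2 : (M : ℝ) * aeval x A = aeval x B := by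
      have h1 : (l.2 : ℝ) ^ (d + 1) ≠ 0 := pow_ne_zero _ hl2'
      apply mul_left_cancel₀ h1
      linear_combination eBl - (M : ℝ) * eAl
    have q3 : (N : ℝ) = M := mul_right_cancel₀ hAx (q1.trans q2.symm)
    exact_mod_cast q3
  have hw : wd k l ≠ 0 := by
    intro h0
    apply hne
    rw [div_eq_div_iff hk2' hl2']
    have : ((wd k l : ℤ) : ℝ) = 0 := by rw [h0]; simp
    unfold wd at this
    push_cast at this
    linarith
  have hw' : wd l k ≠ 0 := by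
    have : wd l k = - wd k l := by unfold wd; ring
    rw [this]; exact neg_ne_zero.2 hw
  have hwabs : |((wd l k : ℤ) : ℝ)| = |((wd k l : ℤ) : ℝ)| := by
    have : wd l k = - wd k l := by unfold wd; ring
    rw [this]; push_cast; exact abs_neg _
  have g1 := gap_lower c p (wd k l) (hom (2 * d) (wr A B) k.1 k.2) ((d + 1).factorial : ℤ)
    (Nat.prime_iff_prime_int.1 hp) hpc hpW hWk hw hf h1
  have g2 := gap_lower c p' (wd l k) (hom (2 * d) (wr A B) l.1 l.2) ((d + 1).factorial : ℤ)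
    (Nat.prime_iff_prime_int.1 hp') hpc' hpW' hWl hw' hf h2
  have conv : ∀ (p w W : ℤ), |p| * c ^ 2 ≤ |((d + 1).factorial : ℤ)| * |w| * |W| → P ≤ (p : ℝ) →
      0 ≤ p → P / ((d + 1).factorial : ℝ) * (c : ℝ) ^ 2 ≤ |(w : ℝ)| * |(W : ℝ)| := by
    intro p w W h hp hp0
    have e : (((|p| * c ^ 2 : ℤ)) : ℝ) ≤ ((|((d + 1).factorial : ℤ)| * |w| * |W| : ℤ) : ℝ) := by
      exact_mod_cast h
    rw [abs_of_nonneg hp0, abs_of_nonneg (by positivity : (0 : ℤ) ≤ ((d + 1).factorial : ℤ))] at e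
    push_cast at e
    rw [div_mul_eq_mul_div, div_le_iff₀ hfp]
    have : P * (c : ℝ) ^ 2 ≤ p * (c : ℝ) ^ 2 := mul_le_mul_of_nonneg_right hp (sq_nonneg _)
    calc P * (c : ℝ) ^ 2 ≤ p * (c : ℝ) ^ 2 := this
      _ ≤ _ := e
      _ = |(w : ℝ)| * |(W : ℝ)| * ((d + 1).factorial : ℝ) := by ring
  have m1 := conv p _ _ g1 (by exact_mod_cast hP) (by positivity)
  have m2 := conv p' _ _ g2 (by exact_mod_cast hP') (by positivity)
  rw [show P / (2 * ((d + 1).factorial : ℝ)) = P / ((d + 1).factorial : ℝ) / 2 by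
    rw [div_div, mul_comm]]
  have hm0 : 0 ≤ P / ((d + 1).factorial : ℝ) := by positivity
  rcases lt_or_gt_of_ne hne with hlt | hgt
  · refine pair_gap' d A B hA hB k l c hc hkA hlA hk2 hl2 N M hN hM hWk hWl hpos hd1 hd2 hlt _ hm0
      m1 ?_
    rw [← hwabs]; exact m2
  · rw [abs_sub_comm]
    refine pair_gap' d A B hA hB l k c hc hlA hkA hl2 hk2 M N hM hN hWl hWk hpos.symm hd2 hd1 hgt _
      hm0 m2 ?_
    rw [hwabs]; exact m1

/-- the count for one value `c` of `A` -/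
theorem per_c (d : ℕ) (A B : ℤ[X]) (hA : A.natDegree ≤ d + 1) (hB : B.natDegree ≤ d + 1)
    (c : ℤ) (hc : c ≠ 0) (S : Finset ℤ) (s t : ℤ → ℤ) (p : ℤ → ℕ) (X P : ℝ) (hX0 : 0 ≤ X)
    (hP0 : 0 < P) (L : ℕ)
    (hS : ∀ N ∈ S, |(N : ℝ)| ≤ X ∧ IsCoprime (s N) (t N) ∧ t N ≠ 0 ∧
      Nat.log 2 (t N).natAbs ≤ L ∧ hom (d + 1) A (s N) (t N) = c ∧
      hom (d + 1) B (s N) (t N) = c * N ∧ (p N).Prime ∧ P ≤ p N ∧ ¬ ((p N : ℤ) ∣ c) ∧
      (p N : ℤ) ∣ hom (2 * d) (wr A B) (s N) (t N) ∧ hom (2 * d) (wr A B) (s N) (t N) ≠ 0) :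
    (S.card : ℝ) ≤ ((d : ℝ) + 1) ^ c.natAbs.primeFactors.card * ((6 * d + 3) * (L + 1)
      * (1 + 4 * ((d + 1).factorial : ℝ) * X / P)) := by
  classical
  obtain ⟨col, hcol1, hcol2⟩ := gap_local d A B hA hB c hc (S.image fun N => (s N, t N)) (by
    intro k hk
    obtain ⟨N, hN, rfl⟩ := Finset.mem_image.1 hk
    obtain ⟨h1, h2, h3, h4, h5, h6, h7, h8, h9, h10, h11⟩ := hS N hN
    exact ⟨h2, h5, ⟨N, h6⟩⟩)
  set key : ℤ → (ℕ × ℕ) × ℕ := fun N =>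
    ((col (s N, t N), pos A B ((s N : ℝ) / t N)), Nat.log 2 (t N).natAbs) with hkey
  set T : Finset ((ℕ × ℕ) × ℕ) :=
    (Finset.range ((d + 1) ^ c.natAbs.primeFactors.card) ×ˢ Finset.range (6 * d + 3))
      ×ˢ Finset.range (L + 1) with hT
  have hmap : ∀ N ∈ S, key N ∈ T := by
    intro N hN
    obtain ⟨h1, h2, h3, h4, h5, h6, h7, h8, h9, h10, h11⟩ := hS N hN
    rw [hT, Finset.mem_product, Finset.mem_product, Finset.mem_range, Finset.mem_range,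
      Finset.mem_range]
    refine ⟨⟨hcol1 _ (Finset.mem_image_of_mem _ hN), ?_⟩, by simpa [hkey] using Nat.lt_succ_of_le h4⟩
    have := (pos_le A B ((s N : ℝ) / t N)).trans (card_bad d A B hA hB)
    simp only [hkey]
    omega
  have hfib : ∀ b ∈ T, ((S.filter fun N => key N = b).card : ℝ)
      ≤ 1 + 4 * ((d + 1).factorial : ℝ) * X / P := by
    intro b _
    have hfp : (0 : ℝ) < ((d + 1).factorial : ℝ) := by exact_mod_cast (d + 1).factorial_pos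
    have := sep_card (S.filter fun N => key N = b) X (P / (2 * ((d + 1).factorial : ℝ)))
      (by positivity) hX0 (fun N hN => (hS N (Finset.mem_filter.1 hN).1).1) (by
      intro N hN M hM hNM
      obtain ⟨hNS, hNb⟩ := Finset.mem_filter.1 hN
      obtain ⟨hMS, hMb⟩ := Finset.mem_filter.1 hM
      have hk : key N = key M := hNb.trans hMb.symm
      simp only [hkey, Prod.mk.injEq] at hk
      obtain ⟨⟨hk1, hk2⟩, hk3⟩ := hk
      obtain ⟨h1, h2, h3, h4, h5, h6, h7, h8, h9, h10, h11⟩ := hS N hNS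
      obtain ⟨g1, g2, g3, g4, g5, g6, g7, g8, g9, g10, g11⟩ := hS M hMS
      exact pair_gap d A B hA hB (s N, t N) (s M, t M) c hc h5 g5 h3 g3 N M h6 g6 h11 g11 hk2 hk3
        (p N) (p M) P h7 g7 h8 g8 h9 g9 h10 g10 hP0.le
        (hcol2 _ (Finset.mem_image_of_mem _ hNS) _ (Finset.mem_image_of_mem _ hMS) hk1)
        (hcol2 _ (Finset.mem_image_of_mem _ hMS) _ (Finset.mem_image_of_mem _ hNS) hk1.symm) hNM)
    refine this.trans (le_of_eq ?_)
    congr 1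
    field_simp
    ring
  rw [Finset.card_eq_sum_card_fiberwise hmap]
  push_cast
  refine (Finset.sum_le_card_nsmul T _ _ hfib).trans (le_of_eq ?_)
  rw [nsmul_eq_mul, hT, Finset.card_product, Finset.card_product, Finset.card_range,
    Finset.card_range, Finset.card_range]
  push_cast
  ring

end Vale.Agent.P018.Q.Gap
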