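import Vale.Agent.P018.Q.GapLocal
import Vale.Agent.P018.RationalCase

/-! # P018, quartics, gap lemma: resultants and divisors. -/

namespace Vale.Agent.P018.Q.Gap

open Polynomial

theorem dvd_of_form {c x a s t w R0 : ℤ} {D m : ℕ} (hx : x = a * s ^ D + t * w) (hcx : c ∣ x)
    (hR : c ∣ R0 * t ^ m) (hst : IsCoprime s t) : c ∣ R0 * a ^ m := by
  have h1 : c ∣ (a * s ^ D) ^ m - (-(t * w)) ^ m := by
    refine dvd_trans ?_ (sub_dvd_pow_sub_pow (a * s ^ D) (-(t * w)) m)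
    have : a * s ^ D - -(t * w) = x := by rw [hx]; ring
    rw [this]
    exact hcx
  have h2 : c ∣ R0 * a ^ m * s ^ (D * m) := by
    have h3 : R0 * a ^ m * s ^ (D * m) = R0 * ((a * s ^ D) ^ m - (-(t * w)) ^ m) +
        R0 * t ^ m * (-w) ^ m := by
      rw [pow_mul]; ring
    rw [h3]
    exact dvd_add (Dvd.dvd.mul_left h1 _) (Dvd.dvd.mul_right hR _)
  have h4 : c ∣ R0 * a ^ m * t ^ m := by
    have h5 : R0 * a ^ m * t ^ m = R0 * t ^ m * a ^ m := by ring
    rw [h5]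
    exact Dvd.dvd.mul_right hR _
  obtain ⟨u, v, huv⟩ : IsCoprime (s ^ (D * m)) (t ^ m) := hst.pow
  have h6 : R0 * a ^ m = u * (R0 * a ^ m * s ^ (D * m)) + v * (R0 * a ^ m * t ^ m) := by
    linear_combination (-(R0 * a ^ m)) * huv
  rw [h6]
  exact dvd_add (Dvd.dvd.mul_left h2 _) (Dvd.dvd.mul_left h4 _)

theorem hom_top (D : ℕ) (A : ℤ[X]) (s t : ℤ) :
    ∃ w : ℤ, hom D A s t = A.coeff D * s ^ D + t * w := by
  refine ⟨∑ i ∈ Finset.range D, A.coeff i * s ^ i * t ^ (D - i - 1), ?_⟩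
  unfold hom
  rw [Finset.sum_range_succ, Finset.mul_sum]
  simp only [Int.cast_id, Nat.sub_self, pow_zero, mul_one]
  rw [add_comm]
  congr 1
  refine Finset.sum_congr rfl fun i hi => ?_
  have : D - i = (D - i - 1) + 1 := by have := Finset.mem_range.1 hi; omega
  conv_lhs => rw [this]
  ring

theorem resultant_ne_zero' {D1 : ℕ} (hD1 : 1 ≤ D1) {A B : ℤ[X]} (hA : A.natDegree ≤ D1)
    (hB : B.natDegree ≤ D1) (hAB : A.natDegree = D1 ∨ B.natDegree = D1)
    (hcop : IsCoprime (A.map (Int.castRingHom ℚ)) (B.map (Int.castRingHom ℚ))) :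
    resultant A B D1 D1 ≠ 0 := by
  have hinj : Function.Injective (Int.castRingHom ℚ) := Int.cast_injective
  set f := A.map (Int.castRingHom ℚ) with hf
  set g := B.map (Int.castRingHom ℚ) with hg
  have hfd : f.natDegree = A.natDegree := natDegree_map_eq_of_injective hinj _
  have hgd : g.natDegree = B.natDegree := natDegree_map_eq_of_injective hinj _
  have h1 : resultant f g D1 D1 ≠ 0 := by
    have h2 := resultant_ne_zero f g hcop
    rcases hAB with h | h
    · have h3 := resultant_add_right_deg f g D1 g.natDegree (D1 - g.natDegree) le_rfl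
      rw [Nat.add_sub_cancel' (hgd.trans_le hB)] at h3
      rw [h3]
      refine mul_ne_zero (pow_ne_zero _ ?_) ?_
      · rw [← h, ← hfd, coeff_natDegree, leadingCoeff_ne_zero]
        intro h0
        rw [h0, natDegree_zero] at hfd
        omega
      · rw [← h, ← hfd]; exact h2
    · have h3 := resultant_add_left_deg f g f.natDegree D1 (D1 - f.natDegree) le_rfl
      rw [Nat.add_sub_cancel' (hfd.trans_le hA)] at h3
      rw [h3]
      refine mul_ne_zero (mul_ne_zero (pow_ne_zero _ (by norm_num)) (pow_ne_zero _ ?_)) ?_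
      · rw [← h, ← hgd, coeff_natDegree, leadingCoeff_ne_zero]
        intro h0
        rw [h0, natDegree_zero] at hgd
        omega
      · rw [← h, ← hgd]; exact h2
  intro h0
  apply h1
  rw [hf, hg, resultant_map_map, h0, map_zero]

/-- a common divisor of two coprime forms at a coprime pair divides a fixed integer. -/
theorem exists_res (D C : ℕ) : ∃ C1 : ℕ, ∀ (H : ℕ) (D1 : ℕ) (A B : ℤ[X]), 2 ≤ H → 1 ≤ D1 →
    D1 ≤ D → A.natDegree ≤ D1 → B.natDegree ≤ D1 → (A.natDegree = D1 ∨ B.natDegree = D1) →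
    IsCoprime (A.map (Int.castRingHom ℚ)) (B.map (Int.castRingHom ℚ)) →
    (∀ i, |A.coeff i| ≤ (H : ℤ) ^ C) → (∀ i, |B.coeff i| ≤ (H : ℤ) ^ C) →
    ∃ R : ℤ, R ≠ 0 ∧ |R| ≤ (H : ℤ) ^ C1 ∧ ∀ s t : ℤ, IsCoprime s t →
      hom D1 A s t ∣ hom D1 B s t → hom D1 A s t ∣ R := by
  refine ⟨(2 * D).factorial + C * (2 * D) + C * (2 * D), ?_⟩
  intro H D1 A B hH hD1 hD1D hA hB hAB hcop hAc hBc
  obtain ⟨P, Q, hP, hQ, hPQ⟩ := exists_mul_add_mul_eq_C_resultant A B hA hB
    (Or.inl (by omega : D1 ≠ 0))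
  have hR0 := resultant_ne_zero' hD1 hA hB hAB hcop
  set R0 : ℤ := resultant A B D1 D1 with hR0def
  have hnd : ∀ (P : ℤ[X]), P.degree < (D1 : WithBot ℕ) → P.natDegree ≤ D1 - 1 := by
    intro P hP
    rcases eq_or_ne P 0 with rfl | h0
    · simp
    · rw [← natDegree_lt_iff_degree_lt h0] at hP
      omega
  have hH1 : (1 : ℤ) ≤ H := by exact_mod_cast (by omega : 1 ≤ H)
  -- the coefficient of the top degree
  obtain ⟨a, ha0, haC, ha⟩ : ∃ a : ℤ, a ≠ 0 ∧ |a| ≤ (H : ℤ) ^ C ∧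
      ∀ s t : ℤ, hom D1 A s t ∣ hom D1 B s t → ∃ x w : ℤ, x = a * s ^ D1 + t * w ∧
        hom D1 A s t ∣ x := by
    rcases hAB with h | h
    · refine ⟨A.coeff D1, ?_, hAc _, ?_⟩
      · rw [← h, coeff_natDegree, leadingCoeff_ne_zero]
        rintro rfl
        simp at h
        omega
      · intro s t _
        obtain ⟨w, hw⟩ := hom_top D1 A s t
        exact ⟨_, w, hw, dvd_rfl⟩
    · refine ⟨B.coeff D1, ?_, hBc _, ?_⟩
      · rw [← h, coeff_natDegree, leadingCoeff_ne_zero]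
        rintro rfl
        simp at h
        omega
      · intro s t hst
        obtain ⟨w, hw⟩ := hom_top D1 B s t
        exact ⟨_, w, hw, hst⟩
  refine ⟨R0 * a ^ (D1 + (D1 - 1)), mul_ne_zero hR0 (pow_ne_zero _ ha0), ?_, ?_⟩
  · rw [abs_mul, abs_pow]
    have h1 : |R0| ≤ (((D1 + D1).factorial : ℕ) : ℤ) * ((H : ℤ) ^ C) ^ (D1 + D1) :=
      resultant_abs_le A B _ (by positivity) hAc hBc D1 D1
    have h2 : (((D1 + D1).factorial : ℕ) : ℤ) ≤ (H : ℤ) ^ (2 * D).factorial := by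
      have h3 : (D1 + D1).factorial ≤ (2 * D).factorial := Nat.factorial_le (by omega)
      have h4 : (2 * D).factorial ≤ 2 ^ (2 * D).factorial := Nat.lt_two_pow_self.le
      have h5 : 2 ^ (2 * D).factorial ≤ H ^ (2 * D).factorial := Nat.pow_le_pow_left hH _
      exact_mod_cast h3.trans (h4.trans h5)
    have h6 : ((H : ℤ) ^ C) ^ (D1 + D1) ≤ (H : ℤ) ^ (C * (2 * D)) := by
      rw [← pow_mul]
      exact pow_le_pow_right₀ hH1 (Nat.mul_le_mul_left _ (by omega))
    have h7 : |a| ^ (D1 + (D1 - 1)) ≤ (H : ℤ) ^ (C * (2 * D)) := by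
      calc |a| ^ (D1 + (D1 - 1)) ≤ ((H : ℤ) ^ C) ^ (D1 + (D1 - 1)) :=
            pow_le_pow_left₀ (abs_nonneg _) haC _
        _ = (H : ℤ) ^ (C * (D1 + (D1 - 1))) := (pow_mul _ _ _).symm
        _ ≤ _ := pow_le_pow_right₀ hH1 (Nat.mul_le_mul_left _ (by omega))
    rw [pow_add (H : ℤ) ((2 * D).factorial + C * (2 * D)), pow_add (H : ℤ) (2 * D).factorial]
    refine mul_le_mul (h1.trans ?_) h7 (by positivity) (by positivity)
    exact mul_le_mul h2 h6 (by positivity) (by positivity)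
  · intro s t hst hdvd
    obtain ⟨x, w, hx, hcx⟩ := ha s t hdvd
    refine dvd_of_form hx hcx ?_ hst
    have h1 : hom (D1 + (D1 - 1)) (A * P + B * Q) s t =
        hom D1 A s t * hom (D1 - 1) P s t + hom D1 B s t * hom (D1 - 1) Q s t := by
      rw [hom_add, hom_mul _ _ _ _ hA (hnd P hP), hom_mul _ _ _ _ hB (hnd Q hQ)]
    have h2 : hom (D1 + (D1 - 1)) (A * P + B * Q) s t = R0 * t ^ (D1 + (D1 - 1)) := by
      rw [hPQ, ← monomial_zero_left, hom_monomial _ 0 (Nat.zero_le _)]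
      simp
    rw [← h2, h1]
    exact dvd_add (Dvd.intro _ rfl) (Dvd.dvd.mul_right hdvd _)

/-- divisors weighted with an exponential of the number of primes. -/
theorem sum_omega (D : ℕ) (ε : ℝ) (hε : 0 < ε) (C1 : ℕ) : ∃ K : ℝ, 0 < K ∧
    ∀ (H : ℕ) (R : ℤ), 2 ≤ H → R ≠ 0 → |R| ≤ (H : ℤ) ^ C1 →
      ∑ c ∈ Nat.divisors R.natAbs, ((D : ℝ) ^ (c.primeFactors.card)) ≤ K * (H : ℝ) ^ ε := by
  set δ : ℝ := ε / ((C1 + 1) * (D + 1)) with hδ
  have hδ0 : 0 < δ := by positivity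
  obtain ⟨Cd, hCd1, hCd⟩ := divisor_bound δ hδ0
  have hCd0 : 0 < Cd := by linarith
  refine ⟨Cd ^ (D + 1), by positivity, ?_⟩
  intro H R hH hR hRH
  set r := R.natAbs with hr
  have hr0 : r ≠ 0 := Int.natAbs_ne_zero.2 hR
  have hrH : (r : ℝ) ≤ (H : ℝ) ^ C1 := by
    have h1 : ((r : ℕ) : ℤ) ≤ (H : ℤ) ^ C1 := by rw [hr, Int.natCast_natAbs]; exact hRH
    exact_mod_cast h1
  have hr1 : (1 : ℝ) ≤ r := by exact_mod_cast Nat.one_le_iff_ne_zero.2 hr0
  have hH1 : (1 : ℝ) ≤ H := by exact_mod_cast (by omega : 1 ≤ H)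
  have hterm : ∀ c ∈ Nat.divisors r, ((D : ℝ) ^ (c.primeFactors.card)) ≤ (Cd * (r : ℝ) ^ δ) ^ D := by
    intro c hc
    have hcr := Nat.dvd_of_mem_divisors hc
    have hc0 : c ≠ 0 := fun h => hr0 (by simpa [h] using hcr)
    have h1 : 2 ^ c.primeFactors.card ≤ c.divisors.card := by
      rw [Nat.card_divisors hc0]
      refine Finset.pow_card_le_prod _ _ _ fun p hp => ?_
      have : c.factorization p ≠ 0 := by
        rw [← Finsupp.mem_support_iff, Nat.support_factorization]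
        exact hp
      omega
    have h2 : ((D : ℝ) ^ (c.primeFactors.card)) ≤ ((2 : ℝ) ^ c.primeFactors.card) ^ D := by
      rw [← pow_mul, mul_comm, pow_mul]
      refine pow_le_pow_left₀ (by positivity) ?_ _
      exact_mod_cast Nat.lt_two_pow_self.le
    have h3 : (c.divisors.card : ℝ) ≤ Cd * (r : ℝ) ^ δ := by
      refine (hCd c hc0).trans ?_
      refine mul_le_mul_of_nonneg_left ?_ hCd0.le
      refine Real.rpow_le_rpow (by positivity) ?_ hδ0.le
      exact_mod_cast Nat.le_of_dvd (Nat.pos_of_ne_zero hr0) hcr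
    refine h2.trans (pow_le_pow_left₀ (by positivity) ?_ _)
    exact le_trans (by exact_mod_cast h1) h3
  have hsum : ∑ c ∈ Nat.divisors r, ((D : ℝ) ^ (c.primeFactors.card)) ≤
      (Nat.divisors r).card * (Cd * (r : ℝ) ^ δ) ^ D := by
    have := Finset.sum_le_card_nsmul _ _ _ hterm
    rwa [nsmul_eq_mul] at this
  refine hsum.trans ?_
  have h4 : ((Nat.divisors r).card : ℝ) * (Cd * (r : ℝ) ^ δ) ^ D ≤ (Cd * (r : ℝ) ^ δ) ^ (D + 1) := by
    rw [pow_succ, mul_comm]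
    exact mul_le_mul_of_nonneg_left (hCd r hr0) (by positivity)
  refine h4.trans ?_
  rw [mul_pow]
  refine mul_le_mul_of_nonneg_left ?_ (by positivity)
  rw [← Real.rpow_natCast, ← Real.rpow_mul (by positivity)]
  calc (r : ℝ) ^ (δ * ((D + 1 : ℕ) : ℝ)) ≤ ((H : ℝ) ^ C1) ^ (δ * ((D + 1 : ℕ) : ℝ)) :=
        Real.rpow_le_rpow (by positivity) hrH (by positivity)
    _ = (H : ℝ) ^ (C1 * (δ * ((D + 1 : ℕ) : ℝ))) := by
        rw [← Real.rpow_natCast, ← Real.rpow_mul (by positivity)]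
    _ ≤ (H : ℝ) ^ ε := by
        refine Real.rpow_le_rpow_of_exponent_le hH1 ?_
        rw [hδ]
        push_cast
        have h5 : (C1 : ℝ) * (ε / ((C1 + 1) * (D + 1)) * (D + 1)) = ε * (C1 / (C1 + 1)) := by
          field_simp
        rw [h5]
        have h6 : (C1 : ℝ) / (C1 + 1) ≤ 1 := by
          rw [div_le_one (by positivity)]; linarith
        nlinarith

end Vale.Agent.P018.Q.Gap
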