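import Mathlib
import Vale.Agent.P018.Q.GapAsm
import Vale.Agent.P018.Q.GapDiv

/-! # P018, quartics: the gap lemma for parametrised curves. -/

namespace Vale.Agent.P018.Q

open Polynomial Gap

theorem hom_zero_right (D : ℕ) (A : ℤ[X]) (s : ℤ) : hom D A s 0 = A.coeff D * s ^ D := by
  rw [hom, Finset.sum_range_succ, Finset.sum_eq_zero]
  · simp
  · intro i hi
    have : D - i ≠ 0 := by have := Finset.mem_range.1 hi; omega
    rw [zero_pow this, mul_zero]

theorem gap_lemma (D C : ℕ) (ε : ℝ) (hε : 0 < ε) :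
    ∃ K : ℝ, 0 < K ∧ ∀ (H : ℕ) (X P : ℝ) (D' : ℕ) (A B : ℤ[X]) (S : Finset ℤ) (s t : ℤ → ℤ)
      (p : ℤ → ℕ), 2 ≤ H → 1 ≤ X → 1 ≤ P → 1 ≤ D' → D' ≤ D →
      A.natDegree ≤ D' → B.natDegree ≤ D' → (A.natDegree = D' ∨ B.natDegree = D') →
      IsCoprime (A.map (Int.castRingHom ℚ)) (B.map (Int.castRingHom ℚ)) →
      (∀ i, |A.coeff i| ≤ (H : ℤ) ^ C) → (∀ i, |B.coeff i| ≤ (H : ℤ) ^ C) →
      (∀ N ∈ S, |(N : ℝ)| ≤ X ∧ IsCoprime (s N) (t N) ∧
        |s N| ≤ (H : ℤ) ^ C ∧ |t N| ≤ (H : ℤ) ^ C ∧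
        hom D' A (s N) (t N) * N = hom D' B (s N) (t N) ∧ hom D' A (s N) (t N) ≠ 0 ∧
        (p N).Prime ∧ P ≤ p N ∧ ¬ ((p N : ℤ) ∣ hom D' A (s N) (t N)) ∧
        (p N : ℤ) ∣ hom (2 * D' - 2) (wr A B) (s N) (t N) ∧
        hom (2 * D' - 2) (wr A B) (s N) (t N) ≠ 0) →
      (S.card : ℝ) ≤ K * (H : ℝ) ^ ε * (1 + X / P) := by
  classical
  obtain ⟨C1, hC1⟩ := exists_res D C
  obtain ⟨K1, hK1, hK1'⟩ := sum_omega D (ε / 2) (by positivity) C1
  have hlog2 : (0 : ℝ) < Real.log 2 := Real.log_pos (by norm_num)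
  set K2 : ℝ := 1 + C * (2 / ε) / Real.log 2 with hK2
  have hK2p : 0 < K2 := by positivity
  refine ⟨1 + 2 * K1 * ((6 * D + 3) * K2) * (1 + 4 * (D.factorial : ℝ)), by positivity, ?_⟩
  intro H X P D' A B S s t p hH hX hP hD1 hDD hA hB hAB hcop hAH hBH hS
  obtain ⟨d, rfl⟩ : ∃ d, D' = d + 1 := ⟨D' - 1, by omega⟩
  rw [show 2 * (d + 1) - 2 = 2 * d by omega] at hS
  obtain ⟨R, hR0, hRH, hR⟩ := hC1 H (d + 1) A B hH hD1 hDD hA hB hAB hcop hAH hBH
  have hsum := hK1' H R hH hR0 hRH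
  have hHR : (1 : ℝ) ≤ H := by exact_mod_cast (show 1 ≤ H by omega)
  have hP0 : 0 < P := by linarith
  have hfac : (((d + 1).factorial : ℕ) : ℝ) ≤ (D.factorial : ℝ) := by
    exact_mod_cast Nat.factorial_le hDD
  have hfp : (0 : ℝ) < (((d + 1).factorial : ℕ) : ℝ) := by
    exact_mod_cast (d + 1).factorial_pos
  -- the logarithmic factor
  set L : ℕ := Nat.log 2 (H ^ C) with hL
  have hLb : (L : ℝ) + 1 ≤ K2 * (H : ℝ) ^ (ε / 2) := by
    have h1 : (2 : ℝ) ^ L ≤ (H : ℝ) ^ C := by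
      have := Nat.pow_log_le_self 2 (x := H ^ C) (pow_ne_zero _ (by omega))
      exact_mod_cast this
    have h2 : (L : ℝ) * Real.log 2 ≤ C * Real.log H := by
      have := Real.log_le_log (by positivity) h1
      rwa [Real.log_pow, Real.log_pow] at this
    have h3 : Real.log H ≤ (H : ℝ) ^ (ε / 2) / (ε / 2) :=
      Real.log_le_rpow_div (by positivity) (by positivity)
    have h4 : (1 : ℝ) ≤ (H : ℝ) ^ (ε / 2) := Real.one_le_rpow hHR (by positivity)
    have h5 : (L : ℝ) ≤ C * (2 / ε) / Real.log 2 * (H : ℝ) ^ (ε / 2) := by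
      rw [div_mul_eq_mul_div, le_div_iff₀ hlog2]
      refine h2.trans ?_
      calc (C : ℝ) * Real.log H ≤ C * ((H : ℝ) ^ (ε / 2) / (ε / 2)) := by gcongr
        _ = C * (2 / ε) * (H : ℝ) ^ (ε / 2) := by field_simp
    rw [hK2]
    linarith
  -- the exceptional point
  set S0 := S.filter fun N => t N = 0 with hS0
  set S1 := S.filter fun N => t N ≠ 0 with hS1
  have hS01 : S.card = S0.card + S1.card := by
    rw [hS0, hS1]; exact (Finset.card_filter_add_card_filter_not _).symm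
  have hS0c : S0.card ≤ 1 := by
    rw [Finset.card_le_one]
    have one : ∀ N ∈ S0, A.coeff (d + 1) ≠ 0 ∧ A.coeff (d + 1) * N = B.coeff (d + 1) := by
      intro N hN
      obtain ⟨hNS, ht⟩ := Finset.mem_filter.1 hN
      obtain ⟨-, h2, -, -, h5, h6, -⟩ := hS N hNS
      rw [ht, hom_zero_right] at h6 h5
      rw [hom_zero_right] at h5
      have hs : (s N) ^ (d + 1) ≠ 0 := right_ne_zero_of_mul h6
      refine ⟨left_ne_zero_of_mul h6, ?_⟩
      apply mul_right_cancel₀ hs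
      linear_combination h5
    intro N hN M hM
    obtain ⟨h1, h2⟩ := one N hN
    obtain ⟨-, h3⟩ := one M hM
    exact mul_left_cancel₀ h1 (h2.trans h3.symm)
  -- the other points
  set Q : ℝ := (6 * d + 3) * (L + 1) * (1 + 4 * (((d + 1).factorial : ℕ) : ℝ) * X / P) with hQ
  have hQ0 : 0 ≤ Q := by positivity
  have hc : ∀ c : ℤ, c ≠ 0 → ((S1.filter fun N => hom (d + 1) A (s N) (t N) = c).card : ℝ)
      ≤ ((d : ℝ) + 1) ^ c.natAbs.primeFactors.card * Q := by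
    intro c hc
    refine per_c d A B hA hB c hc _ s t p X P (by linarith) hP0 L ?_
    intro N hN
    obtain ⟨hN1, hNc⟩ := Finset.mem_filter.1 hN
    obtain ⟨hNS, ht⟩ := Finset.mem_filter.1 hN1
    obtain ⟨h1, h2, h3, h4, h5, h6, h7, h8, h9, h10, h11⟩ := hS N hNS
    refine ⟨h1, h2, ht, ?_, hNc, ?_, h7, h8, ?_, h10, h11⟩
    · refine Nat.log_mono_right ?_
      have : ((t N).natAbs : ℤ) ≤ ((H ^ C : ℕ) : ℤ) := by
        rw [Int.natCast_natAbs]; push_cast; exact h4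
      exact_mod_cast this
    · rw [← h5, hNc]
    · rw [← hNc]; exact h9
  have hmaps : ∀ N ∈ S1, (hom (d + 1) A (s N) (t N)).natAbs ∈ Nat.divisors R.natAbs := by
    intro N hN
    obtain ⟨hNS, ht⟩ := Finset.mem_filter.1 hN
    obtain ⟨h1, h2, h3, h4, h5, h6, -⟩ := hS N hNS
    rw [Nat.mem_divisors]
    refine ⟨Int.natAbs_dvd_natAbs.2 (hR _ _ h2 ⟨N, h5.symm⟩), Int.natAbs_ne_zero.2 hR0⟩
  have hS1c : (S1.card : ℝ) ≤ 2 * (K1 * (H : ℝ) ^ (ε / 2)) * Q := by
    rw [Finset.card_eq_sum_card_fiberwise hmaps]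
    push_cast
    have hm : ∀ m ∈ Nat.divisors R.natAbs,
        ((S1.filter fun N => (hom (d + 1) A (s N) (t N)).natAbs = m).card : ℝ)
          ≤ (D : ℝ) ^ m.primeFactors.card * (2 * Q) := by
      intro m hm
      have hm0 : m ≠ 0 := (Nat.pos_of_mem_divisors hm).ne'
      have h1 := hc (m : ℤ) (by exact_mod_cast hm0)
      have h2 := hc (-(m : ℤ)) (by simpa using hm0)
      rw [Int.natAbs_neg] at h2
      rw [Int.natAbs_natCast] at h1 h2
      have h3 : (S1.filter fun N => (hom (d + 1) A (s N) (t N)).natAbs = m)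
          ⊆ (S1.filter fun N => hom (d + 1) A (s N) (t N) = (m : ℤ))
            ∪ (S1.filter fun N => hom (d + 1) A (s N) (t N) = -(m : ℤ)) := by
        intro N hN
        obtain ⟨hN1, hN2⟩ := Finset.mem_filter.1 hN
        rcases Int.natAbs_eq (hom (d + 1) A (s N) (t N)) with h | h
        · exact Finset.mem_union_left _ (Finset.mem_filter.2 ⟨hN1, by rw [h, hN2]⟩)
        · exact Finset.mem_union_right _ (Finset.mem_filter.2 ⟨hN1, by rw [h, hN2]⟩)
      have h4 := (Finset.card_le_card h3).trans (Finset.card_union_le _ _)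
      have h5 : ((S1.filter fun N => (hom (d + 1) A (s N) (t N)).natAbs = m).card : ℝ)
          ≤ ((S1.filter fun N => hom (d + 1) A (s N) (t N) = (m : ℤ)).card : ℝ)
            + ((S1.filter fun N => hom (d + 1) A (s N) (t N) = -(m : ℤ)).card : ℝ) := by
        exact_mod_cast h4
      have h6 : ((d : ℝ) + 1) ^ m.primeFactors.card ≤ (D : ℝ) ^ m.primeFactors.card := by
        refine pow_le_pow_left₀ (by positivity) ?_ _
        exact_mod_cast hDD
      have h7 := mul_le_mul_of_nonneg_right h6 hQ0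
      linarith
    refine (Finset.sum_le_sum hm).trans ?_
    rw [← Finset.sum_mul]
    calc _ ≤ K1 * (H : ℝ) ^ (ε / 2) * (2 * Q) := by
          exact mul_le_mul_of_nonneg_right hsum (by positivity)
      _ = _ := by ring
  -- conclusion
  have hXP : 0 ≤ X / P := by positivity
  have hQb : Q ≤ ((6 * D + 3) * (K2 * (H : ℝ) ^ (ε / 2))) * ((1 + 4 * (D.factorial : ℝ))
      * (1 + X / P)) := by
    rw [hQ]
    have a1 : (6 * (d : ℝ) + 3) ≤ 6 * D + 3 := by
      have : ((d + 1 : ℕ) : ℝ) ≤ D := by exact_mod_cast hDD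
      push_cast at this
      linarith
    have a2 : (1 + 4 * (((d + 1).factorial : ℕ) : ℝ) * X / P)
        ≤ (1 + 4 * (D.factorial : ℝ)) * (1 + X / P) := by
      have : 4 * (((d + 1).factorial : ℕ) : ℝ) * X / P
          = 4 * (((d + 1).factorial : ℕ) : ℝ) * (X / P) := by ring
      rw [this]
      nlinarith
    refine mul_le_mul ?_ a2 (by positivity) (by positivity)
    exact mul_le_mul a1 hLb (by positivity) (by positivity)
  have hHe : (H : ℝ) ^ ε = (H : ℝ) ^ (ε / 2) * (H : ℝ) ^ (ε / 2) := by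
    rw [← Real.rpow_add (by linarith)]; congr 1; ring
  have hHe1 : (1 : ℝ) ≤ (H : ℝ) ^ ε := Real.one_le_rpow hHR hε.le
  have e1 : (S.card : ℝ) ≤ 1 + 2 * (K1 * (H : ℝ) ^ (ε / 2)) * Q := by
    rw [hS01]; push_cast
    have : (S0.card : ℝ) ≤ 1 := by exact_mod_cast hS0c
    linarith
  have e2 : 2 * (K1 * (H : ℝ) ^ (ε / 2)) * Q ≤ 2 * (K1 * (H : ℝ) ^ (ε / 2))
      * (((6 * D + 3) * (K2 * (H : ℝ) ^ (ε / 2))) * ((1 + 4 * (D.factorial : ℝ))
      * (1 + X / P))) := mul_le_mul_of_nonneg_left hQb (by positivity)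
  have e3 : (1 : ℝ) ≤ (H : ℝ) ^ ε * (1 + X / P) := by nlinarith
  calc (S.card : ℝ) ≤ 1 + 2 * (K1 * (H : ℝ) ^ (ε / 2))
      * (((6 * D + 3) * (K2 * (H : ℝ) ^ (ε / 2))) * ((1 + 4 * (D.factorial : ℝ))
      * (1 + X / P))) := by linarith
    _ ≤ (H : ℝ) ^ ε * (1 + X / P) + 2 * (K1 * (H : ℝ) ^ (ε / 2))
      * (((6 * D + 3) * (K2 * (H : ℝ) ^ (ε / 2))) * ((1 + 4 * (D.factorial : ℝ))
      * (1 + X / P))) := by linarith
    _ = _ := by rw [hHe]; ring

end Vale.Agent.P018.Q
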