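import Mathlib
import Vale.Agent.P018.Q.Gap

/-! # P018, quartics: bounded number of points for a bounded number of prime numbers. -/

namespace Vale.Agent.P018.Q.GapBad

open Polynomial Finset

/-- uniqueness of Hensel lifts modulo `p ^ 2` -/
theorem hensel_uniq (G : ℤ[X]) {p N N' : ℤ} (hp : Prime p) (h : p ∣ N' - N)
    (h1 : p ^ 2 ∣ G.eval N) (h2 : p ^ 2 ∣ G.eval N') (hd : ¬ p ∣ (derivative G).eval N) :
    p ^ 2 ∣ N' - N := by
  obtain ⟨k, hk⟩ := binomExpansion G N (N' - N)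
  rw [add_sub_cancel] at hk
  have h3 : p ^ 2 ∣ (derivative G).eval N * (N' - N) := by
    have : (derivative G).eval N * (N' - N) = G.eval N' - G.eval N - k * (N' - N) ^ 2 := by
      linear_combination -hk
    rw [this]
    exact dvd_sub (dvd_sub h2 h1) (Dvd.dvd.mul_left (pow_dvd_pow_of_dvd h 2) _)
  exact (IsCoprime.pow_left ((Prime.coprime_iff_not_dvd hp).2 hd)).dvd_of_dvd_mul_left h3

/-- a nonzero integer divisible by all common divisors of `G(N)` and `G'(N)` -/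
theorem exists_disc (G : ℤ[X]) (hGi : Irreducible (G.map (Int.castRingHom ℚ))) :
    ∃ m : ℤ, m ≠ 0 ∧ ∀ p N : ℤ, p ∣ G.eval N → p ∣ (derivative G).eval N → p ∣ m := by
  have hinj : Function.Injective (Int.castRingHom ℚ) := Int.cast_injective
  have hcop : IsCoprime (G.map (Int.castRingHom ℚ)) ((derivative G).map (Int.castRingHom ℚ)) := by
    have := hGi.separable
    rwa [Separable, derivative_map] at this
  have hres := resultant_ne_zero _ _ hcop
  have h0 : G.natDegree ≠ 0 := by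
    rw [← natDegree_map_eq_of_injective hinj]
    exact hGi.natDegree_pos.ne'
  obtain ⟨P, Q, -, -, hPQ⟩ := exists_mul_add_mul_eq_C_resultant G (derivative G)
    (le_refl G.natDegree) (le_refl (derivative G).natDegree) (Or.inl h0)
  refine ⟨resultant G (derivative G), ?_, ?_⟩
  · intro h
    apply hres
    rw [natDegree_map_eq_of_injective hinj, natDegree_map_eq_of_injective hinj, resultant_map_map,
      h, map_zero]
  · intro p N h1 h2
    have h3 := congrArg (eval N) hPQ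
    rw [eval_add, eval_mul, eval_mul, eval_C] at h3
    rw [← h3]
    exact dvd_add (Dvd.dvd.mul_right h1 _) (Dvd.dvd.mul_right h2 _)

/-- two solutions congruent modulo a large prime number are equal -/
theorem uniq_N (G : ℤ[X]) (hGi : Irreducible (G.map (Int.castRingHom ℚ))) (C : ℕ) :
    ∃ K : ℝ, 0 < K ∧ ∀ (p : ℕ) (N N' : ℤ), p.Prime → K ≤ p → |(N : ℝ)| ≤ C * p →
      |(N' : ℝ)| ≤ C * p → (p : ℤ) ^ 2 ∣ G.eval N → (p : ℤ) ^ 2 ∣ G.eval N' →
      (p : ℤ) ∣ N' - N → N = N' := by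
  obtain ⟨m, hm0, hm⟩ := exists_disc G hGi
  refine ⟨|(m : ℝ)| + 2 * C + 1, by positivity, ?_⟩
  intro p N N' hp hK hN hN' h1 h2 h
  have hpm : ¬ (p : ℤ) ∣ m := by
    intro h3
    have h4 := Int.le_of_dvd (abs_pos.2 hm0) ((dvd_abs _ _).2 h3)
    have h5 : (p : ℝ) ≤ |(m : ℝ)| := by exact_mod_cast h4
    have : (0 : ℝ) ≤ C := Nat.cast_nonneg _
    linarith
  have hpp : Prime (p : ℤ) := Nat.prime_iff_prime_int.1 hp
  have hd : ¬ (p : ℤ) ∣ (derivative G).eval N := by
    intro h3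
    exact hpm (hm _ N ((dvd_pow_self _ (by norm_num)).trans h1) h3)
  have h6 := hensel_uniq G hpp h h1 h2 hd
  by_contra hne
  have hne' : N' - N ≠ 0 := fun h => hne (by omega)
  have h7 := Int.le_of_dvd (abs_pos.2 hne') ((dvd_abs _ _).2 h6)
  have h8 : (p : ℝ) ^ 2 ≤ |(N' : ℝ) - N| := by exact_mod_cast h7
  have h9 : |(N' : ℝ) - N| ≤ |(N' : ℝ)| + |(N : ℝ)| := by
    have := abs_sub (N' : ℝ) (N : ℝ)
    exact this
  have hp0 : (0 : ℝ) < p := by exact_mod_cast hp.pos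
  have h10 : (0 : ℝ) ≤ |(m : ℝ)| := abs_nonneg _
  nlinarith

/-- for a given large prime number there are few `N` -/
theorem few_N (G : ℤ[X]) (hG : G.Monic) (hGi : Irreducible (G.map (Int.castRingHom ℚ))) (C : ℕ) :
    ∃ K : ℝ, 0 < K ∧ ∀ (p : ℕ) (S : Finset ℤ), p.Prime → K ≤ p →
      (∀ N ∈ S, |(N : ℝ)| ≤ C * p ∧ (p : ℤ) ^ 2 ∣ G.eval N) → S.card ≤ G.natDegree := by
  obtain ⟨K, hK, hu⟩ := uniq_N G hGi C
  refine ⟨K, hK, ?_⟩
  intro p S hp hKp hS
  classical
  have := Fact.mk hp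
  set g : (ZMod p)[X] := G.map (Int.castRingHom (ZMod p)) with hg
  have hg0 : g ≠ 0 := (hG.map _).ne_zero
  have h1 : S.card ≤ g.roots.toFinset.card := by
    refine Finset.card_le_card_of_injOn (fun N : ℤ => (N : ZMod p)) ?_ ?_
    · intro N hN
      simp only [Finset.mem_coe, Multiset.mem_toFinset]
      rw [mem_roots hg0, IsRoot.def, hg, eval_intCast_map]
      rw [eq_intCast, ZMod.intCast_zmod_eq_zero_iff_dvd]
      exact (dvd_pow_self _ (by norm_num)).trans (hS N hN).2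
    · intro N hN N' hN' h
      simp only at h
      rw [ZMod.intCast_eq_intCast_iff_dvd_sub] at h
      exact hu p N N' hp hKp (hS N hN).1 (hS N' hN').1 (hS N hN).2 (hS N' hN').2 h
  calc S.card ≤ g.roots.toFinset.card := h1
    _ ≤ g.roots.card := Multiset.toFinset_card_le _
    _ ≤ g.natDegree := card_roots' _
    _ ≤ G.natDegree := natDegree_map_le

/-- the number of large primes dividing a bounded integer -/
theorem card_primes (H : ℕ) (hH : 2 ≤ H) (C' : ℕ) (E : ℤ) (hE : E ≠ 0) (hEH : |E| ≤ (H : ℤ) ^ C')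
    (Q : Finset ℕ) (hQ : ∀ p ∈ Q, p.Prime ∧ H ≤ p ∧ (p : ℤ) ∣ E) : Q.card ≤ C' := by
  have h1 : ∏ p ∈ Q, p ∣ E.natAbs := by
    refine Finset.prod_primes_dvd _ (fun p hp => ((hQ p hp).1).prime) fun p hp => ?_
    exact Int.natCast_dvd.1 (hQ p hp).2.2
  have h2 : ∏ p ∈ Q, p ≤ E.natAbs := Nat.le_of_dvd (Int.natAbs_pos.2 hE) h1
  have h3 : H ^ Q.card ≤ ∏ p ∈ Q, p := by
    rw [← Finset.prod_const]
    exact Finset.prod_le_prod' fun p hp => (hQ p hp).2.1
  have h4 : E.natAbs ≤ H ^ C' := by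
    have : (E.natAbs : ℤ) ≤ (H : ℤ) ^ C' := by rw [Int.natCast_natAbs]; exact hEH
    exact_mod_cast this
  exact (Nat.pow_le_pow_iff_right (by omega)).1 (h3.trans (h2.trans h4))

/-- trivial count of integers in an interval -/
theorem card_interval (S : Finset ℤ) (B : ℕ) (h : ∀ N ∈ S, |(N : ℝ)| ≤ B) :
    S.card ≤ 2 * B + 1 := by
  have h1 : S ⊆ Finset.Icc (-(B : ℤ)) B := by
    intro N hN
    have h2 := h N hN
    have h3 : |N| ≤ (B : ℤ) := by exact_mod_cast h2
    rw [Finset.mem_Icc]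
    exact abs_le.1 h3
  have h4 := Finset.card_le_card h1
  rw [Int.card_Icc] at h4
  omega

/-- the number of `N` whose prime number divides a bounded integer is bounded -/
theorem card_bad (G : ℤ[X]) (hG : G.Monic) (hGi : Irreducible (G.map (Int.castRingHom ℚ)))
    (C C' : ℕ) : ∃ K : ℕ, ∀ (H : ℕ) (P : ℝ) (E : ℤ) (S : Finset ℤ) (p : ℤ → ℕ), 2 ≤ H →
      (H : ℝ) ≤ P → E ≠ 0 → |E| ≤ (H : ℤ) ^ C' →
      (∀ N ∈ S, |(N : ℝ)| ≤ C * P ∧ (p N).Prime ∧ P ≤ p N ∧ (p N : ℤ) ^ 2 ∣ G.eval N ∧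
        (p N : ℤ) ∣ E) → S.card ≤ K := by
  classical
  obtain ⟨K, hK, hu⟩ := few_N G hG hGi C
  refine ⟨(2 * ⌈C * K⌉₊ + 1) + G.natDegree * C', ?_⟩
  intro H P E S p hH hHP hE hEH hS
  rcases lt_or_ge P K with hPK | hPK
  · have h1 : S.card ≤ 2 * ⌈C * K⌉₊ + 1 := by
      refine card_interval S _ fun N hN => ?_
      have h2 := (hS N hN).1
      have h3 : (C : ℝ) * P ≤ C * K := mul_le_mul_of_nonneg_left hPK.le (Nat.cast_nonneg _)
      exact h2.trans (h3.trans (Nat.le_ceil _))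
    omega
  · have h1 : (S.image p).card ≤ C' := by
      refine card_primes H hH C' E hE hEH _ fun q hq => ?_
      obtain ⟨N, hN, rfl⟩ := Finset.mem_image.1 hq
      obtain ⟨-, h2, h3, -, h4⟩ := hS N hN
      exact ⟨h2, by exact_mod_cast hHP.trans h3, h4⟩
    have h2 : S.card ≤ G.natDegree * (S.image p).card := by
      refine Finset.card_le_mul_card_image S _ fun q hq => ?_
      obtain ⟨N, hN, rfl⟩ := Finset.mem_image.1 hq
      obtain ⟨-, h2, h3, -, h4⟩ := hS N hN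
      refine hu (p N) _ h2 (hPK.trans h3) fun M hM => ?_
      rw [Finset.mem_filter] at hM
      obtain ⟨h5, -, h6, h7, -⟩ := hS M hM.1
      rw [hM.2] at h6 h7
      exact ⟨h5.trans (mul_le_mul_of_nonneg_left h6 (Nat.cast_nonneg _)), h7⟩
    have h3 : G.natDegree * (S.image p).card ≤ G.natDegree * C' := Nat.mul_le_mul_left _ h1
    omega

end Vale.Agent.P018.Q.GapBad
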