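import Mathlib
import Vale.Agent.P018.Q.GapDiv

/-! # P018, quartics: `double_root`, from the two height lemmas. -/

namespace Vale.Agent.P018.Q

open Polynomial

/-- relatively prime integer polynomials are coprime over `ℚ`. -/
theorem isCoprime_map_of_isRelPrime {A B : ℤ[X]} (h : IsRelPrime A B) (hA : A ≠ 0) :
    IsCoprime (A.map (Int.castRingHom ℚ)) (B.map (Int.castRingHom ℚ)) := by
  apply IsRelPrime.isCoprime
  intro d hdA hdB
  have hd0 : d ≠ 0 := by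
    rintro rfl
    rw [zero_dvd_iff] at hdA
    exact hA ((Polynomial.map_eq_zero_iff Int.cast_injective).1 hdA)
  apply isUnit_or_eq_zero_of_isUnit_integerNormalization_primPart (R := ℤ) hd0
  set q := (IsLocalization.integerNormalization (nonZeroDivisors ℤ) d).primPart with hq
  have hqp : q.IsPrimitive := isPrimitive_primPart _
  have hqd : q.map (Int.castRingHom ℚ) ∣ d := by
    obtain ⟨b, hb, hbd⟩ := IsLocalization.integerNormalization_spec (nonZeroDivisors ℤ) d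
    have h1 : q.map (Int.castRingHom ℚ) ∣
        (IsLocalization.integerNormalization (nonZeroDivisors ℤ) d).map (algebraMap ℤ ℚ) :=
      Polynomial.map_dvd (Int.castRingHom ℚ) (primPart_dvd _)
    rw [hbd] at h1
    have hb0 : (b : ℚ) ≠ 0 := by
      exact_mod_cast nonZeroDivisors.ne_zero hb
    have h2 : b • d = C (b : ℚ) * d := by
      rw [← smul_eq_C_mul, Int.cast_smul_eq_zsmul]
    rw [h2] at h1
    exact (IsUnit.dvd_mul_left (isUnit_C.2 (isUnit_iff_ne_zero.2 hb0))).1 h1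
  exact h ((IsPrimitive.Int.dvd_iff_map_cast_dvd_map_cast q A hqp).2 (hqd.trans hdA))
    ((IsPrimitive.Int.dvd_iff_map_cast_dvd_map_cast q B hqp).2 (hqd.trans hdB))

/-- `double_root` from `factor_height1` and `res_hom`. -/
theorem double_root_of
    (hfh : ∀ D : ℕ, ∃ C : ℕ, ∀ (H : ℕ) (A h : ℤ[X]), 2 ≤ H → A ≠ 0 →
      A.natDegree ≤ D → (∀ i, |A.coeff i| ≤ H) → h ∣ A → ∀ i, |h.coeff i| ≤ (H : ℤ) ^ C)
    (hres : ∀ D C : ℕ, ∃ C' : ℕ, ∀ (H : ℕ) (A B : ℤ[X]) (D1 D2 : ℕ), 2 ≤ H → A ≠ 0 → B ≠ 0 →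
      D1 ≤ D → D2 ≤ D → A.natDegree ≤ D1 → B.natDegree ≤ D2 → (A.natDegree = D1 ∨ B.natDegree = D2) →
      IsCoprime (A.map (Int.castRingHom ℚ)) (B.map (Int.castRingHom ℚ)) →
      (∀ i, |A.coeff i| ≤ (H : ℤ) ^ C) → (∀ i, |B.coeff i| ≤ (H : ℤ) ^ C) →
      ∃ R : ℤ, R ≠ 0 ∧ |R| ≤ (H : ℤ) ^ C' ∧ ∀ s t d : ℤ, IsCoprime s t →
        d ∣ hom D1 A s t → d ∣ hom D2 B s t → d ∣ R)
    (D C : ℕ) : ∃ C' : ℕ, ∀ (H : ℕ) (F Λ : ℤ[X]), 2 ≤ H → F.natDegree ≤ D →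
    Λ.natDegree ≤ D → Λ ≠ 0 → (∀ i, |F.coeff i| ≤ (H : ℤ) ^ C) → (∀ i, |Λ.coeff i| ≤ (H : ℤ) ^ C) →
    ∃ E : ℤ, E ≠ 0 ∧ |E| ≤ (H : ℤ) ^ C' ∧ ∀ (s t : ℤ) (p : ℕ), p.Prime → IsCoprime s t →
      ¬ (p : ℤ) ∣ E → (p : ℤ) ∣ hom Λ.natDegree Λ s t → ¬ (p : ℤ) ^ 2 ∣ hom Λ.natDegree Λ s t →
      (p : ℤ) ^ 2 ∣ hom D F s t → ¬ (p : ℤ) ∣ t ∧ (p : ℤ) ∣ hom (D - 1) (derivative F) s t := by
  obtain ⟨C1, hC1⟩ := hfh D
  obtain ⟨C2, hC2⟩ := hres D ((C + 1) * C1)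
  refine ⟨C + C2, fun H F Λ hH hFD hΛD hΛ0 hF hΛ => ?_⟩
  have hH1 : (1 : ℤ) ≤ H := by exact_mod_cast (by omega : 1 ≤ H)
  have hH2 : (2 : ℤ) ≤ H := by exact_mod_cast hH
  have hHC : 2 ≤ H ^ (C + 1) := by
    calc 2 ≤ H := hH
      _ = H ^ 1 := (pow_one H).symm
      _ ≤ H ^ (C + 1) := Nat.pow_le_pow_right (by omega) (by omega)
  have hle : (H : ℤ) ^ C ≤ ((H ^ (C + 1) : ℕ) : ℤ) := by
    push_cast
    exact pow_le_pow_right₀ hH1 (by omega)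
  have hcoe : (((H ^ (C + 1) : ℕ) : ℤ)) ^ C1 = (H : ℤ) ^ ((C + 1) * C1) := by
    push_cast
    rw [← pow_mul]
  -- the reduced factors
  obtain ⟨Λ2, F2, g, hrel, hgΛ, hgF⟩ :=
    UniqueFactorizationMonoid.exists_reduced_factors Λ hΛ0 F
  have hg0 : g ≠ 0 := by rintro rfl; exact hΛ0 (by rw [← hgΛ, zero_mul])
  have hΛ20 : Λ2 ≠ 0 := by rintro rfl; exact hΛ0 (by rw [← hgΛ, mul_zero])
  have hdΛ : Λ.natDegree = g.natDegree + Λ2.natDegree := by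
    rw [← hgΛ, natDegree_mul hg0 hΛ20]
  have hgD : g.natDegree ≤ D := by omega
  have hF2D : F2.natDegree ≤ D - g.natDegree := by
    by_cases hF20 : F2 = 0
    · rw [hF20]; simp
    · have h1 : F.natDegree = g.natDegree + F2.natDegree := by
        rw [← hgF, natDegree_mul hg0 hF20]
      omega
  have hF2c : ∀ i, |F2.coeff i| ≤ (H : ℤ) ^ ((C + 1) * C1) := by
    by_cases hF20 : F2 = 0
    · intro i; rw [hF20]; simp only [coeff_zero, abs_zero]; positivity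
    · have hF0 : F ≠ 0 := by rw [← hgF]; exact mul_ne_zero hg0 hF20
      intro i
      rw [← hcoe]
      exact hC1 _ F F2 hHC hF0 hFD (fun j => (hF j).trans hle) ⟨g, by rw [← hgF, mul_comm]⟩ i
  have hΛ2c : ∀ i, |Λ2.coeff i| ≤ (H : ℤ) ^ ((C + 1) * C1) := by
    intro i
    rw [← hcoe]
    exact hC1 _ Λ Λ2 hHC hΛ0 hΛD (fun j => (hΛ j).trans hle) ⟨g, by rw [← hgΛ, mul_comm]⟩ i
  obtain ⟨R, hR0, hRle, hR⟩ : ∃ R : ℤ, R ≠ 0 ∧ |R| ≤ (H : ℤ) ^ C2 ∧ (F2 ≠ 0 → ∀ s t d : ℤ,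
      IsCoprime s t → d ∣ hom Λ2.natDegree Λ2 s t → d ∣ hom (D - g.natDegree) F2 s t → d ∣ R) := by
    by_cases hF20 : F2 = 0
    · exact ⟨1, one_ne_zero, by simpa using one_le_pow₀ hH1, fun h => absurd hF20 h⟩
    · obtain ⟨R, h1, h2, h3⟩ := hC2 H Λ2 F2 Λ2.natDegree (D - g.natDegree) hH hΛ20 hF20 (by omega)
        (by omega) le_rfl hF2D (Or.inl rfl) (isCoprime_map_of_isRelPrime hrel hΛ20) hΛ2c hF2c
      exact ⟨R, h1, h2, fun _ => h3⟩
  refine ⟨Λ.leadingCoeff * R, mul_ne_zero (leadingCoeff_ne_zero.2 hΛ0) hR0, ?_, ?_⟩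
  · rw [abs_mul, pow_add]
    exact mul_le_mul (hΛ _) hRle (abs_nonneg _) (by positivity)
  intro s t p hp hst hpE hpΛ hpΛ2 hpF
  have hpp : Prime (p : ℤ) := Nat.prime_iff_prime_int.1 hp
  have hpR : ¬ (p : ℤ) ∣ R := fun h => hpE (h.mul_left _)
  have hpl : ¬ (p : ℤ) ∣ Λ.leadingCoeff := fun h => hpE (h.mul_right _)
  have hpt : ¬ (p : ℤ) ∣ t := by
    intro ht
    obtain ⟨w, hw⟩ := Gap.hom_top Λ.natDegree Λ s t
    rw [hw] at hpΛ
    have h1 : (p : ℤ) ∣ Λ.coeff Λ.natDegree * s ^ Λ.natDegree :=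
      (dvd_add_left (ht.mul_right w)).1 hpΛ
    rcases hpp.dvd_or_dvd h1 with h | h
    · exact hpl h
    · exact hpp.not_isUnit (hst.isUnit_of_dvd' (hpp.dvd_of_dvd_pow h) ht)
  refine ⟨hpt, ?_⟩
  by_cases hF20 : F2 = 0
  · rw [← hgF, hF20, mul_zero, derivative_zero, Gap.hom_zero]
    exact dvd_zero _
  have eΛ : hom Λ.natDegree Λ s t = hom g.natDegree g s t * hom Λ2.natDegree Λ2 s t := by
    rw [hdΛ, ← Gap.hom_mul _ _ _ _ le_rfl le_rfl, hgΛ]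
  have eF : hom D F s t = hom g.natDegree g s t * hom (D - g.natDegree) F2 s t := by
    rw [← Gap.hom_mul _ _ _ _ le_rfl hF2D, hgF, Nat.add_sub_cancel' hgD]
  rw [eΛ] at hpΛ hpΛ2
  rw [eF] at hpF
  -- p divides the common part
  have hpg : (p : ℤ) ∣ hom g.natDegree g s t := by
    by_contra h
    have h1 : (p : ℤ) ∣ hom Λ2.natDegree Λ2 s t := (hpp.dvd_or_dvd hpΛ).resolve_left h
    have h2 : (p : ℤ) ∣ hom (D - g.natDegree) F2 s t :=
      (hpp.dvd_or_dvd ((dvd_pow_self _ two_ne_zero).trans hpF)).resolve_left h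
    exact hpR (hR hF20 s t p hst h1 h2)
  have hpF2 : (p : ℤ) ∣ hom (D - g.natDegree) F2 s t := by
    by_contra h
    have h1 : (p : ℤ) ^ 2 ∣ hom g.natDegree g s t := by
      have h2 : IsCoprime ((p : ℤ) ^ 2) (hom (D - g.natDegree) F2 s t) :=
        ((Prime.coprime_iff_not_dvd hpp).2 h).pow_left
      exact h2.dvd_of_dvd_mul_right hpF
    exact hpΛ2 (h1.mul_right _)
  -- the derivative
  have e : derivative F = derivative g * F2 + g * derivative F2 := by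
    rw [← hgF, derivative_mul]
  rw [e, Gap.hom_add]
  refine dvd_add ?_ ?_
  · by_cases hg1 : g.natDegree = 0
    · rw [natDegree_eq_zero] at hg1
      obtain ⟨c, rfl⟩ := hg1
      simp [Gap.hom_zero]
    · have h1 : D - 1 = (g.natDegree - 1) + (D - g.natDegree) := by omega
      rw [h1, Gap.hom_mul _ _ _ _ (natDegree_derivative_le g) hF2D]
      exact hpF2.mul_left _
  · by_cases hD1 : D - g.natDegree = 0
    · have h2 : F2.natDegree = 0 := by omega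
      rw [natDegree_eq_zero] at h2
      obtain ⟨c, rfl⟩ := h2
      simp [Gap.hom_zero]
    · have h1 : D - 1 = g.natDegree + (D - g.natDegree - 1) := by omega
      rw [h1, Gap.hom_mul _ _ _ _ le_rfl
        ((natDegree_derivative_le F2).trans (Nat.sub_le_sub_right hF2D 1))]
      exact hpg.mul_right _

end Vale.Agent.P018.Q
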