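import Mathlib
import Vale.Agent.P018.Q.Gap

/-! # P018, quartics: tools for the gap lemma for arbitrary parametrised curves. -/

namespace Vale.Agent.P018.Q.GapP

open Polynomial Gap

/-- relatively prime integer polynomials are coprime over the rationals. -/
theorem rel_coprime {A B : ℤ[X]} (hA : A ≠ 0) (h : IsRelPrime A B) :
    IsCoprime (A.map (Int.castRingHom ℚ)) (B.map (Int.castRingHom ℚ)) := by
  have hinj : Function.Injective (Int.castRingHom ℚ) := Int.cast_injective
  have hA' : A.map (Int.castRingHom ℚ) ≠ 0 := (Polynomial.map_ne_zero_iff hinj).2 hA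
  by_contra hc
  rw [← isRelPrime_iff_isCoprime] at hc
  obtain ⟨g, hg, hgA, hgB⟩ : ∃ g : ℚ[X], Irreducible g ∧ g ∣ A.map (Int.castRingHom ℚ) ∧
      g ∣ B.map (Int.castRingHom ℚ) := by
    unfold IsRelPrime at hc
    push Not at hc
    obtain ⟨c, hcA, hcB, hcu⟩ := hc
    have hc0 : c ≠ 0 := fun h0 => hA' (by rwa [h0, zero_dvd_iff] at hcA)
    obtain ⟨g, hg, hgc⟩ := WfDvdMonoid.exists_irreducible_factor hcu hc0
    exact ⟨g, hg, hgc.trans hcA, hgc.trans hcB⟩
  -- the factor over the integers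
  have h1 := UniqueFactorizationMonoid.factors_prod hA
  have h2 : g ∣ ((UniqueFactorizationMonoid.factors A).map
      (mapRingHom (Int.castRingHom ℚ))).prod := by
    rw [← map_multiset_prod]
    exact hgA.trans (map_dvd (mapRingHom (Int.castRingHom ℚ)) h1.symm.dvd)
  obtain ⟨f, hf, hgf⟩ := hg.prime.exists_mem_multiset_map_dvd h2
  have hfi := UniqueFactorizationMonoid.irreducible_of_factor f hf
  have hfA : f ∣ A := (Multiset.dvd_prod hf).trans h1.dvd
  have hgf' : g ∣ f.map (Int.castRingHom ℚ) := hgf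
  have hf0 : f.map (Int.castRingHom ℚ) ≠ 0 := (Polynomial.map_ne_zero_iff hinj).2 hfi.ne_zero
  have hfd : f.natDegree ≠ 0 := by
    have h3 := natDegree_le_of_dvd hgf' hf0
    rw [natDegree_map_eq_of_injective hinj] at h3
    have h4 : 0 < g.natDegree := hg.natDegree_pos
    omega
  have hfp : f.IsPrimitive := hfi.isPrimitive hfd
  have hfI : Irreducible (f.map (Int.castRingHom ℚ)) :=
    (IsPrimitive.Int.irreducible_iff_irreducible_map_cast hfp).1 hfi
  have hfg : f.map (Int.castRingHom ℚ) ∣ g := (hg.associated_of_dvd hfI hgf').symm.dvd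
  have hfB : f ∣ B := by
    rcases eq_or_ne B 0 with rfl | hB
    · exact dvd_zero _
    · have h5 : f.map (Int.castRingHom ℚ) ∣ B.primPart.map (Int.castRingHom ℚ) := by
        have h6 : f.map (Int.castRingHom ℚ) ∣ (C B.content * B.primPart).map
            (Int.castRingHom ℚ) := by
          rw [← B.eq_C_content_mul_primPart]
          exact hfg.trans hgB
        rw [Polynomial.map_mul, map_C] at h6
        have h7 : IsUnit (C ((Int.castRingHom ℚ) B.content)) := by
          rw [isUnit_C, isUnit_iff_ne_zero, Ne, map_eq_zero_iff _ hinj]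
          rwa [content_eq_zero_iff]
        exact (h7.dvd_mul_left).1 h6
      have h8 : f ∣ B.primPart :=
        (IsPrimitive.Int.dvd_iff_map_cast_dvd_map_cast f _ hfp).2 h5
      exact h8.trans B.primPart_dvd
  exact hfi.not_isUnit (h hfA hfB)

/-- removal of the common factor. -/
theorem exists_red {A B : ℤ[X]} (hA : A ≠ 0) : ∃ h A' B' : ℤ[X], A = h * A' ∧ B = h * B' ∧
    A' ≠ 0 ∧ h ≠ 0 ∧ IsCoprime (A'.map (Int.castRingHom ℚ)) (B'.map (Int.castRingHom ℚ)) := by
  obtain ⟨A', B', h, hr, h1, h2⟩ := UniqueFactorizationMonoid.exists_reduced_factors A hA B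
  have hA' : A' ≠ 0 := by rintro rfl; exact hA (by rw [← h1, mul_zero])
  have hh : h ≠ 0 := by rintro rfl; exact hA (by rw [← h1, zero_mul])
  exact ⟨h, A', B', h1.symm, h2.symm, hA', hh, rel_coprime hA' hr⟩

/-- the polynomial `A^n G(B / A)`. -/
noncomputable def cmp (G A B : ℤ[X]) : ℤ[X] := hom G.natDegree G B A

theorem natDegree_cmp (G A B : ℤ[X]) (D : ℕ) (hA : A.natDegree ≤ D) (hB : B.natDegree ≤ D) :
    (cmp G A B).natDegree ≤ G.natDegree * D := by
  unfold cmp hom
  refine natDegree_sum_le_of_forall_le _ _ fun i hi => ?_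
  have hi' : i ≤ G.natDegree := by have := Finset.mem_range.1 hi; omega
  have h1 : (B ^ i).natDegree ≤ i * D := natDegree_pow_le.trans (Nat.mul_le_mul_left _ hB)
  have h2 : (A ^ (G.natDegree - i)).natDegree ≤ (G.natDegree - i) * D :=
    natDegree_pow_le.trans (Nat.mul_le_mul_left _ hA)
  have h3 : ((G.coeff i : ℤ[X]) * B ^ i * A ^ (G.natDegree - i)).natDegree ≤
      0 + i * D + (G.natDegree - i) * D := by
    refine natDegree_mul_le.trans (Nat.add_le_add (natDegree_mul_le.trans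
      (Nat.add_le_add ?_ h1)) h2)
    rw [natDegree_intCast]
  refine h3.trans ?_
  rw [zero_add, ← Nat.add_mul]
  exact Nat.mul_le_mul_right _ (by omega)

theorem coeff_mul_bound (f g : ℤ[X]) (a : ℕ) (M M' : ℤ) (hM : 0 ≤ M) (hM' : 0 ≤ M')
    (hf : f.natDegree ≤ a)
    (h1 : ∀ i, |f.coeff i| ≤ M) (h2 : ∀ i, |g.coeff i| ≤ M') (m : ℕ) :
    |(f * g).coeff m| ≤ (a + 1) * M * M' := by
  rw [coeff_mul, Finset.Nat.sum_antidiagonal_eq_sum_range_succ (fun i j => f.coeff i * g.coeff j)]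
  refine (Finset.abs_sum_le_sum_abs _ _).trans ?_
  have h3 : ∀ i ∈ Finset.range m.succ, |f.coeff i * g.coeff (m - i)| ≤
      if i ∈ Finset.range (a + 1) then M * M' else 0 := by
    intro i _
    split_ifs with hi
    · rw [abs_mul]
      exact mul_le_mul (h1 _) (h2 _) (abs_nonneg _) hM
    · rw [coeff_eq_zero_of_natDegree_lt (lt_of_le_of_lt hf (by
        rw [Finset.mem_range] at hi; omega)), zero_mul, abs_zero]
  refine (Finset.sum_le_sum h3).trans ?_
  rw [← Finset.sum_filter, Finset.sum_const, nsmul_eq_mul, mul_assoc]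
  refine mul_le_mul_of_nonneg_right ?_ (mul_nonneg hM hM')
  have h4 : ((Finset.range m.succ).filter fun i => i ∈ Finset.range (a + 1)).card ≤ a + 1 := by
    refine (Finset.card_le_card (fun i hi => (Finset.mem_filter.1 hi).2)).trans ?_
    rw [Finset.card_range]
  exact_mod_cast h4

theorem coeff_pow_bound (f : ℤ[X]) (a : ℕ) (M : ℤ) (hM : 1 ≤ M) (hf : f.natDegree ≤ a)
    (h1 : ∀ i, |f.coeff i| ≤ M) (k : ℕ) : ∀ m, |(f ^ k).coeff m| ≤ ((a + 1) * M) ^ k := by
  have hM0 : 0 ≤ M := by omega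
  have ha : (0 : ℤ) ≤ (a : ℤ) + 1 := by positivity
  induction k with
  | zero =>
    intro m
    rw [pow_zero, pow_zero, coeff_one]
    split_ifs <;> simp
  | succ k ih =>
    intro m
    rw [pow_succ', pow_succ']
    exact coeff_mul_bound f _ a M _ hM0 (pow_nonneg (mul_nonneg ha hM0) _) hf h1 ih m

theorem coeff_cmp (G A B : ℤ[X]) (D : ℕ) (M : ℤ) (hM : 1 ≤ M) (hA : A.natDegree ≤ D)
    (hB : B.natDegree ≤ D) (h1 : ∀ i, |A.coeff i| ≤ M) (h2 : ∀ i, |B.coeff i| ≤ M) (m : ℕ) :
    |(cmp G A B).coeff m| ≤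
      (∑ i ∈ Finset.range (G.natDegree + 1), |G.coeff i|) * (G.natDegree * D + 1)
        * ((D + 1) * M) ^ G.natDegree := by
  unfold cmp hom
  rw [finsetSum_coeff, Finset.sum_mul, Finset.sum_mul]
  refine (Finset.abs_sum_le_sum_abs _ _).trans (Finset.sum_le_sum fun i hi => ?_)
  have hi' : i ≤ G.natDegree := by have := Finset.mem_range.1 hi; omega
  have e : (G.coeff i : ℤ[X]) * B ^ i * A ^ (G.natDegree - i) =
      C (G.coeff i) * (B ^ i * A ^ (G.natDegree - i)) := by
    rw [mul_assoc, ← Polynomial.C_eq_intCast, Int.cast_id]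
  have hM0 : 0 ≤ M := by omega
  have hD : (0 : ℤ) ≤ (D : ℤ) + 1 := by positivity
  have h3 : (B ^ i).natDegree ≤ G.natDegree * D :=
    natDegree_pow_le.trans (Nat.mul_le_mul hi' hB)
  rw [e, coeff_C_mul, abs_mul, mul_assoc]
  refine mul_le_mul_of_nonneg_left ?_ (abs_nonneg _)
  refine (coeff_mul_bound _ _ _ _ _ (by positivity) (by positivity) h3
    (coeff_pow_bound B D M hM hB h2 i) (coeff_pow_bound A D M hM hA h1 _) m).trans ?_
  rw [mul_assoc, ← pow_add, Nat.add_sub_cancel' hi']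
  push_cast
  exact le_rfl

theorem cmp_height (G : ℤ[X]) (D C1 : ℕ) : ∃ C2 : ℕ, ∀ (H : ℕ) (A B : ℤ[X]), 2 ≤ H →
    A.natDegree ≤ D → B.natDegree ≤ D → (∀ i, |A.coeff i| ≤ (H : ℤ) ^ C1) →
    (∀ i, |B.coeff i| ≤ (H : ℤ) ^ C1) → ∀ i, |(cmp G A B).coeff i| ≤ (H : ℤ) ^ C2 := by
  obtain ⟨c, hc⟩ : ∃ c : ℕ, (c : ℤ) = (∑ i ∈ Finset.range (G.natDegree + 1), |G.coeff i|) *
      (G.natDegree * D + 1) * (D + 1) ^ G.natDegree :=
    ⟨_, Int.toNat_of_nonneg (by positivity)⟩
  refine ⟨c + C1 * G.natDegree, ?_⟩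
  intro H A B hH hA hB h1 h2 i
  have hH1 : (1 : ℤ) ≤ H := by exact_mod_cast (by omega : 1 ≤ H)
  refine (coeff_cmp G A B D _ (one_le_pow₀ hH1) hA hB h1 h2 i).trans ?_
  rw [mul_pow, ← mul_assoc, ← hc, ← pow_mul, pow_add]
  refine mul_le_mul_of_nonneg_right ?_ (by positivity)
  have h3 : c ≤ 2 ^ c := Nat.lt_two_pow_self.le
  have h4 : 2 ^ c ≤ H ^ c := Nat.pow_le_pow_left hH _
  exact_mod_cast h3.trans h4

theorem hom_pow (D k : ℕ) (A : ℤ[X]) (hA : A.natDegree ≤ D) (s t : ℤ) :
    hom (k * D) (A ^ k) s t = hom D A s t ^ k := by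
  induction k with
  | zero =>
    rw [pow_zero, pow_zero, zero_mul, ← C_1, ← monomial_zero_left, hom_monomial _ 0 le_rfl]
    simp
  | succ k ih =>
    rw [pow_succ, pow_succ, Nat.add_mul, one_mul, hom_mul (k * D) D _ _ ?_ hA, ih]
    exact natDegree_pow_le.trans (Nat.mul_le_mul_left _ hA)

theorem hom_C_mul (D : ℕ) (c : ℤ) (A : ℤ[X]) (hA : A.natDegree ≤ D) (s t : ℤ) :
    hom D (C c * A) s t = c * hom D A s t := by
  have := hom_mul 0 D (C c) A (natDegree_C c).le hA s t
  rw [zero_add] at this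
  rw [this, ← monomial_zero_left, hom_monomial _ 0 le_rfl]
  simp

/-- the value of the composition. -/
theorem hom_cmp (G A B : ℤ[X]) (D : ℕ) (hA : A.natDegree ≤ D) (hB : B.natDegree ≤ D)
    (s t N : ℤ) (hN : hom D A s t * N = hom D B s t) :
    hom (G.natDegree * D) (cmp G A B) s t = hom D A s t ^ G.natDegree * G.eval N := by
  rw [eval_eq_sum_range, Finset.mul_sum]
  unfold cmp
  conv_lhs => rw [show hom G.natDegree G B A = ∑ i ∈ Finset.range (G.natDegree + 1),
    (G.coeff i : ℤ[X]) * B ^ i * A ^ (G.natDegree - i) from rfl]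
  rw [hom_sum]
  refine Finset.sum_congr rfl fun i hi => ?_
  have hi' : i ≤ G.natDegree := by have := Finset.mem_range.1 hi; omega
  have e : (G.coeff i : ℤ[X]) * B ^ i * A ^ (G.natDegree - i) =
      C (G.coeff i) * (B ^ i * A ^ (G.natDegree - i)) := by
    rw [mul_assoc, ← Polynomial.C_eq_intCast, Int.cast_id]
  have e2 : G.natDegree * D = i * D + (G.natDegree - i) * D := by
    rw [← Nat.add_mul, Nat.add_sub_cancel' hi']
  have h1 : (B ^ i).natDegree ≤ i * D := natDegree_pow_le.trans (Nat.mul_le_mul_left _ hB)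
  have h2 : (A ^ (G.natDegree - i)).natDegree ≤ (G.natDegree - i) * D :=
    natDegree_pow_le.trans (Nat.mul_le_mul_left _ hA)
  rw [e, e2, hom_C_mul _ _ _ (natDegree_mul_le.trans (Nat.add_le_add h1 h2)),
    hom_mul _ _ _ _ h1 h2, hom_pow _ _ _ hB, hom_pow _ _ _ hA, ← hN]
  have e3 : hom D A s t ^ G.natDegree = hom D A s t ^ i * hom D A s t ^ (G.natDegree - i) := by
    rw [← pow_add, Nat.add_sub_cancel' hi']
  rw [e3]
  ring

/-- values of forms over fields. -/
theorem hom_field {k : Type*} [Field k] (D : ℕ) (f : ℤ[X]) (hf : f.natDegree ≤ D) (s t : k)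
    (ht : t ≠ 0) : hom D f s t = t ^ D * f.eval₂ (Int.castRingHom k) (s / t) := by
  rw [eval₂_eq_sum_range' (Int.castRingHom k) (n := D + 1) (by omega), Finset.mul_sum, hom]
  refine Finset.sum_congr rfl fun i hi => ?_
  have hi' : i ≤ D := by have := Finset.mem_range.1 hi; omega
  have e : t ^ D = t ^ (D - i) * t ^ i := by rw [← pow_add, Nat.sub_add_cancel hi']
  rw [e, eq_intCast, div_pow]
  field_simp

theorem derivative_cmp (G A B : ℤ[X]) : derivative (cmp G A B) =
    ∑ i ∈ Finset.range (G.natDegree + 1), (G.coeff i : ℤ[X]) *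
      ((i : ℤ[X]) * B ^ (i - 1) * derivative B * A ^ (G.natDegree - i) +
        B ^ i * (((G.natDegree - i : ℕ) : ℤ[X]) * A ^ (G.natDegree - i - 1) * derivative A)) := by
  unfold cmp hom
  rw [derivative_sum]
  refine Finset.sum_congr rfl fun i _ => ?_
  rw [derivative_mul, derivative_mul, derivative_pow, derivative_pow, derivative_intCast]
  simp only [map_natCast]
  ring

/-- the value of the derivative of the composition. -/
theorem eval_derivative_cmp {k : Type*} [Field k] (G A B : ℤ[X]) (hG : 1 ≤ G.natDegree) (z N : k)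
    (h : B.eval₂ (Int.castRingHom k) z = N * A.eval₂ (Int.castRingHom k) z)
    (hG0 : G.eval₂ (Int.castRingHom k) N = 0) :
    (derivative (cmp G A B)).eval₂ (Int.castRingHom k) z =
      (A.eval₂ (Int.castRingHom k) z) ^ (G.natDegree - 1) *
        (derivative G).eval₂ (Int.castRingHom k) N *
        ((derivative B).eval₂ (Int.castRingHom k) z -
          N * (derivative A).eval₂ (Int.castRingHom k) z) := by
  have e1 : (derivative G).eval₂ (Int.castRingHom k) N =
      ∑ i ∈ Finset.range (G.natDegree + 1), (G.coeff i : k) * i * N ^ (i - 1) := by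
    conv_lhs => rw [G.as_sum_range]
    rw [derivative_sum, eval₂_finsetSum]
    refine Finset.sum_congr rfl fun i _ => ?_
    rw [derivative_monomial, eval₂_monomial]
    simp
  have e2 : G.eval₂ (Int.castRingHom k) N =
      ∑ i ∈ Finset.range (G.natDegree + 1), (G.coeff i : k) * N ^ i := by
    rw [eval₂_eq_sum_range]
    simp
  set a := A.eval₂ (Int.castRingHom k) z with ha
  set b := B.eval₂ (Int.castRingHom k) z with hb
  set a' := (derivative A).eval₂ (Int.castRingHom k) z with ha'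
  set b' := (derivative B).eval₂ (Int.castRingHom k) z with hb'
  have e3 : (derivative (cmp G A B)).eval₂ (Int.castRingHom k) z =
      ∑ i ∈ Finset.range (G.natDegree + 1), (G.coeff i : k) *
      ((i : k) * b ^ (i - 1) * b' * a ^ (G.natDegree - i) +
        b ^ i * (((G.natDegree - i : ℕ) : k) * a ^ (G.natDegree - i - 1) * a')) := by
    have hc : ∀ c : ℤ, eval₂ (Int.castRingHom k) z (c : ℤ[X]) = (c : k) := fun c => by
      rw [← Polynomial.C_eq_intCast, eval₂_C]; simp
    rw [derivative_cmp, eval₂_finsetSum]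
    refine Finset.sum_congr rfl fun i _ => ?_
    simp only [eval₂_mul, eval₂_add, eval₂_pow, hc, eval₂_natCast, ha, hb, ha', hb']
  have e4 : ∀ i ∈ Finset.range (G.natDegree + 1), (G.coeff i : k) *
      ((i : k) * b ^ (i - 1) * b' * a ^ (G.natDegree - i) +
        b ^ i * (((G.natDegree - i : ℕ) : k) * a ^ (G.natDegree - i - 1) * a')) =
      a ^ (G.natDegree - 1) * (b' - N * a') * ((G.coeff i : k) * i * N ^ (i - 1)) +
      a ^ (G.natDegree - 1) * a' * G.natDegree * ((G.coeff i : k) * N ^ i) := by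
    intro i hi
    have hi' : i ≤ G.natDegree := by have := Finset.mem_range.1 hi; omega
    rw [h, Nat.cast_sub hi']
    rcases Nat.eq_zero_or_pos i with rfl | hi0
    · simp
      ring
    · have hNi : N ^ i = N ^ (i - 1) * N := by rw [← pow_succ, Nat.sub_add_cancel hi0]
      have hai : a ^ i = a ^ (i - 1) * a := by rw [← pow_succ, Nat.sub_add_cancel hi0]
      rcases Nat.lt_or_ge i G.natDegree with h5 | h5
      · have e5 : a ^ (G.natDegree - 1) = a ^ (i - 1) * a * a ^ (G.natDegree - i - 1) := by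
          rw [← hai, ← pow_add]; congr 1; omega
        have e6 : a ^ (G.natDegree - i) = a * a ^ (G.natDegree - i - 1) := by
          rw [← pow_succ']; congr 1; omega
        rw [mul_pow, mul_pow, hNi, hai, e5, e6]
        ring
      · have h6 : i = G.natDegree := le_antisymm hi' h5
        rw [← h6]
        rw [mul_pow, mul_pow, hNi, hai]
        simp
        ring
  rw [e3, Finset.sum_congr rfl e4, Finset.sum_add_distrib, ← Finset.mul_sum, ← Finset.mul_sum,
    ← e1, ← e2, hG0]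
  ring

/-- the solutions outside of the exceptional primes are critical modulo `p`. -/
theorem good_wr (G : ℤ[X]) (hG : 1 ≤ G.natDegree) (d D : ℕ) (A B : ℤ[X])
    (hA : A.natDegree ≤ d + 1) (hB : B.natDegree ≤ d + 1) (hD : d + 1 ≤ D) (p : ℕ) (hp : p.Prime)
    (s t N : ℤ) (ht : ¬ (p : ℤ) ∣ t) (ha : ¬ (p : ℤ) ∣ hom (d + 1) A s t)
    (hN : hom (d + 1) A s t * N = hom (d + 1) B s t) (hG0 : (p : ℤ) ∣ G.eval N)
    (hG1 : ¬ (p : ℤ) ∣ (derivative G).eval N)
    (hF : (p : ℤ) ∣ hom (G.natDegree * D - 1) (derivative (cmp G A B)) s t) :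
    (p : ℤ) ∣ hom (2 * d) (wr A B) s t := by
  have : Fact p.Prime := ⟨hp⟩
  have hdv : ∀ c : ℤ, (p : ℤ) ∣ c ↔ (Int.castRingHom (ZMod p)) c = 0 := fun c => by
    rw [eq_intCast, ZMod.intCast_zmod_eq_zero_iff_dvd]
  rw [hdv] at ht ha hG0 hG1 hF ⊢
  have hN' := congrArg (Int.castRingHom (ZMod p)) hN
  rw [map_mul] at hN'
  rw [hom_map] at ha hN' hF ⊢
  rw [hom_map] at hN'
  set k := ZMod p
  set φ := Int.castRingHom k with hφ
  set z : k := φ s / φ t with hz
  have ht0 : φ t ≠ 0 := ht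
  rw [hom_field _ _ hA _ _ ht0] at ha hN'
  rw [hom_field _ _ hB _ _ ht0] at hN'
  rw [← hz, ← hφ] at ha hN'
  have hnF : (derivative (cmp G A B)).natDegree ≤ G.natDegree * D - 1 := by
    refine (natDegree_derivative_le _).trans (Nat.sub_le_sub_right ?_ 1)
    exact (natDegree_cmp G A B D (hA.trans hD) (hB.trans hD))
  rw [hom_field _ _ hnF _ _ ht0, ← hz, ← hφ] at hF
  rw [hom_field _ _ (natDegree_wr d A B hA hB) _ _ ht0, ← hz, ← hφ]
  have htp : ∀ m : ℕ, φ t ^ m ≠ 0 := fun m => pow_ne_zero _ ht0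
  have hb : B.eval₂ φ z = φ N * A.eval₂ φ z := by
    apply mul_left_cancel₀ (htp (d + 1))
    rw [← hN']; ring
  have ha0 : A.eval₂ φ z ≠ 0 := right_ne_zero_of_mul ha
  have hG0' : G.eval₂ φ (φ N) = 0 := by rw [eval₂_at_apply]; exact hG0
  have hG1' : (derivative G).eval₂ φ (φ N) ≠ 0 := by rw [eval₂_at_apply]; exact hG1
  have hF' : (derivative (cmp G A B)).eval₂ φ z = 0 := (mul_eq_zero.1 hF).resolve_left (htp _)
  rw [eval_derivative_cmp G A B hG z (φ N) hb hG0'] at hF'
  have h1 : (derivative B).eval₂ φ z = φ N * (derivative A).eval₂ φ z :=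
    sub_eq_zero.1 ((mul_eq_zero.1 hF').resolve_left (mul_ne_zero (pow_ne_zero _ ha0) hG1'))
  rw [wr, eval₂_sub, eval₂_mul, eval₂_mul, hb, h1]
  ring

theorem wr_ne_zero {A B : ℤ[X]}
    (hc : IsCoprime (A.map (Int.castRingHom ℚ)) (B.map (Int.castRingHom ℚ)))
    (hd : 1 ≤ A.natDegree ∨ 1 ≤ B.natDegree) : (wr A B).map (Int.castRingHom ℚ) ≠ 0 := by
  have hinj : Function.Injective (Int.castRingHom ℚ) := Int.cast_injective
  intro h0
  have h1 : wronskian (A.map (Int.castRingHom ℚ)) (B.map (Int.castRingHom ℚ)) = 0 := by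
    rw [← h0, wronskian, wr]
    simp only [Polynomial.map_sub, Polynomial.map_mul, derivative_map]
  obtain ⟨h2, h3⟩ := hc.wronskian_eq_zero_iff.1 h1
  have h4 := derivative_eq_zero.1 h2
  have h5 := derivative_eq_zero.1 h3
  rw [natDegree_map_eq_of_injective hinj] at h4 h5
  omega

/-- few solutions are critical. -/
theorem card_wr (d : ℕ) (A B : ℤ[X]) (hA : A.natDegree ≤ d + 1) (hB : B.natDegree ≤ d + 1)
    (hW : (wr A B).map (Int.castRingHom ℚ) ≠ 0) (S : Finset ℤ) (s t : ℤ → ℤ)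
    (hS : ∀ N ∈ S, t N ≠ 0 ∧ hom (d + 1) A (s N) (t N) ≠ 0 ∧
      hom (d + 1) A (s N) (t N) * N = hom (d + 1) B (s N) (t N) ∧
      hom (2 * d) (wr A B) (s N) (t N) = 0) : S.card ≤ 2 * d := by
  classical
  have hinj : Function.Injective (Int.castRingHom ℚ) := Int.cast_injective
  set φ := Int.castRingHom ℚ with hφ
  have h1 : (S.image (Int.cast : ℤ → ℚ)) ⊆
      (((wr A B).map φ).roots.toFinset).image fun z => B.eval₂ φ z / A.eval₂ φ z := by
    intro x hx
    obtain ⟨N, hN, rfl⟩ := Finset.mem_image.1 hx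
    obtain ⟨ht, ha, hab, hw⟩ := hS N hN
    have ht0 : φ (t N) ≠ 0 := by rw [Ne, map_eq_zero_iff _ hinj]; exact ht
    have ha0 : φ (hom (d + 1) A (s N) (t N)) ≠ 0 := by
      rw [Ne, map_eq_zero_iff _ hinj]; exact ha
    have hab' := congrArg φ hab
    have hw' := congrArg φ hw
    rw [map_mul] at hab'
    rw [hom_map, map_zero, hom_field _ _ (natDegree_wr d A B hA hB) _ _ ht0] at hw'
    rw [hom_map, hom_field _ _ hA _ _ ht0] at ha0 hab'
    rw [hom_map, hom_field _ _ hB _ _ ht0] at hab'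
    rw [← hφ] at ha0 hab' hw'
    refine Finset.mem_image.2 ⟨φ (s N) / φ (t N), ?_, ?_⟩
    · rw [Multiset.mem_toFinset, mem_roots hW, IsRoot.def, eval_map]
      exact (mul_eq_zero.1 hw').resolve_left (pow_ne_zero _ ht0)
    · have h2 := right_ne_zero_of_mul ha0
      show B.eval₂ φ _ / A.eval₂ φ _ = (N : ℚ)
      rw [div_eq_iff h2]
      apply mul_left_cancel₀ (pow_ne_zero (d + 1) ht0)
      rw [← hab', show φ N = (N : ℚ) from rfl]
      ring
  have h2 := Finset.card_le_card h1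
  rw [Finset.card_image_of_injective _ Int.cast_injective] at h2
  refine h2.trans (Finset.card_image_le.trans ((Multiset.toFinset_card_le _).trans
    ((card_roots' _).trans ?_)))
  rw [natDegree_map_eq_of_injective hinj]
  exact natDegree_wr d A B hA hB

/-- the discriminant. -/
theorem exists_disc (G : ℤ[X]) (hGi : Irreducible (G.map (Int.castRingHom ℚ))) :
    ∃ R0 : ℤ, R0 ≠ 0 ∧ ∀ N c : ℤ, c ∣ G.eval N → c ∣ (derivative G).eval N → c ∣ R0 := by
  have hinj : Function.Injective (Int.castRingHom ℚ) := Int.cast_injective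
  have hsep : (G.map (Int.castRingHom ℚ)).Separable := hGi.separable
  rw [separable_def, derivative_map] at hsep
  have hdeg : G.natDegree ≠ 0 := by
    have := hGi.natDegree_pos
    rw [natDegree_map_eq_of_injective hinj] at this
    omega
  obtain ⟨P, Q, hP, hQ, hPQ⟩ := exists_mul_add_mul_eq_C_resultant G (derivative G)
    (m := G.natDegree) (n := (derivative G).natDegree) le_rfl le_rfl (Or.inl hdeg)
  refine ⟨resultant G (derivative G), ?_, ?_⟩
  · intro h0
    have h1 := resultant_ne_zero _ _ hsep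
    rw [natDegree_map_eq_of_injective hinj, natDegree_map_eq_of_injective hinj,
      resultant_map_map, h0, map_zero] at h1
    exact h1 rfl
  · intro N c h1 h2
    have h3 := congrArg (eval N) hPQ
    rw [eval_add, eval_mul, eval_mul, eval_C] at h3
    rw [← h3]
    exact dvd_add (Dvd.dvd.mul_right h1 _) (Dvd.dvd.mul_right h2 _)

/-- the number of integers in an interval. -/
theorem card_small (S : Finset ℤ) (Y : ℝ) (hY : 0 ≤ Y) (hS : ∀ N ∈ S, |(N : ℝ)| ≤ Y) :
    (S.card : ℝ) ≤ 2 * Y + 1 := by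
  have h1 : S ⊆ Finset.Icc (-⌊Y⌋) ⌊Y⌋ := by
    intro N hN
    have h2 := abs_le.1 (hS N hN)
    rw [Finset.mem_Icc]
    refine ⟨?_, Int.le_floor.2 h2.2⟩
    have h3 : -N ≤ ⌊Y⌋ := Int.le_floor.2 (by push_cast; linarith)
    omega
  have h2 := Finset.card_le_card h1
  rw [Int.card_Icc] at h2
  have h3 : 0 ≤ ⌊Y⌋ := Int.floor_nonneg.2 hY
  have h4 : ((⌊Y⌋ + 1 - -⌊Y⌋).toNat : ℤ) = 2 * ⌊Y⌋ + 1 := by
    rw [Int.toNat_of_nonneg (by omega)]; ring
  have h5 : (S.card : ℤ) ≤ 2 * ⌊Y⌋ + 1 := by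
    rw [← h4]; exact_mod_cast h2
  have h6 : (S.card : ℝ) ≤ 2 * (⌊Y⌋ : ℝ) + 1 := by exact_mod_cast h5
  have h7 := Int.floor_le Y
  linarith

end Vale.Agent.P018.Q.GapP
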