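import Mathlib
import Vale.Agent.P018.Q.GapParamC
import Vale.Agent.P018.Q.GapBad

/-! # P018, quartics: assembly of the gap lemma for arbitrary parametrised curves. -/

namespace Vale.Agent.P018.Q.GapP

open Polynomial Gap

/-- reduction to a coprime pair of exact degree. -/
theorem reduce {A B : ℤ[X]} {D : ℕ} (hA0 : A ≠ 0) (hA : A.natDegree ≤ D) (hB : B.natDegree ≤ D) :
    ∃ (D' : ℕ) (A' B' : ℤ[X]), D' ≤ D ∧ A' ∣ A ∧ B' ∣ B ∧ A' ≠ 0 ∧ (B = 0 → B' = 0) ∧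
      A'.natDegree ≤ D' ∧ B'.natDegree ≤ D' ∧ (A'.natDegree = D' ∨ B'.natDegree = D') ∧
      IsCoprime (A'.map (Int.castRingHom ℚ)) (B'.map (Int.castRingHom ℚ)) ∧
      ∀ s t N : ℤ, hom D A s t ≠ 0 → hom D A s t * N = hom D B s t →
        hom D' A' s t ≠ 0 ∧ hom D' A' s t * N = hom D' B' s t := by
  obtain ⟨h, A', B', hAA, hBB, hA'0, hh0, hcop⟩ := exists_red (B := B) hA0
  have hdA : A.natDegree = h.natDegree + A'.natDegree := by
    rw [hAA, natDegree_mul hh0 hA'0]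
  have hkey : max A'.natDegree B'.natDegree + h.natDegree ≤ D := by
    rcases le_total B'.natDegree A'.natDegree with h1 | h1
    · rw [max_eq_left h1]; omega
    · rw [max_eq_right h1]
      rcases eq_or_ne B' 0 with h2 | h2
      · rw [h2, natDegree_zero] at h1 ⊢; omega
      · have hdB : B.natDegree = h.natDegree + B'.natDegree := by
          rw [hBB, natDegree_mul hh0 h2]
        omega
  set D' := max A'.natDegree B'.natDegree with hD'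
  have hA' : A'.natDegree ≤ D' := le_max_left _ _
  have hB' : B'.natDegree ≤ D' := le_max_right _ _
  refine ⟨D', A', B', by omega, ⟨h, by rw [hAA]; ring⟩, ?_, hA'0, ?_, hA', hB', ?_, hcop, ?_⟩
  · exact ⟨h, by rw [hBB]; ring⟩
  · intro h0
    rw [h0] at hBB
    exact (mul_eq_zero.1 hBB.symm).resolve_left hh0
  · rcases max_choice A'.natDegree B'.natDegree with h1 | h1
    · left; rw [hD', h1]
    · right; rw [hD', h1]
  · intro s t N hne heq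
    have e : D = (D - D') + D' := by omega
    have hhd : h.natDegree ≤ D - D' := by omega
    have e1 : hom D A s t = hom (D - D') h s t * hom D' A' s t := by
      rw [hAA]
      conv_lhs => rw [e]
      exact hom_mul _ _ _ _ hhd hA' s t
    have e2 : hom D B s t = hom (D - D') h s t * hom D' B' s t := by
      rw [hBB]
      conv_lhs => rw [e]
      exact hom_mul _ _ _ _ hhd hB' s t
    rw [e1] at hne heq
    rw [e2, mul_assoc] at heq
    exact ⟨right_ne_zero_of_mul hne, mul_left_cancel₀ (left_ne_zero_of_mul hne) heq⟩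

theorem hom_raise (D D' : ℕ) (A : ℤ[X]) (hA : A.natDegree ≤ D') (hD : D' ≤ D) (s t : ℤ) :
    hom D A s t = t ^ (D - D') * hom D' A s t := by
  have e : D = (D - D') + D' := by omega
  have h1 := hom_mul (D - D') D' (1 : ℤ[X]) A (by rw [natDegree_one]; omega) hA s t
  rw [one_mul, ← e] at h1
  rw [h1]
  congr 1
  rw [← C_1, ← monomial_zero_left, hom_monomial _ 0 (Nat.zero_le _)]
  simp

theorem gap_param_of
    (hfh : ∀ D : ℕ, ∃ C : ℕ, ∀ (H : ℕ) (A h : ℤ[X]), 2 ≤ H → A ≠ 0 →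
      A.natDegree ≤ D → (∀ i, |A.coeff i| ≤ H) → h ∣ A → ∀ i, |h.coeff i| ≤ (H : ℤ) ^ C)
    (hdr : ∀ D C : ℕ, ∃ C' : ℕ, ∀ (H : ℕ) (F Λ : ℤ[X]), 2 ≤ H → F.natDegree ≤ D →
      Λ.natDegree ≤ D → Λ ≠ 0 → (∀ i, |F.coeff i| ≤ (H : ℤ) ^ C) →
      (∀ i, |Λ.coeff i| ≤ (H : ℤ) ^ C) →
      ∃ E : ℤ, E ≠ 0 ∧ |E| ≤ (H : ℤ) ^ C' ∧ ∀ (s t : ℤ) (p : ℕ), p.Prime → IsCoprime s t →
        ¬ (p : ℤ) ∣ E → (p : ℤ) ∣ hom Λ.natDegree Λ s t → ¬ (p : ℤ) ^ 2 ∣ hom Λ.natDegree Λ s t →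
        (p : ℤ) ^ 2 ∣ hom D F s t → ¬ (p : ℤ) ∣ t ∧ (p : ℤ) ∣ hom (D - 1) (derivative F) s t)
    (G : ℤ[X]) (hG : G.Monic) (hGi : Irreducible (G.map (Int.castRingHom ℚ)))
    (hGd : 2 ≤ G.natDegree) (D C : ℕ) (ε : ℝ) (hε : 0 < ε) :
    ∃ K : ℝ, 0 < K ∧ ∀ (H : ℕ) (X P : ℝ) (A B Λ : ℤ[X]) (S : Finset ℤ) (s t : ℤ → ℤ)
      (p : ℤ → ℕ), 2 ≤ H → 1 ≤ X → X ≤ P → (H : ℝ) ≤ P →
      A.natDegree ≤ D → B.natDegree ≤ D → Λ.natDegree ≤ D → Λ ≠ 0 →
      (∀ i, |A.coeff i| ≤ (H : ℤ) ^ C) → (∀ i, |B.coeff i| ≤ (H : ℤ) ^ C) →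
      (∀ i, |Λ.coeff i| ≤ (H : ℤ) ^ C) →
      (∀ N ∈ S, |(N : ℝ)| ≤ C * X ∧ IsCoprime (s N) (t N) ∧ t N ≠ 0 ∧
        |s N| ≤ (H : ℤ) ^ C ∧ |t N| ≤ (H : ℤ) ^ C ∧
        hom D A (s N) (t N) ≠ 0 ∧ hom D A (s N) (t N) * N = hom D B (s N) (t N) ∧
        (p N).Prime ∧ P ≤ p N ∧ (p N : ℤ) ^ 2 ∣ G.eval N ∧
        (p N : ℤ) ∣ hom Λ.natDegree Λ (s N) (t N) ∧
        ¬ (p N : ℤ) ^ 2 ∣ hom Λ.natDegree Λ (s N) (t N)) →
      (S.card : ℝ) ≤ K * (H : ℝ) ^ ε := by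
  classical
  obtain ⟨C1, hC1⟩ := hfh D
  obtain ⟨C3, hC3⟩ : ∃ C3, C3 = C + (C + 1) * C1 := ⟨_, rfl⟩
  obtain ⟨C2, hC2⟩ := cmp_height G D C3
  obtain ⟨C4, hC4⟩ := hdr (G.natDegree * D) (C2 + C)
  obtain ⟨C5, hC5⟩ := exists_res D C3
  obtain ⟨K1, hK1⟩ := GapBad.card_bad G hG hGi C C4
  obtain ⟨K2, hK2⟩ := GapBad.card_bad G hG hGi C C5
  obtain ⟨R0, hR0, hR0'⟩ := exists_disc G hGi
  obtain ⟨K3, hK3p, hK3⟩ := gap_lemma D C3 ε hε
  refine ⟨(2 * (C * |(R0 : ℝ)|) + 1) + 1 + (K1 + K2 + 2 * D + K3 * (C + 2)), by positivity, ?_⟩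
  intro H X P A B Λ S s t p hH hX hXP hHP hA hB hΛ hΛ0 hAH hBH hΛH hS
  have hH1 : (1 : ℤ) ≤ H := by exact_mod_cast (by omega : 1 ≤ H)
  have hHε : (1 : ℝ) ≤ (H : ℝ) ^ ε :=
    Real.one_le_rpow (by exact_mod_cast (by omega : 1 ≤ H)) hε.le
  have hP1 : 1 ≤ P := hX.trans hXP
  -- it suffices to bound by a sum of constants
  set c1 : ℝ := 2 * (C * |(R0 : ℝ)|) + 1 with hc1
  have hc1p : 0 ≤ c1 := by positivity
  set c2 : ℝ := K1 + K2 + 2 * D with hc2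
  have hc2p : 0 ≤ c2 := by positivity
  have hc3p : 0 ≤ K3 * (C + 2) := by positivity
  have fin1 : ∀ x : ℝ, x ≤ c1 + 1 → x ≤ (c1 + 1 + (c2 + K3 * (C + 2))) * (H : ℝ) ^ ε := by
    intro x hx
    have h1 : c1 + 1 + (c2 + K3 * (C + 2)) ≤ (c1 + 1 + (c2 + K3 * (C + 2))) * (H : ℝ) ^ ε :=
      le_mul_of_one_le_right (by positivity) hHε
    linarith
  -- the empty case
  rcases S.eq_empty_or_nonempty with hSe | ⟨N0, hN0⟩
  · apply fin1
    rw [hSe]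
    simp
    positivity
  have hA0 : A ≠ 0 := by
    rintro rfl
    exact (hS N0 hN0).2.2.2.2.2.1 (hom_zero _ _ _)
  obtain ⟨D', A', B', hD'D, hAA, hBB, hA'0, hB0, hA', hB', hAB, hcop, hred⟩ :=
    reduce (B := B) hA0 hA hB
  -- heights
  have hHC : 2 ≤ H ^ (C + 1) := by
    calc 2 ≤ H := hH
      _ = H ^ 1 := (pow_one _).symm
      _ ≤ H ^ (C + 1) := Nat.pow_le_pow_right (by omega) (by omega)
  have hup : ∀ f g : ℤ[X], f ≠ 0 → f.natDegree ≤ D → (∀ i, |f.coeff i| ≤ (H : ℤ) ^ C) → g ∣ f →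
      ∀ i, |g.coeff i| ≤ (H : ℤ) ^ C3 := by
    intro f g hf0 hf hfH hgf i
    have h1 := hC1 (H ^ (C + 1)) f g hHC hf0 hf (fun i => (hfH i).trans (by
      push_cast
      exact pow_le_pow_right₀ hH1 (by omega))) hgf i
    refine h1.trans ?_
    push_cast
    rw [← pow_mul]
    exact pow_le_pow_right₀ hH1 (by omega)
  have hA'H : ∀ i, |A'.coeff i| ≤ (H : ℤ) ^ C3 := hup A A' hA0 hA hAH hAA
  have hB'H : ∀ i, |B'.coeff i| ≤ (H : ℤ) ^ C3 := by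
    rcases eq_or_ne B 0 with h0 | h0
    · intro i
      rw [hB0 h0, coeff_zero, abs_zero]
      positivity
    · exact hup B B' h0 hB hBH hBB
  have hred' : ∀ N ∈ S, hom D' A' (s N) (t N) ≠ 0 ∧
      hom D' A' (s N) (t N) * N = hom D' B' (s N) (t N) := fun N hN =>
    hred _ _ _ (hS N hN).2.2.2.2.2.1 (hS N hN).2.2.2.2.2.2.1
  -- constant curves
  rcases Nat.eq_zero_or_pos D' with hd0 | hd0
  · apply fin1
    have h1 : S.card ≤ 1 := by
      rw [Finset.card_le_one]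
      have one : ∀ N ∈ S, A'.coeff 0 ≠ 0 ∧ A'.coeff 0 * N = B'.coeff 0 := by
        intro N hN
        have h2 := hred' N hN
        rw [hd0] at h2
        simpa [hom] using h2
      intro N hN M hM
      exact mul_left_cancel₀ (one N hN).1 ((one N hN).2.trans (one M hM).2.symm)
    have h2 : (S.card : ℝ) ≤ 1 := by exact_mod_cast h1
    linarith
  obtain ⟨d, rfl⟩ : ∃ d, D' = d + 1 := ⟨D' - 1, by omega⟩
  -- small prime numbers
  rcases le_or_gt P |(R0 : ℝ)| with hPR | hPR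
  · apply fin1
    have h1 := card_small S (C * |(R0 : ℝ)|) (by positivity) (fun N hN => (hS N hN).1.trans (by
      have : X ≤ |(R0 : ℝ)| := hXP.trans hPR
      exact mul_le_mul_of_nonneg_left this (Nat.cast_nonneg _)))
    linarith
  -- the exceptional divisors
  have hnD : D ≤ G.natDegree * D := Nat.le_mul_of_pos_left _ (by omega)
  have hA'D : A'.natDegree ≤ D := hA'.trans hD'D
  have hB'D : B'.natDegree ≤ D := hB'.trans hD'D
  obtain ⟨E, hE0, hEH, hE⟩ := hC4 H (cmp G A' B') Λ hH (natDegree_cmp G A' B' D hA'D hB'D)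
    (hΛ.trans hnD) hΛ0
    (fun i => (hC2 H A' B' hH hA'D hB'D hA'H hB'H i).trans (pow_le_pow_right₀ hH1 (by omega)))
    (fun i => (hΛH i).trans (pow_le_pow_right₀ hH1 (by omega)))
  obtain ⟨R, hRne, hRH, hR⟩ := hC5 H (d + 1) A' B' hH (by omega) hD'D hA' hB' hAB hcop hA'H hB'H
  set SE := S.filter fun N => (p N : ℤ) ∣ E with hSE
  set SR := S.filter fun N => (p N : ℤ) ∣ R with hSR
  set SW := S.filter fun N => hom (2 * d) (wr A' B') (s N) (t N) = 0 with hSW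
  set SG := S.filter fun N => ¬ (p N : ℤ) ∣ E ∧ ¬ (p N : ℤ) ∣ R ∧
    hom (2 * d) (wr A' B') (s N) (t N) ≠ 0 with hSG
  have hcover : S ⊆ ((SE ∪ SR) ∪ SW) ∪ SG := by
    intro N hN
    simp only [hSE, hSR, hSW, hSG, Finset.mem_union, Finset.mem_filter, hN, true_and]
    tauto
  have hcard : S.card ≤ SE.card + SR.card + SW.card + SG.card :=
    (Finset.card_le_card hcover).trans ((Finset.card_union_le _ _).trans (Nat.add_le_add_right
      ((Finset.card_union_le _ _).trans (Nat.add_le_add_right (Finset.card_union_le _ _) _)) _))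
  have hNP : ∀ N ∈ S, |(N : ℝ)| ≤ C * P := fun N hN => (hS N hN).1.trans
    (mul_le_mul_of_nonneg_left hXP (Nat.cast_nonneg _))
  have h1 : SE.card ≤ K1 := by
    refine hK1 H P E SE p hH hHP hE0 hEH fun N hN => ?_
    obtain ⟨hNS, hNE⟩ := Finset.mem_filter.1 hN
    obtain ⟨-, -, -, -, -, -, -, a8, a9, a10, -⟩ := hS N hNS
    exact ⟨hNP N hNS, a8, a9, a10, hNE⟩
  have h2 : SR.card ≤ K2 := by
    refine hK2 H P R SR p hH hHP hRne hRH fun N hN => ?_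
    obtain ⟨hNS, hNE⟩ := Finset.mem_filter.1 hN
    obtain ⟨-, -, -, -, -, -, -, a8, a9, a10, -⟩ := hS N hNS
    exact ⟨hNP N hNS, a8, a9, a10, hNE⟩
  have h3 : SW.card ≤ 2 * D := by
    refine (card_wr d A' B' hA' hB' (wr_ne_zero hcop (by omega)) SW s t fun N hN => ?_).trans
      (by omega)
    obtain ⟨hNS, hNE⟩ := Finset.mem_filter.1 hN
    exact ⟨(hS N hNS).2.2.1, (hred' N hNS).1, (hred' N hNS).2, hNE⟩
  have h4 : (SG.card : ℝ) ≤ K3 * (H : ℝ) ^ ε * (1 + (C * X + 1) / P) := by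
    refine hK3 H (C * X + 1) P (d + 1) A' B' SG s t p hH ?_ hP1 (by omega) hD'D hA' hB' hAB hcop
      hA'H hB'H fun N hN => ?_
    · have : (0 : ℝ) ≤ C * X := by positivity
      linarith
    obtain ⟨hNS, hNE, hNR, hNW⟩ := Finset.mem_filter.1 hN
    obtain ⟨a1, a2, a3, a4, a5, -, -, a8, a9, a10, a11, a12⟩ := hS N hNS
    obtain ⟨b1, b2⟩ := hred' N hNS
    have hCC : (H : ℤ) ^ C ≤ (H : ℤ) ^ C3 := pow_le_pow_right₀ hH1 (by omega)
    have hnR : ¬ (p N : ℤ) ∣ hom (d + 1) A' (s N) (t N) := fun h5 =>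
      hNR (h5.trans (hR _ _ a2 ⟨N, b2.symm⟩))
    have hb3 : hom D A' (s N) (t N) * N = hom D B' (s N) (t N) := by
      rw [hom_raise D _ A' hA' hD'D, hom_raise D _ B' hB' hD'D, mul_assoc, b2]
    have hF2 : (p N : ℤ) ^ 2 ∣ hom (G.natDegree * D) (cmp G A' B') (s N) (t N) := by
      rw [hom_cmp G A' B' D hA'D hB'D _ _ N hb3]
      exact Dvd.dvd.mul_left a10 _
    obtain ⟨hpt, hpF⟩ := hE _ _ _ a8 a2 hNE a11 a12 hF2
    have hpG : (p N : ℤ) ∣ G.eval N := (dvd_pow_self _ two_ne_zero).trans a10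
    have hpG' : ¬ (p N : ℤ) ∣ (derivative G).eval N := by
      intro h5
      have h6 := Int.le_of_dvd (abs_pos.2 hR0) ((dvd_abs _ _).2 (hR0' N _ hpG h5))
      have h7 : ((p N : ℕ) : ℝ) ≤ |(R0 : ℝ)| := by exact_mod_cast h6
      linarith
    refine ⟨a1.trans (by linarith), a2, a4.trans hCC, a5.trans hCC, b2, b1, a8, a9, hnR, ?_, ?_⟩
    · rw [show 2 * (d + 1) - 2 = 2 * d by omega]
      exact good_wr G (by omega) d D A' B' hA' hB' hD'D (p N) a8 _ _ N hpt hnR b2 hpG hpG' hpF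
    · rw [show 2 * (d + 1) - 2 = 2 * d by omega]
      exact hNW
  have h5 : (1 + (C * X + 1) / P) ≤ (C : ℝ) + 2 := by
    have h6 : (C * X + 1) / P ≤ C + 1 := by
      rw [div_le_iff₀ (by linarith)]
      have : (C : ℝ) * X ≤ C * P := mul_le_mul_of_nonneg_left hXP (Nat.cast_nonneg _)
      linarith
    linarith
  have h6 : (SG.card : ℝ) ≤ K3 * (C + 2) * (H : ℝ) ^ ε := by
    refine h4.trans ?_
    calc K3 * (H : ℝ) ^ ε * (1 + (C * X + 1) / P) ≤ K3 * (H : ℝ) ^ ε * (C + 2) :=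
          mul_le_mul_of_nonneg_left h5 (by positivity)
      _ = _ := by ring
  have h7 : (S.card : ℝ) ≤ SE.card + SR.card + SW.card + SG.card := by exact_mod_cast hcard
  have h8 : (SE.card : ℝ) ≤ K1 := by exact_mod_cast h1
  have h9 : (SR.card : ℝ) ≤ K2 := by exact_mod_cast h2
  have h10 : (SW.card : ℝ) ≤ 2 * D := by exact_mod_cast h3
  have h11 : (S.card : ℝ) ≤ c2 + K3 * (C + 2) * (H : ℝ) ^ ε := by
    rw [hc2]; linarith
  have h12 : c2 ≤ c2 * (H : ℝ) ^ ε := le_mul_of_one_le_right hc2p hHε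
  have h13 : 0 ≤ (c1 + 1) * (H : ℝ) ^ ε := by positivity
  calc (S.card : ℝ) ≤ c2 * (H : ℝ) ^ ε + K3 * (C + 2) * (H : ℝ) ^ ε := by linarith
    _ ≤ (c1 + 1 + (c2 + K3 * (C + 2))) * (H : ℝ) ^ ε := by linarith

end Vale.Agent.P018.Q.GapP
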