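import Vale.Agent.P018.Q.GapDiv
import Vale.Agent.P018.Q.Heights

/-! # P018, quartics, gap lemma: heights of factors and the homogeneous resultant. -/

namespace Vale.Agent.P018.Q.GapRes

open Polynomial Gap

/-- heights of factors of integer polynomials in one variable. -/
theorem factor_height1' (D : ℕ) : ∃ C : ℕ, ∀ (H : ℕ) (A h : ℤ[X]), 2 ≤ H → A ≠ 0 →
    A.natDegree ≤ D → (∀ i, |A.coeff i| ≤ H) → h ∣ A → ∀ i, |h.coeff i| ≤ (H : ℤ) ^ C := by
  refine ⟨2 * D + 1 + 1, ?_⟩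
  intro H A h hH hA hD hAH hh i
  have h1 := ht_mignotte hA hh hD hAH i
  have hH2 : (2 : ℤ) ≤ H := by exact_mod_cast hH
  have h2 : (2 : ℤ) ^ D ≤ (H : ℤ) ^ D := pow_le_pow_left₀ (by norm_num) hH2 D
  have h3 : ((D : ℤ) + 1) ≤ (H : ℤ) ^ (D + 1) := by
    have h4 : D + 1 ≤ 2 ^ (D + 1) := Nat.lt_two_pow_self.le
    have h5 : 2 ^ (D + 1) ≤ H ^ (D + 1) := Nat.pow_le_pow_left hH _
    exact_mod_cast h4.trans h5
  calc |h.coeff i| ≤ (2 : ℤ) ^ D * (D + 1) * H := h1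
    _ ≤ (H : ℤ) ^ D * (H : ℤ) ^ (D + 1) * H := by
        have h0 : (0 : ℤ) ≤ (D : ℤ) + 1 := by positivity
        have := mul_le_mul h2 h3 h0 (by positivity)
        exact mul_le_mul_of_nonneg_right this (by positivity)
    _ = (H : ℤ) ^ (2 * D + 1 + 1) := by ring

theorem resultant_ne_zero2 {D1 D2 : ℕ} {A B : ℤ[X]} (hA0 : A ≠ 0) (hB0 : B ≠ 0)
    (hA : A.natDegree ≤ D1)
    (hB : B.natDegree ≤ D2) (hAB : A.natDegree = D1 ∨ B.natDegree = D2)
    (hcop : IsCoprime (A.map (Int.castRingHom ℚ)) (B.map (Int.castRingHom ℚ))) :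
    resultant A B D1 D2 ≠ 0 := by
  have hinj : Function.Injective (Int.castRingHom ℚ) := Int.cast_injective
  set f := A.map (Int.castRingHom ℚ) with hf
  set g := B.map (Int.castRingHom ℚ) with hg
  have hfd : f.natDegree = A.natDegree := natDegree_map_eq_of_injective hinj _
  have hgd : g.natDegree = B.natDegree := natDegree_map_eq_of_injective hinj _
  have hf0 : f ≠ 0 := (Polynomial.map_ne_zero_iff hinj).2 hA0
  have hg0 : g ≠ 0 := (Polynomial.map_ne_zero_iff hinj).2 hB0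
  have h1 : resultant f g D1 D2 ≠ 0 := by
    have h2 := resultant_ne_zero f g hcop
    rcases hAB with h | h
    · have h3 := resultant_add_right_deg f g D1 g.natDegree (D2 - g.natDegree) le_rfl
      rw [Nat.add_sub_cancel' (hgd.trans_le hB)] at h3
      rw [h3]
      refine mul_ne_zero (pow_ne_zero _ ?_) ?_
      · rw [← h, ← hfd, coeff_natDegree, leadingCoeff_ne_zero]
        exact hf0
      · rw [← h, ← hfd]; exact h2
    · have h3 := resultant_add_left_deg f g f.natDegree D2 (D1 - f.natDegree) le_rfl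
      rw [Nat.add_sub_cancel' (hfd.trans_le hA)] at h3
      rw [h3]
      refine mul_ne_zero (mul_ne_zero (pow_ne_zero _ (by norm_num)) (pow_ne_zero _ ?_)) ?_
      · rw [← h, ← hgd, coeff_natDegree, leadingCoeff_ne_zero]
        exact hg0
      · rw [← h, ← hgd]; exact h2
  intro h0
  apply h1
  rw [hf, hg, resultant_map_map, h0, map_zero]

/-- the homogeneous resultant. -/
theorem res_hom' (D C : ℕ) : ∃ C' : ℕ, ∀ (H : ℕ) (A B : ℤ[X]) (D1 D2 : ℕ), 2 ≤ H → A ≠ 0 → B ≠ 0 →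
    D1 ≤ D → D2 ≤ D → A.natDegree ≤ D1 → B.natDegree ≤ D2 → (A.natDegree = D1 ∨ B.natDegree = D2) →
    IsCoprime (A.map (Int.castRingHom ℚ)) (B.map (Int.castRingHom ℚ)) →
    (∀ i, |A.coeff i| ≤ (H : ℤ) ^ C) → (∀ i, |B.coeff i| ≤ (H : ℤ) ^ C) →
    ∃ R : ℤ, R ≠ 0 ∧ |R| ≤ (H : ℤ) ^ C' ∧ ∀ s t d : ℤ, IsCoprime s t →
      d ∣ hom D1 A s t → d ∣ hom D2 B s t → d ∣ R := by
  refine ⟨(2 * D).factorial + C * (2 * D) + C * (2 * D) + C, ?_⟩
  intro H A B D1 D2 hH hA0 hB0 hD1D hD2D hA hB hAB hcop hAc hBc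
  have hH1 : (1 : ℤ) ≤ H := by exact_mod_cast (by omega : 1 ≤ H)
  have hpowC : (H : ℤ) ^ C ≤ (H : ℤ) ^ ((2 * D).factorial + C * (2 * D) + C * (2 * D) + C) :=
    pow_le_pow_right₀ hH1 (by omega)
  rcases Nat.eq_zero_or_pos D1 with h10 | hD1
  · subst h10
    have hA' : A = Polynomial.C (A.coeff 0) := eq_C_of_natDegree_le_zero hA
    refine ⟨A.coeff 0, ?_, (hAc 0).trans hpowC, ?_⟩
    · intro h0
      rw [h0, map_zero] at hA'
      exact hA0 hA'
    · intro s t d _ h1 _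
      simpa [hom] using h1
  rcases Nat.eq_zero_or_pos D2 with h20 | hD2
  · subst h20
    have hB' : B = Polynomial.C (B.coeff 0) := eq_C_of_natDegree_le_zero hB
    refine ⟨B.coeff 0, ?_, (hBc 0).trans hpowC, ?_⟩
    · intro h0
      rw [h0, map_zero] at hB'
      exact hB0 hB'
    · intro s t d _ _ h1
      simpa [hom] using h1
  obtain ⟨P, Q, hP, hQ, hPQ⟩ := exists_mul_add_mul_eq_C_resultant A B hA hB
    (Or.inl (by omega : D1 ≠ 0))
  have hR0 := resultant_ne_zero2 hA0 hB0 hA hB hAB hcop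
  set R0 : ℤ := resultant A B D1 D2 with hR0def
  have hnd : ∀ (P : ℤ[X]) (E : ℕ), 0 < E → P.degree < (E : WithBot ℕ) → P.natDegree ≤ E - 1 := by
    intro P E hE hP
    rcases eq_or_ne P 0 with rfl | h0
    · simp
    · rw [← natDegree_lt_iff_degree_lt h0] at hP
      omega
  -- the coefficient of the top degree
  obtain ⟨a, E, ha0, haC, ha⟩ : ∃ (a : ℤ) (E : ℕ), a ≠ 0 ∧ |a| ≤ (H : ℤ) ^ C ∧
      ∀ s t d : ℤ, d ∣ hom D1 A s t → d ∣ hom D2 B s t → ∃ x w : ℤ, x = a * s ^ E + t * w ∧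
        d ∣ x := by
    rcases hAB with h | h
    · refine ⟨A.coeff D1, D1, ?_, hAc _, ?_⟩
      · rw [← h, coeff_natDegree, leadingCoeff_ne_zero]
        exact hA0
      · intro s t d h1 _
        obtain ⟨w, hw⟩ := hom_top D1 A s t
        exact ⟨_, w, hw, h1⟩
    · refine ⟨B.coeff D2, D2, ?_, hBc _, ?_⟩
      · rw [← h, coeff_natDegree, leadingCoeff_ne_zero]
        exact hB0
      · intro s t d _ hst
        obtain ⟨w, hw⟩ := hom_top D2 B s t
        exact ⟨_, w, hw, hst⟩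
  refine ⟨R0 * a ^ (D1 + (D2 - 1)), mul_ne_zero hR0 (pow_ne_zero _ ha0), ?_, ?_⟩
  · rw [abs_mul, abs_pow]
    have h1 : |R0| ≤ (((D1 + D2).factorial : ℕ) : ℤ) * ((H : ℤ) ^ C) ^ (D1 + D2) :=
      resultant_abs_le A B _ (by positivity) hAc hBc D1 D2
    have h2 : (((D1 + D2).factorial : ℕ) : ℤ) ≤ (H : ℤ) ^ (2 * D).factorial := by
      have h3 : (D1 + D2).factorial ≤ (2 * D).factorial := Nat.factorial_le (by omega)
      have h4 : (2 * D).factorial ≤ 2 ^ (2 * D).factorial := Nat.lt_two_pow_self.le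
      have h5 : 2 ^ (2 * D).factorial ≤ H ^ (2 * D).factorial := Nat.pow_le_pow_left hH _
      exact_mod_cast h3.trans (h4.trans h5)
    have h6 : ((H : ℤ) ^ C) ^ (D1 + D2) ≤ (H : ℤ) ^ (C * (2 * D)) := by
      rw [← pow_mul]
      exact pow_le_pow_right₀ hH1 (Nat.mul_le_mul_left _ (by omega))
    have h7 : |a| ^ (D1 + (D2 - 1)) ≤ (H : ℤ) ^ (C * (2 * D)) := by
      calc |a| ^ (D1 + (D2 - 1)) ≤ ((H : ℤ) ^ C) ^ (D1 + (D2 - 1)) :=
            pow_le_pow_left₀ (abs_nonneg _) haC _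
        _ = (H : ℤ) ^ (C * (D1 + (D2 - 1))) := (pow_mul _ _ _).symm
        _ ≤ _ := pow_le_pow_right₀ hH1 (Nat.mul_le_mul_left _ (by omega))
    have h8 : (H : ℤ) ^ ((2 * D).factorial + C * (2 * D) + C * (2 * D)) ≤
        (H : ℤ) ^ ((2 * D).factorial + C * (2 * D) + C * (2 * D) + C) :=
      pow_le_pow_right₀ hH1 (by omega)
    refine le_trans ?_ h8
    rw [pow_add (H : ℤ) ((2 * D).factorial + C * (2 * D)), pow_add (H : ℤ) (2 * D).factorial]
    refine mul_le_mul (h1.trans ?_) h7 (by positivity) (by positivity)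
    exact mul_le_mul h2 h6 (by positivity) (by positivity)
  · intro s t d hst hdA hdB
    obtain ⟨x, w, hx, hcx⟩ := ha s t d hdA hdB
    refine dvd_of_form hx hcx ?_ hst
    have h1 : hom (D1 + (D2 - 1)) (A * P + B * Q) s t =
        hom D1 A s t * hom (D2 - 1) P s t + hom D2 B s t * hom (D1 - 1) Q s t := by
      rw [hom_add, hom_mul _ _ _ _ hA (hnd P D2 hD2 hP)]
      have hh : D1 + (D2 - 1) = D2 + (D1 - 1) := by omega
      conv_lhs => rw [hh]
      rw [hom_mul _ _ _ _ hB (hnd Q D1 hD1 hQ)]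
    have h2 : hom (D1 + (D2 - 1)) (A * P + B * Q) s t = R0 * t ^ (D1 + (D2 - 1)) := by
      rw [hPQ, ← monomial_zero_left, hom_monomial _ 0 (Nat.zero_le _)]
      simp
    rw [← h2, h1]
    exact dvd_add (Dvd.dvd.mul_right hdA _) (Dvd.dvd.mul_right hdB _)

end Vale.Agent.P018.Q.GapRes
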