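import Mathlib
import Vale.Agent.P018.Q.Gap
import Vale.Agent.P018.Q.GapParamD
import Vale.Agent.P018.Q.GapDR
import Vale.Agent.P018.Q.GapRes

/-! # P018, quartics: the gap lemma for arbitrary parametrised curves. -/

namespace Vale.Agent.P018.Q

open Polynomial Finset

/-- heights of factors of integer polynomials in one variable. -/
theorem factor_height1 (D : ℕ) : ∃ C : ℕ, ∀ (H : ℕ) (A h : ℤ[X]), 2 ≤ H → A ≠ 0 →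
    A.natDegree ≤ D → (∀ i, |A.coeff i| ≤ H) → h ∣ A → ∀ i, |h.coeff i| ≤ (H : ℤ) ^ C :=
  GapRes.factor_height1' D

/-- the homogeneous resultant. -/
theorem res_hom (D C : ℕ) : ∃ C' : ℕ, ∀ (H : ℕ) (A B : ℤ[X]) (D1 D2 : ℕ), 2 ≤ H → A ≠ 0 → B ≠ 0 →
    D1 ≤ D → D2 ≤ D → A.natDegree ≤ D1 → B.natDegree ≤ D2 → (A.natDegree = D1 ∨ B.natDegree = D2) →
    IsCoprime (A.map (Int.castRingHom ℚ)) (B.map (Int.castRingHom ℚ)) →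
    (∀ i, |A.coeff i| ≤ (H : ℤ) ^ C) → (∀ i, |B.coeff i| ≤ (H : ℤ) ^ C) →
    ∃ R : ℤ, R ≠ 0 ∧ |R| ≤ (H : ℤ) ^ C' ∧ ∀ s t d : ℤ, IsCoprime s t →
      d ∣ hom D1 A s t → d ∣ hom D2 B s t → d ∣ R :=
  GapRes.res_hom' D C

/-- a prime number which divides `Λ(s, t)` exactly once and `F(s, t)` at least twice divides the
derivative of `F`, apart from the divisors of a bounded number `E`. -/
theorem double_root (D C : ℕ) : ∃ C' : ℕ, ∀ (H : ℕ) (F Λ : ℤ[X]), 2 ≤ H → F.natDegree ≤ D →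
    Λ.natDegree ≤ D → Λ ≠ 0 → (∀ i, |F.coeff i| ≤ (H : ℤ) ^ C) → (∀ i, |Λ.coeff i| ≤ (H : ℤ) ^ C) →
    ∃ E : ℤ, E ≠ 0 ∧ |E| ≤ (H : ℤ) ^ C' ∧ ∀ (s t : ℤ) (p : ℕ), p.Prime → IsCoprime s t →
      ¬ (p : ℤ) ∣ E → (p : ℤ) ∣ hom Λ.natDegree Λ s t → ¬ (p : ℤ) ^ 2 ∣ hom Λ.natDegree Λ s t →
      (p : ℤ) ^ 2 ∣ hom D F s t → ¬ (p : ℤ) ∣ t ∧ (p : ℤ) ∣ hom (D - 1) (derivative F) s t :=
  double_root_of factor_height1 res_hom D C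

/-- the number of solutions on a parametrised curve `A(s, t) N = B(s, t)`. -/
theorem gap_param (G : ℤ[X]) (hG : G.Monic) (hGi : Irreducible (G.map (Int.castRingHom ℚ)))
    (hGd : 2 ≤ G.natDegree) (D C : ℕ) (ε : ℝ) (hε : 0 < ε) :
    ∃ K : ℝ, 0 < K ∧ ∀ (H : ℕ) (X P : ℝ) (A B Λ : ℤ[X]) (S : Finset ℤ) (s t : ℤ → ℤ)
      (p : ℤ → ℕ), 2 ≤ H → 1 ≤ X → X ≤ P → (H : ℝ) ≤ P →
      A.natDegree ≤ D → B.natDegree ≤ D → Λ.natDegree ≤ D → Λ ≠ 0 →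
      (∀ i, |A.coeff i| ≤ (H : ℤ) ^ C) → (∀ i, |B.coeff i| ≤ (H : ℤ) ^ C) →
      (∀ i, |Λ.coeff i| ≤ (H : ℤ) ^ C) →
      (∀ N ∈ S, |(N : ℝ)| ≤ C * X ∧ IsCoprime (s N) (t N) ∧ t N ≠ 0 ∧
        |s N| ≤ (H : ℤ) ^ C ∧ |t N| ≤ (H : ℤ) ^ C ∧
        hom D A (s N) (t N) ≠ 0 ∧ hom D A (s N) (t N) * N = hom D B (s N) (t N) ∧
        (p N).Prime ∧ P ≤ p N ∧ (p N : ℤ) ^ 2 ∣ G.eval N ∧
        (p N : ℤ) ∣ hom Λ.natDegree Λ (s N) (t N) ∧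
        ¬ (p N : ℤ) ^ 2 ∣ hom Λ.natDegree Λ (s N) (t N)) →
      (S.card : ℝ) ≤ K * (H : ℝ) ^ ε :=
  GapP.gap_param_of factor_height1 double_root G hG hGi hGd D C ε hε

end Vale.Agent.P018.Q
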