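import Mathlib
import Vale.Agent.P018.Q.GapBad
import Vale.Agent.P018.Q.PairDefs
import Vale.Agent.P018.Q.RelDiv

/-! # P018, quartics: arithmetic of the points over a reduced pair. -/

namespace Vale.Agent.P018.Q.GapPt

open Polynomial NumberField Finset

variable {L : Type} [Field L] [NumberField L]

/-- `ell (θ j) l ≠ 0` for `l ≠ 0` -/
theorem ell_ne {G : ℤ[X]} {θ : Fin 4 → 𝓞 L} (hF : Fld G θ) {l : Fin 4 → ℤ} (hl : l ≠ 0)
    (j : Fin 4) : K.ell (θ j) l ≠ 0 := by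
  obtain ⟨F, _, _, α, σ, hQ⟩ := exists_quartic hF.monic hF.deg hF.irr hF.split
  have h1 := hQ.ell_ne_zero hl
  intro h
  apply h1
  apply (σ j).injective
  rw [hQ.map_ell, h, map_zero]
  rfl

/-- the values of the form `Λ` -/
theorem hom_lam {θ : Fin 4 → 𝓞 L} {l1 l2 : Fin 4 → ℤ} {Λ : ℤ[X]}
    (hΛ : Λ.map (algebraMap ℤ (𝓞 L)) = ∏ j, piPoly θ l1 l2 j) (s t : ℤ) :
    ((hom 4 Λ s t : ℤ) : 𝓞 L) = ∏ j, K.ell (θ j) (s • l1 + t • l2) := by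
  have hc : ∀ i, ((Λ.coeff i : ℤ) : 𝓞 L) = (∏ j, piPoly θ l1 l2 j).coeff i := fun i => by
    rw [← hΛ, coeff_map]; rfl
  set a : Fin 4 → 𝓞 L := fun j => K.ell (θ j) l1 with ha
  set b : Fin 4 → 𝓞 L := fun j => K.ell (θ j) l2 with hb
  have hP : ∏ j, piPoly θ l1 l2 j = C (b 0 * b 1 * b 2 * b 3) +
      C (a 0 * b 1 * b 2 * b 3 + b 0 * a 1 * b 2 * b 3 + b 0 * b 1 * a 2 * b 3 +
        b 0 * b 1 * b 2 * a 3) * X +
      C (a 0 * a 1 * b 2 * b 3 + a 0 * b 1 * a 2 * b 3 + a 0 * b 1 * b 2 * a 3 +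
        b 0 * a 1 * a 2 * b 3 + b 0 * a 1 * b 2 * a 3 + b 0 * b 1 * a 2 * a 3) * X ^ 2 +
      C (b 0 * a 1 * a 2 * a 3 + a 0 * b 1 * a 2 * a 3 + a 0 * a 1 * b 2 * a 3 +
        a 0 * a 1 * a 2 * b 3) * X ^ 3 +
      C (a 0 * a 1 * a 2 * a 3) * X ^ 4 := by
    rw [Fin.prod_univ_four]
    simp only [piPoly, map_add, map_mul, ha, hb]
    ring
  rw [hP] at hc
  have e0 := hc 0
  have e1 := hc 1
  have e2 := hc 2
  have e3 := hc 3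
  have e4 := hc 4
  simp only [coeff_add, coeff_C_mul, coeff_X_pow, coeff_C, coeff_X] at e0 e1 e2 e3 e4
  norm_num at e0 e1 e2 e3 e4
  rw [Fin.prod_univ_four]
  simp only [ell_lin]
  simp only [hom, Finset.sum_range_succ, Finset.sum_range_zero]
  push_cast
  simp only [e0, e1, e2, e3, e4, ha, hb]
  ring

/-- `Λ` has degree `4` -/
theorem natDegree_lam {G : ℤ[X]} {θ : Fin 4 → 𝓞 L} (hF : Fld G θ) {l1 l2 : Fin 4 → ℤ} {Λ : ℤ[X]}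
    (hl1 : l1 ≠ 0) (hΛ : Λ.map (algebraMap ℤ (𝓞 L)) = ∏ j, piPoly θ l1 l2 j) :
    Λ.natDegree = 4 := by
  have h1 := hom_lam hΛ 1 0
  rw [hom_zero_right, one_pow, mul_one] at h1
  refine natDegree_eq_of_le_of_coeff_ne_zero ?_ ?_
  · rw [← natDegree_map_eq_of_injective (FaithfulSMul.algebraMap_injective ℤ (𝓞 L)) Λ, hΛ]
    refine (natDegree_prod_le _ _).trans ?_
    refine (Finset.sum_le_sum fun j _ =>
      (show (piPoly θ l1 l2 j).natDegree ≤ 1 from natDegree_linear_le)).trans ?_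
    simp
  · intro h0
    rw [h0, Int.cast_zero] at h1
    obtain ⟨j, -, hj⟩ := Finset.prod_eq_zero_iff.1 h1.symm
    rw [one_smul, zero_smul, add_zero] at hj
    exact ell_ne hF hl1 j hj

/-- `Λ` has no rational zeros -/
theorem hom_lam_ne {G : ℤ[X]} {θ : Fin 4 → 𝓞 L} (hF : Fld G θ) {l1 l2 : Fin 4 → ℤ} {Λ : ℤ[X]}
    (hl : ∀ a b : ℤ, a • l1 + b • l2 = 0 → a = 0 ∧ b = 0)
    (hΛ : Λ.map (algebraMap ℤ (𝓞 L)) = ∏ j, piPoly θ l1 l2 j) (s t : ℤ) (hst : s ≠ 0 ∨ t ≠ 0) :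
    hom 4 Λ s t ≠ 0 := by
  intro h0
  have h1 := hom_lam hΛ s t
  rw [h0, Int.cast_zero] at h1
  obtain ⟨j, -, hj⟩ := Finset.prod_eq_zero_iff.1 h1.symm
  refine ell_ne hF ?_ j hj
  intro h2
  obtain ⟨h3, h4⟩ := hl s t h2
  rcases hst with h | h
  · exact h h3
  · exact h h4

/-- the arithmetic of a point -/
theorem pt_facts {G : ℤ[X]} {θ : Fin 4 → 𝓞 L} (hF : Fld G θ) {C : ℕ} {X T : ℝ}
    {l1 l2 : Fin 4 → ℤ} {N : ℤ} {p : ℕ} {c : ℤ} {z : Fin 4 → ℤ} {s t : ℤ} (hC : (C : ℝ) < T ^ 4)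
    (h : Pt θ C X T l1 l2 N p c z s t) :
    ∃ g s0 t0 h0 c' : ℤ, s = g * s0 ∧ t = g * t0 ∧ IsCoprime s0 t0 ∧ g ≠ 0 ∧ ¬ (p : ℤ) ∣ g ∧
      ∏ j, K.ell (θ j) (s0 • l1 + t0 • l2) = (h0 : 𝓞 L) ∧ (p : ℤ) ∣ h0 ∧ ¬ (p : ℤ) ^ 2 ∣ h0 ∧
      (p : ℤ) ^ 2 ∣ G.eval N ∧ ¬ (p : ℤ) ∣ c ∧ c' ≠ 0 ∧ |c'| ≤ C ∧ ¬ (p : ℤ) ∣ c' ∧
      g ^ 4 * h0 = p * c' := by
  have hCp : (C : ℤ) < p := by exact_mod_cast hC.trans_le h.dat.lo
  have hpp : Prime (p : ℤ) := Nat.prime_iff_prime_int.1 h.dat.prime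
  have hp0 : (p : ℤ) ≠ 0 := hpp.ne_zero
  have hsmall : ∀ a : ℤ, a ≠ 0 → |a| ≤ C → ¬ (p : ℤ) ∣ a := by
    intro a ha haC hd
    have := Int.le_of_dvd (abs_pos.2 ha) ((dvd_abs _ _).2 hd)
    omega
  obtain ⟨c', hc'0, hc'C, hprod⟩ := h.dat.nrm
  have hpc' := hsmall c' hc'0 hc'C
  have hpc := hsmall c h.dat.c0 h.dat.cC
  have hst : ¬ (s = 0 ∧ t = 0) := by
    rintro ⟨rfl, rfl⟩
    have h1 : ∏ i, K.ell (θ i) ((0 : ℤ) • l1 + (0 : ℤ) • l2) = 0 := by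
      refine Finset.prod_eq_zero (Finset.mem_univ 0) ?_
      rw [ell_lin]; simp
    rw [h1] at hprod
    have h2 : (p : ℤ) * c' = 0 := by exact_mod_cast hprod.symm
    rcases mul_eq_zero.1 h2 with h3 | h3
    · exact hp0 h3
    · exact hc'0 h3
  have hgpos : 0 < Int.gcd s t := by
    rw [Nat.pos_iff_ne_zero, Ne, Int.gcd_eq_zero_iff]
    exact hst
  obtain ⟨s0, t0, hcop, hs, ht⟩ := Int.exists_gcd_one hgpos
  set g : ℤ := (Int.gcd s t : ℤ) with hg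
  have hg0 : g ≠ 0 := by rw [hg]; exact_mod_cast hgpos.ne'
  have hell : ∀ j, K.ell (θ j) (s • l1 + t • l2) =
      (g : 𝓞 L) * K.ell (θ j) (s0 • l1 + t0 • l2) := by
    intro j
    rw [ell_lin, ell_lin]
    have e1 : (s : 𝓞 L) = s0 * g := by exact_mod_cast congrArg (Int.cast : ℤ → 𝓞 L) hs
    have e2 : (t : 𝓞 L) = t0 * g := by exact_mod_cast congrArg (Int.cast : ℤ → 𝓞 L) ht
    rw [e1, e2]; ring
  have hprod2 : (g : 𝓞 L) ^ 4 * ∏ j, K.ell (θ j) (s0 • l1 + t0 • l2) =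
      (((p : ℤ) * c' : ℤ) : 𝓞 L) := by
    rw [← hprod]
    simp only [hell]
    rw [Finset.prod_mul_distrib, Finset.prod_const, Finset.card_univ, Fintype.card_fin]
  have hdvd : g ^ 4 ∣ (p : ℤ) * c' := by
    refine rd_int L ?_
    rw [← hprod2, Int.cast_pow]
    exact dvd_mul_right _ _
  obtain ⟨h0, hh0⟩ := hdvd
  have hgL : (g : 𝓞 L) ^ 4 ≠ 0 := pow_ne_zero _ (by exact_mod_cast hg0)
  have hh : ∏ j, K.ell (θ j) (s0 • l1 + t0 • l2) = (h0 : 𝓞 L) := by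
    apply mul_left_cancel₀ hgL
    rw [hprod2, hh0]; push_cast; ring
  have hpg : ¬ (p : ℤ) ∣ g := by
    intro hd
    have h1 : (p : ℤ) ^ 4 ∣ p * c' := (pow_dvd_pow_of_dvd hd 4).trans ⟨h0, hh0⟩
    have h2 : (p : ℤ) * p ∣ p * c' := by
      refine dvd_trans ?_ h1
      exact ⟨(p : ℤ) ^ 2, by ring⟩
    exact hpc' ((mul_dvd_mul_iff_left hp0).1 h2)
  have hph0 : (p : ℤ) ∣ h0 := by
    have h1 : (p : ℤ) ∣ g ^ 4 * h0 := by rw [← hh0]; exact dvd_mul_right _ _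
    rcases hpp.dvd_or_dvd h1 with h2 | h2
    · exact absurd (hpp.dvd_of_dvd_pow h2) hpg
    · exact h2
  have hph0' : ¬ (p : ℤ) ^ 2 ∣ h0 := by
    intro hd
    have h1 : (p : ℤ) * p ∣ p * c' := by
      rw [hh0, ← sq]
      exact Dvd.dvd.mul_left hd _
    exact hpc' ((mul_dvd_mul_iff_left hp0).1 h1)
  have hGN : (p : ℤ) ^ 2 ∣ G.eval N := by
    have h1 : ((G.eval N : ℤ) : 𝓞 L) = ∏ i, ((N : 𝓞 L) - θ i) := by
      have h2 := congrArg (eval (N : 𝓞 L)) hF.split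
      rw [eval_intCast_map, eval_prod] at h2
      simp only [eval_sub, eval_X, eval_C] at h2
      rw [← h2]
      simp
    have h2 : (((c ^ 4 * G.eval N : ℤ)) : 𝓞 L) =
        (((p : ℤ) * c' : ℤ) : 𝓞 L) ^ 2 * ∏ i, K.ell (θ i) z := by
      rw [← hprod, ← Finset.prod_pow, ← Finset.prod_mul_distrib]
      push_cast
      rw [h1]
      have h3 : (c : 𝓞 L) ^ 4 = ∏ _i : Fin 4, (c : 𝓞 L) := by
        rw [Finset.prod_const, Finset.card_univ, Fintype.card_fin]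
      rw [h3, ← Finset.prod_mul_distrib]
      exact Finset.prod_congr rfl fun i _ => h.dat.eqn i
    have h3 : (p : ℤ) ^ 2 ∣ c ^ 4 * G.eval N := by
      refine rd_int L ?_
      rw [h2]
      refine Dvd.dvd.mul_right ?_ _
      push_cast
      rw [mul_pow]
      exact dvd_mul_right _ _
    have h4 : IsCoprime ((p : ℤ) ^ 2) (c ^ 4) :=
      IsCoprime.pow ((Prime.coprime_iff_not_dvd hpp).2 hpc)
    exact h4.dvd_of_dvd_mul_left h3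
  refine ⟨g, s0, t0, h0, c', ?_, ?_, ?_, hg0, hpg, hh, hph0, hph0', hGN, hpc, hc'0, hc'C, hpc', ?_⟩
  · rw [mul_comm]; exact hs
  · rw [mul_comm]; exact ht
  · exact Int.isCoprime_iff_gcd_eq_one.2 hcop
  · exact hh0.symm

end Vale.Agent.P018.Q.GapPt
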