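import Vale.Agent.P018.Q.GapDat

/-! # P018, quartics: points with `A(σ) N = B(σ)`. -/

namespace Vale.Agent.P018.Q

open Polynomial NumberField Finset

variable {L : Type} [Field L] [NumberField L]

theorem Fld.ell_ne {G : ℤ[X]} {θ : Fin 4 → 𝓞 L} (hF : Fld G θ) {l : Fin 4 → ℤ} (hl : l ≠ 0)
    (j : Fin 4) : K.ell (θ j) l ≠ 0 := by
  obtain ⟨F, _, _, α, σ, hQ⟩ := exists_quartic hF.monic hF.deg hF.irr hF.split
  intro h
  have h1 := hQ.map_ell j l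
  rw [h] at h1
  have h2 : σ j (K.ell α l) = 0 := by rw [h1]; exact map_zero _
  exact hQ.ell_ne_zero hl ((map_eq_zero (σ j)).1 h2)

theorem Fld.natDegree_Lam {G : ℤ[X]} {θ : Fin 4 → 𝓞 L} (hF : Fld G θ) {l1 l2 : Fin 4 → ℤ}
    (hl : l1 ≠ 0) {Λ : ℤ[X]} (hΛ : Λ.map (algebraMap ℤ (𝓞 L)) = ∏ j, piPoly θ l1 l2 j) :
    Λ.natDegree = 4 := by
  have hinj : Function.Injective (algebraMap ℤ (𝓞 L)) := RingHom.injective_int _
  rw [← natDegree_map_eq_of_injective hinj Λ, hΛ]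
  have h1 : ∀ j, (piPoly θ l1 l2 j).natDegree = 1 := fun j =>
    natDegree_linear (hF.ell_ne hl j)
  rw [natDegree_prod _ _ fun j _ h0 => by
    have := h1 j
    rw [h0, natDegree_zero] at this
    omega]
  simp [h1]

theorem hom_Lam {θ : Fin 4 → 𝓞 L} {l1 l2 : Fin 4 → ℤ} {Λ : ℤ[X]}
    (hΛ : Λ.map (algebraMap ℤ (𝓞 L)) = ∏ j, piPoly θ l1 l2 j) (h4 : Λ.natDegree ≤ 4)
    {s t : ℤ} (ht : t ≠ 0) :
    ((hom 4 Λ s t : ℤ) : 𝓞 L) = ∏ j, K.ell (θ j) (s • l1 + t • l2) := by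
  apply RingOfIntegers.coe_injective
  have htL : (t : L) ≠ 0 := by exact_mod_cast ht
  have h1 : (algebraMap (𝓞 L) L) ((hom 4 Λ s t : ℤ) : 𝓞 L) = hom 4 Λ (s : L) (t : L) := by
    rw [map_intCast]
    exact hom_map (Int.castRingHom L) 4 Λ s t
  have h2 : hom 4 Λ (s : L) (t : L) = (t : L) ^ 4 * aeval ((s : L) / t) Λ := by
    have := hom_mul (R := L) 4 h4 ((s : L) / t) t
    rwa [div_mul_cancel₀ _ htL] at this
  have h3 : aeval ((s : L) / t) Λ =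
      ∏ j, ((algebraMap (𝓞 L) L (K.ell (θ j) l1)) * ((s : L) / t) +
        algebraMap (𝓞 L) L (K.ell (θ j) l2)) := by
    have h5 : aeval ((s : L) / t) Λ =
        ((Λ.map (algebraMap ℤ (𝓞 L))).map (algebraMap (𝓞 L) L)).eval ((s : L) / t) := by
      rw [Polynomial.map_map, eval_map, aeval_def]
      congr 1
    rw [h5, hΛ, Polynomial.map_prod, eval_prod]
    refine Finset.prod_congr rfl fun j _ => ?_
    simp [piPoly]
  show (algebraMap (𝓞 L) L) _ = (algebraMap (𝓞 L) L) _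
  rw [h1, h2, h3, map_prod]
  have h6 : (t : L) ^ 4 = ∏ _j : Fin 4, (t : L) := by simp
  rw [h6, ← Finset.prod_mul_distrib]
  refine Finset.prod_congr rfl fun j _ => ?_
  rw [ell_lin, map_add, map_mul, map_mul, map_intCast, map_intCast]
  field_simp

/-- the arithmetic of a point, for `gap_param`. -/
theorem pt_prim {G : ℤ[X]} {θ : Fin 4 → 𝓞 L} (hF : Fld G θ) {C : ℕ} {X T : ℝ}
    {l1 l2 : Fin 4 → ℤ} (hl : l1 ≠ 0) {Λ : ℤ[X]}
    (hΛ : Λ.map (algebraMap ℤ (𝓞 L)) = ∏ j, piPoly θ l1 l2 j) {N : ℤ} {p : ℕ} {c : ℤ}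
    {z : Fin 4 → ℤ} {s t : ℤ} (hP : Pt θ C X T l1 l2 N p c z s t) (hCp : C < p) (ht : t ≠ 0) :
    ∃ s0 t0 : ℤ, IsCoprime s0 t0 ∧ t0 ≠ 0 ∧ |s0| ≤ |s| ∧ |t0| ≤ |t| ∧
      ((s0 : ℚ) / t0 = (s : ℚ) / t) ∧ (p : ℤ) ∣ hom Λ.natDegree Λ s0 t0 ∧
      ¬ (p : ℤ) ^ 2 ∣ hom Λ.natDegree Λ s0 t0 := by
  obtain ⟨c1, hc10, hc1C, hc1⟩ := hP.dat.nrm
  have hpp := Nat.prime_iff_prime_int.1 hP.dat.prime
  set g : ℤ := (Int.gcd s t : ℤ) with hg
  obtain ⟨s0, hs0⟩ : g ∣ s := Int.gcd_dvd_left s t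
  obtain ⟨t0, ht0⟩ : g ∣ t := Int.gcd_dvd_right s t
  have hpg : ¬ (p : ℤ) ∣ g := by
    refine hP.dat.not_dvd hCp (y0 := s0 • l1 + t0 • l2) ?_
    rw [smul_add, smul_smul, smul_smul, ← hs0, ← ht0]
  have hg0 : g ≠ 0 := by
    intro h
    rw [h, zero_mul] at ht0
    exact ht ht0
  have ht00 : t0 ≠ 0 := by
    intro h
    rw [h, mul_zero] at ht0
    exact ht ht0
  have hgpos : 1 ≤ |g| := Int.one_le_abs hg0
  have h4 := hF.natDegree_Lam hl hΛ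
  rw [h4]
  have hhom : g ^ 4 * hom 4 Λ s0 t0 = p * c1 := by
    have h1 : hom 4 Λ s t = g ^ 4 * hom 4 Λ s0 t0 := by
      rw [← Gap.hom_smul, ← hs0, ← ht0]
    have h2 := hom_Lam (L := L) hΛ h4.le (s := s) ht
    rw [hc1] at h2
    have h3 : hom 4 Λ s t = p * c1 := by exact_mod_cast h2
    rw [← h1, h3]
  refine ⟨s0, t0, ?_, ht00, ?_, ?_, ?_, ?_, ?_⟩
  · have hb : g = s * Int.gcdA s t + t * Int.gcdB s t := Int.gcd_eq_gcd_ab s t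
    refine ⟨Int.gcdA s t, Int.gcdB s t, mul_left_cancel₀ hg0 ?_⟩
    calc g * (Int.gcdA s t * s0 + Int.gcdB s t * t0) =
        (g * s0) * Int.gcdA s t + (g * t0) * Int.gcdB s t := by ring
      _ = g * 1 := by rw [← hs0, ← ht0, ← hb, mul_one]
  · rw [hs0, abs_mul]
    nlinarith [abs_nonneg s0]
  · rw [ht0, abs_mul]
    nlinarith [abs_nonneg t0]
  · have e1 : (s : ℚ) = g * s0 := by exact_mod_cast hs0
    have e2 : (t : ℚ) = g * t0 := by exact_mod_cast ht0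
    have e3 : (g : ℚ) ≠ 0 := by exact_mod_cast hg0
    rw [e1, e2, mul_div_mul_left _ _ e3]
  · have h1 : (p : ℤ) ∣ g ^ 4 * hom 4 Λ s0 t0 := by rw [hhom]; exact dvd_mul_right _ _
    rcases hpp.dvd_or_dvd h1 with h | h
    · exact absurd (hpp.dvd_of_dvd_pow h) hpg
    · exact h
  · intro h
    have h1 : (p : ℤ) ^ 2 ∣ p * c1 := by
      rw [← hhom]
      exact Dvd.dvd.mul_left h _
    have hp0 : (p : ℤ) ≠ 0 := hpp.ne_zero
    rw [sq] at h1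
    exact not_dvd_small hCp hc10 hc1C ((mul_dvd_mul_iff_left hp0).1 h1)

theorem hom_of_aeval {D : ℕ} {A : ℤ[X]} (hA : A.natDegree ≤ D) {s t : ℤ} (ht : t ≠ 0) :
    ((hom D A s t : ℤ) : ℚ) = (t : ℚ) ^ D * aeval ((s : ℚ) / t) A := by
  have htQ : (t : ℚ) ≠ 0 := by exact_mod_cast ht
  have := hom_mul (R := ℚ) D hA ((s : ℚ) / t) t
  rw [div_mul_cancel₀ _ htQ] at this
  rw [← this]
  exact hom_map (Int.castRingHom ℚ) D A s t

theorem abs_le_pow {H C : ℕ} (hH : 2 ≤ H) {T : ℝ} (hT0 : 0 ≤ T) (hT : T ≤ H) {s : ℤ} {m : ℤ}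
    (hm : 1 ≤ m) (h : (s : ℝ) ^ 2 * m ≤ C * T ^ 2) : |s| ≤ (H : ℤ) ^ (C + 1) := by
  have h1 : (s : ℝ) ^ 2 ≤ C * T ^ 2 := by
    have h2 : (1 : ℝ) ≤ m := by exact_mod_cast hm
    nlinarith [sq_nonneg (s : ℝ)]
  have hCH : (C : ℝ) ≤ (H : ℝ) ^ C := by
    have : C ≤ H ^ C := (Nat.lt_pow_self (by omega)).le
    exact_mod_cast this
  have hH1 : (1 : ℝ) ≤ H := by exact_mod_cast (by omega : 1 ≤ H)
  have h3 : (s : ℝ) ^ 2 ≤ ((H : ℝ) ^ (C + 1)) ^ 2 := by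
    have h4 : T ^ 2 ≤ (H : ℝ) ^ 2 := pow_le_pow_left₀ hT0 hT 2
    have h5 : (C : ℝ) * T ^ 2 ≤ (H : ℝ) ^ C * (H : ℝ) ^ 2 :=
      mul_le_mul hCH h4 (by positivity) (by positivity)
    refine h1.trans (h5.trans ?_)
    rw [← pow_add, ← pow_mul]
    exact pow_le_pow_right₀ hH1 (by omega)
  have h6 : |(s : ℝ)| ≤ (H : ℝ) ^ (C + 1) := abs_le_of_sq_le_sq h3 (by positivity)
  exact_mod_cast h6

theorem dot_self_pos {l : Fin 4 → ℤ} (hl : l ≠ 0) : 1 ≤ dot l l := by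
  obtain ⟨i, hi⟩ := Function.ne_iff.1 hl
  have h1 : l i * l i ≤ dot l l :=
    Finset.single_le_sum (f := fun i => l i * l i) (fun j _ => mul_self_nonneg _) (mem_univ i)
  have h2 : 0 < l i * l i := mul_self_pos.2 hi
  omega

theorem card_small {C : ℕ} {X : ℝ} {S : Finset ℤ} {M : ℕ} (h : ∀ N ∈ S, |(N : ℝ)| ≤ C * X)
    (hM : C * X ≤ M) : (S.card : ℝ) ≤ 2 * M + 1 := by
  have h1 : S ⊆ Finset.Icc (-(M : ℤ)) M := by
    intro N hN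
    have h2 := (h N hN).trans hM
    have h3 : |N| ≤ (M : ℤ) := by exact_mod_cast h2
    rw [Finset.mem_Icc]
    exact abs_le.1 h3
  have h2 := Finset.card_le_card h1
  rw [Int.card_Icc] at h2
  have h3 : ((M : ℤ) + 1 - -(M : ℤ)).toNat = 2 * M + 1 := by omega
  rw [h3] at h2
  exact_mod_cast h2

/-- points with `A(σ) N = B(σ)`. -/
theorem gap_sigma' {G : ℤ[X]} {θ : Fin 4 → 𝓞 L} (hF : Fld G θ) (D C : ℕ) (ε : ℝ) (hε : 0 < ε) :
    ∃ K : ℝ, 0 < K ∧ ∀ (H : ℕ) (X T : ℝ) (l1 l2 : Fin 4 → ℤ) (A B Λ : ℤ[X]) (S : Finset ℤ),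
      2 ≤ H → 1 ≤ X → X ≤ T ^ 4 → (H : ℝ) ≤ T ^ 4 → T ≤ H → X ≤ H →
      (∀ a b : ℤ, a • l1 + b • l2 = 0 → a = 0 ∧ b = 0) →
      Λ.map (algebraMap ℤ (𝓞 L)) = ∏ j, piPoly θ l1 l2 j →
      A.natDegree ≤ D → B.natDegree ≤ D →
      (∀ i, |A.coeff i| ≤ (H : ℤ) ^ C) → (∀ i, |B.coeff i| ≤ (H : ℤ) ^ C) →
      (∀ i, |Λ.coeff i| ≤ (H : ℤ) ^ C) →
      (∀ N ∈ S, ∃ (p : ℕ) (c : ℤ) (z : Fin 4 → ℤ) (s t : ℤ), Pt θ C X T l1 l2 N p c z s t ∧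
        t ≠ 0 ∧ aeval ((s : ℚ) / t) A ≠ 0 ∧
        aeval ((s : ℚ) / t) A * (N : ℚ) = aeval ((s : ℚ) / t) B) →
      (S.card : ℝ) ≤ K * (H : ℝ) ^ ε := by
  obtain ⟨K1, hK1, hgap⟩ := gap_param G hF.monic hF.irr (by rw [hF.deg]; norm_num) (max D 4) (C + 1)
    ε hε
  refine ⟨K1 + (2 * (C * C : ℕ) + 1), by positivity, ?_⟩
  intro H X T l1 l2 A B Λ S hH hX hXT hHT hTH hXH hl hΛ hA hB hAC hBC hΛC hS
  have hHR : (1 : ℝ) ≤ H := by exact_mod_cast (by omega : 1 ≤ H)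
  have hHε : (1 : ℝ) ≤ (H : ℝ) ^ ε := Real.one_le_rpow hHR hε.le
  have hH0 : (0 : ℝ) ≤ (H : ℝ) ^ ε := by positivity
  rcases le_or_gt H C with hHC | hHC
  · -- small `H`
    have h1 : (S.card : ℝ) ≤ 2 * (C * C : ℕ) + 1 := by
      refine card_small (C := C) (X := X) (fun N hN => ?_) ?_
      · obtain ⟨p, c, z, s, t, hP, -⟩ := hS N hN
        exact hP.dat.hN
      · have h2 : (H : ℝ) ≤ C := by exact_mod_cast hHC
        push_cast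
        exact mul_le_mul_of_nonneg_left (hXH.trans h2) (Nat.cast_nonneg _)
    refine h1.trans ?_
    have h3 : (0 : ℝ) ≤ 2 * (C * C : ℕ) + 1 := by positivity
    nlinarith [mul_nonneg hK1.le hH0]
  have hl1 : l1 ≠ 0 := by
    rintro rfl
    have := (hl 1 0 (by simp)).1
    omega
  have hl2 : l2 ≠ 0 := by
    rintro rfl
    have := (hl 0 1 (by simp)).2
    omega
  have hCT : (C : ℝ) < T ^ 4 := lt_of_lt_of_le (by exact_mod_cast hHC) hHT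
  have hpow : (H : ℤ) ^ C ≤ (H : ℤ) ^ (C + 1) := pow_le_pow_right₀ (by exact_mod_cast (by omega : 1 ≤ H))
    (by omega)
  have key : ∀ N : ℤ, ∃ (s t : ℤ) (p : ℕ), N ∈ S → |(N : ℝ)| ≤ ((C + 1 : ℕ) : ℝ) * X ∧
      IsCoprime s t ∧ t ≠ 0 ∧ |s| ≤ (H : ℤ) ^ (C + 1) ∧ |t| ≤ (H : ℤ) ^ (C + 1) ∧
      hom (max D 4) A s t ≠ 0 ∧ hom (max D 4) A s t * N = hom (max D 4) B s t ∧
      p.Prime ∧ T ^ 4 ≤ p ∧ (p : ℤ) ^ 2 ∣ G.eval N ∧ (p : ℤ) ∣ hom Λ.natDegree Λ s t ∧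
      ¬ (p : ℤ) ^ 2 ∣ hom Λ.natDegree Λ s t := by
    intro N
    by_cases hN : N ∈ S
    swap
    · exact ⟨0, 0, 0, fun h => absurd h hN⟩
    obtain ⟨p, c, z, s, t, hP, ht, hA0, hE⟩ := hS N hN
    have hCp : C < p := hP.dat.C_lt hCT
    obtain ⟨s0, t0, h1, h2, h3, h4, h5, h6, h7⟩ := pt_prim hF hl1 hΛ hP hCp ht
    have hT0 := hP.dat.T_nonneg
    refine ⟨s0, t0, p, fun _ => ⟨?_, h1, h2, ?_, ?_, ?_, ?_, hP.dat.prime, hP.dat.lo,
      hP.dat.sq_dvd hF hCp, h6, h7⟩⟩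
    · refine hP.dat.hN.trans ?_
      push_cast
      nlinarith
    · exact h3.trans (abs_le_pow hH hT0 hTH (dot_self_pos hl1) (by exact_mod_cast hP.hs))
    · exact h4.trans (abs_le_pow hH hT0 hTH (dot_self_pos hl2) (by exact_mod_cast hP.ht))
    · intro h
      have h8 := hom_of_aeval (hA.trans (le_max_left D 4)) (s := s0) h2
      rw [h, h5, Int.cast_zero] at h8
      have h9 : (t0 : ℚ) ≠ 0 := by exact_mod_cast h2
      rcases mul_eq_zero.1 h8.symm with h10 | h10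
      · exact h9 (pow_eq_zero_iff (by positivity) |>.1 h10)
      · exact hA0 h10
    · have h8 := hom_of_aeval (hA.trans (le_max_left D 4)) (s := s0) h2
      have h9 := hom_of_aeval (hB.trans (le_max_left D 4)) (s := s0) h2
      rw [h5] at h8 h9
      have h10 : ((hom (max D 4) A s0 t0 * N : ℤ) : ℚ) = ((hom (max D 4) B s0 t0 : ℤ) : ℚ) := by
        push_cast
        rw [h8, h9, mul_assoc, hE]
      exact_mod_cast h10
  choose fs ft fp hfs using key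
  have hΛ4 := hF.natDegree_Lam hl1 hΛ
  have h1 := hgap H X (T ^ 4) A B Λ S fs ft fp hH hX hXT hHT (hA.trans (le_max_left _ _))
    (hB.trans (le_max_left _ _)) (by rw [hΛ4]; exact le_max_right _ _)
    (fun h => by rw [h, natDegree_zero] at hΛ4; omega)
    (fun i => (hAC i).trans hpow) (fun i => (hBC i).trans hpow) (fun i => (hΛC i).trans hpow)
    (fun N hN => hfs N hN)
  refine h1.trans ?_
  refine mul_le_mul_of_nonneg_right ?_ hH0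
  have : (0 : ℝ) ≤ 2 * (C * C : ℕ) + 1 := by positivity
  linarith

end Vale.Agent.P018.Q
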