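import Mathlib
import Vale.Agent.P018.Q.GapParam
import Vale.Agent.P018.Q.GapBad
import Vale.Agent.P018.Q.GapPt
import Vale.Agent.P018.Q.GapSig

/-! # P018, quartics: points on rational curves parametrised by `κ`. -/

namespace Vale.Agent.P018.Q.GapKappa

open Polynomial Finset Gap

/-! ### Composition of forms -/

theorem hom_pow (m k : ℕ) (A : ℤ[X]) (hA : A.natDegree ≤ m) (s t : ℤ) :
    (A ^ k).natDegree ≤ k * m ∧ hom (k * m) (A ^ k) s t = hom m A s t ^ k := by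
  refine ⟨natDegree_pow_le_of_le k hA, ?_⟩
  induction k with
  | zero =>
    have h := hom_monomial 0 0 le_rfl (1 : ℤ) s t
    simpa using h
  | succ k ih =>
    rw [pow_succ, Nat.succ_mul, Gap.hom_mul _ _ _ _ (natDegree_pow_le_of_le k hA) hA, ih, pow_succ]

theorem hom_comp (D e : ℕ) (Q u v : ℤ[X]) (hu : u.natDegree ≤ e) (hv : v.natDegree ≤ e) (s t : ℤ) :
    hom (D * e) (hom D Q u v) s t = hom D Q (hom e u s t) (hom e v s t) := by
  have h0 : hom D Q u v = ∑ i ∈ range (D + 1), (C (Q.coeff i)) * (u ^ i * v ^ (D - i)) := by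
    unfold hom
    refine Finset.sum_congr rfl fun i _ => ?_
    rw [mul_assoc]
    rfl
  rw [h0, hom_sum, hom]
  refine Finset.sum_congr rfl fun i hi => ?_
  have hi' : i ≤ D := by have := Finset.mem_range.1 hi; omega
  have h1 : D * e = 0 + (i * e + (D - i) * e) := by
    rw [← Nat.add_mul, zero_add, Nat.add_sub_cancel' hi']
  have h2 := hom_monomial 0 0 le_rfl (Q.coeff i) s t
  rw [h1, Gap.hom_mul 0 _ _ _ (by simp) (natDegree_mul_le_of_le (hom_pow e i u hu s t).1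
    (hom_pow e (D - i) v hv s t).1), Gap.hom_mul _ _ _ _ (hom_pow e i u hu s t).1
    (hom_pow e (D - i) v hv s t).1, (hom_pow e i u hu s t).2, (hom_pow e (D - i) v hv s t).2,
    ← monomial_zero_left, h2]
  simp only [pow_zero, mul_one, Nat.sub_self, Int.cast_id]
  ring

theorem natDegree_comp (D e : ℕ) (Q u v : ℤ[X]) (hu : u.natDegree ≤ e) (hv : v.natDegree ≤ e) :
    (hom D Q u v).natDegree ≤ D * e := by
  unfold hom
  refine natDegree_sum_le_of_forall_le _ _ fun i hi => ?_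
  have hi' : i ≤ D := by have := Finset.mem_range.1 hi; omega
  have h1 : D * e = 0 + i * e + (D - i) * e := by
    rw [zero_add, ← Nat.add_mul, Nat.add_sub_cancel' hi']
  rw [h1]
  exact natDegree_mul_le_of_le (natDegree_mul_le_of_le (by simp)
    (natDegree_pow_le_of_le i hu)) (natDegree_pow_le_of_le _ hv)

theorem hom_of_le {m n : ℕ} (A : ℤ[X]) (hA : A.natDegree ≤ m) (h : m ≤ n) (s t : ℤ) :
    hom n A s t = t ^ (n - m) * hom m A s t := by
  induction n, h using Nat.le_induction with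
  | base => simp
  | succ n hmn ih =>
    rw [hom_succ n A (hA.trans hmn), ih, Nat.succ_sub hmn, pow_succ]
    ring

theorem hom_rat (D : ℕ) (A : ℤ[X]) (hA : A.natDegree ≤ D) (s t : ℤ) (ht : t ≠ 0) :
    ((hom D A s t : ℤ) : ℚ) = (t : ℚ) ^ D * aeval ((s : ℚ) / (t : ℚ)) A := by
  have ht' : (t : ℚ) ≠ 0 := by exact_mod_cast ht
  rw [aeval_eq_sum_range' (n := D + 1) (by omega), hom, Finset.mul_sum]
  push_cast
  refine Finset.sum_congr rfl fun i hi => ?_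
  have : i ≤ D := by have := Finset.mem_range.1 hi; omega
  rw [div_pow, show (t : ℚ) ^ D = (t : ℚ) ^ (D - i) * (t : ℚ) ^ i by
    rw [← pow_add]; congr 1; omega, zsmul_eq_mul]
  field_simp

/-! ### Heights -/

theorem ht_mul {H D c1 c2 : ℕ} (hH : 2 ≤ H) {P Q : ℤ[X]} (hP : P.natDegree ≤ D)
    (h1 : ∀ i, |P.coeff i| ≤ (H : ℤ) ^ c1) (h2 : ∀ i, |Q.coeff i| ≤ (H : ℤ) ^ c2) (i : ℕ) :
    |(P * Q).coeff i| ≤ (H : ℤ) ^ (D + 1 + c1 + c2) := by
  have hH1 : (0 : ℤ) ≤ H := by positivity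
  rw [coeff_mul, Finset.Nat.sum_antidiagonal_eq_sum_range_succ
    (fun x y => P.coeff x * Q.coeff y) i]
  have h3 : ∀ k ∈ range (i + 1), |P.coeff k * Q.coeff (i - k)| ≤
      if k ∈ range (D + 1) then (H : ℤ) ^ c1 * (H : ℤ) ^ c2 else 0 := by
    intro k _
    split_ifs with hk
    · rw [abs_mul]
      exact mul_le_mul (h1 _) (h2 _) (abs_nonneg _) (by positivity)
    · rw [coeff_eq_zero_of_natDegree_lt (by rw [Finset.mem_range] at hk; omega)]
      simp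
  refine (Finset.abs_sum_le_sum_abs _ _).trans ((Finset.sum_le_sum h3).trans ?_)
  rw [← Finset.sum_filter]
  rw [Finset.sum_const, nsmul_eq_mul]
  have h4 : ((range (i + 1)).filter fun k => k ∈ range (D + 1)).card ≤ D + 1 := by
    refine (Finset.card_le_card (fun k hk => (Finset.mem_filter.1 hk).2)).trans ?_
    rw [Finset.card_range]
  have h5 : ((((range (i + 1)).filter fun k => k ∈ range (D + 1)).card : ℕ) : ℤ) ≤
      (H : ℤ) ^ (D + 1) := by
    have h6 : D + 1 ≤ H ^ (D + 1) :=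
      (Nat.lt_two_pow_self (n := D + 1)).le.trans (Nat.pow_le_pow_left hH _)
    exact_mod_cast h4.trans h6
  calc _ ≤ (H : ℤ) ^ (D + 1) * ((H : ℤ) ^ c1 * (H : ℤ) ^ c2) :=
        mul_le_mul_of_nonneg_right h5 (by positivity)
    _ = _ := by rw [pow_add _ (D + 1 + c1), pow_add _ (D + 1) c1]; ring

theorem ht_pow_mul {H D c1 c2 : ℕ} (hH : 2 ≤ H) {P Q : ℤ[X]} (hP : P.natDegree ≤ D)
    (h1 : ∀ i, |P.coeff i| ≤ (H : ℤ) ^ c1) (h2 : ∀ i, |Q.coeff i| ≤ (H : ℤ) ^ c2) (k : ℕ) :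
    ∀ i, |(P ^ k * Q).coeff i| ≤ (H : ℤ) ^ (k * (D + 1 + c1) + c2) := by
  induction k with
  | zero => simpa using h2
  | succ k ih =>
    intro i
    rw [pow_succ, mul_comm (P ^ k), mul_assoc]
    have := ht_mul hH hP h1 ih i
    rwa [show (k + 1) * (D + 1 + c1) + c2 = D + 1 + c1 + (k * (D + 1 + c1) + c2) by ring]

theorem ht_comp {H D c : ℕ} (hH : 2 ≤ H) {Q u v : ℤ[X]} (hu : u.natDegree ≤ D)
    (hv : v.natDegree ≤ D) (h1 : ∀ i, |u.coeff i| ≤ (H : ℤ) ^ c)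
    (h2 : ∀ i, |v.coeff i| ≤ (H : ℤ) ^ c) (hQ : ∀ i, |Q.coeff i| ≤ (H : ℤ) ^ c) (i : ℕ) :
    |(hom 4 Q u v).coeff i| ≤ (H : ℤ) ^ (3 + c + 4 * (D + 1 + c)) := by
  have hH1 : (1 : ℤ) ≤ H := by exact_mod_cast (by omega : 1 ≤ H)
  have hH2 : (2 : ℤ) ≤ H := by exact_mod_cast hH
  have h0 : hom 4 Q u v = ∑ i ∈ range (4 + 1), (C (Q.coeff i)) * (u ^ i * v ^ (4 - i)) := by
    unfold hom
    refine Finset.sum_congr rfl fun i _ => ?_
    rw [mul_assoc]
    rfl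
  rw [h0, finsetSum_coeff]
  refine (Finset.abs_sum_le_sum_abs _ _).trans ?_
  have h3 : ∀ k ∈ range (4 + 1), |(C (Q.coeff k) * (u ^ k * v ^ (4 - k))).coeff i| ≤
      (H : ℤ) ^ (c + 4 * (D + 1 + c)) := by
    intro k hk
    have hk' : k ≤ 4 := by have := Finset.mem_range.1 hk; omega
    rw [coeff_C_mul, abs_mul, pow_add]
    refine mul_le_mul (hQ _) ?_ (abs_nonneg _) (by positivity)
    have h4 : ∀ i, |(v ^ (4 - k) * 1).coeff i| ≤ (H : ℤ) ^ ((4 - k) * (D + 1 + c) + 0) := by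
      refine ht_pow_mul hH hv h2 ?_ _
      intro i
      rw [coeff_one]
      split_ifs <;> simp
    rw [mul_one, add_zero] at h4
    have h5 := ht_pow_mul hH hu h1 h4 k i
    have h6 : k * (D + 1 + c) + (4 - k) * (D + 1 + c) = 4 * (D + 1 + c) := by
      rw [← Nat.add_mul, Nat.add_sub_cancel' hk']
    rwa [h6] at h5
  refine (Finset.sum_le_sum h3).trans ?_
  rw [Finset.sum_const, Finset.card_range, nsmul_eq_mul, add_assoc 3, pow_add (H : ℤ) 3]
  refine mul_le_mul_of_nonneg_right ?_ (by positivity)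
  have : (2 : ℤ) ^ 3 ≤ (H : ℤ) ^ 3 := pow_le_pow_left₀ (by norm_num) hH2 3
  push_cast
  linarith

/-! ### The curve `a(κ) σ + b(κ) = 0` -/

section curve

variable {g : ℤ[X][X]} {a b : ℤ[X]}

theorem gQ_eq (hg : ∀ i, g.coeff i = C (a.coeff i) * X + C (b.coeff i)) :
    g.map (mapRingHom (Int.castRingHom ℚ)) =
      (a.map (Int.castRingHom ℚ)).map C * C X + (b.map (Int.castRingHom ℚ)).map C := by
  refine Polynomial.ext fun i => ?_
  rw [coeff_map, hg, coeff_add, coeff_mul_C, coeff_map, coeff_map, coeff_map, coeff_map]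
  simp

theorem ev_eq (hg : ∀ i, g.coeff i = C (a.coeff i) * X + C (b.coeff i)) (κ σ : ℚ) :
    ev (g.map (mapRingHom (Int.castRingHom ℚ))) κ σ = aeval κ a * σ + aeval κ b := by
  have h1 : ∀ c : ℚ[X], (c.map (C : ℚ →+* ℚ[X])).map (evalRingHom σ) = c := by
    intro c
    rw [Polynomial.map_map]
    have : (evalRingHom σ).comp (C : ℚ →+* ℚ[X]) = RingHom.id ℚ := by ext; simp
    rw [this, Polynomial.map_id]
  have h2 : ∀ c : ℤ[X], (c.map (Int.castRingHom ℚ)).eval κ = aeval κ c := by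
    intro c
    rw [eval_map, aeval_def]
    congr 1
  rw [ev, gQ_eq hg, Polynomial.map_add, Polynomial.map_mul, h1, h1, eval_add, eval_mul, h2, h2]
  simp

theorem unit_of_map {c : ℚ[X]} (h : IsUnit (c.map (C : ℚ →+* ℚ[X]))) : IsUnit c := by
  have h1 := h.map (mapRingHom (evalRingHom (0 : ℚ)))
  rw [coe_mapRingHom, Polynomial.map_map] at h1
  have : (evalRingHom (0 : ℚ)).comp (C : ℚ →+* ℚ[X]) = RingHom.id ℚ := by ext; simp
  rwa [this, Polynomial.map_id] at h1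

theorem coprime_ab (hi : Irreducible (g.map (mapRingHom (Int.castRingHom ℚ))))
    (hg : ∀ i, g.coeff i = C (a.coeff i) * X + C (b.coeff i)) (ha : a ≠ 0) :
    IsCoprime (a.map (Int.castRingHom ℚ)) (b.map (Int.castRingHom ℚ)) := by
  refine IsRelPrime.isCoprime fun d hda hdb => ?_
  obtain ⟨a', ha'⟩ := hda
  obtain ⟨b', hb'⟩ := hdb
  have h : g.map (mapRingHom (Int.castRingHom ℚ)) =
      d.map C * (a'.map C * C X + b'.map C) := by
    rw [gQ_eq hg, ha', hb', Polynomial.map_mul, Polynomial.map_mul]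
    ring
  rcases hi.isUnit_or_isUnit h with h1 | h1
  · exact unit_of_map h1
  · exfalso
    have h2 : a' = 0 := by
      refine Polynomial.ext fun i => ?_
      have h3 : (a'.map C * C X + b'.map C : ℚ[X][X]).coeff i = C (a'.coeff i) * X +
          C (b'.coeff i) := by
        rw [coeff_add, coeff_mul_C, coeff_map, coeff_map]
      have h4 : ((a'.map C * C X + b'.map C : ℚ[X][X]).coeff i).coeff 1 = 0 := by
        rcases Nat.eq_zero_or_pos i with rfl | hi0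
        · have h5 : IsUnit ((a'.map C * C X + b'.map C : ℚ[X][X]).coeff 0) :=
            (isUnit_iff_coeff_isUnit_isNilpotent.1 h1).1
          exact coeff_eq_zero_of_natDegree_lt (by rw [natDegree_eq_zero_of_isUnit h5]; norm_num)
        · have h5 := natDegree_eq_zero_of_isUnit h1
          have h6 : (a'.map C * C X + b'.map C : ℚ[X][X]).coeff i = 0 :=
            coeff_eq_zero_of_natDegree_lt (by rw [h5]; exact hi0)
          rw [h6, coeff_zero]
      rw [h3] at h4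
      simpa using h4
    rw [h2, mul_zero, Polynomial.map_eq_zero_iff Int.cast_injective] at ha'
    exact ha ha'

theorem no_root (hi : Irreducible (g.map (mapRingHom (Int.castRingHom ℚ))))
    (hg : ∀ i, g.coeff i = C (a.coeff i) * X + C (b.coeff i)) (ha : a = 0)
    (hb : 2 ≤ b.natDegree) (κ σ : ℚ) : ev (g.map (mapRingHom (Int.castRingHom ℚ))) κ σ ≠ 0 := by
  intro h0
  rw [ev_eq hg, ha, map_zero, zero_mul, zero_add] at h0
  have h1 : (b.map (Int.castRingHom ℚ)).IsRoot κ := by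
    rw [IsRoot.def, eval_map]
    rw [aeval_def] at h0
    exact h0
  obtain ⟨q, hq⟩ := dvd_iff_isRoot.2 h1
  have h : g.map (mapRingHom (Int.castRingHom ℚ)) = (X - C κ).map C * q.map C := by
    rw [gQ_eq hg, ha, hq, Polynomial.map_zero, Polynomial.map_zero, zero_mul, zero_add,
      Polynomial.map_mul]
  rcases hi.isUnit_or_isUnit h with h2 | h2
  · exact not_isUnit_X_sub_C κ (unit_of_map h2)
  · have h3 := natDegree_eq_zero_of_isUnit (unit_of_map h2)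
    have h4 : (b.map (Int.castRingHom ℚ)).natDegree ≤ 1 + 0 := by
      rw [hq]
      exact natDegree_mul_le_of_le (natDegree_X_sub_C κ).le h3.le
    rw [natDegree_map_eq_of_injective Int.cast_injective] at h4
    omega

end curve

/-! ### The values at a point -/

theorem exists_u {R0 ah bh s0 t0 : ℤ} (hst : IsCoprime s0 t0) (ht : t0 ≠ 0)
    (h : ah * s0 + bh * t0 = 0) (hR : ∀ d, d ∣ ah → d ∣ bh → d ∣ R0) (hR0 : R0 ≠ 0) :
    ∃ u, u ≠ 0 ∧ u ∣ R0 ∧ ah = u * t0 ∧ -bh = u * s0 := by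
  have h1 : t0 ∣ ah * s0 := ⟨-bh, by linear_combination h⟩
  obtain ⟨u, hu⟩ := hst.symm.dvd_of_dvd_mul_right h1
  have h2 : -bh = u * s0 := by
    apply mul_left_cancel₀ ht
    rw [hu] at h
    linear_combination -h
  have h3 : u ∣ R0 := by
    refine hR u ⟨t0, by rw [hu]; ring⟩ ?_
    exact ⟨-s0, by linear_combination -h2⟩
  refine ⟨u, ?_, h3, by rw [hu]; ring, h2⟩
  rintro rfl
  exact hR0 (zero_dvd_iff.1 h3)

theorem hom_neg' (D : ℕ) (A : ℤ[X]) (s t : ℤ) : hom D (-A) s t = -hom D A s t := by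
  rw [← zero_sub, hom_sub, hom_zero, zero_sub]

theorem hom_X_mul (m : ℕ) (A : ℤ[X]) (hA : A.natDegree ≤ m) (s t : ℤ) :
    hom (m + 1) (X * A) s t = s * hom m A s t := by
  rw [add_comm m 1, Gap.hom_mul 1 m X A natDegree_X_le hA]
  congr 1
  have h := hom_monomial 1 1 le_rfl (1 : ℤ) s t
  simpa [monomial_one_one_eq_X] using h

/-- the polynomial `A 0 ~ + X A 1 ~` -/
noncomputable def tw (a b : ℤ[X]) (A : Fin 2 → ℤ[X]) : ℤ[X] :=
  hom 4 (A 0) (-b) a + X * hom 4 (A 1) (-b) a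

theorem natDegree_tw {e : ℕ} {a b : ℤ[X]} (ha : a.natDegree ≤ e) (hb : b.natDegree ≤ e)
    (A : Fin 2 → ℤ[X]) : (tw a b A).natDegree ≤ 4 * e + 1 := by
  have hb' : (-b).natDegree ≤ e := by rwa [natDegree_neg]
  refine natDegree_add_le_of_degree_le ?_ ?_
  · exact (natDegree_comp 4 e _ _ _ hb' ha).trans (Nat.le_succ _)
  · rw [add_comm (4 * e)]
    exact natDegree_mul_le_of_le natDegree_X_le (natDegree_comp 4 e _ _ _ hb' ha)

theorem hom_tw {e : ℕ} {a b : ℤ[X]} (ha : a.natDegree ≤ e) (hb : b.natDegree ≤ e)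
    (A : Fin 2 → ℤ[X]) {k l u s0 t0 : ℤ} (h1 : hom e a k l = u * t0)
    (h2 : -hom e b k l = u * s0) :
    hom (4 * e + 1) (tw a b A) k l = u ^ 4 * (l * hom 4 (A 0) s0 t0 + k * hom 4 (A 1) s0 t0) := by
  have hb' : (-b).natDegree ≤ e := by rwa [natDegree_neg]
  rw [tw, hom_add, hom_succ _ _ (natDegree_comp 4 e _ _ _ hb' ha),
    hom_X_mul _ _ (natDegree_comp 4 e _ _ _ hb' ha), hom_comp 4 e _ _ _ hb' ha,
    hom_comp 4 e _ _ _ hb' ha, hom_neg', h1, h2, hom_smul, hom_smul]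
  ring

theorem ht_tw {H D c : ℕ} (hH : 2 ≤ H) {a b : ℤ[X]} (ha : a.natDegree ≤ D)
    (hb : b.natDegree ≤ D) (h1 : ∀ i, |a.coeff i| ≤ (H : ℤ) ^ c)
    (h2 : ∀ i, |b.coeff i| ≤ (H : ℤ) ^ c) {A : Fin 2 → ℤ[X]}
    (hA : ∀ i k, |(A i).coeff k| ≤ (H : ℤ) ^ c) (i : ℕ) :
    |(tw a b A).coeff i| ≤ (H : ℤ) ^ (4 + c + 4 * (D + 1 + c)) := by
  have hH2 : (2 : ℤ) ≤ H := by exact_mod_cast hH
  have hb' : (-b).natDegree ≤ D := by rwa [natDegree_neg]
  have h2' : ∀ i, |(-b).coeff i| ≤ (H : ℤ) ^ c := fun i => by rw [coeff_neg, abs_neg]; exact h2 i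
  have h3 := fun j i => ht_comp hH hb' ha h2' h1 (hA j) i
  have h4 : |(X * hom 4 (A 1) (-b) a).coeff i| ≤ (H : ℤ) ^ (3 + c + 4 * (D + 1 + c)) := by
    rcases i with - | i
    · rw [coeff_zero_eq_eval_zero, eval_mul, eval_X, zero_mul, abs_zero]
      positivity
    · rw [coeff_X_mul]
      exact h3 1 i
  rw [tw, coeff_add]
  refine (abs_add_le _ _).trans ((add_le_add (h3 0 i) h4).trans ?_)
  rw [show 4 + c + 4 * (D + 1 + c) = 1 + (3 + c + 4 * (D + 1 + c)) by ring, pow_add (H : ℤ) 1,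
    pow_one, ← two_mul]
  exact mul_le_mul_of_nonneg_right hH2 (by positivity)

theorem natDegree_sub_lam {e : ℕ} {a b Λ : ℤ[X]} (ha : a.natDegree ≤ e) (hb : b.natDegree ≤ e)
    (hab : a.coeff e ≠ 0 ∨ b.coeff e ≠ 0) (hΛ : ∀ s t : ℤ, s ≠ 0 ∨ t ≠ 0 → hom 4 Λ s t ≠ 0) :
    (hom 4 Λ (-b) a).natDegree = 4 * e := by
  have hb' : (-b).natDegree ≤ e := by rwa [natDegree_neg]
  refine natDegree_eq_of_le_of_coeff_ne_zero (natDegree_comp 4 e _ _ _ hb' ha) ?_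
  have h1 := hom_comp 4 e Λ (-b) a hb' ha 1 0
  rw [hom_zero_right, hom_zero_right, hom_zero_right, one_pow, mul_one, one_pow, mul_one,
    mul_one, coeff_neg] at h1
  rw [h1]
  refine hΛ _ _ ?_
  rcases hab with h | h
  · exact Or.inr h
  · exact Or.inl (neg_ne_zero.2 h)

/-! ### The theorem -/

variable {L : Type} [Field L] [NumberField L]

open NumberField

/-- the data of a point for `gap_param`. -/
theorem point {G : ℤ[X]} {θ : Fin 4 → 𝓞 L} (hF : Fld G θ) {D C : ℕ} {X' T : ℝ}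
    {l1 l2 : Fin 4 → ℤ} {A B : Fin 2 → ℤ[X]} {Z : Fin 2 → Fin 4 → ℤ[X]} {Λ : ℤ[X]} {a b : ℤ[X]}
    {e : ℕ} {R0 : ℤ}
    (hl : ∀ a b : ℤ, a • l1 + b • l2 = 0 → a = 0 ∧ b = 0) (hl1 : l1 ≠ 0)
    (hΛ : Λ.map (algebraMap ℤ (𝓞 L)) = ∏ j, piPoly θ l1 l2 j)
    (hA : ∀ i, (A i).natDegree ≤ 4) (hB : ∀ i, (B i).natDegree ≤ 4)
    (ha : a.natDegree ≤ e) (hb : b.natDegree ≤ e) (he : e ≤ D)
    (hab : a.coeff e ≠ 0 ∨ b.coeff e ≠ 0) (hR0 : R0 ≠ 0)
    (hR : ∀ s t d : ℤ, IsCoprime s t → d ∣ hom e a s t → d ∣ hom e b s t → d ∣ R0)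
    {N : ℤ} {p : ℕ} {c : ℤ} {z : Fin 4 → ℤ} {s t kn kd : ℤ}
    (hP : Pt θ C X' T l1 l2 N p c z s t) (hK : KP A B Z N c s t kn kd z)
    (hev : aeval ((kn : ℚ) / kd) a * ((s : ℚ) / t) + aeval ((kn : ℚ) / kd) b = 0)
    (hCp : C < p) (hpR : ¬ (p : ℤ) ∣ R0) :
    hom (4 * D + 1) (tw a b A) kn kd ≠ 0 ∧
      hom (4 * D + 1) (tw a b A) kn kd * N = hom (4 * D + 1) (tw a b B) kn kd ∧
      (p : ℤ) ∣ hom (hom 4 Λ (-b) a).natDegree (hom 4 Λ (-b) a) kn kd ∧
      ¬ (p : ℤ) ^ 2 ∣ hom (hom 4 Λ (-b) a).natDegree (hom 4 Λ (-b) a) kn kd := by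
  have hpp := Nat.prime_iff_prime_int.1 hP.dat.prime
  have hb' : (-b).natDegree ≤ e := by rwa [natDegree_neg]
  obtain ⟨s0, t0, h1, h2, h3, h4, h5, h6, h7⟩ := pt_prim hF hl1 hΛ hP hCp hK.t0
  rw [hF.natDegree_Lam hl1 hΛ] at h6 h7
  have hk0 : (kd : ℚ) ≠ 0 := by exact_mod_cast hK.k0
  have ht0 : (t0 : ℚ) ≠ 0 := by exact_mod_cast h2
  -- the relation between the two parameters
  have hrel : hom e a kn kd * s0 + hom e b kn kd * t0 = 0 := by
    have e1 := hom_rat e a ha kn kd hK.k0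
    have e2 := hom_rat e b hb kn kd hK.k0
    have e3 : ((hom e a kn kd * s0 + hom e b kn kd * t0 : ℤ) : ℚ) = 0 := by
      push_cast
      rw [e1, e2]
      rw [← h5] at hev
      have e4 : (kd : ℚ) ^ e * t0 * (aeval ((kn : ℚ) / kd) a * ((s0 : ℚ) / t0) +
          aeval ((kn : ℚ) / kd) b) = 0 := by rw [hev, mul_zero]
      rw [← e4]
      field_simp
    exact_mod_cast e3
  obtain ⟨u, hu0, huR, hu1, hu2⟩ := exists_u h1 h2 hrel (fun d => hR kn kd d hK.cop) hR0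
  have hpu : ¬ (p : ℤ) ∣ u := fun h => hpR (h.trans huR)
  -- the values
  have hval : ∀ A : Fin 2 → ℤ[X], (∀ i, (A i).natDegree ≤ 4) →
      ((hom (4 * D + 1) (tw a b A) kn kd : ℤ) : ℚ) =
        ((kd : ℚ) ^ (4 * D + 1 - (4 * e + 1)) * (u : ℚ) ^ 4 * (t0 : ℚ) ^ 4) *
          (kd * aeval ((s : ℚ) / t) (A 0) + kn * aeval ((s : ℚ) / t) (A 1)) := by
    intro A hA
    rw [hom_of_le _ (natDegree_tw ha hb A) (by omega : 4 * e + 1 ≤ 4 * D + 1),
      hom_tw ha hb A hu1 hu2]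
    have e1 := hom_rat 4 (A 0) (hA 0) s0 t0 h2
    have e2 := hom_rat 4 (A 1) (hA 1) s0 t0 h2
    push_cast
    rw [e1, e2, h5]
    ring
  have hfac : ((kd : ℚ) ^ (4 * D + 1 - (4 * e + 1)) * (u : ℚ) ^ 4 * (t0 : ℚ) ^ 4) ≠ 0 := by
    have : (u : ℚ) ≠ 0 := by exact_mod_cast hu0
    positivity
  have hdeg : (hom 4 Λ (-b) a).natDegree = 4 * e :=
    natDegree_sub_lam ha hb hab (fun s t hst => GapPt.hom_lam_ne hF hl hΛ s t hst)
  have hlam : hom (4 * e) (hom 4 Λ (-b) a) kn kd = u ^ 4 * hom 4 Λ s0 t0 := by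
    rw [hom_comp 4 e _ _ _ hb' ha, hom_neg', hu1, hu2, hom_smul]
  rw [hdeg, hlam]
  refine ⟨?_, ?_, Dvd.dvd.mul_left h6 _, ?_⟩
  · intro h
    have e1 := hval A hA
    rw [h, Int.cast_zero] at e1
    rcases mul_eq_zero.1 e1.symm with e2 | e2
    · exact hfac e2
    · exact hK.den e2
  · have e1 := hval A hA
    have e2 := hval B hB
    have e3 : ((hom (4 * D + 1) (tw a b A) kn kd * N : ℤ) : ℚ) =
        ((hom (4 * D + 1) (tw a b B) kn kd : ℤ) : ℚ) := by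
      push_cast
      rw [e1, e2, mul_assoc, hK.eqN]
    exact_mod_cast e3
  · intro h
    have e1 : IsCoprime ((p : ℤ) ^ 2) (u ^ 4) :=
      IsCoprime.pow ((Prime.coprime_iff_not_dvd hpp).2 hpu)
    exact h7 (e1.dvd_of_dvd_mul_left h)

theorem gap_kappa' {G : ℤ[X]} {θ : Fin 4 → 𝓞 L} (hF : Fld G θ) (D C : ℕ) (ε : ℝ) (hε : 0 < ε) :
    ∃ K : ℝ, 0 < K ∧ ∀ (H : ℕ) (X T : ℝ) (l1 l2 : Fin 4 → ℤ) (d : Fin 2 → ℕ)
      (A B : Fin 2 → ℤ[X]) (Z : Fin 2 → Fin 4 → ℤ[X]) (Λ : ℤ[X]) (e : ℤ) (g : ℤ[X][X])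
      (S : Finset ℤ),
      2 ≤ H → 1 ≤ X → X ≤ T ^ 4 → (H : ℝ) ≤ T ^ 4 → T ≤ H → X ≤ H →
      (∀ a b : ℤ, a • l1 + b • l2 = 0 → a = 0 ∧ b = 0) → KData θ l1 l2 d A B Z Λ e → d 0 = 4 →
      (∀ i k, |(A i).coeff k| ≤ (H : ℤ) ^ C) → (∀ i k, |(B i).coeff k| ≤ (H : ℤ) ^ C) →
      (∀ k, |Λ.coeff k| ≤ (H : ℤ) ^ C) →
      Irreducible (g.map (mapRingHom (Int.castRingHom ℚ))) → BiDeg D 1 g → 2 ≤ g.natDegree →
      (∀ i j, |(g.coeff i).coeff j| ≤ (H : ℤ) ^ C) →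
      (∀ N ∈ S, ∃ (p : ℕ) (c : ℤ) (z : Fin 4 → ℤ) (s t kn kd : ℤ),
        Pt θ C X T l1 l2 N p c z s t ∧ KP A B Z N c s t kn kd z ∧
        |kn| ≤ (H : ℤ) ^ C ∧ |kd| ≤ (H : ℤ) ^ C ∧
        ev (g.map (mapRingHom (Int.castRingHom ℚ))) ((kn : ℚ) / kd) ((s : ℚ) / t) = 0) →
      (S.card : ℝ) ≤ K * (H : ℝ) ^ ε := by
  classical
  set C2 : ℕ := 4 + C + 4 * (D + 1 + C) with hC2
  obtain ⟨K1, hK1, hgap⟩ := gap_param G hF.monic hF.irr (by rw [hF.deg]; norm_num) (4 * D + 1) C2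
    ε hε
  obtain ⟨C3, hres⟩ := res_hom D C
  obtain ⟨K2, hbad⟩ := GapBad.card_bad G hF.monic hF.irr C C3
  refine ⟨K1 + K2 + (2 * (C * C : ℕ) + 1), by positivity, ?_⟩
  intro H X T l1 l2 d A B Z Λ e g S hH hX hXT hHT hTH hXH hl hKD hd0 hAC hBC hΛC hgi hbd hg2 hgC hS
  have hHR : (1 : ℝ) ≤ H := by exact_mod_cast (by omega : 1 ≤ H)
  have hHε : (1 : ℝ) ≤ (H : ℝ) ^ ε := Real.one_le_rpow hHR hε.le
  have hH0 : (0 : ℝ) ≤ (H : ℝ) ^ ε := by positivity
  have hK2 : (0 : ℝ) ≤ K2 := Nat.cast_nonneg _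
  rcases le_or_gt H C with hHC | hHC
  · -- small `H`
    have h1 : (S.card : ℝ) ≤ 2 * (C * C : ℕ) + 1 := by
      refine card_small (C := C) (X := X) (fun N hN => ?_) ?_
      · obtain ⟨p, c, z, s, t, kn, kd, hP, -⟩ := hS N hN
        exact hP.dat.hN
      · have h2 : (H : ℝ) ≤ C := by exact_mod_cast hHC
        push_cast
        exact mul_le_mul_of_nonneg_left (hXH.trans h2) (Nat.cast_nonneg _)
    refine h1.trans ?_
    have h3 : (0 : ℝ) ≤ 2 * (C * C : ℕ) + 1 := by positivity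
    nlinarith [mul_nonneg hK1.le hH0, mul_nonneg hK2 hH0]
  have hl1 : l1 ≠ 0 := by
    rintro rfl
    have := (hl 1 0 (by simp)).1
    omega
  have hCT : (C : ℝ) < T ^ 4 := lt_of_lt_of_le (by exact_mod_cast hHC) hHT
  have hpow : (H : ℤ) ^ C ≤ (H : ℤ) ^ C2 := pow_le_pow_right₀ (by exact_mod_cast (by omega : 1 ≤ H))
    (by omega)
  have hd : ∀ i, d i = 4 := by
    rcases hKD.dd with h | h
    · intro i; fin_cases i
      · exact h.1
      · exact h.2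
    · omega
  have hA4 : ∀ i, (A i).natDegree ≤ 4 := fun i => (hKD.dA i).trans (hd i).le
  have hB4 : ∀ i, (B i).natDegree ≤ 4 := fun i => (hKD.dB i).trans (hd i).le
  -- the two polynomials
  set a : ℤ[X] := ∑ i ∈ range (D + 1), monomial i ((g.coeff i).coeff 1) with ha
  set b : ℤ[X] := ∑ i ∈ range (D + 1), monomial i ((g.coeff i).coeff 0) with hb
  have hcoef : ∀ (m i : ℕ), (∑ k ∈ range (D + 1), monomial k ((g.coeff k).coeff m) : ℤ[X]).coeff i =
      (g.coeff i).coeff m := by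
    intro m i
    rw [finsetSum_coeff]
    simp only [coeff_monomial]
    rw [Finset.sum_ite_eq']
    split_ifs with h
    · rfl
    · have h1 : g.coeff i = 0 := by
        refine coeff_eq_zero_of_natDegree_lt ?_
        rw [Finset.mem_range] at h
        have := hbd.1
        omega
      rw [h1, coeff_zero]
  have hac : ∀ i, a.coeff i = (g.coeff i).coeff 1 := hcoef 1
  have hbc : ∀ i, b.coeff i = (g.coeff i).coeff 0 := hcoef 0
  have hg : ∀ i, g.coeff i = Polynomial.C (a.coeff i) * Polynomial.X +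
      Polynomial.C (b.coeff i) := by
    intro i
    rw [hac, hbc]
    exact eq_X_add_C_of_natDegree_le_one (hbd.2 i)
  clear_value a b
  have haC : ∀ i, |a.coeff i| ≤ (H : ℤ) ^ C := fun i => by rw [hac]; exact hgC _ _
  have hbC : ∀ i, |b.coeff i| ≤ (H : ℤ) ^ C := fun i => by rw [hbc]; exact hgC _ _
  have hgz : ∀ i, D < i → g.coeff i = 0 := fun i hi =>
    coeff_eq_zero_of_natDegree_lt (lt_of_le_of_lt hbd.1 hi)
  have haD : a.natDegree ≤ D := by
    rw [natDegree_le_iff_coeff_eq_zero]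
    intro i hi
    rw [hac, hgz i hi, coeff_zero]
  have hbD : b.natDegree ≤ D := by
    rw [natDegree_le_iff_coeff_eq_zero]
    intro i hi
    rw [hbc, hgz i hi, coeff_zero]
  set e' : ℕ := max a.natDegree b.natDegree with he'
  have hae : a.natDegree ≤ e' := le_max_left _ _
  have hbe : b.natDegree ≤ e' := le_max_right _ _
  have heD : e' ≤ D := max_le haD hbD
  have he2 : 2 ≤ e' := by
    refine hg2.trans ?_
    rw [natDegree_le_iff_coeff_eq_zero]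
    intro i hi
    rw [hg, coeff_eq_zero_of_natDegree_lt (lt_of_le_of_lt hae hi),
      coeff_eq_zero_of_natDegree_lt (lt_of_le_of_lt hbe hi)]
    simp
  have hS0 : a = 0 → S = ∅ := by
    intro ha0
    rw [Finset.eq_empty_iff_forall_notMem]
    intro N hN
    obtain ⟨p, c, z, s, t, kn, kd, -, -, -, -, hev⟩ := hS N hN
    refine no_root hgi hg ha0 ?_ _ _ hev
    rw [he', ha0, natDegree_zero, Nat.zero_max] at he2
    exact he2
  rcases eq_or_ne a 0 with ha0 | ha0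
  · rw [hS0 ha0, Finset.card_empty]
    push_cast
    positivity
  have hcop := coprime_ab hgi hg ha0
  have hb0 : b ≠ 0 := by
    intro hb0
    rw [hb0, Polynomial.map_zero, isCoprime_zero_right] at hcop
    have h1 := natDegree_eq_zero_of_isUnit hcop
    rw [natDegree_map_eq_of_injective Int.cast_injective] at h1
    rw [he', h1, hb0, natDegree_zero] at he2
    simp at he2
  have hee : a.natDegree = e' ∨ b.natDegree = e' := by
    rcases max_choice a.natDegree b.natDegree with h | h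
    · exact Or.inl h.symm
    · exact Or.inr h.symm
  have hab : a.coeff e' ≠ 0 ∨ b.coeff e' ≠ 0 := by
    rcases hee with h | h
    · left; rw [← h, coeff_natDegree, leadingCoeff_ne_zero]; exact ha0
    · right; rw [← h, coeff_natDegree, leadingCoeff_ne_zero]; exact hb0
  obtain ⟨R0, hR0, hR0C, hR⟩ := hres H a b e' e' hH ha0 hb0 heD heD hae hbe hee hcop haC hbC
  have key : ∀ N : ℤ, ∃ (kn kd : ℤ) (p : ℕ), N ∈ S → (|(N : ℝ)| ≤ C * X ∧
      IsCoprime kn kd ∧ kd ≠ 0 ∧ |kn| ≤ (H : ℤ) ^ C2 ∧ |kd| ≤ (H : ℤ) ^ C2 ∧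
      p.Prime ∧ T ^ 4 ≤ p ∧ (p : ℤ) ^ 2 ∣ G.eval N) ∧ (¬ (p : ℤ) ∣ R0 →
      hom (4 * D + 1) (tw a b A) kn kd ≠ 0 ∧
      hom (4 * D + 1) (tw a b A) kn kd * N = hom (4 * D + 1) (tw a b B) kn kd ∧
      (p : ℤ) ∣ hom (hom 4 Λ (-b) a).natDegree (hom 4 Λ (-b) a) kn kd ∧
      ¬ (p : ℤ) ^ 2 ∣ hom (hom 4 Λ (-b) a).natDegree (hom 4 Λ (-b) a) kn kd) := by
    intro N
    by_cases hN : N ∈ S
    swap
    · exact ⟨0, 0, 0, fun h => absurd h hN⟩
    obtain ⟨p, c, z, s, t, kn, kd, hP, hK, hkn, hkd, hev⟩ := hS N hN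
    have hCp : C < p := hP.dat.C_lt hCT
    rw [ev_eq hg] at hev
    refine ⟨kn, kd, p, fun _ => ⟨⟨hP.dat.hN, hK.cop, hK.k0, hkn.trans hpow, hkd.trans hpow,
      hP.dat.prime, hP.dat.lo, hP.dat.sq_dvd hF hCp⟩, fun hpR => ?_⟩⟩
    exact point hF hl hl1 hKD.hΛ hA4 hB4 hae hbe heD hab hR0 hR hP hK hev hCp hpR
  choose fk fl fp hfs using key
  have hΛd : (hom 4 Λ (-b) a).natDegree = 4 * e' :=
    natDegree_sub_lam hae hbe hab (fun s t hst => GapPt.hom_lam_ne hF hl hKD.hΛ s t hst)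
  have hb'D : (-b).natDegree ≤ D := by rwa [natDegree_neg]
  have hb'C : ∀ i, |(-b).coeff i| ≤ (H : ℤ) ^ C := fun i => by rw [coeff_neg, abs_neg]; exact hbC i
  have hH1 : (1 : ℤ) ≤ H := by exact_mod_cast (by omega : 1 ≤ H)
  have h1 := hgap H X (T ^ 4) (tw a b A) (tw a b B) (hom 4 Λ (-b) a)
    (S.filter fun N => ¬ (fp N : ℤ) ∣ R0) fk fl fp hH hX hXT hHT
    ((natDegree_tw hae hbe A).trans (by omega)) ((natDegree_tw hae hbe B).trans (by omega))
    (by rw [hΛd]; omega) (fun h => by rw [h, natDegree_zero] at hΛd; omega)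
    (ht_tw hH haD hbD haC hbC hAC) (ht_tw hH haD hbD haC hbC hBC)
    (fun i => (ht_comp hH hb'D haD hb'C haC hΛC i).trans
      (pow_le_pow_right₀ hH1 (by omega)))
    (fun N hN => by
      obtain ⟨hNS, hpR⟩ := Finset.mem_filter.1 hN
      obtain ⟨⟨e1, e2, e3, e4, e5, e6, e7, e8⟩, e9⟩ := hfs N hNS
      obtain ⟨e10, e11, e12, e13⟩ := e9 hpR
      refine ⟨e1.trans ?_, e2, e3, e4, e5, e10, e11, e6, e7, e8, e12, e13⟩
      refine mul_le_mul_of_nonneg_right ?_ (by linarith)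
      exact_mod_cast (by omega : C ≤ C2))
  have h2 := hbad H (T ^ 4) R0 (S.filter fun N => (fp N : ℤ) ∣ R0) fp hH hHT hR0 hR0C
    (fun N hN => by
      obtain ⟨hNS, hpR⟩ := Finset.mem_filter.1 hN
      obtain ⟨⟨e1, e2, e3, e4, e5, e6, e7, e8⟩, -⟩ := hfs N hNS
      exact ⟨e1.trans (mul_le_mul_of_nonneg_left hXT (Nat.cast_nonneg _)), e6, e7, e8, hpR⟩)
  have h3 : (S.card : ℝ) = ((S.filter fun N => (fp N : ℤ) ∣ R0).card : ℝ) +
      ((S.filter fun N => ¬ (fp N : ℤ) ∣ R0).card : ℝ) := by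
    exact_mod_cast (Finset.card_filter_add_card_filter_not _).symm
  have h4 : ((S.filter fun N => (fp N : ℤ) ∣ R0).card : ℝ) ≤ K2 := by exact_mod_cast h2
  have h5 : (0 : ℝ) ≤ 2 * (C * C : ℕ) + 1 := by positivity
  rw [h3]
  nlinarith [mul_nonneg h5 hH0, mul_le_mul_of_nonneg_left hHε hK2]

end Vale.Agent.P018.Q.GapKappa
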