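import Mathlib
import Vale.Agent.P018.Hensel
import Vale.Agent.P018.Q.Levels
import Vale.Agent.P018.Q.Bezout2

/-! # P018, quartics: evaluations for the curve step. -/

namespace Vale.Agent.P018.Q

open Polynomial NumberField Finset

section evr

variable {R R' : Type*} [CommRing R] [CommRing R']

theorem hom_mul (D : ℕ) {A : ℤ[X]} (h : A.natDegree ≤ D) (x t : R) :
    hom D A (x * t) t = t ^ D * aeval x A := by
  unfold hom
  rw [aeval_eq_sum_range' (n := D + 1) (by omega), Finset.mul_sum]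
  refine Finset.sum_congr rfl fun i hi => ?_
  have hi' : i ≤ D := Nat.lt_succ_iff.1 (Finset.mem_range.1 hi)
  rw [mul_pow, zsmul_eq_mul]
  calc (A.coeff i : R) * (x ^ i * t ^ i) * t ^ (D - i) =
      (A.coeff i : R) * x ^ i * (t ^ i * t ^ (D - i)) := by ring
    _ = _ := by rw [← pow_add, Nat.add_sub_cancel' hi']; ring

theorem hom_map (f : R →+* R') (D : ℕ) (A : ℤ[X]) (s t : R) :
    f (hom D A s t) = hom D A (f s) (f t) := by
  simp [hom, map_sum]

/-- evaluation of an integral polynomial at a point of a ring: `x` inner, `y` outer variable. -/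
noncomputable def evr (P : ℤ[X][X]) (x y : R) : R :=
  eval₂ ((aeval x : ℤ[X] →ₐ[ℤ] R) : ℤ[X] →+* R) y P

theorem evr_int (P : ℤ[X][X]) (x y : ℤ) : evr P x y = ev2 P x y := by
  unfold evr ev2
  rw [eval_map]
  congr 1

theorem evr_map (f : R →+* R') (P : ℤ[X][X]) (x y : R) : f (evr P x y) = evr P (f x) (f y) := by
  unfold evr
  rw [hom_eval₂]
  congr 1
  refine Polynomial.ringHom_ext (fun a => by simp) (by simp)

theorem evr_rat (P : ℤ[X][X]) (σ κ : ℚ) :
    evr P σ κ = ev (P.map (mapRingHom (Int.castRingHom ℚ))) κ σ := by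
  unfold evr ev
  rw [eval_map, eval₂_map]
  congr 1
  refine Polynomial.ringHom_ext (fun a => by simp) (by simp)

@[simp] theorem evr_C (A : ℤ[X]) (x y : R) : evr (C A) x y = aeval x A := by
  simp [evr]

@[simp] theorem evr_X (x y : R) : evr (X : ℤ[X][X]) x y = y := by
  simp [evr]

@[simp] theorem evr_mul (P Q : ℤ[X][X]) (x y : R) : evr (P * Q) x y = evr P x y * evr Q x y := by
  simp [evr, eval₂_mul]

@[simp] theorem evr_add (P Q : ℤ[X][X]) (x y : R) : evr (P + Q) x y = evr P x y + evr Q x y := by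
  simp [evr, eval₂_add]

@[simp] theorem evr_pow (P : ℤ[X][X]) (n : ℕ) (x y : R) : evr (P ^ n) x y = evr P x y ^ n := by
  simp [evr, eval₂_pow]

@[simp] theorem evr_prod {ι : Type*} (s : Finset ι) (P : ι → ℤ[X][X]) (x y : R) :
    evr (∏ i ∈ s, P i) x y = ∏ i ∈ s, evr (P i) x y := by
  simp [evr, eval₂_finsetProd]

theorem evr_psi (A : Fin 2 → ℤ[X]) (Z : Fin 2 → Fin 4 → ℤ[X]) (R0 t' : ℕ) (μ : Fin 4 → ℕ)
    (a : ℕ) (x y : R) : evr (psi A Z R0 t' μ a) x y =
      (aeval x (A 0) + aeval x (A 1) * y) ^ (R0 - t') *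
        (∏ m, (aeval x (Z 0 m) + aeval x (Z 1 m) * y) ^ μ m) * x ^ a := by
  simp [psi]

/-- homogenisation of a polynomial in two variables. -/
noncomputable def hom2 (D : ℕ) (P : ℤ[X][X]) (kn kd s t : R) : R :=
  ∑ i ∈ range (D + 1), hom D (P.coeff i) s t * kn ^ i * kd ^ (D - i)

theorem hom2_map (f : R →+* R') (D : ℕ) (P : ℤ[X][X]) (kn kd s t : R) :
    f (hom2 D P kn kd s t) = hom2 D P (f kn) (f kd) (f s) (f t) := by
  simp [hom2, map_sum, hom_map]

theorem hom2_mul (D : ℕ) {P : ℤ[X][X]} (h : BiDeg D D P) (x y kd t : R) :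
    hom2 D P (y * kd) kd (x * t) t = kd ^ D * t ^ D * evr P x y := by
  unfold hom2 evr
  rw [eval₂_eq_sum_range' _ (n := D + 1) (by have := h.1; omega), Finset.mul_sum]
  refine Finset.sum_congr rfl fun i hi => ?_
  have hi' : i ≤ D := Nat.lt_succ_iff.1 (Finset.mem_range.1 hi)
  rw [hom_mul D (h.2 i), mul_pow]
  calc t ^ D * aeval x (P.coeff i) * (y ^ i * kd ^ i) * kd ^ (D - i) =
      t ^ D * aeval x (P.coeff i) * y ^ i * (kd ^ i * kd ^ (D - i)) := by ring
    _ = _ := by
      rw [← pow_add, Nat.add_sub_cancel' hi']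
      simp only [RingHom.coe_coe]
      ring

end evr

end Vale.Agent.P018.Q
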