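import Vale.Agent.P018.Q.GapSig
import Vale.Agent.P018.Q.CurveEv

/-! # P018, quartics: points on a curve of degree at most one in `κ`. -/

namespace Vale.Agent.P018.Q

open Polynomial NumberField Finset

variable {L : Type} [Field L] [NumberField L]

theorem Dat.mono {θ : Fin 4 → 𝓞 L} {C C' : ℕ} (hC : C ≤ C') {X T : ℝ} (hX : 0 ≤ X) {N : ℤ}
    {p : ℕ} {c : ℤ} {y z : Fin 4 → ℤ} (hd : Dat θ C X T N p c y z) :
    Dat θ C' X T N p c y z := by
  have hT := hd.T_nonneg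
  have hCR : (C : ℝ) ≤ C' := by exact_mod_cast hC
  have hCZ : (C : ℤ) ≤ C' := by exact_mod_cast hC
  obtain ⟨c', h1, h2, h3⟩ := hd.nrm
  refine ⟨hd.prime, hd.lo, hd.hi, hd.c0, hd.cC.trans hCZ, ⟨c', h1, h2.trans hCZ, h3⟩, hd.eqn,
    ?_, ?_, ?_⟩
  · exact hd.hN.trans (by gcongr)
  · exact fun j => (hd.hy j).trans (by gcongr)
  · exact fun j => (hd.hz j).trans (by gcongr)

theorem Pt.mono {θ : Fin 4 → 𝓞 L} {C C' : ℕ} (hC : C ≤ C') {X T : ℝ} (hX : 0 ≤ X)
    {l1 l2 : Fin 4 → ℤ} {N : ℤ} {p : ℕ} {c : ℤ} {z : Fin 4 → ℤ} {s t : ℤ}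
    (hP : Pt θ C X T l1 l2 N p c z s t) : Pt θ C' X T l1 l2 N p c z s t := by
  have hCR : (C : ℝ) ≤ C' := by exact_mod_cast hC
  exact ⟨hP.dat.mono hC hX, hP.hs.trans (by gcongr), hP.ht.trans (by gcongr)⟩

theorem ev_deg_one {g : ℤ[X][X]} (hg : g.natDegree ≤ 1) (κ σ : ℚ) :
    ev (g.map (mapRingHom (Int.castRingHom ℚ))) κ σ =
      aeval σ (g.coeff 0) + aeval σ (g.coeff 1) * κ := by
  rw [← evr_rat, evr, eval₂_eq_sum_range' _ (by omega : g.natDegree < 2)]
  simp [Finset.sum_range_succ]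

theorem abs_coeff_mul_le1 {p q : ℤ[X]} {D : ℕ} {a b : ℤ} (hp : p.natDegree ≤ D)
    (hpa : ∀ i, |p.coeff i| ≤ a) (hqb : ∀ i, |q.coeff i| ≤ b) (k : ℕ) :
    |(p * q).coeff k| ≤ (D + 1) * (a * b) := by
  have ha : 0 ≤ a := (abs_nonneg _).trans (hpa 0)
  have hb : 0 ≤ b := (abs_nonneg _).trans (hqb 0)
  have h1 : (p * q).coeff k =
      ∑ i ∈ Finset.range (D + 1), (monomial i (p.coeff i) * q).coeff k := by
    conv_lhs => rw [p.as_sum_range' (D + 1) (by omega), Finset.sum_mul, finsetSum_coeff]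
  rw [h1]
  refine (Finset.abs_sum_le_sum_abs _ _).trans ?_
  have h2 : ∀ i ∈ Finset.range (D + 1), |(monomial i (p.coeff i) * q).coeff k| ≤ a * b := by
    intro i _
    by_cases h : i ≤ k
    · obtain ⟨j, rfl⟩ := Nat.exists_eq_add_of_le h
      rw [add_comm i j, coeff_monomial_mul, abs_mul]
      exact mul_le_mul (hpa i) (hqb j) (abs_nonneg _) ha
    · rw [← C_mul_X_pow_eq_monomial, mul_assoc, coeff_C_mul, coeff_X_pow_mul', if_neg h,
        mul_zero, abs_zero]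
      exact mul_nonneg ha hb
  refine (Finset.sum_le_sum h2).trans ?_
  simp

theorem coeff_bound_one {H C D : ℕ} (hH : 2 ≤ H) {g0 g1 A0 A1 : ℤ[X]} (h0 : g0.natDegree ≤ D)
    (h1 : g1.natDegree ≤ D) (hg0 : ∀ i, |g0.coeff i| ≤ (H : ℤ) ^ C)
    (hg1 : ∀ i, |g1.coeff i| ≤ (H : ℤ) ^ C) (hA0 : ∀ i, |A0.coeff i| ≤ (H : ℤ) ^ C)
    (hA1 : ∀ i, |A1.coeff i| ≤ (H : ℤ) ^ C) (k : ℕ) :
    |(g1 * A0 - g0 * A1).coeff k| ≤ (H : ℤ) ^ (2 * C + (D + 1)) := by
  have e1 := abs_coeff_mul_le1 h1 hg1 hA0 k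
  have e2 := abs_coeff_mul_le1 h0 hg0 hA1 k
  have e3 : (H : ℤ) ^ C * (H : ℤ) ^ C = (H : ℤ) ^ (2 * C) := by rw [← pow_add]; ring_nf
  rw [e3] at e1 e2
  rw [coeff_sub]
  have e4 := abs_sub ((g1 * A0).coeff k) ((g0 * A1).coeff k)
  have e5 : (2 * (D + 1) : ℤ) ≤ (H : ℤ) ^ (D + 1) := by
    have h2 : 2 * (D + 1) ≤ 2 ^ (D + 1) := by
      have := Nat.lt_two_pow_self (n := D)
      rw [pow_succ]
      omega
    have h3 : 2 ^ (D + 1) ≤ H ^ (D + 1) := Nat.pow_le_pow_left hH _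
    exact_mod_cast h2.trans h3
  have e6 : (0 : ℤ) ≤ (H : ℤ) ^ (2 * C) := by positivity
  calc |(g1 * A0).coeff k - (g0 * A1).coeff k|
      ≤ |(g1 * A0).coeff k| + |(g0 * A1).coeff k| := e4
    _ ≤ (D + 1) * (H : ℤ) ^ (2 * C) + (D + 1) * (H : ℤ) ^ (2 * C) := add_le_add e1 e2
    _ = (2 * (D + 1)) * (H : ℤ) ^ (2 * C) := by ring
    _ ≤ (H : ℤ) ^ (D + 1) * (H : ℤ) ^ (2 * C) := mul_le_mul_of_nonneg_right e5 e6
    _ = (H : ℤ) ^ (2 * C + (D + 1)) := by rw [← pow_add]; ring_nf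

/-- points on a curve of degree `≤ 1` in `κ`. -/
theorem gap_one' {G : ℤ[X]} {θ : Fin 4 → 𝓞 L} (hF : Fld G θ) (D C : ℕ) (ε : ℝ) (hε : 0 < ε) :
    ∃ K : ℝ, 0 < K ∧ ∀ (H : ℕ) (X T : ℝ) (l1 l2 : Fin 4 → ℤ) (d : Fin 2 → ℕ)
      (A B : Fin 2 → ℤ[X]) (Z : Fin 2 → Fin 4 → ℤ[X]) (Λ : ℤ[X]) (e : ℤ) (g : ℤ[X][X])
      (S : Finset ℤ),
      2 ≤ H → 1 ≤ X → X ≤ T ^ 4 → (H : ℝ) ≤ T ^ 4 → T ≤ H → X ≤ H →
      (∀ a b : ℤ, a • l1 + b • l2 = 0 → a = 0 ∧ b = 0) → KData θ l1 l2 d A B Z Λ e →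
      (∀ i k, |(A i).coeff k| ≤ (H : ℤ) ^ C) → (∀ i k, |(B i).coeff k| ≤ (H : ℤ) ^ C) →
      (∀ k, |Λ.coeff k| ≤ (H : ℤ) ^ C) →
      Irreducible (g.map (mapRingHom (Int.castRingHom ℚ))) → BiDeg D D g → g.natDegree ≤ 1 →
      (∀ i j, |(g.coeff i).coeff j| ≤ (H : ℤ) ^ C) →
      (∀ N ∈ S, ∃ (p : ℕ) (c : ℤ) (z : Fin 4 → ℤ) (s t kn kd : ℤ),
        Pt θ C X T l1 l2 N p c z s t ∧ KP A B Z N c s t kn kd z ∧
        ev (g.map (mapRingHom (Int.castRingHom ℚ))) ((kn : ℚ) / kd) ((s : ℚ) / t) = 0) →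
      (S.card : ℝ) ≤ K * (H : ℝ) ^ ε := by
  obtain ⟨K1, hu⟩ := pt_unique' hF C
  obtain ⟨K2, hK2, hsig⟩ := gap_sigma' hF (D + 5) (2 * C + (D + 1)) ε hε
  set M : ℕ := ⌈(C : ℝ) * |K1|⌉₊ with hM
  refine ⟨K2 + D + (2 * M + 1), by positivity, ?_⟩
  intro H X T l1 l2 d A B Z Λ e g S hH hX hXT hHT hTH hXH hl hK hA hB hΛ hirr hBi hg1 hgC hS
  have hHN : 1 ≤ H := by omega
  have hHR : (1 : ℝ) ≤ H := by exact_mod_cast hHN
  have hHε : (1 : ℝ) ≤ (H : ℝ) ^ ε := Real.one_le_rpow hHR hε.le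
  have hX0 : 0 ≤ X := by linarith
  choose! fp fc fz fs ft fn fd hf using hS
  have hinj : Function.Injective (Int.castRingHom ℚ) := RingHom.injective_int _
  rcases Nat.eq_zero_or_pos g.natDegree with h0 | h0
  · -- degree zero in `κ`
    rcases lt_or_ge X K1 with hXK | hXK
    · have h1 : (S.card : ℝ) ≤ 2 * M + 1 := by
        refine card_small (C := C) (X := X) (fun N hN => (hf N hN).1.dat.hN) ?_
        refine le_trans ?_ (Nat.le_ceil _)
        have h2 : X ≤ |K1| := hXK.le.trans (le_abs_self _)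
        gcongr
      refine h1.trans ?_
      have h3 : (0 : ℝ) ≤ 2 * M + 1 := by positivity
      have h4 : (0 : ℝ) ≤ K2 + D := by positivity
      nlinarith [mul_nonneg h4 (zero_le_one.trans hHε), mul_le_mul_of_nonneg_left hHε h3]
    · have hg0 : g = Polynomial.C (g.coeff 0) := eq_C_of_natDegree_eq_zero h0
      have hr0 : (g.coeff 0).map (Int.castRingHom ℚ) ≠ 0 := by
        intro h
        apply hirr.ne_zero
        rw [hg0, map_C, coe_mapRingHom, h, C_0]
      have h1 : S.card ≤ ((g.coeff 0).map (Int.castRingHom ℚ)).roots.toFinset.card := by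
        refine Finset.card_le_card_of_injOn (fun N => (fs N : ℚ) / ft N) ?_ ?_
        · intro N hN
          have hN' : N ∈ S := hN
          have h2 := (hf N hN').2.2
          rw [ev_deg_one hg1, coeff_eq_zero_of_natDegree_lt (by omega : g.natDegree < 1),
            map_zero, zero_mul, add_zero] at h2
          have h3 : (fs N : ℚ) / ft N ∈ ((g.coeff 0).map (Int.castRingHom ℚ)).roots.toFinset := by
            rw [Multiset.mem_toFinset, mem_roots hr0, IsRoot.def, eval_map]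
            exact h2
          exact h3
        · intro N hN N' hN' hNN
          have hN1 : N ∈ S := hN
          have hN2 : N' ∈ S := hN'
          have h2 : (fs N : ℚ) / ft N = (fs N' : ℚ) / ft N' := hNN
          have ht : (ft N : ℚ) ≠ 0 := by exact_mod_cast (hf N hN1).2.1.t0
          have ht' : (ft N' : ℚ) ≠ 0 := by exact_mod_cast (hf N' hN2).2.1.t0
          rw [div_eq_div_iff ht ht'] at h2
          exact hu X T l1 l2 N N' _ _ _ _ _ _ _ _ _ _ hXK hXT (hf N hN1).1 (hf N' hN2).1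
            (by exact_mod_cast h2)
      have h2 : S.card ≤ D :=
        h1.trans ((Multiset.toFinset_card_le _).trans ((card_roots' _).trans
          ((natDegree_map_le).trans (hBi.2 0))))
      have h3 : (S.card : ℝ) ≤ D := by exact_mod_cast h2
      refine h3.trans ?_
      have h4 : (0 : ℝ) ≤ 2 * M + 1 := by positivity
      have h5 : (0 : ℝ) ≤ D := by positivity
      nlinarith [mul_nonneg h4 (zero_le_one.trans hHε), mul_le_mul_of_nonneg_left hHε h5,
        mul_nonneg hK2.le (zero_le_one.trans hHε)]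
  · -- degree one in `κ`
    have hd : ∀ i, d i ≤ 5 := by
      intro i
      fin_cases i
      · rcases hK.dd with h | h
        · simp [h.1]
        · simp [h.1]
      · rcases hK.dd with h | h
        · simp [h.2]
        · simp [h.2]
    have hdeg : ∀ (A : Fin 2 → ℤ[X]), (∀ i, (A i).natDegree ≤ d i) →
        (g.coeff 1 * A 0 - g.coeff 0 * A 1).natDegree ≤ D + 5 := by
      intro A hA
      refine (natDegree_sub_le _ _).trans (max_le ?_ ?_)
      · exact natDegree_mul_le.trans (add_le_add (hBi.2 1) ((hA 0).trans (hd 0)))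
      · exact natDegree_mul_le.trans (add_le_add (hBi.2 0) ((hA 1).trans (hd 1)))
    have hpow : (H : ℤ) ^ C ≤ (H : ℤ) ^ (2 * C + (D + 1)) :=
      pow_le_pow_right₀ (by exact_mod_cast hHN) (by omega)
    have h1 := hsig H X T l1 l2 (g.coeff 1 * A 0 - g.coeff 0 * A 1)
      (g.coeff 1 * B 0 - g.coeff 0 * B 1) Λ S hH hX hXT hHT hTH hXH hl hK.hΛ (hdeg A hK.dA)
      (hdeg B hK.dB)
      (coeff_bound_one hH (hBi.2 0) (hBi.2 1) (hgC 0) (hgC 1) (hA 0) (hA 1))
      (coeff_bound_one hH (hBi.2 0) (hBi.2 1) (hgC 0) (hgC 1) (hB 0) (hB 1))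
      (fun i => (hΛ i).trans hpow) ?_
    · refine h1.trans ?_
      have h4 : (0 : ℝ) ≤ D + (2 * M + 1) := by positivity
      nlinarith [mul_nonneg h4 (zero_le_one.trans hHε)]
    · intro N hN
      obtain ⟨hP, hKP, hev⟩ := hf N hN
      refine ⟨fp N, fc N, fz N, fs N, ft N, hP.mono (by omega) hX0, hKP.t0, ?_⟩
      rw [ev_deg_one hg1] at hev
      have hkd : (fd N : ℚ) ≠ 0 := by exact_mod_cast hKP.k0
      have hg10 : aeval ((fs N : ℚ) / ft N) (g.coeff 1) ≠ 0 := by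
        intro h
        rw [h, zero_mul, add_zero] at hev
        have hz : (g.map (mapRingHom (Int.castRingHom ℚ))).map
            (evalRingHom ((fs N : ℚ) / ft N)) = 0 := by
          ext i
          rw [coeff_map, coeff_map, coe_evalRingHom, coe_mapRingHom, eval_map, coeff_zero]
          rcases lt_or_ge 1 i with hi | hi
          · rw [coeff_eq_zero_of_natDegree_lt (by omega : g.natDegree < i), eval₂_zero]
          · interval_cases i
            · exact hev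
            · exact h
        have hgd : (g.map (mapRingHom (Int.castRingHom ℚ))).natDegree = g.natDegree :=
          natDegree_map_eq_of_injective (map_injective _ hinj) g
        have hp := hirr.isPrimitive (by rw [hgd]; omega)
        exact not_isUnit_X_sub_C _ (isPrimitive_iff_isUnit_of_C_dvd.1 hp _
          (C_dvd_of_map_eq_zero hz))
      have hkn : (fn N : ℚ) * aeval ((fs N : ℚ) / ft N) (g.coeff 1) =
          - (fd N : ℚ) * aeval ((fs N : ℚ) / ft N) (g.coeff 0) := by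
        field_simp at hev
        linear_combination hev
      have key : ∀ a0 a1 : ℚ, aeval ((fs N : ℚ) / ft N) (g.coeff 1) *
          (fd N * a0 + fn N * a1) = fd N * (aeval ((fs N : ℚ) / ft N) (g.coeff 1) * a0 -
            aeval ((fs N : ℚ) / ft N) (g.coeff 0) * a1) := by
        intro a0 a1
        linear_combination a1 * hkn
      have hden := hKP.den
      have heq := hKP.eqN
      rw [map_sub, map_mul, map_mul, map_sub, map_mul, map_mul]
      constructor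
      · intro h
        have h2 := key (aeval ((fs N : ℚ) / ft N) (A 0)) (aeval ((fs N : ℚ) / ft N) (A 1))
        rw [h, mul_zero] at h2
        rcases mul_eq_zero.1 h2 with h3 | h3
        · exact hg10 h3
        · exact hden h3
      · have h2 := key (aeval ((fs N : ℚ) / ft N) (A 0)) (aeval ((fs N : ℚ) / ft N) (A 1))
        have h3 := key (aeval ((fs N : ℚ) / ft N) (B 0)) (aeval ((fs N : ℚ) / ft N) (B 1))
        refine mul_left_cancel₀ hkd ?_
        rw [← mul_assoc, ← h2, ← h3, mul_assoc, heq]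

end Vale.Agent.P018.Q
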