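import Mathlib
import Vale.Agent.P018.Q.GapParam
import Vale.Agent.P018.Q.PairDefs
import Vale.Agent.P018.Q.GapSig
import Vale.Agent.P018.Q.GapOne
import Vale.Agent.P018.Q.GapKappa

/-! # P018, quartics: the points on rational curves of the kappa model. -/

namespace Vale.Agent.P018.Q

open Polynomial NumberField Finset

variable {L : Type} [Field L] [NumberField L]

/-- two points with the same `σ = s / t` are equal. -/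
theorem pt_unique {G : ℤ[X]} {θ : Fin 4 → 𝓞 L} (hF : Fld G θ) (C : ℕ) :
    ∃ K : ℝ, ∀ (X T : ℝ) (l1 l2 : Fin 4 → ℤ) (N N' : ℤ) (p p' : ℕ) (c c' : ℤ) (z z' : Fin 4 → ℤ)
      (s t s' t' : ℤ), K ≤ X → X ≤ T ^ 4 → Pt θ C X T l1 l2 N p c z s t →
      Pt θ C X T l1 l2 N' p' c' z' s' t' → s * t' = s' * t → N = N' := by
  exact pt_unique' hF C

/-- points with `A(σ) N = B(σ)`. -/
theorem gap_sigma {G : ℤ[X]} {θ : Fin 4 → 𝓞 L} (hF : Fld G θ) (D C : ℕ) (ε : ℝ) (hε : 0 < ε) :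
    ∃ K : ℝ, 0 < K ∧ ∀ (H : ℕ) (X T : ℝ) (l1 l2 : Fin 4 → ℤ) (A B Λ : ℤ[X]) (S : Finset ℤ),
      2 ≤ H → 1 ≤ X → X ≤ T ^ 4 → (H : ℝ) ≤ T ^ 4 → T ≤ H → X ≤ H →
      (∀ a b : ℤ, a • l1 + b • l2 = 0 → a = 0 ∧ b = 0) →
      Λ.map (algebraMap ℤ (𝓞 L)) = ∏ j, piPoly θ l1 l2 j →
      A.natDegree ≤ D → B.natDegree ≤ D →
      (∀ i, |A.coeff i| ≤ (H : ℤ) ^ C) → (∀ i, |B.coeff i| ≤ (H : ℤ) ^ C) →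
      (∀ i, |Λ.coeff i| ≤ (H : ℤ) ^ C) →
      (∀ N ∈ S, ∃ (p : ℕ) (c : ℤ) (z : Fin 4 → ℤ) (s t : ℤ), Pt θ C X T l1 l2 N p c z s t ∧
        t ≠ 0 ∧ aeval ((s : ℚ) / t) A ≠ 0 ∧
        aeval ((s : ℚ) / t) A * (N : ℚ) = aeval ((s : ℚ) / t) B) →
      (S.card : ℝ) ≤ K * (H : ℝ) ^ ε := by
  exact gap_sigma' hF D C ε hε

/-- points on a curve of degree `≤ 1` in `κ`. -/
theorem gap_one {G : ℤ[X]} {θ : Fin 4 → 𝓞 L} (hF : Fld G θ) (D C : ℕ) (ε : ℝ) (hε : 0 < ε) :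
    ∃ K : ℝ, 0 < K ∧ ∀ (H : ℕ) (X T : ℝ) (l1 l2 : Fin 4 → ℤ) (d : Fin 2 → ℕ)
      (A B : Fin 2 → ℤ[X]) (Z : Fin 2 → Fin 4 → ℤ[X]) (Λ : ℤ[X]) (e : ℤ) (g : ℤ[X][X])
      (S : Finset ℤ),
      2 ≤ H → 1 ≤ X → X ≤ T ^ 4 → (H : ℝ) ≤ T ^ 4 → T ≤ H → X ≤ H →
      (∀ a b : ℤ, a • l1 + b • l2 = 0 → a = 0 ∧ b = 0) → KData θ l1 l2 d A B Z Λ e →
      (∀ i k, |(A i).coeff k| ≤ (H : ℤ) ^ C) → (∀ i k, |(B i).coeff k| ≤ (H : ℤ) ^ C) →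
      (∀ k, |Λ.coeff k| ≤ (H : ℤ) ^ C) →
      Irreducible (g.map (mapRingHom (Int.castRingHom ℚ))) → BiDeg D D g → g.natDegree ≤ 1 →
      (∀ i j, |(g.coeff i).coeff j| ≤ (H : ℤ) ^ C) →
      (∀ N ∈ S, ∃ (p : ℕ) (c : ℤ) (z : Fin 4 → ℤ) (s t kn kd : ℤ),
        Pt θ C X T l1 l2 N p c z s t ∧ KP A B Z N c s t kn kd z ∧
        ev (g.map (mapRingHom (Int.castRingHom ℚ))) ((kn : ℚ) / kd) ((s : ℚ) / t) = 0) →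
      (S.card : ℝ) ≤ K * (H : ℝ) ^ ε := by
  exact gap_one' hF D C ε hε

/-- points on a curve of degree `≤ 1` in `σ` and of degree `≥ 2` in `κ`, type `(4, 4)`. -/
theorem gap_kappa {G : ℤ[X]} {θ : Fin 4 → 𝓞 L} (hF : Fld G θ) (D C : ℕ) (ε : ℝ) (hε : 0 < ε) :
    ∃ K : ℝ, 0 < K ∧ ∀ (H : ℕ) (X T : ℝ) (l1 l2 : Fin 4 → ℤ) (d : Fin 2 → ℕ)
      (A B : Fin 2 → ℤ[X]) (Z : Fin 2 → Fin 4 → ℤ[X]) (Λ : ℤ[X]) (e : ℤ) (g : ℤ[X][X])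
      (S : Finset ℤ),
      2 ≤ H → 1 ≤ X → X ≤ T ^ 4 → (H : ℝ) ≤ T ^ 4 → T ≤ H → X ≤ H →
      (∀ a b : ℤ, a • l1 + b • l2 = 0 → a = 0 ∧ b = 0) → KData θ l1 l2 d A B Z Λ e → d 0 = 4 →
      (∀ i k, |(A i).coeff k| ≤ (H : ℤ) ^ C) → (∀ i k, |(B i).coeff k| ≤ (H : ℤ) ^ C) →
      (∀ k, |Λ.coeff k| ≤ (H : ℤ) ^ C) →
      Irreducible (g.map (mapRingHom (Int.castRingHom ℚ))) → BiDeg D 1 g → 2 ≤ g.natDegree →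
      (∀ i j, |(g.coeff i).coeff j| ≤ (H : ℤ) ^ C) →
      (∀ N ∈ S, ∃ (p : ℕ) (c : ℤ) (z : Fin 4 → ℤ) (s t kn kd : ℤ),
        Pt θ C X T l1 l2 N p c z s t ∧ KP A B Z N c s t kn kd z ∧
        |kn| ≤ (H : ℤ) ^ C ∧ |kd| ≤ (H : ℤ) ^ C ∧
        ev (g.map (mapRingHom (Int.castRingHom ℚ))) ((kn : ℚ) / kd) ((s : ℚ) / t) = 0) →
      (S.card : ℝ) ≤ K * (H : ℝ) ^ ε := by
  exact GapKappa.gap_kappa' hF D C ε hε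

end Vale.Agent.P018.Q
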