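import Mathlib
import Vale.Agent.P018.Q.PairDefs
import Vale.Agent.P018.Q.GapCurves
import Vale.Agent.P018.Q.Heights

/-! # P018, quartics, family (A): tools for the count on all curves. -/

namespace Vale.Agent.P018.Q

open Polynomial NumberField Finset

section pt

variable {L : Type} [Field L] [NumberField L]

/-- change of the constants of a point. -/
theorem pc816_pt {θ : Fin 4 → 𝓞 L} {C C' : ℕ} {X X' T : ℝ} {l1 l2 : Fin 4 → ℤ} {N : ℤ} {p : ℕ}
    {c : ℤ} {z : Fin 4 → ℤ} {s t : ℤ} (h : Pt θ C X T l1 l2 N p c z s t) (hT : 0 ≤ T)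
    (hX : X ≤ 2 * X') (hX' : 0 ≤ X') (hC : 2 * C ≤ C') : Pt θ C' X' T l1 l2 N p c z s t := by
  have hC0 : C ≤ C' := by omega
  have hC1 : (C : ℝ) ≤ C' := by exact_mod_cast hC0
  have hC2 : (2 * C : ℝ) ≤ C' := by exact_mod_cast hC
  have hC3 : (C : ℤ) ≤ C' := by exact_mod_cast hC0
  have hCX : (C : ℝ) * X ≤ C' * X' := by
    calc (C : ℝ) * X ≤ C * (2 * X') := mul_le_mul_of_nonneg_left hX (Nat.cast_nonneg _)
      _ = (2 * C) * X' := by ring
      _ ≤ C' * X' := mul_le_mul_of_nonneg_right hC2 hX'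
  obtain ⟨hd, h1, h2⟩ := h
  obtain ⟨c', hc1, hc2, hc3⟩ := hd.nrm
  have hTT : (C : ℝ) * T ^ 2 ≤ C' * T ^ 2 := mul_le_mul_of_nonneg_right hC1 (by positivity)
  exact ⟨⟨hd.prime, hd.lo, hd.hi, hd.c0, hd.cC.trans hC3, ⟨c', hc1, hc2.trans hC3, hc3⟩, hd.eqn,
    hd.hN.trans hCX, fun j => (hd.hy j).trans (mul_le_mul_of_nonneg_right hC1 hT),
    fun j => (hd.hz j).trans (div_le_div_of_nonneg_right hCX (by positivity))⟩,
    h1.trans hTT, h2.trans hTT⟩

end pt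

/-- `N` is determined by the point of the kappa model. -/
theorem pc816_inj {A B : Fin 2 → ℤ[X]} {Z : Fin 2 → Fin 4 → ℤ[X]} {N c s t kn kd : ℤ}
    {z : Fin 4 → ℤ} {N' c' s' t' kn' kd' : ℤ} {z' : Fin 4 → ℤ}
    (h : KP A B Z N c s t kn kd z) (h' : KP A B Z N' c' s' t' kn' kd' z')
    (h1 : (kn : ℚ) / kd = (kn' : ℚ) / kd') (h2 : (s : ℚ) / t = (s' : ℚ) / t') : N = N' := by
  have e1 := h.eqN
  have e2 := h'.eqN
  have d1 := h.den
  have d2 := h'.den
  rw [← h2] at e2 d2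
  have k1 : (kd : ℚ) ≠ 0 := by exact_mod_cast h.k0
  have k2 : (kd' : ℚ) ≠ 0 := by exact_mod_cast h'.k0
  set σ : ℚ := (s : ℚ) / t
  set κ : ℚ := (kn : ℚ) / kd with hκ
  have q1 : (kn : ℚ) = κ * kd := by rw [hκ]; field_simp
  have q2 : (kn' : ℚ) = κ * kd' := by rw [h1]; field_simp
  rw [q1] at e1 d1
  rw [q2] at e2 d2
  set a : ℚ := aeval σ (A 0) + κ * aeval σ (A 1) with ha
  set b : ℚ := aeval σ (B 0) + κ * aeval σ (B 1) with hb
  have e3 : (kd : ℚ) * (a * N) = kd * b := by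
    rw [ha, hb]; linear_combination e1
  have e4 : (kd' : ℚ) * (a * N') = kd' * b := by
    rw [ha, hb]; linear_combination e2
  have e5 := mul_left_cancel₀ k1 e3
  have e6 := mul_left_cancel₀ k2 e4
  have ha0 : a ≠ 0 := by
    intro h0
    apply d1
    have : (kd : ℚ) * aeval σ (A 0) + κ * kd * aeval σ (A 1) = kd * a := by rw [ha]; ring
    rw [this, h0, mul_zero]
  have e7 : (N : ℚ) = N' := mul_left_cancel₀ ha0 (e5.trans e6.symm)
  exact_mod_cast e7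

theorem pc816_deriv {Dg : ℕ} {g : ℤ[X][X]} (h : BiDeg Dg Dg g) : BiDeg Dg Dg (derivative g) := by
  refine ⟨(natDegree_derivative_le g).trans (by have := h.1; omega), fun i => ?_⟩
  rw [coeff_derivative]
  refine natDegree_mul_le.trans ?_
  have h1 : ((i : ℤ[X]) + 1).natDegree = 0 := by
    have : ((i : ℤ[X]) + 1) = ((i + 1 : ℕ) : ℤ[X]) := by push_cast; ring
    rw [this]
    exact natDegree_natCast _
  rw [h1, add_zero]
  exact h.2 _

theorem pc816_map {Dg : ℕ} {g : ℤ[X][X]} (h : BiDeg Dg Dg g) :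
    BiDeg Dg Dg (g.map (mapRingHom (Int.castRingHom ℚ))) := by
  refine ⟨natDegree_map_le.trans h.1, fun i => ?_⟩
  rw [coeff_map]
  exact natDegree_map_le.trans (h.2 i)

/-- the values over `ℚ`. -/
theorem pc816_rat {Dg : ℕ} {g : ℤ[X][X]} (h : BiDeg Dg Dg g) {kn kd s t : ℤ} (hkd : kd ≠ 0)
    (ht : t ≠ 0) : ((hom2 Dg g kn kd s t : ℤ) : ℚ) = (kd : ℚ) ^ Dg * (t : ℚ) ^ Dg *
      ev (g.map (mapRingHom (Int.castRingHom ℚ))) ((kn : ℚ) / kd) ((s : ℚ) / t) := by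
  have htQ : (t : ℚ) ≠ 0 := by exact_mod_cast ht
  have hkdQ : (kd : ℚ) ≠ 0 := by exact_mod_cast hkd
  have hsQ : (s : ℚ) = (s : ℚ) / t * t := by field_simp
  have hknQ : (kn : ℚ) = (kn : ℚ) / kd * kd := by field_simp
  have h2 := hom2_map (Int.castRingHom ℚ) Dg g kn kd s t
  simp only [eq_intCast] at h2
  rw [h2]
  conv_lhs => rw [hsQ, hknQ]
  rw [hom2_mul Dg h, evr_rat]

/-- the values modulo a prime number. -/
theorem pc816_mod {Dg : ℕ} {g : ℤ[X][X]} (h : BiDeg Dg Dg g) {l : ℕ} {kn kd s t x0 : ℤ}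
    {κ : ZMod l} (hs : (s : ZMod l) = x0 * t) (hk : (kn : ZMod l) = κ * kd) :
    ((hom2 Dg g kn kd s t : ℤ) : ZMod l) = (kd : ZMod l) ^ Dg * (t : ZMod l) ^ Dg *
      evr g (x0 : ZMod l) κ := by
  have h2 := hom2_map (Int.castRingHom (ZMod l)) Dg g kn kd s t
  simp only [eq_intCast] at h2
  rw [h2, hs, hk, hom2_mul Dg h]

theorem pc816_evr {g : ℤ[X][X]} {l : ℕ} (x0 : ℤ) (κ : ZMod l) :
    evr g (x0 : ZMod l) κ =
      ((g.map (evalRingHom x0)).map (Int.castRingHom (ZMod l))).eval κ := by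
  rw [eval_map, eval₂_map]
  unfold evr
  congr 1
  refine Polynomial.ringHom_ext (fun a => by simp) (by simp)

theorem pc816_cop (I : Finset ℕ) (hI : ∀ l ∈ I, l.Prime) (a : ℤ) (h : ∀ l ∈ I, ¬ (l : ℤ) ∣ a) :
    IsCoprime a ((∏ l ∈ I, l : ℕ) : ℤ) := by
  push_cast
  refine IsCoprime.prod_right fun l hl => ?_
  exact ((Nat.prime_iff_prime_int.1 (hI l hl)).coprime_iff_not_dvd.2 (h l hl)).symm

theorem pc816_dvd (I : Finset ℕ) (hI : ∀ l ∈ I, l.Prime) (a : ℤ) (h : ∀ l ∈ I, (l : ℤ) ∣ a) :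
    ((∏ l ∈ I, l : ℕ) : ℤ) ∣ a := by
  rw [Int.natCast_dvd]
  refine Finset.prod_primes_dvd _ (fun l hl => (hI l hl).prime) fun l hl => ?_
  exact Int.natCast_dvd.1 (h l hl)

/-- the singular points of the curve. -/
theorem pc816_sing (Dg : ℕ) : ∃ Cb : ℕ, ∀ (A B : Fin 2 → ℤ[X]) (Z : Fin 2 → Fin 4 → ℤ[X])
    (g : ℤ[X][X]) (S : Finset ℤ) (c s t kn kd : ℤ → ℤ) (z : ℤ → Fin 4 → ℤ),
    Irreducible (g.map (mapRingHom (Int.castRingHom ℚ))) → BiDeg Dg Dg g → 2 ≤ g.natDegree →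
    (∀ N ∈ S, KP A B Z N (c N) (s N) (t N) (kn N) (kd N) (z N) ∧
      ev (g.map (mapRingHom (Int.castRingHom ℚ))) ((kn N : ℚ) / kd N) ((s N : ℚ) / t N) = 0 ∧
      hom2 Dg (derivative g) (kn N) (kd N) (s N) (t N) = 0) → S.card ≤ Cb := by
  classical
  obtain ⟨Cb, hCb⟩ := bezout2 Dg Dg
  refine ⟨Cb, fun A B Z g S c s t kn kd z hg hgd hg2 hS => ?_⟩
  obtain ⟨gQ, hgQ⟩ : ∃ gQ, gQ = g.map (mapRingHom (Int.castRingHom ℚ)) := ⟨_, rfl⟩
  have hinj : Function.Injective (mapRingHom (Int.castRingHom ℚ)) :=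
    Polynomial.map_injective _ (RingHom.injective_int _)
  have hnd : gQ.natDegree = g.natDegree := by
    rw [hgQ]; exact natDegree_map_eq_of_injective hinj g
  have hder : derivative gQ = (derivative g).map (mapRingHom (Int.castRingHom ℚ)) := by
    rw [hgQ, derivative_map]
  have hder0 : derivative gQ ≠ 0 := by
    intro h0
    have := natDegree_eq_zero_of_derivative_eq_zero h0
    omega
  have hnot : ¬ gQ ∣ derivative gQ := by
    intro hd
    have h1 := natDegree_le_of_dvd hd hder0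
    have h2 := natDegree_derivative_lt (p := gQ) (by omega)
    omega
  have h1 : S.card = (S.image fun N => ((kn N : ℚ) / kd N, (s N : ℚ) / t N)).card := by
    rw [Finset.card_image_of_injOn]
    intro N hN N' hN' h
    have h2 := Prod.mk.inj h
    exact pc816_inj (hS N hN).1 (hS N' hN').1 h2.1 h2.2
  rw [h1]
  refine hCb gQ (derivative gQ) (hgQ ▸ hg) hnot (hgQ ▸ pc816_map hgd)
    (hder ▸ pc816_map (pc816_deriv hgd)) _ fun q hq => ?_
  obtain ⟨N, hN, rfl⟩ := Finset.mem_image.1 hq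
  obtain ⟨h2, h3, h4⟩ := hS N hN
  refine ⟨hgQ ▸ h3, ?_⟩
  have h5 := pc816_rat (pc816_deriv hgd) (kn := kn N) (s := s N) h2.k0 h2.t0
  rw [h4, Int.cast_zero, ← hder] at h5
  have k1 : ((kd N : ℤ) : ℚ) ^ Dg ≠ 0 := pow_ne_zero _ (by exact_mod_cast h2.k0)
  have k2 : ((t N : ℤ) : ℚ) ^ Dg ≠ 0 := pow_ne_zero _ (by exact_mod_cast h2.t0)
  exact (mul_eq_zero.1 h5.symm).resolve_left (mul_ne_zero k1 k2)

/-- the class of the point modulo a prime number. -/
noncomputable def pc816_col (kn kd : ℤ) (l : ℕ) : ℕ := ((kn : ZMod l) * (kd : ZMod l)⁻¹).val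

theorem pc816_unit {l : ℕ} (hl : l.Prime) {a : ℤ} (h : ¬ (l : ℤ) ∣ a) : (a : ZMod l) ≠ 0 := by
  rw [Ne, ZMod.intCast_zmod_eq_zero_iff_dvd]
  exact h

/-- a bounded number of classes modulo a prime number. -/
theorem pc816_roots {Dg : ℕ} {g : ℤ[X][X]} (hgd : BiDeg Dg Dg g) {l : ℕ} (hl : l.Prime)
    (x0 : ℤ) (S : Finset ℤ) (s t kn kd : ℤ → ℤ)
    (hS : ∀ N ∈ S, ev (g.map (mapRingHom (Int.castRingHom ℚ))) ((kn N : ℚ) / kd N)
        ((s N : ℚ) / t N) = 0 ∧ (l : ℤ) ∣ s N - x0 * t N ∧ ¬ (l : ℤ) ∣ t N ∧ ¬ (l : ℤ) ∣ kd N ∧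
      ¬ (l : ℤ) ∣ hom2 Dg (derivative g) (kn N) (kd N) (s N) (t N)) :
    ∃ R : Finset ℕ, R.card ≤ Dg ∧ ∀ N ∈ S, pc816_col (kn N) (kd N) l ∈ R := by
  classical
  haveI := Fact.mk hl
  obtain ⟨P, hP⟩ : ∃ P : (ZMod l)[X],
    P = (g.map (evalRingHom x0)).map (Int.castRingHom (ZMod l)) := ⟨_, rfl⟩
  have key : ∀ N ∈ S, P.eval ((kn N : ZMod l) * (kd N : ZMod l)⁻¹) = 0 ∧
      P.derivative.eval ((kn N : ZMod l) * (kd N : ZMod l)⁻¹) ≠ 0 := by
    intro N hN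
    obtain ⟨h1, h2, h3, h4, h5⟩ := hS N hN
    have ut := pc816_unit hl h3
    have uk := pc816_unit hl h4
    have us : (s N : ZMod l) = x0 * t N := by
      have := (ZMod.intCast_zmod_eq_zero_iff_dvd _ _).2 h2
      push_cast at this
      linear_combination this
    have ukn : (kn N : ZMod l) = ((kn N : ZMod l) * (kd N : ZMod l)⁻¹) * kd N := by
      rw [mul_assoc, inv_mul_cancel₀ uk, mul_one]
    have t0 : t N ≠ 0 := fun h => h3 (h ▸ dvd_zero _)
    have k0 : kd N ≠ 0 := fun h => h4 (h ▸ dvd_zero _)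
    have e1 := pc816_rat hgd (kn := kn N) (s := s N) k0 t0
    rw [h1, mul_zero] at e1
    have e2 : hom2 Dg g (kn N) (kd N) (s N) (t N) = 0 := by exact_mod_cast e1
    have e3 := pc816_mod hgd us ukn
    have e4 := pc816_mod (pc816_deriv hgd) us ukn
    rw [e2, Int.cast_zero] at e3
    have hne : (kd N : ZMod l) ^ Dg * (t N : ZMod l) ^ Dg ≠ 0 :=
      mul_ne_zero (pow_ne_zero _ uk) (pow_ne_zero _ ut)
    refine ⟨?_, ?_⟩
    · rw [hP, ← pc816_evr]
      exact (mul_eq_zero.1 e3.symm).resolve_left hne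
    · rw [hP, derivative_map, derivative_map, ← pc816_evr]
      intro h0
      rw [h0, mul_zero] at e4
      exact pc816_unit hl h5 e4
  by_cases hS0 : S = ∅
  · exact ⟨∅, Nat.zero_le _, fun N hN => by rw [hS0] at hN; exact absurd hN (by simp)⟩
  · obtain ⟨N0, hN0⟩ := Finset.nonempty_iff_ne_empty.2 hS0
    have hP0 : P ≠ 0 := by
      intro h0
      have := (key N0 hN0).2
      rw [h0, derivative_zero, eval_zero] at this
      exact this rfl
    refine ⟨P.roots.toFinset.image ZMod.val, ?_, fun N hN => ?_⟩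
    · refine Finset.card_image_le.trans ((Multiset.toFinset_card_le _).trans
        ((card_roots' _).trans ?_))
      rw [hP]
      exact natDegree_map_le.trans (natDegree_map_le.trans hgd.1)
    · refine Finset.mem_image.2 ⟨_, ?_, rfl⟩
      rw [Multiset.mem_toFinset, mem_roots hP0]
      exact (key N hN).1

/-- two points of the same class modulo `l`. -/
theorem pc816_same {l : ℕ} (hl : l.Prime) {kn kd kn' kd' : ℤ} (h : ¬ (l : ℤ) ∣ kd)
    (h' : ¬ (l : ℤ) ∣ kd') (e : pc816_col kn kd l = pc816_col kn' kd' l) :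
    (l : ℤ) ∣ kn * kd' - kn' * kd := by
  haveI := Fact.mk hl
  have uk := pc816_unit hl h
  have uk' := pc816_unit hl h'
  have e1 : (kn : ZMod l) * (kd : ZMod l)⁻¹ = (kn' : ZMod l) * (kd' : ZMod l)⁻¹ :=
    ZMod.val_injective l e
  rw [← ZMod.intCast_zmod_eq_zero_iff_dvd]
  push_cast
  have e2 : (kn : ZMod l) * kd' = kn' * kd := by
    calc (kn : ZMod l) * kd' = ((kn : ZMod l) * (kd : ZMod l)⁻¹) * kd * kd' := by
          rw [mul_assoc (kn : ZMod l), inv_mul_cancel₀ uk, mul_one]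
      _ = ((kn' : ZMod l) * (kd' : ZMod l)⁻¹) * kd * kd' := by rw [e1]
      _ = kn' * ((kd' : ZMod l)⁻¹ * kd') * kd := by ring
      _ = kn' * kd := by rw [inv_mul_cancel₀ uk', mul_one]
  rw [e2, sub_self]

end Vale.Agent.P018.Q
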