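import Mathlib
import Vale.Agent.P018.Q.PairDefs
import Vale.Agent.P018.Q.GapCurves
import Vale.Agent.P018.Q.Heights
import Vale.Agent.P018.Q.PairCountA
import Vale.Agent.P018.Q.PairCurveA

/-! # P018, quartics, family (A): the curve step at given exponents. -/

namespace Vale.Agent.P018.Q

open Polynomial NumberField Finset

variable {L : Type} [Field L] [NumberField L]

/-- the numerator of the partial derivative of `g` with respect to `κ`. -/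
noncomputable def dnum (Dg : ℕ) (g : ℤ[X][X]) (kn kd s t : ℤ) : ℤ :=
  ∑ k ∈ range Dg, (k + 1 : ℤ) * hom Dg (g.coeff (k + 1)) s t * kn ^ k * kd ^ (Dg - k)

theorem pc816_dnum {Dg : ℕ} {g : ℤ[X][X]} (h : BiDeg Dg Dg g) (kn kd s t : ℤ) :
    dnum Dg g kn kd s t = hom2 Dg (derivative g) kn kd s t := by
  unfold dnum hom2
  rw [Finset.sum_range_succ]
  have h0 : (derivative g).coeff Dg = 0 := by
    rw [coeff_derivative, coeff_eq_zero_of_natDegree_lt (by have := h.1; omega), zero_mul]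
  have h1 : hom Dg (0 : ℤ[X]) s t = 0 := by simp [hom]
  rw [h0, h1, zero_mul, zero_mul, add_zero]
  refine Finset.sum_congr rfl fun k _ => ?_
  congr 2
  unfold hom
  rw [Finset.mul_sum]
  refine Finset.sum_congr rfl fun j _ => ?_
  have h2 : ((derivative g).coeff k).coeff j = (g.coeff (k + 1)).coeff j * (k + 1) := by
    rw [coeff_derivative]
    have : ((k : ℤ[X]) + 1) = C ((k : ℤ) + 1) := by simp
    rw [this, coeff_mul_C]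
  rw [h2]
  simp only [Int.cast_id]
  ring

/-- the good points of one class. -/
theorem pc816_class {G : ℤ[X]} {θ : Fin 4 → 𝓞 L} (hF : Fld G θ) (C Dg : ℕ) (w m1 β : ℝ)
    (hw : 0 < w) (hw' : w ≤ 1 / 2) (hm1 : 0 ≤ m1) (hm : m1 < w) (hβ : 0 < β)
    (hcur : NumCurve w m1 β) :
    ∃ ε : ℝ, 0 < ε ∧ ∃ K : ℝ, 0 < K ∧ ∀ (X T : ℝ) (l1 l2 : Fin 4 → ℤ) (d : Fin 2 → ℕ)
      (A B : Fin 2 → ℤ[X]) (Z : Fin 2 → Fin 4 → ℤ[X]) (Λ : ℤ[X]) (e : ℤ) (g : ℤ[X][X])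
      (I : Finset ℕ) (x0 : ℤ) (S : Finset ℤ),
      K ≤ X → X ≤ T ^ 4 → X ^ (w - ε) ≤ T → T ≤ X ^ (w + ε) →
      X ^ (2 * (m1 - ε)) ≤ dot l1 l1 → dot l1 l1 ≤ dot l2 l2 → l1 ≠ 0 → NonDeg θ l1 l2 →
      KData θ l1 l2 d A B Z Λ e →
      Irreducible (g.map (mapRingHom (Int.castRingHom ℚ))) → BiDeg Dg Dg g → 2 ≤ g.natDegree →
      (d 0 = 4 → ∃ i, 2 ≤ (g.coeff i).natDegree) → (∀ ℓ ∈ I, ℓ.Prime) →
      X ^ (β - ε) ≤ ((∏ ℓ ∈ I, ℓ : ℕ) : ℝ) → ((∏ ℓ ∈ I, ℓ : ℕ) : ℝ) ≤ X ^ (β + ε) →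
      ∀ (p : ℤ → ℕ) (c : ℤ → ℤ) (z : ℤ → Fin 4 → ℤ) (s t kn kd : ℤ → ℤ),
      (∀ N ∈ S, Pt θ C X T l1 l2 N (p N) (c N) (z N) (s N) (t N) ∧
        KP A B Z N (c N) (s N) (t N) (kn N) (kd N) (z N) ∧
        ev (g.map (mapRingHom (Int.castRingHom ℚ))) ((kn N : ℚ) / kd N) ((s N : ℚ) / t N) = 0 ∧
        (((∏ ℓ ∈ I, ℓ : ℕ) : ℤ)) ∣ s N - x0 * t N ∧
        (∀ ℓ ∈ I, ¬ (ℓ : ℤ) ∣ t N ∧ ¬ (ℓ : ℤ) ∣ kd N ∧
          ¬ (ℓ : ℤ) ∣ kd N * hom 5 (A 0) (s N) (t N) + kn N * hom 5 (A 1) (s N) (t N)) ∧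
        ∀ ℓ ∈ I, ¬ (ℓ : ℤ) ∣ hom2 Dg (derivative g) (kn N) (kd N) (s N) (t N)) →
      (∀ N ∈ S, ∀ N' ∈ S, ∀ ℓ ∈ I, pc816_col (kn N) (kd N) ℓ = pc816_col (kn N') (kd N') ℓ) →
      (S.card : ℝ) ≤ K := by
  obtain ⟨ε, hε, K, hK, h3⟩ := curve_class hF C Dg w m1 β hw hw' hm1 hm hβ hcur
  refine ⟨ε, hε, K, hK, ?_⟩
  intro X T l1 l2 d A B Z Λ e g I x0 S hX hXT hT1 hT2 hl1 hl12 hl0 hND hKD hg hgd hg2 hg4 hI
    hq1 hq2 p c z s t kn kd hS hcol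
  by_cases hS0 : S = ∅
  · rw [hS0, Finset.card_empty, Nat.cast_zero]; exact hK.le
  obtain ⟨N0, hN0⟩ := Finset.nonempty_iff_ne_empty.2 hS0
  obtain ⟨q, hq⟩ : ∃ q : ℕ, q = ∏ ℓ ∈ I, ℓ := ⟨_, rfl⟩
  rw [← hq] at hq1 hq2
  obtain ⟨-, -, f3, f4, f5, f6⟩ := hS N0 hN0
  have hcop : ∀ a : ℤ, (∀ ℓ ∈ I, ¬ (ℓ : ℤ) ∣ a) → IsCoprime a (q : ℤ) := fun a ha => by
    rw [hq]; exact pc816_cop I hI a ha
  have hdvd : ∀ a : ℤ, (∀ ℓ ∈ I, (ℓ : ℤ) ∣ a) → (q : ℤ) ∣ a := fun a ha => by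
    rw [hq]; exact pc816_dvd I hI a ha
  have hdq : ∀ ℓ ∈ I, (ℓ : ℤ) ∣ (q : ℤ) := fun ℓ hℓ => by
    rw [hq]; exact_mod_cast Finset.dvd_prod_of_mem (fun ℓ : ℕ => ℓ) hℓ
  have hkd0 : IsCoprime (kd N0) (q : ℤ) := hcop _ fun ℓ hℓ => (f5 ℓ hℓ).2.1
  obtain ⟨y0, hy0⟩ := exists_quot (ν := 1) (kn N0) hkd0
  rw [pow_one] at hy0
  -- the derivative at the class
  have hv : IsCoprime (ev2 (derivative g) x0 y0) (q : ℤ) := by
    refine hcop _ fun ℓ hℓ hd => f6 ℓ hℓ ?_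
    have hd' := (ZMod.intCast_zmod_eq_zero_iff_dvd _ _).2 hd
    rw [← evr_int] at hd'
    have hd2 := evr_map (Int.castRingHom (ZMod ℓ)) (derivative g) x0 y0
    simp only [eq_intCast] at hd2
    rw [hd'] at hd2
    have us : (s N0 : ZMod ℓ) = x0 * t N0 := by
      have := (ZMod.intCast_zmod_eq_zero_iff_dvd _ _).2 ((hdq ℓ hℓ).trans (hq ▸ f4))
      push_cast at this
      linear_combination this
    have uk : (kn N0 : ZMod ℓ) = (y0 : ZMod ℓ) * kd N0 := by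
      have := (ZMod.intCast_zmod_eq_zero_iff_dvd _ _).2 ((hdq ℓ hℓ).trans hy0)
      push_cast at this
      linear_combination this
    have h5 := pc816_mod (pc816_deriv hgd) us uk
    rw [← hd2, mul_zero] at h5
    exact (ZMod.intCast_zmod_eq_zero_iff_dvd _ _).1 h5
  obtain ⟨v, b, hvb⟩ := hv
  refine h3 X T l1 l2 d A B Z Λ e g q x0 y0 v S hX hXT hT1 hT2 hl1 hl12 hl0 hND hKD hg hgd hg2
    hg4 hq1 hq2 ⟨b, by linear_combination -hvb⟩ fun N hN => ?_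
  obtain ⟨k1, k2, k3, k4, k5, k6⟩ := hS N hN
  refine ⟨p N, c N, z N, s N, t N, kn N, kd N, k1, k2, k3, hcop _ fun ℓ hℓ => (k5 ℓ hℓ).1,
    hcop _ fun ℓ hℓ => (k5 ℓ hℓ).2.1, hq ▸ k4, ?_, hcop _ fun ℓ hℓ => (k5 ℓ hℓ).2.2⟩
  have e1 : (q : ℤ) ∣ kn N * kd N0 - kn N0 * kd N := hdvd _ fun ℓ hℓ =>
    pc816_same (hI ℓ hℓ) (k5 ℓ hℓ).2.1 (f5 ℓ hℓ).2.1 (hcol N hN N0 hN0 ℓ hℓ)
  have e2 : (q : ℤ) ∣ kd N0 * (kn N - y0 * kd N) := by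
    have : kd N0 * (kn N - y0 * kd N) = (kn N * kd N0 - kn N0 * kd N) +
        (kn N0 - y0 * kd N0) * kd N := by ring
    rw [this]
    exact dvd_add e1 (hy0.mul_right _)
  exact hkd0.symm.dvd_of_dvd_mul_left e2

theorem pc816_num {X v : ℝ} (hX : 16 ≤ X) (h : v ≤ 3 / 4) : X ^ v ≤ X / 2 := by
  have hX0 : (0 : ℝ) < X := by linarith
  have h5 : X ^ v ≤ X ^ (3 / 4 : ℝ) := Real.rpow_le_rpow_of_exponent_le (by linarith) h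
  have h6 : (2 : ℝ) ≤ X ^ (1 / 4 : ℝ) := by
    have h7 : (2 : ℝ) = (16 : ℝ) ^ (1 / 4 : ℝ) := by
      rw [show (16 : ℝ) = 2 ^ (4 : ℝ) by norm_num, ← Real.rpow_mul (by norm_num)]
      norm_num
    rw [h7]
    exact Real.rpow_le_rpow (by norm_num) hX (by norm_num)
  have h8 : X ^ (3 / 4 : ℝ) * X ^ (1 / 4 : ℝ) = X := by
    rw [← Real.rpow_add hX0]; norm_num
  have h9 : 0 < X ^ (3 / 4 : ℝ) := Real.rpow_pos_of_pos hX0 _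
  nlinarith

theorem pc816_sq {X : ℝ} {H F : ℕ} (hF : 16 ≤ F) (h1 : X < F + 1) (h2 : (H : ℝ) ≤ 2 * X) :
    H ≤ F ^ 2 := by
  have h3 : (16 : ℝ) ≤ F := by exact_mod_cast hF
  have : (H : ℝ) ≤ ((F ^ 2 : ℕ) : ℝ) := by push_cast; nlinarith
  exact_mod_cast this

/-- all curves: the points which are good for the primes `ℓ i`. -/
theorem curve_count {G : ℤ[X]} {θ : Fin 4 → 𝓞 L} (hF : Fld G θ) (C Dg m C0 : ℕ) (w m1 β : ℝ)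
    (hw : 0 < w) (hw' : w ≤ 1 / 2) (hm1 : 0 ≤ m1) (hm : m1 < w) (hβ : 0 < β)
    (hcur : NumCurve w m1 β) (η : ℝ) (hη : 0 < η) :
    ∃ ε : ℝ, 0 < ε ∧ ∃ K : ℝ, 0 < K ∧ ∀ (H : ℕ) (X T : ℝ) (l1 l2 : Fin 4 → ℤ) (d : Fin 2 → ℕ)
      (A B : Fin 2 → ℤ[X]) (Z : Fin 2 → Fin 4 → ℤ[X]) (Λ : ℤ[X]) (e : ℤ) (g : ℤ[X][X])
      (I : Finset ℕ) (x0 : ℤ) (S : Finset ℤ),
      K ≤ X → X ≤ T ^ 4 → X ^ (w - ε) ≤ T → T ≤ X ^ (w + ε) → X ≤ H → (H : ℝ) ≤ 2 * X →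
      X ^ (2 * (m1 - ε)) ≤ dot l1 l1 → dot l1 l1 ≤ dot l2 l2 →
      (∀ a b : ℤ, a • l1 + b • l2 = 0 → a = 0 ∧ b = 0) → NonDeg θ l1 l2 →
      KData θ l1 l2 d A B Z Λ e →
      (∀ i k, |(A i).coeff k| ≤ (H : ℤ) ^ C0) → (∀ i k, |(B i).coeff k| ≤ (H : ℤ) ^ C0) →
      (∀ k, |Λ.coeff k| ≤ (H : ℤ) ^ C0) →
      Irreducible (g.map (mapRingHom (Int.castRingHom ℚ))) → BiDeg Dg Dg g →
      (∀ i j, |(g.coeff i).coeff j| ≤ (H : ℤ) ^ C0) →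
      (∀ ℓ ∈ I, ℓ.Prime) → I.card = m →
      X ^ (β - ε) ≤ ((∏ ℓ ∈ I, ℓ : ℕ) : ℝ) → ((∏ ℓ ∈ I, ℓ : ℕ) : ℝ) ≤ X ^ (β + ε) →
      (∀ N ∈ S, ∃ (p : ℕ) (c : ℤ) (z : Fin 4 → ℤ) (s t kn kd : ℤ),
        Pt θ C X T l1 l2 N p c z s t ∧ KP A B Z N c s t kn kd z ∧
        |kn| ≤ (H : ℤ) ^ C0 ∧ |kd| ≤ (H : ℤ) ^ C0 ∧
        ev (g.map (mapRingHom (Int.castRingHom ℚ))) ((kn : ℚ) / kd) ((s : ℚ) / t) = 0 ∧
        (((∏ ℓ ∈ I, ℓ : ℕ) : ℤ)) ∣ s - x0 * t ∧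
        (∀ ℓ ∈ I, ¬ (ℓ : ℤ) ∣ t ∧ ¬ (ℓ : ℤ) ∣ kd ∧
          ¬ (ℓ : ℤ) ∣ kd * hom 5 (A 0) s t + kn * hom 5 (A 1) s t) ∧
        (dnum Dg g kn kd s t = 0 ∨ ∀ ℓ ∈ I, ¬ (ℓ : ℤ) ∣ dnum Dg g kn kd s t)) →
      (S.card : ℝ) ≤ K * X ^ η := by
  classical
  obtain ⟨K1, hK1, h1⟩ := gap_one hF Dg (2 * C + 2 * C0) η hη
  obtain ⟨K2, hK2, h2⟩ := gap_kappa hF Dg (2 * C + 2 * C0) η hη
  obtain ⟨ε3, hε3, K3, hK3, h3⟩ := pc816_class hF C Dg w m1 β hw hw' hm1 hm hβ hcur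
  obtain ⟨Cb, hCb⟩ := pc816_sing Dg
  obtain ⟨M, hM⟩ : ∃ M : ℕ, M = ⌈K3⌉₊ := ⟨_, rfl⟩
  have hM' : K3 ≤ M := hM ▸ Nat.le_ceil K3
  refine ⟨min ε3 (1 / 4), lt_min hε3 (by norm_num), K1 + K2 + Cb + (M * Dg ^ m : ℕ) + K3 + 16,
    by positivity, ?_⟩
  intro H X T l1 l2 d A B Z Λ e g I x0 S hX hXT hT1 hT2 hXH hHX hl1 hl12 hind hND hKD hAH hBH hΛH
    hg hgd hgH hI hIm hq1 hq2 hS
  have hCb0 : (0 : ℝ) ≤ Cb := Nat.cast_nonneg _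
  have hM0 : (0 : ℝ) ≤ ((M * Dg ^ m : ℕ) : ℝ) := Nat.cast_nonneg _
  have hX16 : (16 : ℝ) ≤ X := by linarith
  have hX3 : K3 ≤ X := by linarith
  have hX1 : (1 : ℝ) ≤ X := by linarith
  have hX0 : (0 : ℝ) < X := by linarith
  have hXη : (1 : ℝ) ≤ X ^ η := Real.one_le_rpow hX1 hη.le
  have hε1 : min ε3 (1 / 4) ≤ ε3 := min_le_left _ _
  have hε2 : min ε3 (1 / 4) ≤ 1 / 4 := min_le_right _ _
  have hε0 : 0 < min ε3 (1 / 4) := lt_min hε3 (by norm_num)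
  have hT0 : 0 ≤ T := (Real.rpow_pos_of_pos hX0 _).le.trans hT1
  have hl0 : l1 ≠ 0 := by
    intro h0
    have := (hind 1 0 (by rw [h0]; simp)).1
    exact absurd this one_ne_zero
  -- the height
  obtain ⟨F, hFdef⟩ : ∃ F : ℕ, F = ⌊X⌋₊ := ⟨_, rfl⟩
  have hF1 : (F : ℝ) ≤ X := hFdef ▸ Nat.floor_le hX0.le
  have hF2 : X < F + 1 := hFdef ▸ Nat.lt_floor_add_one X
  have hF16 : 16 ≤ F := by
    rw [hFdef]; exact Nat.le_floor (by exact_mod_cast hX16)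
  have hF16' : (16 : ℝ) ≤ F := by exact_mod_cast hF16
  have hXF : X ≤ 2 * (F : ℝ) := by linarith
  have hHF : H ≤ F ^ 2 := pc816_sq hF16 hF2 hHX
  have hpow : (H : ℤ) ^ C0 ≤ (F : ℤ) ^ (2 * C + 2 * C0) := by
    have h4 : H ^ C0 ≤ F ^ (2 * C + 2 * C0) := by
      calc H ^ C0 ≤ (F ^ 2) ^ C0 := Nat.pow_le_pow_left hHF _
        _ = F ^ (2 * C0) := by rw [← pow_mul]
        _ ≤ F ^ (2 * C + 2 * C0) := Nat.pow_le_pow_right (by omega) (by omega)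
    exact_mod_cast h4
  have hTF : T ≤ F := hT2.trans ((pc816_num hX16 (by linarith)).trans (by linarith))
  have hFη : (F : ℝ) ^ η ≤ X ^ η := Real.rpow_le_rpow (Nat.cast_nonneg _) hF1 hη.le
  have hfin : ∀ K' : ℝ, 0 ≤ K' → K' ≤ K1 + K2 + Cb + (M * Dg ^ m : ℕ) + K3 + 16 →
      K' * X ^ η ≤ (K1 + K2 + Cb + (M * Dg ^ m : ℕ) + K3 + 16) * X ^ η := fun K' _ h =>
    mul_le_mul_of_nonneg_right h (by positivity)
  by_cases hg1 : g.natDegree ≤ 1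
  · refine (h1 F F T l1 l2 d A B Z Λ e g S (by omega) (by linarith) (hF1.trans hXT)
      (hF1.trans hXT) hTF le_rfl hind hKD (fun i k => (hAH i k).trans hpow)
      (fun i k => (hBH i k).trans hpow) (fun k => (hΛH k).trans hpow) hg hgd hg1
      (fun i j => (hgH i j).trans hpow) fun N hN => ?_).trans
      ((mul_le_mul_of_nonneg_left hFη hK1.le).trans (hfin K1 hK1.le (by linarith)))
    obtain ⟨p, c, z, s, t, kn, kd, k1, k2, k3, k4, k5, -⟩ := hS N hN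
    exact ⟨p, c, z, s, t, kn, kd, pc816_pt k1 hT0 hXF (Nat.cast_nonneg _) (by omega), k2, k5⟩
  by_cases hg2 : d 0 = 4 ∧ ∀ i, (g.coeff i).natDegree ≤ 1
  · refine (h2 F F T l1 l2 d A B Z Λ e g S (by omega) (by linarith) (hF1.trans hXT)
      (hF1.trans hXT) hTF le_rfl hind hKD hg2.1 (fun i k => (hAH i k).trans hpow)
      (fun i k => (hBH i k).trans hpow) (fun k => (hΛH k).trans hpow) hg ⟨hgd.1, hg2.2⟩
      (by omega) (fun i j => (hgH i j).trans hpow) fun N hN => ?_).trans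
      ((mul_le_mul_of_nonneg_left hFη hK2.le).trans (hfin K2 hK2.le (by linarith)))
    obtain ⟨p, c, z, s, t, kn, kd, k1, k2, k3, k4, k5, -⟩ := hS N hN
    exact ⟨p, c, z, s, t, kn, kd, pc816_pt k1 hT0 hXF (Nat.cast_nonneg _) (by omega), k2,
      k3.trans hpow, k4.trans hpow, k5⟩
  have hg4 : d 0 = 4 → ∃ i, 2 ≤ (g.coeff i).natDegree := by
    intro hd
    by_contra hcon
    push Not at hcon
    exact hg2 ⟨hd, fun i => by have := hcon i; omega⟩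
  choose! p c z s t kn kd hpt using hS
  have hgn : 2 ≤ g.natDegree := by omega
  -- the singular points
  have hSa : (S.filter fun N => dnum Dg g (kn N) (kd N) (s N) (t N) = 0).card ≤ Cb := by
    refine hCb A B Z g _ c s t kn kd z hg hgd hgn fun N hN => ?_
    obtain ⟨hN1, hN2⟩ := Finset.mem_filter.1 hN
    obtain ⟨k1, k2, k3, k4, k5, -⟩ := hpt N hN1
    exact ⟨k2, k5, by rw [← pc816_dnum hgd]; exact hN2⟩
  -- the other points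
  obtain ⟨Sb, hSb⟩ : ∃ Sb, Sb = S.filter fun N => ¬ dnum Dg g (kn N) (kd N) (s N) (t N) = 0 :=
    ⟨_, rfl⟩
  have hb : ∀ N ∈ Sb, N ∈ S ∧ ∀ ℓ ∈ I,
      ¬ (ℓ : ℤ) ∣ hom2 Dg (derivative g) (kn N) (kd N) (s N) (t N) := by
    intro N hN
    rw [hSb] at hN
    obtain ⟨hN1, hN2⟩ := Finset.mem_filter.1 hN
    refine ⟨hN1, fun ℓ hℓ => ?_⟩
    rw [← pc816_dnum hgd]
    exact (hpt N hN1).2.2.2.2.2.2.2.resolve_left hN2 ℓ hℓ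
  have hR : ∀ ℓ ∈ I, ∃ R : Finset ℕ, R.card ≤ Dg ∧ ∀ N ∈ Sb, pc816_col (kn N) (kd N) ℓ ∈ R := by
    intro ℓ hℓ
    refine pc816_roots hgd (hI ℓ hℓ) x0 Sb s t kn kd fun N hN => ?_
    obtain ⟨hN1, hN2⟩ := hb N hN
    obtain ⟨-, -, -, -, k5, k6, k7, -⟩ := hpt N hN1
    refine ⟨k5, ?_, (k7 ℓ hℓ).1, (k7 ℓ hℓ).2.1, hN2 ℓ hℓ⟩
    refine dvd_trans ?_ k6
    exact_mod_cast Finset.dvd_prod_of_mem (fun ℓ : ℕ => ℓ) hℓ
  choose! R hR1 hR2 using hR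
  have hSbc : Sb.card ≤ M * (I.pi R).card := by
    refine Finset.card_le_mul_card_image_of_maps_to
      (f := fun N => fun ℓ (_ : ℓ ∈ I) => pc816_col (kn N) (kd N) ℓ) (t := I.pi R) ?_ M ?_
    · intro N hN
      rw [Finset.mem_pi]
      exact fun ℓ hℓ => hR2 ℓ hℓ N hN
    · intro b _
      have h4 := h3 X T l1 l2 d A B Z Λ e g I x0
        (Sb.filter fun N => (fun ℓ (_ : ℓ ∈ I) => pc816_col (kn N) (kd N) ℓ) = b) hX3 hXT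
        ((Real.rpow_le_rpow_of_exponent_le hX1 (by linarith)).trans hT1)
        (hT2.trans (Real.rpow_le_rpow_of_exponent_le hX1 (by linarith)))
        ((Real.rpow_le_rpow_of_exponent_le hX1 (by linarith)).trans hl1) hl12 hl0 hND hKD hg hgd
        hgn hg4 hI ((Real.rpow_le_rpow_of_exponent_le hX1 (by linarith)).trans hq1)
        (hq2.trans (Real.rpow_le_rpow_of_exponent_le hX1 (by linarith))) p c z s t kn kd ?_ ?_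
      · exact_mod_cast h4.trans hM'
      · intro N hN
        obtain ⟨hN1, hN2⟩ := hb N (Finset.mem_filter.1 hN).1
        obtain ⟨k1, k2, k3, k4, k5, k6, k7, -⟩ := hpt N hN1
        exact ⟨k1, k2, k5, k6, k7, hN2⟩
      · intro N hN N' hN' ℓ hℓ
        have q1 := (Finset.mem_filter.1 hN).2
        have q2 := (Finset.mem_filter.1 hN').2
        have q3 := congrFun (congrFun (q1.trans q2.symm) ℓ) hℓ
        exact q3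
  have hpi : (I.pi R).card ≤ Dg ^ m := by
    rw [Finset.card_pi, ← hIm]
    exact Finset.prod_le_pow_card _ _ _ fun ℓ hℓ => hR1 ℓ hℓ
  have htot : S.card ≤ Cb + M * Dg ^ m := by
    have h4 := Finset.card_filter_add_card_filter_not (s := S)
      (fun N => dnum Dg g (kn N) (kd N) (s N) (t N) = 0)
    rw [← hSb] at h4
    have h5 : M * (I.pi R).card ≤ M * Dg ^ m := Nat.mul_le_mul_left _ hpi
    omega
  have htot' : (S.card : ℝ) ≤ Cb + ((M * Dg ^ m : ℕ) : ℝ) := by exact_mod_cast htot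
  calc (S.card : ℝ) ≤ (Cb + ((M * Dg ^ m : ℕ) : ℝ)) * 1 := by rw [mul_one]; exact htot'
    _ ≤ (Cb + ((M * Dg ^ m : ℕ) : ℝ)) * X ^ η :=
        mul_le_mul_of_nonneg_left hXη (by positivity)
    _ ≤ _ := hfin _ (by positivity) (by linarith)

end Vale.Agent.P018.Q
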