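import Mathlib
import Vale.Agent.P018.Q.GapSig

/-! # P018, quartics: the point of the kappa model attached to a solution, with bounded height. -/

namespace Vale.Agent.P018.Q.PairKp

open Polynomial NumberField Finset

variable {L : Type} [Field L] [NumberField L]

theorem hom_bound {H C0 E : ℕ} (hH : 2 ≤ H) {A : ℤ[X]} (hA : ∀ k, |A.coeff k| ≤ (H : ℤ) ^ C0)
    {s t : ℤ} (hs : |s| ≤ (H : ℤ) ^ E) (ht : |t| ≤ (H : ℤ) ^ E) :
    |hom 5 A s t| ≤ (H : ℤ) ^ (3 + C0 + 5 * E) := by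
  have hH2 : (2 : ℤ) ≤ H := by exact_mod_cast hH
  have h8 : (6 : ℤ) ≤ (H : ℤ) ^ 3 := by
    have : (2 : ℤ) ^ 3 ≤ (H : ℤ) ^ 3 := pow_le_pow_left₀ (by norm_num) hH2 3
    linarith
  unfold hom
  refine (Finset.abs_sum_le_sum_abs _ _).trans ?_
  have h1 : ∀ i ∈ range (5 + 1), |(A.coeff i : ℤ) * s ^ i * t ^ (5 - i)| ≤
      (H : ℤ) ^ C0 * (H : ℤ) ^ (5 * E) := by
    intro i hi
    rw [Finset.mem_range] at hi
    have e1 : |s| ^ i ≤ ((H : ℤ) ^ E) ^ i := pow_le_pow_left₀ (abs_nonneg _) hs i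
    have e2 : |t| ^ (5 - i) ≤ ((H : ℤ) ^ E) ^ (5 - i) := pow_le_pow_left₀ (abs_nonneg _) ht _
    have e3 : ((H : ℤ) ^ E) ^ i * ((H : ℤ) ^ E) ^ (5 - i) = (H : ℤ) ^ (5 * E) := by
      rw [← pow_add, show i + (5 - i) = 5 by omega, ← pow_mul, mul_comm]
    rw [abs_mul, abs_mul, abs_pow, abs_pow, mul_assoc, ← e3]
    refine mul_le_mul (hA i) (mul_le_mul e1 e2 (by positivity) (by positivity)) (by positivity)
      (by positivity)
  refine (Finset.sum_le_card_nsmul _ _ _ h1).trans ?_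
  rw [Finset.card_range, nsmul_eq_mul, pow_add, pow_add, mul_assoc]
  refine mul_le_mul_of_nonneg_right ?_ (by positivity)
  push_cast
  linarith

theorem num_den_le {κ : ℚ} {U V : ℤ} (hV : V ≠ 0) (h : κ * V = U) {M : ℤ} (hU : |U| ≤ M)
    (hVM : |V| ≤ M) : |κ.num| ≤ M ∧ |(κ.den : ℤ)| ≤ M := by
  have hd : (κ.den : ℚ) ≠ 0 := by exact_mod_cast κ.den_nz
  have h1 : κ.num * V = U * κ.den := by
    have h2 : (κ.num : ℚ) * V = U * κ.den := by
      rw [← h]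
      nth_rewrite 2 [← Rat.num_div_den κ]
      field_simp
    exact_mod_cast h2
  have hcop : IsCoprime κ.num (κ.den : ℤ) := Rat.isCoprime_num_den κ
  have hdV : (κ.den : ℤ) ∣ V := by
    have : (κ.den : ℤ) ∣ κ.num * V := by rw [h1]; exact dvd_mul_left _ _
    exact hcop.symm.dvd_of_dvd_mul_left this
  have hden : |(κ.den : ℤ)| ≤ |V| :=
    Int.le_of_dvd (abs_pos.2 hV) ((abs_dvd_abs _ _).2 hdV)
  refine ⟨?_, hden.trans hVM⟩
  rcases eq_or_ne U 0 with h0 | h0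
  · rw [h0, zero_mul] at h1
    rcases mul_eq_zero.1 h1 with h2 | h2
    · rw [h2, abs_zero]
      exact (abs_nonneg _).trans hVM
    · exact absurd h2 hV
  · have hnU : κ.num ∣ U := by
      have : κ.num ∣ U * (κ.den : ℤ) := by rw [← h1]; exact dvd_mul_right _ _
      exact hcop.dvd_of_dvd_mul_right this
    exact (Int.le_of_dvd (abs_pos.2 h0) ((abs_dvd_abs _ _).2 hnU)).trans hU

/-- the point of the kappa model attached to a solution, with coordinates of bounded height;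
in the remaining case `N` is on the rational curve `A 1 (σ) N = B 1 (σ)`. -/
theorem exists_kp {G : ℤ[X]} {θ : Fin 4 → 𝓞 L} (hF : Fld G θ) (C C0 : ℕ) : ∃ C1 : ℕ,
    ∀ (H : ℕ) (X T : ℝ) (l1 l2 : Fin 4 → ℤ) (d : Fin 2 → ℕ)
      (A B : Fin 2 → ℤ[X]) (Z : Fin 2 → Fin 4 → ℤ[X]) (Λ : ℤ[X]) (e : ℤ)
      (N : ℤ) (p : ℕ) (c : ℤ) (z : Fin 4 → ℤ) (s t : ℤ),
      2 ≤ H → X ≤ H → T ≤ H → t ≠ 0 → l1 ≠ 0 → l2 ≠ 0 → KData θ l1 l2 d A B Z Λ e →
      (∀ i k, |(A i).coeff k| ≤ (H : ℤ) ^ C0) → (∀ i k, |(B i).coeff k| ≤ (H : ℤ) ^ C0) →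
      Pt θ C X T l1 l2 N p c z s t →
      (aeval ((s : ℚ) / t) (A 1) ≠ 0 ∧
        aeval ((s : ℚ) / t) (A 1) * (N : ℚ) = aeval ((s : ℚ) / t) (B 1)) ∨
      ∃ kn kd : ℤ, KP A B Z N c s t kn kd z ∧ |kn| ≤ (H : ℤ) ^ C1 ∧ |kd| ≤ (H : ℤ) ^ C1 := by
  refine ⟨1 + (3 + C0 + 5 * (C + 1)) + (C + 1), ?_⟩
  intro H X T l1 l2 d A B Z Λ e N p c z s t hH hXH hTH ht hl1 hl2 hK hAC hBC hP
  obtain ⟨c1, hc10, hc1C, hc1⟩ := hP.dat.nrm
  have hp0 : (p : ℤ) ≠ 0 := by exact_mod_cast hP.dat.prime.ne_zero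
  have hpc : (p : ℤ) * c1 ≠ 0 := mul_ne_zero hp0 hc10
  have hpcL : (((p : ℤ) * c1 : ℤ) : 𝓞 L) ≠ 0 := by exact_mod_cast hpc
  have hy : ∀ j, K.ell (θ j) (s • l1 + t • l2) ≠ 0 := by
    intro j hj
    apply hpcL
    rw [← hc1]
    exact Finset.prod_eq_zero (Finset.mem_univ j) hj
  rcases kappa_point G hF.monic hF.deg hF.irr θ hF.inj hF.split hK hP.dat.c0 ht hy hP.dat.eqn with
    h | ⟨κ, h1, h2, h3⟩
  · exact Or.inl h
  right
  have hT0 := hP.dat.T_nonneg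
  have hHR : (1 : ℝ) ≤ H := by exact_mod_cast (by omega : 1 ≤ H)
  have hH2 : (2 : ℤ) ≤ H := by exact_mod_cast hH
  have hsE := abs_le_pow hH hT0 hTH (dot_self_pos hl1) (by exact_mod_cast hP.hs)
  have htE := abs_le_pow hH hT0 hTH (dot_self_pos hl2) (by exact_mod_cast hP.ht)
  have hN : |N| ≤ (H : ℤ) ^ (C + 1) := by
    have e1 : |(N : ℝ)| ≤ (H : ℝ) ^ (C + 1) := by
      have hCH : (C : ℝ) ≤ (H : ℝ) ^ C := by
        have : C ≤ H ^ C := (Nat.lt_pow_self (by omega)).le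
        exact_mod_cast this
      refine hP.dat.hN.trans ?_
      calc (C : ℝ) * X ≤ C * H := mul_le_mul_of_nonneg_left hXH (Nat.cast_nonneg _)
        _ ≤ (H : ℝ) ^ C * H := mul_le_mul_of_nonneg_right hCH (by positivity)
        _ = (H : ℝ) ^ (C + 1) := by rw [pow_succ]
    exact_mod_cast e1
  set σ : ℚ := (s : ℚ) / t with hσ
  have hd5 : ∀ i, d i ≤ 5 := by
    intro i
    rcases hK.dd with h | h
    · fin_cases i
      · exact h.1.le.trans (by norm_num)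
      · exact h.2.le.trans (by norm_num)
    · fin_cases i
      · exact h.1.le.trans (by norm_num)
      · exact h.2.le
  have hA5 : ∀ i, (A i).natDegree ≤ 5 := fun i => (hK.dA i).trans (hd5 i)
  have hB5 : ∀ i, (B i).natDegree ≤ 5 := fun i => (hK.dB i).trans (hd5 i)
  -- the determinant does not vanish
  have hΛ0 : aeval σ Λ ≠ 0 := by
    intro h0
    have h4 := hF.natDegree_Lam hl1 hK.hΛ
    have e1 := hom_Lam (L := L) hK.hΛ h4.le (s := s) ht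
    rw [hc1] at e1
    have e2 : hom 4 Λ s t = p * c1 := by exact_mod_cast e1
    have e3 := hom_of_aeval h4.le (s := s) ht
    rw [← hσ, h0, mul_zero, e2] at e3
    exact hpc (by exact_mod_cast e3)
  have hdet : aeval σ (A 0) * aeval σ (B 1) - aeval σ (A 1) * aeval σ (B 0) ≠ 0 := by
    have e1 := congrArg (aeval σ) hK.det
    simp only [map_sub, map_mul, map_pow] at e1
    rw [e1]
    refine mul_ne_zero ?_ (pow_ne_zero _ hΛ0)
    simpa using hK.c0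
  have hne : aeval σ (A 1) * (N : ℚ) - aeval σ (B 1) ≠ 0 := by
    intro h0
    have e1 : aeval σ (B 1) = aeval σ (A 1) * N := by linarith
    rw [e1] at h2
    have e2 : aeval σ (B 0) = aeval σ (A 0) * N := by linarith
    apply hdet
    rw [e1, e2]
    ring
  set U : ℤ := hom 5 (B 0) s t - hom 5 (A 0) s t * N with hU
  set V : ℤ := hom 5 (A 1) s t * N - hom 5 (B 1) s t with hV
  have htQ : (t : ℚ) ≠ 0 := by exact_mod_cast ht
  have hUq : (U : ℚ) = (t : ℚ) ^ 5 * (aeval σ (B 0) - aeval σ (A 0) * N) := by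
    rw [hU]
    push_cast
    rw [hom_of_aeval (hB5 0) ht, hom_of_aeval (hA5 0) ht]
    ring
  have hVq : (V : ℚ) = (t : ℚ) ^ 5 * (aeval σ (A 1) * N - aeval σ (B 1)) := by
    rw [hV]
    push_cast
    rw [hom_of_aeval (hB5 1) ht, hom_of_aeval (hA5 1) ht]
    ring
  have hV0 : V ≠ 0 := by
    intro h0
    rw [h0, Int.cast_zero] at hVq
    rcases mul_eq_zero.1 hVq.symm with h4 | h4
    · exact htQ (pow_eq_zero_iff (by norm_num) |>.1 h4)
    · exact hne h4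
  have hκ : κ * V = U := by
    rw [hUq, hVq]
    linear_combination (t : ℚ) ^ 5 * h2
  have hbd : ∀ (P Q : ℤ[X]), (∀ k, |P.coeff k| ≤ (H : ℤ) ^ C0) →
      (∀ k, |Q.coeff k| ≤ (H : ℤ) ^ C0) →
      |hom 5 P s t * N - hom 5 Q s t| ≤ (H : ℤ) ^ (1 + (3 + C0 + 5 * (C + 1)) + (C + 1)) := by
    intro P Q hP' hQ'
    have e1 := hom_bound hH hP' hsE htE
    have e2 := hom_bound hH hQ' hsE htE
    have e3 : (1 : ℤ) ≤ (H : ℤ) ^ (C + 1) := one_le_pow₀ (by linarith)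
    have e4 : |hom 5 P s t * N| ≤ (H : ℤ) ^ (3 + C0 + 5 * (C + 1)) * (H : ℤ) ^ (C + 1) := by
      rw [abs_mul]
      exact mul_le_mul e1 hN (abs_nonneg _) (by positivity)
    have e5 : |hom 5 Q s t| ≤ (H : ℤ) ^ (3 + C0 + 5 * (C + 1)) * (H : ℤ) ^ (C + 1) :=
      e2.trans (le_mul_of_one_le_right (by positivity) e3)
    refine (abs_sub _ _).trans ?_
    rw [pow_add (H : ℤ) (1 + _), pow_add (H : ℤ) 1, pow_one, mul_assoc]
    have e6 : (0 : ℤ) ≤ (H : ℤ) ^ (3 + C0 + 5 * (C + 1)) * (H : ℤ) ^ (C + 1) := by positivity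
    nlinarith
  have hUb : |U| ≤ (H : ℤ) ^ (1 + (3 + C0 + 5 * (C + 1)) + (C + 1)) := by
    rw [hU, abs_sub_comm]
    exact hbd _ _ (hAC 0) (hBC 0)
  have hVb : |V| ≤ (H : ℤ) ^ (1 + (3 + C0 + 5 * (C + 1)) + (C + 1)) := hbd _ _ (hAC 1) (hBC 1)
  obtain ⟨hnum, hden⟩ := num_den_le hV0 hκ hUb hVb
  have hd0 : (κ.den : ℚ) ≠ 0 := by exact_mod_cast κ.den_nz
  have hkn : ((κ.num : ℤ) : ℚ) = κ * κ.den := (Rat.mul_den_eq_num κ).symm
  refine ⟨κ.num, κ.den, ⟨ht, by exact_mod_cast κ.den_nz, Rat.isCoprime_num_den κ, ?_, ?_, ?_⟩,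
    hnum, hden⟩
  · rw [hkn, Int.cast_natCast]
    have : (κ.den : ℚ) * aeval σ (A 0) + κ * κ.den * aeval σ (A 1) =
        κ.den * (aeval σ (A 0) + κ * aeval σ (A 1)) := by ring
    rw [this]
    exact mul_ne_zero hd0 h1
  · rw [hkn, Int.cast_natCast]
    linear_combination (κ.den : ℚ) * h2
  · intro m
    rw [hkn, Int.cast_natCast]
    linear_combination (κ.den : ℚ) * h3 m

end Vale.Agent.P018.Q.PairKp
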