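import Mathlib
import Vale.Agent.P018.Q.PairDefs
import Vale.Agent.P018.Q.PairCurve

/-! # P018, quartics, family (A): auxiliary estimates for the count over one reduced pair. -/

namespace Vale.Agent.P018.Q

open Polynomial NumberField Finset

variable {L : Type} [Field L] [NumberField L]

theorem pl_rpow (c a b : ℝ) (h : a < b) : ∀ᶠ X : ℝ in Filter.atTop, c * X ^ a < X ^ b := by
  have h1 : Filter.Tendsto (fun X : ℝ => X ^ (b - a)) Filter.atTop Filter.atTop :=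
    tendsto_rpow_atTop (by linarith)
  filter_upwards [h1.eventually_gt_atTop c, Filter.eventually_gt_atTop 0] with X h2 h3
  have h4 : X ^ b = X ^ (b - a) * X ^ a := by
    rw [← Real.rpow_add h3]; congr 1; ring
  rw [h4]
  exact mul_lt_mul_of_pos_right h2 (Real.rpow_pos_of_pos h3 a)

theorem pl_dot_nonneg (l : Fin 4 → ℤ) : 0 ≤ dot l l :=
  Finset.sum_nonneg fun _ _ => mul_self_nonneg _

theorem pl_sq_le_dot (l : Fin 4 → ℤ) (j : Fin 4) : l j * l j ≤ dot l l :=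
  Finset.single_le_sum (f := fun i => l i * l i) (fun _ _ => mul_self_nonneg _) (Finset.mem_univ j)

theorem pl_dot_pos {l : Fin 4 → ℤ} (h : l ≠ 0) : 1 ≤ dot l l := by
  obtain ⟨j, hj⟩ := Function.ne_iff.1 h
  have h1 := pl_sq_le_dot l j
  have h2 : 0 < l j * l j := mul_self_pos.2 hj
  omega

/-- changing `X` to `X / 2`. -/
theorem Pt.half {θ : Fin 4 → 𝓞 L} {C C' : ℕ} (hC : 2 * C ≤ C') {X T : ℝ} (hX : 0 ≤ X) (hT : 0 ≤ T)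
    {l1 l2 : Fin 4 → ℤ} {N : ℤ} {p : ℕ} {c : ℤ} {z : Fin 4 → ℤ} {s t : ℤ}
    (h : Pt θ C X T l1 l2 N p c z s t) : Pt θ C' (X / 2) T l1 l2 N p c z s t := by
  have hC1 : (2 * C : ℝ) ≤ C' := by exact_mod_cast hC
  have hC2 : (C : ℝ) ≤ C' := by
    have : (0 : ℝ) ≤ C := Nat.cast_nonneg _
    linarith
  have hC3 : (C : ℤ) ≤ C' := by exact_mod_cast (by omega : C ≤ C')
  have hT2 : 0 ≤ T ^ 2 := by positivity
  obtain ⟨hd, hs, ht⟩ := h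
  refine ⟨⟨hd.prime, hd.lo, hd.hi, hd.c0, hd.cC.trans hC3, ?_, hd.eqn, ?_, ?_, ?_⟩, ?_, ?_⟩
  · obtain ⟨c', h1, h2, h3⟩ := hd.nrm
    exact ⟨c', h1, h2.trans hC3, h3⟩
  · refine hd.hN.trans ?_
    nlinarith
  · exact fun j => (hd.hy j).trans (mul_le_mul_of_nonneg_right hC2 hT)
  · intro j
    refine (hd.hz j).trans ?_
    rw [div_eq_mul_inv, div_eq_mul_inv]
    exact mul_le_mul_of_nonneg_right (by nlinarith) (by positivity)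
  · exact hs.trans (mul_le_mul_of_nonneg_right hC2 hT2)
  · exact ht.trans (mul_le_mul_of_nonneg_right hC2 hT2)

theorem pl_abs_le {u : ℤ} {C H : ℕ} {T dt : ℝ} (hdt : 1 ≤ dt) (h : (u : ℝ) ^ 2 * dt ≤ C * T ^ 2)
    (hT : 0 ≤ T) (hTH : T ≤ H) (hCH : C ≤ H) (hH : 1 ≤ H) : |u| ≤ (H : ℤ) ^ 2 := by
  have h1 : (u : ℝ) ^ 2 ≤ ((H : ℝ) ^ 2) ^ 2 := by
    have h2 : (u : ℝ) ^ 2 ≤ (u : ℝ) ^ 2 * dt := le_mul_of_one_le_right (sq_nonneg _) hdt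
    have h3 : (C : ℝ) * T ^ 2 ≤ H * (H : ℝ) ^ 2 := by
      have : (C : ℝ) ≤ H := by exact_mod_cast hCH
      gcongr
    have h4 : (1 : ℝ) ≤ H := by exact_mod_cast hH
    have h5 : (H : ℝ) * (H : ℝ) ^ 2 ≤ ((H : ℝ) ^ 2) ^ 2 := by
      have : (0 : ℝ) ≤ (H : ℝ) ^ 3 := by positivity
      nlinarith
    linarith
  have h6 : |(u : ℝ)| ≤ (H : ℝ) ^ 2 := abs_le_of_sq_le_sq h1 (by positivity)
  exact_mod_cast h6

theorem pl_hom_le {D : ℕ} {A : ℤ[X]} {H C0 : ℕ} (hA : ∀ k, |A.coeff k| ≤ (H : ℤ) ^ C0) {s t : ℤ}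
    (hs : |s| ≤ (H : ℤ) ^ 2) (ht : |t| ≤ (H : ℤ) ^ 2) :
    |hom D A s t| ≤ (D + 1) * (H : ℤ) ^ (C0 + 2 * D) := by
  unfold hom
  refine (Finset.abs_sum_le_sum_abs _ _).trans ?_
  have h1 : ∀ i ∈ range (D + 1), |((A.coeff i : ℤ) : ℤ) * s ^ i * t ^ (D - i)| ≤
      (H : ℤ) ^ (C0 + 2 * D) := by
    intro i hi
    have hi' : i ≤ D := Nat.lt_succ_iff.1 (Finset.mem_range.1 hi)
    rw [abs_mul, abs_mul, abs_pow, abs_pow]
    calc |A.coeff i| * |s| ^ i * |t| ^ (D - i)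
        ≤ (H : ℤ) ^ C0 * ((H : ℤ) ^ 2) ^ i * ((H : ℤ) ^ 2) ^ (D - i) := by
          gcongr
          exact hA i
      _ = (H : ℤ) ^ (C0 + 2 * D) := by
          rw [← pow_mul, ← pow_mul, ← pow_add, ← pow_add]
          congr 1
          omega
  refine (Finset.sum_le_sum h1).trans ?_
  rw [Finset.sum_const, Finset.card_range, nsmul_eq_mul]
  push_cast
  exact le_refl _

theorem pl_hom_aeval {D : ℕ} {A : ℤ[X]} (h : A.natDegree ≤ D) {s t : ℤ} (ht : t ≠ 0) :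
    ((hom D A s t : ℤ) : ℚ) = (t : ℚ) ^ D * aeval ((s : ℚ) / t) A := by
  have ht' : (t : ℚ) ≠ 0 := by exact_mod_cast ht
  have h1 := hom_mul (R := ℚ) D h ((s : ℚ) / t) (t : ℚ)
  rw [div_mul_cancel₀ _ ht'] at h1
  rw [← h1]
  have := hom_map (Int.castRingHom ℚ) D A s t
  simpa using this

/-- the denominator of the kappa model is a nonzero integer. -/
theorem pl_den_ne {A B : Fin 2 → ℤ[X]} {Z : Fin 2 → Fin 4 → ℤ[X]} {N c s t kn kd : ℤ}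
    {z : Fin 4 → ℤ} (hA : ∀ i, (A i).natDegree ≤ 5) (h : KP A B Z N c s t kn kd z) :
    kd * hom 5 (A 0) s t + kn * hom 5 (A 1) s t ≠ 0 := by
  intro h0
  apply h.den
  have ht' : (t : ℚ) ≠ 0 := by exact_mod_cast h.t0
  have h1 : ((kd * hom 5 (A 0) s t + kn * hom 5 (A 1) s t : ℤ) : ℚ) = 0 := by
    rw [h0, Int.cast_zero]
  push_cast at h1
  rw [pl_hom_aeval (hA 0) h.t0, pl_hom_aeval (hA 1) h.t0] at h1
  have h2 : (t : ℚ) ^ 5 * (kd * aeval ((s : ℚ) / t) (A 0) + kn * aeval ((s : ℚ) / t) (A 1)) = 0 := by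
    linear_combination h1
  exact (mul_eq_zero.1 h2).resolve_left (pow_ne_zero _ ht')

theorem pl_bad_le {A : Fin 2 → ℤ[X]} {H C0 : ℕ} (hH : 2 ≤ H)
    (hA : ∀ i k, |(A i).coeff k| ≤ (H : ℤ) ^ C0)
    {s t kn kd : ℤ} (hs : |s| ≤ (H : ℤ) ^ 2) (ht : |t| ≤ (H : ℤ) ^ 2)
    (hkn : |kn| ≤ (H : ℤ) ^ C0) (hkd : |kd| ≤ (H : ℤ) ^ C0) :
    |t * kd * (kd * hom 5 (A 0) s t + kn * hom 5 (A 1) s t)| ≤ (H : ℤ) ^ (3 * C0 + 16) := by
  have hH' : (2 : ℤ) ≤ H := by exact_mod_cast hH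
  have h0 : (0 : ℤ) ≤ H := by linarith
  have h1 := pl_hom_le (D := 5) (hA 0) hs ht
  have h2 := pl_hom_le (D := 5) (hA 1) hs ht
  have h12 : (12 : ℤ) ≤ (H : ℤ) ^ 4 := by
    calc (12 : ℤ) ≤ 2 ^ 4 := by norm_num
      _ ≤ (H : ℤ) ^ 4 := pow_le_pow_left₀ (by norm_num) hH' 4
  have h3 : |kd * hom 5 (A 0) s t + kn * hom 5 (A 1) s t| ≤ (H : ℤ) ^ (2 * C0 + 14) := by
    calc |kd * hom 5 (A 0) s t + kn * hom 5 (A 1) s t|
        ≤ |kd| * |hom 5 (A 0) s t| + |kn| * |hom 5 (A 1) s t| := by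
          rw [← abs_mul, ← abs_mul]; exact abs_add_le _ _
      _ ≤ (H : ℤ) ^ C0 * (((5 : ℕ) + 1) * (H : ℤ) ^ (C0 + 2 * 5)) +
          (H : ℤ) ^ C0 * (((5 : ℕ) + 1) * (H : ℤ) ^ (C0 + 2 * 5)) := by
          gcongr
      _ = 12 * ((H : ℤ) ^ C0 * (H : ℤ) ^ (C0 + 10)) := by push_cast; ring
      _ ≤ (H : ℤ) ^ 4 * ((H : ℤ) ^ C0 * (H : ℤ) ^ (C0 + 10)) := by gcongr
      _ = (H : ℤ) ^ (2 * C0 + 14) := by rw [← pow_add, ← pow_add]; congr 1; omega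
  rw [abs_mul, abs_mul]
  calc |t| * |kd| * |kd * hom 5 (A 0) s t + kn * hom 5 (A 1) s t|
      ≤ (H : ℤ) ^ 2 * (H : ℤ) ^ C0 * (H : ℤ) ^ (2 * C0 + 14) := by gcongr
    _ = (H : ℤ) ^ (3 * C0 + 16) := by rw [← pow_add, ← pow_add]; congr 1; omega

theorem pl_dnum_le {Dg H C0 : ℕ} (hH : 2 ≤ H) (hD : Dg + 1 ≤ H) {g : ℤ[X][X]}
    (hg : ∀ i j, |(g.coeff i).coeff j| ≤ (H : ℤ) ^ C0)
    {s t kn kd : ℤ} (hs : |s| ≤ (H : ℤ) ^ 2) (ht : |t| ≤ (H : ℤ) ^ 2)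
    (hkn : |kn| ≤ (H : ℤ) ^ C0) (hkd : |kd| ≤ (H : ℤ) ^ C0) :
    |dnum Dg g kn kd s t| ≤ (H : ℤ) ^ (C0 + 2 * Dg + C0 * Dg + 3) := by
  have hH' : (2 : ℤ) ≤ H := by exact_mod_cast hH
  have hD' : (Dg : ℤ) + 1 ≤ H := by exact_mod_cast hD
  have h0 : (0 : ℤ) ≤ H := by linarith
  unfold dnum
  refine (Finset.abs_sum_le_sum_abs _ _).trans ?_
  have h1 : ∀ k ∈ range Dg, |(k + 1 : ℤ) * hom Dg (g.coeff (k + 1)) s t * kn ^ k * kd ^ (Dg - k)|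
      ≤ (H : ℤ) ^ (C0 + 2 * Dg + C0 * Dg + 2) := by
    intro k hk
    have hk' : k < Dg := Finset.mem_range.1 hk
    rw [abs_mul, abs_mul, abs_mul, abs_pow, abs_pow]
    have h2 : |(k + 1 : ℤ)| ≤ H := by
      rw [abs_of_nonneg (by positivity)]
      have : (k : ℤ) < Dg := by exact_mod_cast hk'
      linarith
    have h3 := pl_hom_le (D := Dg) (hg (k + 1)) hs ht
    calc |(k + 1 : ℤ)| * |hom Dg (g.coeff (k + 1)) s t| * |kn| ^ k * |kd| ^ (Dg - k)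
        ≤ (H : ℤ) * (((Dg : ℤ) + 1) * (H : ℤ) ^ (C0 + 2 * Dg)) * ((H : ℤ) ^ C0) ^ k *
          ((H : ℤ) ^ C0) ^ (Dg - k) := by gcongr
      _ ≤ (H : ℤ) * (H * (H : ℤ) ^ (C0 + 2 * Dg)) * ((H : ℤ) ^ C0) ^ k *
          ((H : ℤ) ^ C0) ^ (Dg - k) := by gcongr
      _ = (H : ℤ) ^ (C0 + 2 * Dg + 2) * ((H : ℤ) ^ C0) ^ (k + (Dg - k)) := by
          rw [pow_add ((H : ℤ) ^ C0)]; ring
      _ = (H : ℤ) ^ (C0 + 2 * Dg + C0 * Dg + 2) := by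
          rw [Nat.add_sub_cancel' hk'.le, ← pow_mul, ← pow_add]; congr 1; omega
  refine (Finset.sum_le_sum h1).trans ?_
  rw [Finset.sum_const, Finset.card_range, nsmul_eq_mul, pow_succ _ (C0 + 2 * Dg + C0 * Dg + 2),
    mul_comm]
  refine mul_le_mul_of_nonneg_left (by linarith) (by positivity)

end Vale.Agent.P018.Q
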