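import Mathlib
import Vale.Agent.P018.Q.Defs

/-! # P018, quartics: the swap trick (abstract form). -/

namespace Vale.Agent.P018.Q

open Finset

/-- exceptional points for a pair of index sets -/
private theorem swap_fiber {ι Γ : Type} [DecidableEq ι] [DecidableEq Γ] {M D B : ℕ}
    {S : Finset ι} {cl : Finset (Fin M) → ι → ℤ} {inc : ι → Γ → Prop}
    {Cv : Finset (Fin M) → ℤ → Finset Γ}
    (hcl : ∀ (I J : Finset (Fin M)) (P P' : ι), I ⊆ J → cl J P = cl J P' → cl I P = cl I P')
    (hD : ∀ (I : Finset (Fin M)) (c : ℤ), (Cv I c).card ≤ D)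
    (hB : ∀ γ γ' : Γ, γ ≠ γ' → ∀ S' ⊆ S, (∀ P ∈ S', inc P γ ∧ inc P γ') → S'.card ≤ B)
    (I J : Finset (Fin M)) (T : Finset ι) (hT : T ⊆ S)
    (hTe : ∀ P ∈ T, ∃ γ ∈ Cv I (cl I P), ∃ γ' ∈ Cv J (cl J P), γ ≠ γ' ∧ inc P γ ∧ inc P γ')
    (c : ℤ) (hTc : ∀ P ∈ T, cl (I ∪ J) P = c) : T.card ≤ D * D * B := by
  classical
  rcases T.eq_empty_or_nonempty with rfl | ⟨P0, hP0⟩
  · simp
  set F : Finset (Γ × Γ) := ((Cv I (cl I P0)) ×ˢ (Cv J (cl J P0))).filter (fun g => g.1 ≠ g.2)
    with hF
  have hsub : T ⊆ F.biUnion fun g => S.filter fun P => inc P g.1 ∧ inc P g.2 := by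
    intro P hP
    obtain ⟨γ, h1, γ', h2, h3, h4, h5⟩ := hTe P hP
    have e1 : cl I P = cl I P0 :=
      hcl I (I ∪ J) P P0 Finset.subset_union_left (by rw [hTc P hP, hTc P0 hP0])
    have e2 : cl J P = cl J P0 :=
      hcl J (I ∪ J) P P0 Finset.subset_union_right (by rw [hTc P hP, hTc P0 hP0])
    rw [Finset.mem_biUnion]
    refine ⟨(γ, γ'), ?_, ?_⟩
    · rw [hF, Finset.mem_filter, Finset.mem_product]
      exact ⟨⟨e1 ▸ h1, e2 ▸ h2⟩, h3⟩
    · rw [Finset.mem_filter]
      exact ⟨hT hP, h4, h5⟩
  have h1 : (F.biUnion fun g => S.filter fun P => inc P g.1 ∧ inc P g.2).card ≤ F.card * B := by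
    refine Finset.card_biUnion_le_card_mul _ _ _ fun g hg => ?_
    rw [hF, Finset.mem_filter] at hg
    exact hB g.1 g.2 hg.2 _ (Finset.filter_subset _ _) fun P hP => (Finset.mem_filter.1 hP).2
  have h2 : F.card ≤ D * D := by
    refine (Finset.card_filter_le _ _).trans ?_
    rw [Finset.card_product]
    exact Nat.mul_le_mul (hD _ _) (hD _ _)
  calc T.card ≤ F.card * B := (Finset.card_le_card hsub).trans h1
    _ ≤ D * D * B := Nat.mul_le_mul_right _ h2

/-- the swap trick. `P ∈ S` are points, `Γ` the type of curves, `good P` the set of good primes of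
`P`, `cl I P` the class of `P` modulo `∏_{i ∈ I} ℓ_i`, `Cv I c` the curves attached to a class.
If every point lies on some curve of its class for every `I ⊆ good P` with `m` elements, then, apart
from few exceptional points, every point has ONE curve which is attached to all its classes. -/
theorem swap {ι Γ : Type} [DecidableEq ι] [DecidableEq Γ] (M m D B Q : ℕ) (S : Finset ι)
    (good : ι → Finset (Fin M)) (cl : Finset (Fin M) → ι → ℤ) (inc : ι → Γ → Prop)
    (Cv : Finset (Fin M) → ℤ → Finset Γ)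
    (hgood : ∀ P ∈ S, m + 1 ≤ (good P).card)
    (hcl : ∀ (I J : Finset (Fin M)) (P P' : ι), I ⊆ J → cl J P = cl J P' → cl I P = cl I P')
    (hQ : ∀ J : Finset (Fin M), J.card = m + 1 →
      ((S.filter (fun P => J ⊆ good P)).image (cl J)).card ≤ Q)
    (hD : ∀ (I : Finset (Fin M)) (c : ℤ), (Cv I c).card ≤ D)
    (hinc : ∀ P ∈ S, ∀ I ⊆ good P, I.card = m → ∃ γ ∈ Cv I (cl I P), inc P γ)
    (hB : ∀ γ γ' : Γ, γ ≠ γ' → ∀ S' ⊆ S, (∀ P ∈ S', inc P γ ∧ inc P γ') → S'.card ≤ B) :
    ∃ E ⊆ S, E.card ≤ 4 ^ M * (Q * (D * D * B)) ∧ ∀ P ∈ S, P ∉ E → ∃ γ, inc P γ ∧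
      ∀ I ⊆ good P, I.card = m → γ ∈ Cv I (cl I P) := by
  classical
  -- the exceptional points of a pair
  let T : Finset (Fin M) × Finset (Fin M) → Finset ι := fun g =>
    S.filter fun P => g.1 ∪ g.2 ⊆ good P ∧ (g.1 ∪ g.2).card = m + 1 ∧
      ∃ γ ∈ Cv g.1 (cl g.1 P), ∃ γ' ∈ Cv g.2 (cl g.2 P), γ ≠ γ' ∧ inc P γ ∧ inc P γ'
  refine ⟨(Finset.univ : Finset (Finset (Fin M) × Finset (Fin M))).biUnion T, ?_, ?_, ?_⟩
  · intro P hP
    obtain ⟨g, _, hg⟩ := Finset.mem_biUnion.1 hP
    exact (Finset.mem_filter.1 hg).1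
  · have hcard : (Finset.univ : Finset (Finset (Fin M) × Finset (Fin M))).card = 4 ^ M := by
      rw [Finset.card_univ, Fintype.card_prod, Fintype.card_finset, Fintype.card_fin,
        ← Nat.mul_pow]
    rw [← hcard]
    refine Finset.card_biUnion_le_card_mul _ _ _ fun g _ => ?_
    by_cases hg : (g.1 ∪ g.2).card = m + 1
    · have h1 : (T g).card ≤ (D * D * B) * ((T g).image (cl (g.1 ∪ g.2))).card := by
        refine Finset.card_le_mul_card_image _ _ fun c _ => ?_
        refine swap_fiber hcl hD hB g.1 g.2 _ ?_ ?_ c ?_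
        · intro P hP
          exact (Finset.mem_filter.1 (Finset.mem_filter.1 hP).1).1
        · intro P hP
          exact (Finset.mem_filter.1 (Finset.mem_filter.1 hP).1).2.2.2
        · intro P hP
          exact (Finset.mem_filter.1 hP).2
      have h2 : ((T g).image (cl (g.1 ∪ g.2))).card ≤ Q := by
        refine le_trans (Finset.card_le_card ?_) (hQ _ hg)
        refine Finset.image_subset_image ?_
        intro P hP
        have := Finset.mem_filter.1 hP
        exact Finset.mem_filter.2 ⟨this.1, this.2.1⟩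
      calc (T g).card ≤ (D * D * B) * ((T g).image (cl (g.1 ∪ g.2))).card := h1
        _ ≤ (D * D * B) * Q := Nat.mul_le_mul_left _ h2
        _ = Q * (D * D * B) := Nat.mul_comm _ _
    · have h1 : T g = ∅ := by
        refine Finset.filter_eq_empty_iff.2 ?_
        intro P _ hP
        exact hg hP.2.1
      rw [h1]
      simp
  · intro P hP hPE
    have hPT : ∀ g : Finset (Fin M) × Finset (Fin M), P ∉ T g := fun g hg =>
      hPE (Finset.mem_biUnion.2 ⟨g, Finset.mem_univ _, hg⟩)
    -- one swap
    have hstep : ∀ I J : Finset (Fin M), I ⊆ good P → J ⊆ good P → I.card = m → J.card = m →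
        (I ∪ J).card = m + 1 → ∀ γ ∈ Cv I (cl I P), inc P γ → γ ∈ Cv J (cl J P) := by
      intro I J hI hJ _ hJm hIJ γ hγ hinγ
      obtain ⟨γ', hγ', hin'⟩ := hinc P hP J hJ hJm
      by_cases hne : γ = γ'
      · rw [hne]
        exact hγ'
      · exact absurd (Finset.mem_filter.2 ⟨hP, Finset.union_subset hI hJ, hIJ, γ, hγ, γ', hγ',
          hne, hinγ, hin'⟩) (hPT (I, J))
    -- all swaps
    have hall : ∀ n : ℕ, ∀ I J : Finset (Fin M), (J \ I).card = n → I ⊆ good P → J ⊆ good P →
        I.card = m → J.card = m → ∀ γ ∈ Cv I (cl I P), inc P γ → γ ∈ Cv J (cl J P) := by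
      intro n
      induction n with
      | zero =>
        intro I J hn _ _ hIm hJm γ hγ _
        have h1 : J ⊆ I := by
          rw [Finset.card_eq_zero, Finset.sdiff_eq_empty_iff_subset] at hn
          exact hn
        have h2 : J = I := Finset.eq_of_subset_of_card_le h1 (by rw [hIm, hJm])
        rw [h2]
        exact hγ
      | succ n ih =>
        intro I J hn hI hJ hIm hJm γ hγ hinγ
        have hcard : (I \ J).card = (J \ I).card := by
          have e1 := Finset.card_sdiff_add_card_inter I J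
          have e2 := Finset.card_sdiff_add_card_inter J I
          rw [Finset.inter_comm J I] at e2
          omega
        obtain ⟨j, hj⟩ : (J \ I).Nonempty := by
          rw [← Finset.card_pos]; omega
        obtain ⟨i, hi⟩ : (I \ J).Nonempty := by
          rw [← Finset.card_pos]; omega
        rw [Finset.mem_sdiff] at hi hj
        have hji : j ∉ I.erase i := fun h => hj.2 (Finset.mem_of_mem_erase h)
        have hI' : insert j (I.erase i) ⊆ good P := by
          intro x hx
          rcases Finset.mem_insert.1 hx with rfl | hx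
          · exact hJ hj.1
          · exact hI (Finset.mem_of_mem_erase hx)
        have hI'm : (insert j (I.erase i)).card = m := by
          rw [Finset.card_insert_of_notMem hji, Finset.card_erase_of_mem hi.1]
          have : 0 < I.card := Finset.card_pos.2 ⟨i, hi.1⟩
          omega
        have hun : I ∪ insert j (I.erase i) = insert j I := by
          ext x
          simp only [Finset.mem_union, Finset.mem_insert, Finset.mem_erase]
          tauto
        have h1 := hstep I (insert j (I.erase i)) hI hI' hIm hI'm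
          (by rw [hun, Finset.card_insert_of_notMem hj.2, hIm]) γ hγ hinγ
        refine ih (insert j (I.erase i)) J ?_ hI' hJ hI'm hJm γ h1 hinγ
        have hsd : J \ insert j (I.erase i) = (J \ I).erase j := by
          ext x
          simp only [Finset.mem_sdiff, Finset.mem_insert, Finset.mem_erase, not_or, not_and]
          constructor
          · rintro ⟨h2, h3, h4⟩
            refine ⟨h3, h2, fun h5 => ?_⟩
            by_cases hx : x = i
            · exact hi.2 (hx ▸ h2)
            · exact h4 hx h5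
          · rintro ⟨h2, h3, h4⟩
            exact ⟨h3, h2, fun _ h5 => h4 h5⟩
        rw [hsd, Finset.card_erase_of_mem (Finset.mem_sdiff.2 hj), hn]
        rfl
    obtain ⟨I0, hI0, hI0m⟩ := Finset.exists_subset_card_eq
      (show m ≤ (good P).card by have := hgood P hP; omega)
    obtain ⟨γ, hγ, hin⟩ := hinc P hP I0 hI0 hI0m
    exact ⟨γ, hin, fun J hJ hJm => hall _ I0 J rfl hI0 hJ hI0m hJm γ hγ hin⟩

end Vale.Agent.P018.Q
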