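import Mathlib
import Vale.Agent.P018.Q.Swap

/-! # P018, quartics, family (A): the abstract count over one reduced pair. -/

namespace Vale.Agent.P018.Q

open Finset

/-- swap trick plus the count on every curve. -/
theorem swap_count {ι Γ : Type} [DecidableEq ι] [DecidableEq Γ] (M m r D B Q Q0 Kc : ℕ)
    (S : Finset ι) (good : ι → Finset (Fin M)) (cl : Finset (Fin M) → ι → ℤ) (inc : ι → Γ → Prop)
    (Cv : Finset (Fin M) → ℤ → Finset Γ) (bad : ι → Γ → Finset (Fin M))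
    (hgood : ∀ P ∈ S, m + 1 + r ≤ (good P).card)
    (hbad : ∀ P ∈ S, ∀ γ, inc P γ → (bad P γ).card ≤ r)
    (hcl : ∀ (I J : Finset (Fin M)) (P P' : ι), I ⊆ J → cl J P = cl J P' → cl I P = cl I P')
    (hQ : ∀ J : Finset (Fin M), J.card = m + 1 → (S.image (cl J)).card ≤ Q)
    (hQ0 : ∀ J : Finset (Fin M), J.card = m → (S.image (cl J)).card ≤ Q0)
    (hD : ∀ (I : Finset (Fin M)) (c : ℤ), (Cv I c).card ≤ D)
    (hinc : ∀ P ∈ S, ∀ I ⊆ good P, I.card = m → ∃ γ ∈ Cv I (cl I P), inc P γ)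
    (hB : ∀ γ γ' : Γ, γ ≠ γ' → ∀ S' ⊆ S, (∀ P ∈ S', inc P γ ∧ inc P γ') → S'.card ≤ B)
    (hK : ∀ I : Finset (Fin M), I.card = m → ∀ (c : ℤ) (γ : Γ), ∀ S' ⊆ S,
      (∀ P ∈ S', inc P γ ∧ I ⊆ good P ∧ Disjoint I (bad P γ) ∧ cl I P = c) → S'.card ≤ Kc) :
    S.card ≤ 4 ^ M * (Q * (D * D * B)) + 2 ^ M * (Q0 * (D * Kc)) := by
  classical
  obtain ⟨E, hES, hE, hP⟩ := swap M m D B Q S good cl inc Cv
    (fun P hP => by have := hgood P hP; omega) hcl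
    (fun J hJ => (Finset.card_le_card (Finset.image_subset_image (Finset.filter_subset _ _))).trans
      (hQ J hJ)) hD hinc hB
  -- the remaining points
  let W : Finset (Fin M) → ℤ → Γ → Finset ι := fun I c γ =>
    S.filter fun P => inc P γ ∧ I ⊆ good P ∧ Disjoint I (bad P γ) ∧ cl I P = c
  have hsub : S \ E ⊆ (Finset.univ.filter (fun I : Finset (Fin M) => I.card = m)).biUnion
      fun I => (S.image (cl I)).biUnion fun c => (Cv I c).biUnion fun γ => W I c γ := by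
    intro P hPS
    rw [Finset.mem_sdiff] at hPS
    obtain ⟨γ, hγ, hall⟩ := hP P hPS.1 hPS.2
    have h1 := hgood P hPS.1
    have h2 := hbad P hPS.1 γ hγ
    have h3 : m ≤ (good P \ bad P γ).card := by
      have h4 := Finset.le_card_sdiff (bad P γ) (good P)
      omega
    obtain ⟨I, hI, hIm⟩ := Finset.exists_subset_card_eq h3
    have hIg : I ⊆ good P := hI.trans Finset.sdiff_subset
    have hIb : Disjoint I (bad P γ) := by
      rw [Finset.disjoint_left]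
      intro x hx hxb
      exact (Finset.mem_sdiff.1 (hI hx)).2 hxb
    rw [Finset.mem_biUnion]
    refine ⟨I, Finset.mem_filter.2 ⟨Finset.mem_univ _, hIm⟩, ?_⟩
    rw [Finset.mem_biUnion]
    refine ⟨cl I P, Finset.mem_image_of_mem _ hPS.1, ?_⟩
    rw [Finset.mem_biUnion]
    exact ⟨γ, hall I hIg hIm, Finset.mem_filter.2 ⟨hPS.1, hγ, hIg, hIb, rfl⟩⟩
  have hWc : ∀ I : Finset (Fin M), I.card = m → ∀ c γ, (W I c γ).card ≤ Kc := fun I hI c γ =>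
    hK I hI c γ _ (Finset.filter_subset _ _) fun P hP => (Finset.mem_filter.1 hP).2
  have h5 : (S \ E).card ≤ 2 ^ M * (Q0 * (D * Kc)) := by
    refine (Finset.card_le_card hsub).trans ?_
    refine (Finset.card_biUnion_le_card_mul _ _ (Q0 * (D * Kc)) fun I hI => ?_).trans ?_
    · rw [Finset.mem_filter] at hI
      refine (Finset.card_biUnion_le_card_mul _ _ (D * Kc) fun c _ => ?_).trans ?_
      · refine (Finset.card_biUnion_le_card_mul _ _ Kc fun γ _ => hWc I hI.2 c γ).trans ?_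
        exact Nat.mul_le_mul_right _ (hD I c)
      · exact Nat.mul_le_mul_right _ (hQ0 I hI.2)
    · refine Nat.mul_le_mul_right _ ((Finset.card_filter_le _ _).trans ?_)
      rw [Finset.card_univ, Fintype.card_finset, Fintype.card_fin]
  have h6 : S.card = (S \ E).card + E.card := by
    rw [Finset.card_sdiff_add_card_eq_card hES]
  omega

/-- primes of a given size. -/
theorem exists_primes_size (M b : ℕ) (hb : 1 ≤ b) : ∃ ℓ : Fin M → ℕ, Function.Injective ℓ ∧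
    ∀ i, (ℓ i).Prime ∧ b < ℓ i ∧ ℓ i ≤ 2 ^ M * b := by
  have h : ∀ i : Fin M, ∃ p : ℕ, p.Prime ∧ 2 ^ (i : ℕ) * b < p ∧ p ≤ 2 * (2 ^ (i : ℕ) * b) :=
    fun i => Nat.exists_prime_lt_and_le_two_mul _ (by positivity)
  choose ℓ h1 h2 h3 using h
  have hmono : StrictMono ℓ := by
    intro i j hij
    have h4 : (i : ℕ) + 1 ≤ j := hij
    calc ℓ i ≤ 2 * (2 ^ (i : ℕ) * b) := h3 i
      _ = 2 ^ ((i : ℕ) + 1) * b := by ring
      _ ≤ 2 ^ (j : ℕ) * b := Nat.mul_le_mul_right _ (Nat.pow_le_pow_right (by norm_num) h4)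
      _ < ℓ j := h2 j
  refine ⟨ℓ, hmono.injective, fun i => ⟨h1 i, ?_, ?_⟩⟩
  · refine lt_of_le_of_lt ?_ (h2 i)
    exact Nat.le_mul_of_pos_left _ (by positivity)
  · refine (h3 i).trans ?_
    calc 2 * (2 ^ (i : ℕ) * b) = 2 ^ ((i : ℕ) + 1) * b := by ring
      _ ≤ 2 ^ M * b := Nat.mul_le_mul_right _ (Nat.pow_le_pow_right (by norm_num) i.2)

/-- the class of `s / t` modulo `∏_{i ∈ I} ℓ i`. -/
def cls {M : ℕ} (ℓ : Fin M → ℕ) (I : Finset (Fin M)) (s t : ℤ) : ℤ :=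
  (s * t ^ ((∏ i, (ℓ i - 1)) - 1)) % ((∏ i ∈ I, ℓ i : ℕ) : ℤ)

theorem cls_mono {M : ℕ} (ℓ : Fin M → ℕ) {I J : Finset (Fin M)} (hIJ : I ⊆ J) {s t s' t' : ℤ}
    (h : cls ℓ J s t = cls ℓ J s' t') : cls ℓ I s t = cls ℓ I s' t' := by
  have hd : ((∏ i ∈ I, ℓ i : ℕ) : ℤ) ∣ ((∏ i ∈ J, ℓ i : ℕ) : ℤ) := by
    exact_mod_cast Finset.prod_dvd_prod_of_subset _ _ _ hIJ
  exact Int.ModEq.of_dvd hd (show Int.ModEq _ _ _ from h)

theorem prod_pos_of_prime {M : ℕ} {ℓ : Fin M → ℕ} (hℓ : ∀ i, (ℓ i).Prime) (I : Finset (Fin M)) :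
    0 < ∏ i ∈ I, ℓ i := Finset.prod_pos fun i _ => (hℓ i).pos

theorem cls_coprime {M : ℕ} {ℓ : Fin M → ℕ} (hℓ : ∀ i, (ℓ i).Prime)
    {I : Finset (Fin M)} {t : ℤ} (ht : ∀ i ∈ I, ¬ (ℓ i : ℤ) ∣ t) :
    IsCoprime t ((∏ i ∈ I, ℓ i : ℕ) : ℤ) := by
  push_cast
  refine IsCoprime.prod_right fun i hi => ?_
  exact ((Nat.prime_iff_prime_int.1 (hℓ i)).coprime_iff_not_dvd.2 (ht i hi)).symm

theorem cls_dvd {M : ℕ} {ℓ : Fin M → ℕ} (hinj : Function.Injective ℓ) (hℓ : ∀ i, (ℓ i).Prime)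
    {I : Finset (Fin M)} {s t : ℤ} (ht : ∀ i ∈ I, ¬ (ℓ i : ℤ) ∣ t) :
    ((∏ i ∈ I, ℓ i : ℕ) : ℤ) ∣ s - cls ℓ I s t * t := by
  obtain ⟨E, hE⟩ : ∃ E, E = ∏ i, (ℓ i - 1) := ⟨_, rfl⟩
  have hE0 : 0 < E := by
    rw [hE]
    refine Finset.prod_pos fun i _ => ?_
    have := (hℓ i).two_le
    omega
  have h1 : ((∏ i ∈ I, ℓ i : ℕ) : ℤ) ∣ 1 - t ^ E := by
    push_cast
    refine Finset.prod_dvd_of_coprime ?_ ?_
    · intro i _ j _ hij
      have hne : ℓ i ≠ ℓ j := fun h => hij (hinj h)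
      have := (Nat.coprime_primes (hℓ i) (hℓ j)).2 hne
      exact Nat.isCoprime_iff_coprime.2 this
    · intro i hi
      have h2 : IsCoprime t (ℓ i : ℤ) :=
        ((Nat.prime_iff_prime_int.1 (hℓ i)).coprime_iff_not_dvd.2 (ht i hi)).symm
      have h3 := Int.ModEq.pow_card_sub_one_eq_one (hℓ i) h2
      have h4 : (ℓ i - 1) ∣ E := by
        rw [hE]; exact Finset.dvd_prod_of_mem _ (Finset.mem_univ i)
      obtain ⟨k, hk⟩ := h4
      have h5 : t ^ E ≡ 1 [ZMOD (ℓ i : ℤ)] := by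
        rw [hk, pow_mul]
        simpa using h3.pow k
      exact h5.dvd
  have h6 : cls ℓ I s t ≡ s * t ^ (E - 1) [ZMOD ((∏ i ∈ I, ℓ i : ℕ) : ℤ)] := by
    unfold cls
    rw [← hE]
    exact Int.mod_modEq _ _
  have h7 : ((∏ i ∈ I, ℓ i : ℕ) : ℤ) ∣ s * t ^ (E - 1) - cls ℓ I s t := h6.dvd
  have h8 : s - cls ℓ I s t * t = s * (1 - t ^ E) + (s * t ^ (E - 1) - cls ℓ I s t) * t := by
    have : t ^ E = t ^ (E - 1) * t := by rw [← pow_succ, Nat.sub_add_cancel hE0]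
    rw [this]; ring
  rw [h8]
  exact dvd_add (Dvd.dvd.mul_left h1 _) (Dvd.dvd.mul_right h7 _)

theorem card_image_cls {ι : Type} {M : ℕ} {ℓ : Fin M → ℕ}
    (hℓ : ∀ i, (ℓ i).Prime) (b : ℕ) (hb : ∀ i, ℓ i ≤ b) (I : Finset (Fin M)) (S : Finset ι)
    (s t : ι → ℤ) : (S.image fun P => cls ℓ I (s P) (t P)).card ≤ b ^ I.card := by
  have h0 := prod_pos_of_prime hℓ I
  have h1 : (S.image fun P => cls ℓ I (s P) (t P)) ⊆ Finset.Ico (0 : ℤ) ((∏ i ∈ I, ℓ i : ℕ) : ℤ) := by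
    intro x hx
    obtain ⟨P, _, rfl⟩ := Finset.mem_image.1 hx
    rw [Finset.mem_Ico]
    unfold cls
    exact ⟨Int.emod_nonneg _ (by exact_mod_cast h0.ne'),
      Int.emod_lt_of_pos _ (by exact_mod_cast h0)⟩
  refine (Finset.card_le_card h1).trans ?_
  rw [Int.card_Ico, sub_zero, Int.toNat_natCast]
  calc ∏ i ∈ I, ℓ i ≤ ∏ _i ∈ I, b := Finset.prod_le_prod' fun i _ => hb i
    _ = b ^ I.card := by rw [Finset.prod_const]

end Vale.Agent.P018.Q
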