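import Mathlib
import Vale.Agent.P018.Q.PairAux
import Vale.Agent.P018.Q.PairSwap
import Vale.Agent.P018.Q.PairRel
import Vale.Agent.P018.Q.PairCurve

/-! # P018, quartics, family (A): the number of points over one reduced pair (assembly). -/

namespace Vale.Agent.P018.Q

open Polynomial NumberField Finset

variable {L : Type} [Field L] [NumberField L]

/-- abbreviation for the statement of `exists_kp`. -/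
def KpStmt (θ : Fin 4 → 𝓞 L) (C C0 C1 : ℕ) : Prop :=
    ∀ (H : ℕ) (X T : ℝ) (l1 l2 : Fin 4 → ℤ) (d : Fin 2 → ℕ)
      (A B : Fin 2 → ℤ[X]) (Z : Fin 2 → Fin 4 → ℤ[X]) (Λ : ℤ[X]) (e : ℤ)
      (N : ℤ) (p : ℕ) (c : ℤ) (z : Fin 4 → ℤ) (s t : ℤ),
      2 ≤ H → X ≤ H → T ≤ H → t ≠ 0 → l1 ≠ 0 → l2 ≠ 0 → KData θ l1 l2 d A B Z Λ e →
      (∀ i k, |(A i).coeff k| ≤ (H : ℤ) ^ C0) → (∀ i k, |(B i).coeff k| ≤ (H : ℤ) ^ C0) →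
      Pt θ C X T l1 l2 N p c z s t →
      (aeval ((s : ℚ) / t) (A 1) ≠ 0 ∧
        aeval ((s : ℚ) / t) (A 1) * (N : ℚ) = aeval ((s : ℚ) / t) (B 1)) ∨
      ∃ kn kd : ℤ, KP A B Z N c s t kn kd z ∧ |kn| ≤ (H : ℤ) ^ C1 ∧ |kd| ≤ (H : ℤ) ^ C1

/-- abbreviation for the statement of `class_curves`. -/
def ClStmt (θ : Fin 4 → 𝓞 L) (C C0 : ℕ) (w m1 m2 β ε : ℝ) (Dg C1 : ℕ) (K : ℝ) : Prop :=
    ∀ (H : ℕ) (X T : ℝ) (l1 l2 : Fin 4 → ℤ)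
      (d : Fin 2 → ℕ) (A B : Fin 2 → ℤ[X]) (Z : Fin 2 → Fin 4 → ℤ[X]) (Λ : ℤ[X]) (e : ℤ)
      (q : ℕ) (σ0 : ℤ), K ≤ X → X ≤ H → X ≤ T ^ 4 → X ^ (w - ε) ≤ T → T ≤ X ^ (w + ε) →
      X ^ (2 * (m1 - ε)) ≤ dot l1 l1 → (dot l1 l1 : ℝ) ≤ X ^ (2 * (m1 + ε)) →
      X ^ (2 * (m2 - ε)) ≤ dot l2 l2 → (dot l2 l2 : ℝ) ≤ X ^ (2 * (m2 + ε)) →
      KData θ l1 l2 d A B Z Λ e →
      (∀ i k, |(A i).coeff k| ≤ (H : ℤ) ^ C0) → (∀ i k, |(B i).coeff k| ≤ (H : ℤ) ^ C0) →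
      X ^ (β - ε) ≤ q → (q : ℝ) ≤ X ^ (β + ε) → (∀ p : ℕ, p.Prime → T ^ 4 ≤ p → ¬ p ∣ q) →
      ∃ Cv : Finset (ℤ[X][X]), Cv.card ≤ C1 ∧
        (∀ g ∈ Cv, Irreducible (g.map (mapRingHom (Int.castRingHom ℚ))) ∧ BiDeg Dg Dg g ∧
          (∀ i j, |(g.coeff i).coeff j| ≤ (H : ℤ) ^ C1)) ∧
        ∀ (N : ℤ) (p : ℕ) (c : ℤ) (z : Fin 4 → ℤ) (s t kn kd : ℤ),
          Pt θ C X T l1 l2 N p c z s t → KP A B Z N c s t kn kd z →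
          IsCoprime t (q : ℤ) → (q : ℤ) ∣ s - σ0 * t →
          ∃ g ∈ Cv, ev (g.map (mapRingHom (Int.castRingHom ℚ))) ((kn : ℚ) / kd) ((s : ℚ) / t) = 0

/-- a valid curve with normal form `γ`. -/
def IsCv (H Dg C1 : ℕ) (nf : ℤ[X][X] → ℤ[X][X]) (γ g : ℤ[X][X]) : Prop :=
  nf g = γ ∧ Irreducible (g.map (mapRingHom (Int.castRingHom ℚ))) ∧ BiDeg Dg Dg g ∧
    ∀ i j, |(g.coeff i).coeff j| ≤ (H : ℤ) ^ C1

/-- `N` is determined by the point `(κ, σ)`. -/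
theorem kp_inj {A B : Fin 2 → ℤ[X]} {Z : Fin 2 → Fin 4 → ℤ[X]} {N c s t kn kd : ℤ}
    {z : Fin 4 → ℤ} {N' c' s' t' kn' kd' : ℤ} {z' : Fin 4 → ℤ}
    (h : KP A B Z N c s t kn kd z) (h' : KP A B Z N' c' s' t' kn' kd' z')
    (e1 : (kn : ℚ) / kd = kn' / kd') (e2 : (s : ℚ) / t = s' / t') : N = N' := by
  have k1 : (kd : ℚ) ≠ 0 := by exact_mod_cast h.k0
  have k2 : (kd' : ℚ) ≠ 0 := by exact_mod_cast h'.k0
  have e := h.eqN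
  have e' := h'.eqN
  have d := h.den
  rw [← e2] at e'
  obtain ⟨a0, ha0⟩ : ∃ a0, a0 = aeval ((s : ℚ) / t) (A 0) := ⟨_, rfl⟩
  obtain ⟨a1, ha1⟩ : ∃ a1, a1 = aeval ((s : ℚ) / t) (A 1) := ⟨_, rfl⟩
  obtain ⟨b0, hb0⟩ : ∃ b0, b0 = aeval ((s : ℚ) / t) (B 0) := ⟨_, rfl⟩
  obtain ⟨b1, hb1⟩ : ∃ b1, b1 = aeval ((s : ℚ) / t) (B 1) := ⟨_, rfl⟩
  rw [← ha0, ← ha1, ← hb0, ← hb1] at e e'
  rw [← ha0, ← ha1] at d
  rw [div_eq_div_iff k1 k2] at e1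
  have h1 : (kd * a0 + kn * a1) * kd' * ((N : ℚ) - N') = 0 := by
    linear_combination kd' * e - kd * e' - (a1 * N' - b1) * e1
  have h2 : (N : ℚ) - N' = 0 := (mul_eq_zero.1 h1).resolve_left (mul_ne_zero d k2)
  have h3 : (N : ℚ) = N' := sub_eq_zero.1 h2
  exact_mod_cast h3

/-- abbreviation for the statement of `curve_count`. -/
def CcStmt (θ : Fin 4 → 𝓞 L) (C Dg m C0 : ℕ) (w m1 β η ε K : ℝ) : Prop :=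
    ∀ (H : ℕ) (X T : ℝ) (l1 l2 : Fin 4 → ℤ) (d : Fin 2 → ℕ)
      (A B : Fin 2 → ℤ[X]) (Z : Fin 2 → Fin 4 → ℤ[X]) (Λ : ℤ[X]) (e : ℤ) (g : ℤ[X][X])
      (I : Finset ℕ) (x0 : ℤ) (S : Finset ℤ),
      K ≤ X → X ≤ T ^ 4 → X ^ (w - ε) ≤ T → T ≤ X ^ (w + ε) → X ≤ H → (H : ℝ) ≤ 2 * X →
      X ^ (2 * (m1 - ε)) ≤ dot l1 l1 → dot l1 l1 ≤ dot l2 l2 →
      (∀ a b : ℤ, a • l1 + b • l2 = 0 → a = 0 ∧ b = 0) → NonDeg θ l1 l2 →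
      KData θ l1 l2 d A B Z Λ e →
      (∀ i k, |(A i).coeff k| ≤ (H : ℤ) ^ C0) → (∀ i k, |(B i).coeff k| ≤ (H : ℤ) ^ C0) →
      (∀ k, |Λ.coeff k| ≤ (H : ℤ) ^ C0) →
      Irreducible (g.map (mapRingHom (Int.castRingHom ℚ))) → BiDeg Dg Dg g →
      (∀ i j, |(g.coeff i).coeff j| ≤ (H : ℤ) ^ C0) →
      (∀ ℓ ∈ I, ℓ.Prime) → I.card = m →
      X ^ (β - ε) ≤ ((∏ ℓ ∈ I, ℓ : ℕ) : ℝ) → ((∏ ℓ ∈ I, ℓ : ℕ) : ℝ) ≤ X ^ (β + ε) →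
      (∀ N ∈ S, ∃ (p : ℕ) (c : ℤ) (z : Fin 4 → ℤ) (s t kn kd : ℤ),
        Pt θ C X T l1 l2 N p c z s t ∧ KP A B Z N c s t kn kd z ∧
        |kn| ≤ (H : ℤ) ^ C0 ∧ |kd| ≤ (H : ℤ) ^ C0 ∧
        ev (g.map (mapRingHom (Int.castRingHom ℚ))) ((kn : ℚ) / kd) ((s : ℚ) / t) = 0 ∧
        (((∏ ℓ ∈ I, ℓ : ℕ) : ℤ)) ∣ s - x0 * t ∧
        (∀ ℓ ∈ I, ¬ (ℓ : ℤ) ∣ t ∧ ¬ (ℓ : ℤ) ∣ kd ∧
          ¬ (ℓ : ℤ) ∣ kd * hom 5 (A 0) s t + kn * hom 5 (A 1) s t) ∧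
        (dnum Dg g kn kd s t = 0 ∨ ∀ ℓ ∈ I, ¬ (ℓ : ℤ) ∣ dnum Dg g kn kd s t)) →
      (S.card : ℝ) ≤ K * X ^ η

/-- the count of the points of the kappa model. -/
theorem count_b {θ : Fin 4 → 𝓞 L} {C C0 C1 C2 Dg m r Bz : ℕ} {w m1 m2 β ε1 ε2 η K1 K2 : ℝ}
    (hcl : ClStmt θ C C0 w m1 m2 β ε1 Dg C1 K1) (hcc : CcStmt θ C Dg m C2 w m1 β η ε2 K2)
    (hC0 : C0 ≤ C2) (hC1 : C1 ≤ C2)
    (hbez : ∀ g Ψ : ℚ[X][X], Irreducible g → ¬ g ∣ Ψ → BiDeg Dg Dg g → BiDeg Dg Dg Ψ →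
      ∀ S : Finset (ℚ × ℚ), (∀ z ∈ S, ev g z.1 z.2 = 0 ∧ ev Ψ z.1 z.2 = 0) → S.card ≤ Bz)
    {H b : ℕ} {X T : ℝ} {l1 l2 : Fin 4 → ℤ} {d : Fin 2 → ℕ} {A B : Fin 2 → ℤ[X]}
    {Z : Fin 2 → Fin 4 → ℤ[X]} {Λ : ℤ[X]} {e : ℤ}
    (hK1 : K1 ≤ X) (hK2 : K2 ≤ X) (hXH : X ≤ H) (hHX : (H : ℝ) ≤ 2 * X) (hXT : X ≤ T ^ 4)
    (hT0 : 0 ≤ T) (hTH : T ≤ H) (hH2 : 2 ≤ H) (hCH : C ≤ H) (hDH : Dg + 1 ≤ H)
    (hT1 : X ^ (w - ε1) ≤ T) (hT1' : T ≤ X ^ (w + ε1))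
    (hT2 : X ^ (w - ε2) ≤ T) (hT2' : T ≤ X ^ (w + ε2))
    (ha1 : X ^ (2 * (m1 - ε1)) ≤ dot l1 l1) (ha2 : (dot l1 l1 : ℝ) ≤ X ^ (2 * (m1 + ε1)))
    (ha3 : X ^ (2 * (m2 - ε1)) ≤ dot l2 l2) (ha4 : (dot l2 l2 : ℝ) ≤ X ^ (2 * (m2 + ε1)))
    (ha5 : X ^ (2 * (m1 - ε2)) ≤ dot l1 l1) (hR : Red l1 l2) (hND : NonDeg θ l1 l2)
    (hK : KData θ l1 l2 d A B Z Λ e)
    (hA : ∀ i k, |(A i).coeff k| ≤ (H : ℤ) ^ C0) (hB : ∀ i k, |(B i).coeff k| ≤ (H : ℤ) ^ C0)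
    (hΛ : ∀ k, |Λ.coeff k| ≤ (H : ℤ) ^ C0)
    (hb1 : 1 ≤ b) (hlo1 : X ^ (β - ε1) ≤ (b : ℝ) ^ m)
    (hhi1 : ((2 ^ (m + 1 + 2 * r) * b : ℕ) : ℝ) ^ m ≤ X ^ (β + ε1))
    (hlo2 : X ^ (β - ε2) ≤ (b : ℝ) ^ m)
    (hhi2 : ((2 ^ (m + 1 + 2 * r) * b : ℕ) : ℝ) ^ m ≤ X ^ (β + ε2))
    (hbX : ((2 ^ (m + 1 + 2 * r) * b : ℕ) : ℝ) < X)
    (hbad1 : H ^ (3 * C2 + 16) < b ^ (r + 1))
    (hbad2 : H ^ (C2 + 2 * Dg + C2 * Dg + 3) < b ^ (r + 1))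
    (S : Finset ℤ) (hS : ∀ N ∈ S, ∃ (p : ℕ) (c : ℤ) (z : Fin 4 → ℤ) (s t kn kd : ℤ),
      Pt θ C X T l1 l2 N p c z s t ∧ KP A B Z N c s t kn kd z ∧
        |kn| ≤ (H : ℤ) ^ C2 ∧ |kd| ≤ (H : ℤ) ^ C2) :
    S.card ≤ 4 ^ (m + 1 + 2 * r) * ((2 ^ (m + 1 + 2 * r) * b) ^ (m + 1) * (C1 * C1 * Bz)) +
      2 ^ (m + 1 + 2 * r) * ((2 ^ (m + 1 + 2 * r) * b) ^ m * (C1 * ⌊K2 * X ^ η⌋₊)) := by
  classical
  obtain ⟨M, hM⟩ : ∃ M, M = m + 1 + 2 * r := ⟨_, rfl⟩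
  rw [← hM] at hhi1 hhi2 hbX ⊢
  obtain ⟨ℓ, hinj, hℓ⟩ := exists_primes_size M b hb1
  obtain ⟨nf, hnf⟩ := factor_normal
  have hH1 : (1 : ℤ) ≤ H := by exact_mod_cast (by omega : 1 ≤ H)
  have hℓp : ∀ i, (ℓ i).Prime := fun i => (hℓ i).1
  have hA2 : ∀ i k, |(A i).coeff k| ≤ (H : ℤ) ^ C2 := fun i k =>
    (hA i k).trans (pow_le_pow_right₀ hH1 hC0)
  have hB2 : ∀ i k, |(B i).coeff k| ≤ (H : ℤ) ^ C2 := fun i k =>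
    (hB i k).trans (pow_le_pow_right₀ hH1 hC0)
  have hΛ2 : ∀ k, |Λ.coeff k| ≤ (H : ℤ) ^ C2 := fun k =>
    (hΛ k).trans (pow_le_pow_right₀ hH1 hC0)
  have hdA : ∀ i, (A i).natDegree ≤ 5 := by
    intro i
    have h1 := hK.dA i
    rcases hK.dd with ⟨h2, h3⟩ | ⟨h2, h3⟩ <;> fin_cases i <;> simp_all <;> omega
  have hl2 : l2 ≠ 0 := by
    rintro rfl
    have := hR.2.2.2 0 1 (by simp)
    omega
  have hdl2 : (1 : ℝ) ≤ dot l2 l2 := by exact_mod_cast pl_dot_pos hl2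
  have hdl1 : (1 : ℝ) ≤ dot l1 l1 := by exact_mod_cast pl_dot_pos hR.1
  -- sizes of `q_I`
  have hqlo : ∀ I : Finset (Fin M), I.card = m → (b : ℝ) ^ m ≤ ((∏ i ∈ I, ℓ i : ℕ) : ℝ) := by
    intro I hI
    have h1 : b ^ m ≤ ∏ i ∈ I, ℓ i := by
      rw [← hI, ← Finset.prod_const]
      exact Finset.prod_le_prod' fun i _ => (hℓ i).2.1.le
    exact_mod_cast h1
  have hqhi : ∀ I : Finset (Fin M), I.card = m →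
      ((∏ i ∈ I, ℓ i : ℕ) : ℝ) ≤ ((2 ^ M * b : ℕ) : ℝ) ^ m := by
    intro I hI
    have h1 : ∏ i ∈ I, ℓ i ≤ (2 ^ M * b) ^ m := by
      rw [← hI, ← Finset.prod_const]
      exact Finset.prod_le_prod' fun i _ => (hℓ i).2.2
    exact_mod_cast h1
  have hqp : ∀ (I : Finset (Fin M)) (p : ℕ), p.Prime → T ^ 4 ≤ p → ¬ p ∣ ∏ i ∈ I, ℓ i := by
    intro I p hp hTp hdvd
    obtain ⟨i, _, hi⟩ := (Nat.Prime.prime hp).exists_mem_finset_dvd hdvd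
    have h1 : p = ℓ i := (Nat.prime_dvd_prime_iff_eq hp (hℓp i)).1 hi
    have h2 : (p : ℝ) ≤ ((2 ^ M * b : ℕ) : ℝ) := by
      rw [h1]; exact_mod_cast (hℓ i).2.2
    linarith
  -- the curves
  have hCv : ∀ (I : Finset (Fin M)) (c0 : ℤ), ∃ Cv : Finset (ℤ[X][X]), Cv.card ≤ C1 ∧
      (I.card = m → (∀ g ∈ Cv, Irreducible (g.map (mapRingHom (Int.castRingHom ℚ))) ∧
          BiDeg Dg Dg g ∧ (∀ i j, |(g.coeff i).coeff j| ≤ (H : ℤ) ^ C1)) ∧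
        ∀ (N : ℤ) (p : ℕ) (c : ℤ) (z : Fin 4 → ℤ) (s t kn kd : ℤ),
          Pt θ C X T l1 l2 N p c z s t → KP A B Z N c s t kn kd z →
          IsCoprime t ((∏ i ∈ I, ℓ i : ℕ) : ℤ) → ((∏ i ∈ I, ℓ i : ℕ) : ℤ) ∣ s - c0 * t →
          ∃ g ∈ Cv, ev (g.map (mapRingHom (Int.castRingHom ℚ))) ((kn : ℚ) / kd) ((s : ℚ) / t)
            = 0) := by
    intro I c0
    by_cases hI : I.card = m
    · obtain ⟨Cv, h1, h2, h3⟩ := hcl H X T l1 l2 d A B Z Λ e (∏ i ∈ I, ℓ i) c0 hK1 hXH hXT hT1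
        hT1' ha1 ha2 ha3 ha4 hK hA hB (hlo1.trans (hqlo I hI)) ((hqhi I hI).trans hhi1) (hqp I)
      exact ⟨Cv, h1, fun _ => ⟨h2, h3⟩⟩
    · exact ⟨∅, by simp, fun h => absurd h hI⟩
  choose CvZ hCv1 hCv2 using hCv
  choose! p c z s t kn kd hPt hKP hkn hkd using hS
  have hs2 : ∀ N ∈ S, |s N| ≤ (H : ℤ) ^ 2 := fun N hN =>
    pl_abs_le hdl1 (hPt N hN).hs hT0 hTH hCH (by omega)
  have ht2 : ∀ N ∈ S, |t N| ≤ (H : ℤ) ^ 2 := fun N hN =>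
    pl_abs_le hdl2 (hPt N hN).ht hT0 hTH hCH (by omega)
  obtain ⟨n1, hn1⟩ : ∃ n1 : ℤ → ℤ, ∀ N, n1 N = t N * kd N *
    (kd N * hom 5 (A 0) (s N) (t N) + kn N * hom 5 (A 1) (s N) (t N)) := ⟨_, fun _ => rfl⟩
  have hn10 : ∀ N ∈ S, n1 N ≠ 0 := fun N hN => by
    rw [hn1]
    exact mul_ne_zero (mul_ne_zero (hKP N hN).t0 (hKP N hN).k0) (pl_den_ne hdA (hKP N hN))
  have hn1l : ∀ N ∈ S, |n1 N| ≤ (H : ℤ) ^ (3 * C2 + 16) := fun N hN => by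
    rw [hn1]
    exact pl_bad_le hH2 hA2 (hs2 N hN) (ht2 N hN) (hkn N hN) (hkd N hN)
  obtain ⟨rep, hrep⟩ : ∃ rep : ℤ[X][X] → ℤ[X][X], ∀ γ g, IsCv H Dg C1 nf γ g →
      IsCv H Dg C1 nf γ (rep γ) := by
    refine ⟨fun γ => if h : ∃ g, IsCv H Dg C1 nf γ g then h.choose else 0, fun γ g hg => ?_⟩
    have h : ∃ g, IsCv H Dg C1 nf γ g := ⟨g, hg⟩
    simp only [dif_pos h]
    exact h.choose_spec
  obtain ⟨inc, hinc⟩ : ∃ inc : ℤ → ℤ[X][X] → Prop, ∀ N γ, inc N γ ↔ ∃ g, IsCv H Dg C1 nf γ g ∧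
    ev (g.map (mapRingHom (Int.castRingHom ℚ))) ((kn N : ℚ) / kd N) ((s N : ℚ) / t N) = 0 :=
    ⟨_, fun _ _ => Iff.rfl⟩
  have hrepev : ∀ N γ, inc N γ → IsCv H Dg C1 nf γ (rep γ) ∧
      ev ((rep γ).map (mapRingHom (Int.castRingHom ℚ))) ((kn N : ℚ) / kd N) ((s N : ℚ) / t N)
        = 0 := by
    intro N γ h
    obtain ⟨g, hg, hev⟩ := (hinc N γ).1 h
    have hr := hrep γ g hg
    refine ⟨hr, ?_⟩
    have has := (hnf g (rep γ) hg.2.1 hr.2.1).2 (hg.1.trans hr.1.symm)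
    exact ht_ev_of_dvd has.dvd hev
  obtain ⟨dn, hdn⟩ : ∃ dn : ℤ → ℤ[X][X] → ℤ, ∀ N γ, dn N γ =
    dnum Dg (rep γ) (kn N) (kd N) (s N) (t N) := ⟨_, fun _ _ => rfl⟩
  obtain ⟨bad, hbad⟩ : ∃ bad : ℤ → ℤ[X][X] → Finset (Fin M), ∀ N γ, bad N γ =
    if dn N γ = 0 then ∅ else Finset.univ.filter fun i => (ℓ i : ℤ) ∣ dn N γ :=
    ⟨_, fun _ _ => rfl⟩
  obtain ⟨good, hgood⟩ : ∃ good : ℤ → Finset (Fin M), ∀ N, good N =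
    Finset.univ.filter fun i => ¬ (ℓ i : ℤ) ∣ n1 N := ⟨_, fun _ => rfl⟩
  have hgt : ∀ N, ∀ I ⊆ good N, ∀ i ∈ I, ¬ (ℓ i : ℤ) ∣ t N := by
    intro N I hI i hi hd
    have h1 := hI hi
    rw [hgood, Finset.mem_filter, hn1] at h1
    exact h1.2 ((hd.mul_right _).mul_right _)
  refine swap_count M m r C1 Bz ((2 ^ M * b) ^ (m + 1)) ((2 ^ M * b) ^ m) ⌊K2 * X ^ η⌋₊ S good
    (fun I N => cls ℓ I (s N) (t N)) inc (fun I c0 => (CvZ I c0).image nf) bad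
    ?_ ?_ ?_ ?_ ?_ ?_ ?_ ?_ ?_
  · -- good primes
    intro N hN
    have h1 := few_bad_primes M (3 * C2 + 16) r H b (n1 N) ℓ hinj
      (fun i => ⟨(hℓ i).1, (hℓ i).2.1⟩) hH2 (hn10 N hN) (hn1l N hN) hbad1
    have h2 : (good N).card + (Finset.univ.filter fun i => (ℓ i : ℤ) ∣ n1 N).card = M := by
      rw [hgood, add_comm, Finset.card_filter_add_card_filter_not]
      simp
    omega
  · intro N hN γ hγ
    obtain ⟨⟨-, -, -, h4⟩, -⟩ := hrepev N γ hγ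
    rw [hbad]
    split_ifs with h0
    · simp
    · refine few_bad_primes M (C2 + 2 * Dg + C2 * Dg + 3) r H b (dn N γ) ℓ hinj
        (fun i => ⟨(hℓ i).1, (hℓ i).2.1⟩) hH2 h0 ?_ hbad2
      rw [hdn]
      exact pl_dnum_le hH2 hDH (fun i j => (h4 i j).trans (pow_le_pow_right₀ hH1 hC1))
        (hs2 N hN) (ht2 N hN) (hkn N hN) (hkd N hN)
  · intro I J P P' hIJ h
    exact cls_mono ℓ hIJ h
  · intro J hJ
    have := card_image_cls hℓp (2 ^ M * b) (fun i => (hℓ i).2.2) J S s t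
    rwa [hJ] at this
  · intro J hJ
    have := card_image_cls hℓp (2 ^ M * b) (fun i => (hℓ i).2.2) J S s t
    rwa [hJ] at this
  · intro I c0
    exact Finset.card_image_le.trans (hCv1 I c0)
  · intro N hN I hI hIm
    obtain ⟨h1, h2⟩ := hCv2 I (cls ℓ I (s N) (t N)) hIm
    obtain ⟨g, hg, hev⟩ := h2 N (p N) (c N) (z N) (s N) (t N) (kn N) (kd N) (hPt N hN) (hKP N hN)
      (cls_coprime hℓp (hgt N I hI)) (cls_dvd hinj hℓp (hgt N I hI))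
    obtain ⟨h3, h4, h5⟩ := h1 g hg
    exact ⟨nf g, Finset.mem_image_of_mem _ hg, (hinc _ _).2 ⟨g, ⟨rfl, h3, h4, h5⟩, hev⟩⟩
  · intro γ γ' hne S' hS' hS''
    rcases S'.eq_empty_or_nonempty with rfl | ⟨N0, hN0⟩
    · simp
    obtain ⟨hr1, -⟩ := hrepev N0 γ (hS'' N0 hN0).1
    obtain ⟨hr2, -⟩ := hrepev N0 γ' (hS'' N0 hN0).2
    have hnd : ¬ (rep γ).map (mapRingHom (Int.castRingHom ℚ)) ∣
        (rep γ').map (mapRingHom (Int.castRingHom ℚ)) := by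
      intro hd
      have h1 := hr1.2.1.associated_of_dvd hr2.2.1 hd
      have h2 := (hnf _ _ hr1.2.1 hr2.2.1).1 h1
      rw [hr1.1, hr2.1] at h2
      exact hne h2
    have hbd : ∀ g : ℤ[X][X], BiDeg Dg Dg g →
        BiDeg Dg Dg (g.map (mapRingHom (Int.castRingHom ℚ))) := by
      intro g hg
      refine ⟨natDegree_map_le.trans hg.1, fun i => ?_⟩
      rw [coeff_map]
      exact natDegree_map_le.trans (hg.2 i)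
    have h3 := hbez _ _ hr1.2.1 hnd (hbd _ hr1.2.2.1) (hbd _ hr2.2.2.1)
      (S'.image fun N => ((kn N : ℚ) / kd N, (s N : ℚ) / t N)) ?_
    · rwa [Finset.card_image_of_injOn] at h3
      intro N hN N' hN' heq
      have h4 := Prod.ext_iff.1 heq
      exact kp_inj (hKP N (hS' hN)) (hKP N' (hS' hN')) h4.1 h4.2
    · intro y hy
      obtain ⟨N, hN, rfl⟩ := Finset.mem_image.1 hy
      exact ⟨(hrepev N γ (hS'' N hN).1).2, (hrepev N γ' (hS'' N hN).2).2⟩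
  · intro I hI c0 γ S' hS' hS''
    rcases S'.eq_empty_or_nonempty with rfl | ⟨N0, hN0⟩
    · simp
    obtain ⟨hr1, -⟩ := hrepev N0 γ (hS'' N0 hN0).1
    have hpr : ∏ x ∈ I.image ℓ, x = ∏ i ∈ I, ℓ i := Finset.prod_image fun x _ y _ h => hinj h
    refine Nat.le_floor ?_
    refine hcc H X T l1 l2 d A B Z Λ e (rep γ) (I.image ℓ) c0 S' hK2 hXT hT2 hT2' hXH hHX ha5
      hR.2.1 hR.2.2.2 hND hK hA2 hB2 hΛ2 hr1.2.1 hr1.2.2.1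
      (fun i j => (hr1.2.2.2 i j).trans (pow_le_pow_right₀ hH1 hC1)) ?_ ?_ ?_ ?_ ?_
    · intro x hx
      obtain ⟨i, _, rfl⟩ := Finset.mem_image.1 hx
      exact hℓp i
    · rw [Finset.card_image_of_injective _ hinj, hI]
    · rw [hpr]
      exact hlo2.trans (hqlo I hI)
    · rw [hpr]
      exact (hqhi I hI).trans hhi2
    · intro N hN
      obtain ⟨h1, h2, h3, h4⟩ := hS'' N hN
      have hNS := hS' hN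
      refine ⟨p N, c N, z N, s N, t N, kn N, kd N, hPt N hNS, hKP N hNS, hkn N hNS, hkd N hNS,
        (hrepev N γ h1).2, ?_, ?_, ?_⟩
      · rw [hpr, ← h4]
        exact cls_dvd hinj hℓp (hgt N I h2)
      · intro x hx
        obtain ⟨i, hi, rfl⟩ := Finset.mem_image.1 hx
        have h5 := h2 hi
        rw [hgood, Finset.mem_filter, hn1] at h5
        exact ⟨fun h => h5.2 ((h.mul_right _).mul_right _),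
          fun h => h5.2 ((h.mul_left _).mul_right _), fun h => h5.2 (h.mul_left _)⟩
      · by_cases h0 : dn N γ = 0
        · left
          rw [← hdn]
          exact h0
        · right
          intro x hx
          obtain ⟨i, hi, rfl⟩ := Finset.mem_image.1 hx
          rw [← hdn]
          intro h6
          have h7 : i ∈ bad N γ := by
            rw [hbad, if_neg h0, Finset.mem_filter]
            exact ⟨Finset.mem_univ _, h6⟩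
          exact Finset.disjoint_left.1 h3 hi h7

end Vale.Agent.P018.Q
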