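import Mathlib
import Vale.Agent.P018.Q.PairLocal
import Vale.Agent.P018.Q.GapCurves

/-! # P018, quartics, family (A): the number of points over one reduced pair (conclusion). -/

namespace Vale.Agent.P018.Q

open Polynomial NumberField Finset

variable {L : Type} [Field L] [NumberField L]

/-- all numerical inequalities for large `X`. -/
structure PlNum (β η η0 ε w m1 Kg K1n K2 : ℝ) (m r C1 Bz Cb : ℕ) (X : ℝ) : Prop where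
  f1 : (2 : ℝ) ^ m * X ^ (β - ε) < X ^ β
  f2 : ((2 : ℝ) ^ (m + 1 + 2 * r)) ^ m * X ^ β < X ^ (β + ε)
  f3 : (2 : ℝ) ^ (m + 1 + 2 * r) * X ^ η0 < X ^ (1 : ℝ)
  f4 : (2 : ℝ) ^ Cb * 2 ^ (r + 1) * X ^ (Cb : ℝ) < X ^ (η0 * ((r + 1 : ℕ) : ℝ))
  f5 : 3 * Kg * X ^ (β / 2) < X ^ (β + η)
  f6 : (3 * 4 ^ (m + 1 + 2 * r) * (2 ^ (m + 1 + 2 * r)) ^ (m + 1) * C1 * C1 * Bz) * X ^ (β + η / 4)
    < X ^ (β + η)
  f7 : (3 * 2 ^ (m + 1 + 2 * r) * (2 ^ (m + 1 + 2 * r)) ^ m * C1 * K2) * X ^ (β + η / 4)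
    < X ^ (β + η)
  f8 : K1n * X ^ (4 * (m1 + ε)) < X ^ (4 * (w - ε))
  f9 : 4 * X ^ (w + ε) < X ^ (1 : ℝ)
  f10 : 2 * X ^ (0 : ℝ) < X ^ η0

theorem plNum_eventually {β η η0 ε w m1 Kg K1n K2 : ℝ} {m r C1 Bz Cb : ℕ} (hβ : 0 < β)
    (hη : 0 < η) (hη0 : 0 < η0) (hη1 : η0 < 1) (hε : 0 < ε)
    (hr : (Cb : ℝ) < η0 * ((r + 1 : ℕ) : ℝ)) (h8 : 4 * (m1 + ε) < 4 * (w - ε)) (h9 : w + ε < 1) :
    ∀ᶠ X : ℝ in Filter.atTop, PlNum β η η0 ε w m1 Kg K1n K2 m r C1 Bz Cb X := by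
  filter_upwards [pl_rpow (2 ^ m) (β - ε) β (by linarith),
    pl_rpow ((2 ^ (m + 1 + 2 * r)) ^ m) β (β + ε) (by linarith),
    pl_rpow (2 ^ (m + 1 + 2 * r)) η0 1 hη1,
    pl_rpow (2 ^ Cb * 2 ^ (r + 1)) (Cb : ℝ) (η0 * ((r + 1 : ℕ) : ℝ)) hr,
    pl_rpow (3 * Kg) (β / 2) (β + η) (by linarith),
    pl_rpow (3 * 4 ^ (m + 1 + 2 * r) * (2 ^ (m + 1 + 2 * r)) ^ (m + 1) * C1 * C1 * Bz) (β + η / 4)
      (β + η) (by linarith),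
    pl_rpow (3 * 2 ^ (m + 1 + 2 * r) * (2 ^ (m + 1 + 2 * r)) ^ m * C1 * K2) (β + η / 4)
      (β + η) (by linarith),
    pl_rpow K1n (4 * (m1 + ε)) (4 * (w - ε)) h8,
    pl_rpow 4 (w + ε) 1 h9, pl_rpow 2 0 η0 hη0] with X h1 h2 h3 h4 h5 h6 h7 h8 h9 h10
  exact ⟨h1, h2, h3, h4, h5, h6, h7, h8, h9, h10⟩

/-- the numbers attached to `b = ⌊X ^ η0⌋₊`. -/
theorem pl_size {β η η0 ε w m1 Kg K1n K2 : ℝ} {m r C1 Bz Cb : ℕ} {X : ℝ}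
    (hf : PlNum β η η0 ε w m1 Kg K1n K2 m r C1 Bz Cb X) (hX1 : 1 ≤ X) (hη0m : η0 * m = β)
    (hη04 : η0 ≤ η / 4) :
    ∃ b : ℕ, 1 ≤ b ∧ X ^ (β - ε) ≤ (b : ℝ) ^ m ∧
      ((2 ^ (m + 1 + 2 * r) * b : ℕ) : ℝ) ^ m ≤ X ^ (β + ε) ∧
      ((2 ^ (m + 1 + 2 * r) * b : ℕ) : ℝ) < X ∧
      (∀ H : ℕ, (H : ℝ) ≤ 2 * X → H ^ Cb < b ^ (r + 1)) ∧
      ((2 ^ (m + 1 + 2 * r) * b : ℕ) : ℝ) ^ (m + 1) ≤
        (2 ^ (m + 1 + 2 * r)) ^ (m + 1) * X ^ (β + η / 4) ∧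
      ((2 ^ (m + 1 + 2 * r) * b : ℕ) : ℝ) ^ m ≤ (2 ^ (m + 1 + 2 * r)) ^ m * X ^ β := by
  obtain ⟨f1, f2, f3, f4, -, -, -, -, -, f10⟩ := hf
  have hX0 : 0 < X := by linarith
  rw [Real.rpow_one] at f3
  rw [Real.rpow_zero, mul_one] at f10
  obtain ⟨b, hbdef⟩ : ∃ b, b = ⌊X ^ η0⌋₊ := ⟨_, rfl⟩
  have hbX : (b : ℝ) ≤ X ^ η0 := by rw [hbdef]; exact Nat.floor_le (Real.rpow_nonneg hX0.le _)
  have hbX' : X ^ η0 < b + 1 := by rw [hbdef]; exact Nat.lt_floor_add_one _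
  have hbh : X ^ η0 / 2 ≤ b := by linarith
  have hb1 : 1 ≤ b := by
    have h2 : (1 : ℝ) < b := by linarith
    exact_mod_cast h2.le
  have hXη0 : 0 < X ^ η0 := Real.rpow_pos_of_pos hX0 _
  have hpm : (X ^ η0) ^ m = X ^ β := by
    rw [← Real.rpow_natCast, ← Real.rpow_mul hX0.le, hη0m]
  have hM2 : ((2 ^ (m + 1 + 2 * r) * b : ℕ) : ℝ) ≤ 2 ^ (m + 1 + 2 * r) * X ^ η0 := by
    push_cast
    exact mul_le_mul_of_nonneg_left hbX (by positivity)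
  have hhm : ((2 ^ (m + 1 + 2 * r) * b : ℕ) : ℝ) ^ m ≤ (2 ^ (m + 1 + 2 * r)) ^ m * X ^ β := by
    calc ((2 ^ (m + 1 + 2 * r) * b : ℕ) : ℝ) ^ m
        ≤ (2 ^ (m + 1 + 2 * r) * X ^ η0) ^ m := pow_le_pow_left₀ (by positivity) hM2 _
      _ = (2 ^ (m + 1 + 2 * r)) ^ m * X ^ β := by rw [mul_pow, hpm]
  refine ⟨b, hb1, ?_, hhm.trans f2.le, lt_of_le_of_lt hM2 f3, ?_, ?_, hhm⟩
  · have h1 : (X ^ η0 / 2) ^ m ≤ (b : ℝ) ^ m := pow_le_pow_left₀ (by positivity) hbh m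
    rw [div_pow, hpm] at h1
    refine le_trans ?_ h1
    rw [le_div_iff₀ (by positivity)]
    linarith
  · intro H hHX
    have h1 : (H : ℝ) ^ Cb < (b : ℝ) ^ (r + 1) := by
      have h2 : (H : ℝ) ^ Cb ≤ 2 ^ Cb * X ^ (Cb : ℝ) := by
        rw [Real.rpow_natCast, ← mul_pow]
        exact pow_le_pow_left₀ (by positivity) hHX _
      have h3 : X ^ (η0 * ((r + 1 : ℕ) : ℝ)) / 2 ^ (r + 1) ≤ (b : ℝ) ^ (r + 1) := by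
        have h4 : (X ^ η0 / 2) ^ (r + 1) ≤ (b : ℝ) ^ (r + 1) :=
          pow_le_pow_left₀ (by positivity) hbh _
        rwa [div_pow, ← Real.rpow_natCast (X ^ η0), ← Real.rpow_mul hX0.le] at h4
      refine lt_of_le_of_lt h2 (lt_of_lt_of_le ?_ h3)
      rw [lt_div_iff₀ (by positivity)]
      calc 2 ^ Cb * X ^ (Cb : ℝ) * 2 ^ (r + 1) = 2 ^ Cb * 2 ^ (r + 1) * X ^ (Cb : ℝ) := by ring
        _ < _ := f4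
    exact_mod_cast h1
  · calc ((2 ^ (m + 1 + 2 * r) * b : ℕ) : ℝ) ^ (m + 1)
        ≤ (2 ^ (m + 1 + 2 * r) * X ^ η0) ^ (m + 1) := pow_le_pow_left₀ (by positivity) hM2 _
      _ = (2 ^ (m + 1 + 2 * r)) ^ (m + 1) * (X ^ β * X ^ η0) := by
          rw [mul_pow, pow_succ (X ^ η0), hpm]
      _ = (2 ^ (m + 1 + 2 * r)) ^ (m + 1) * X ^ (β + η0) := by rw [← Real.rpow_add hX0]
      _ ≤ _ := mul_le_mul_of_nonneg_left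
          (Real.rpow_le_rpow_of_exponent_le hX1 (by linarith)) (by positivity)

/-- the final summation. -/
theorem pl_final {β η η0 ε w m1 Kg K1n K2 : ℝ} {m r C1 Bz Cb : ℕ} {X : ℝ}
    (hf : PlNum β η η0 ε w m1 Kg K1n K2 m r C1 Bz Cb X) (hX1 : 1 ≤ X) (hK2 : 0 < K2)
    {b sa sb : ℕ} (hsa : (sa : ℝ) ≤ Kg * X ^ (β / 2))
    (hq1 : ((2 ^ (m + 1 + 2 * r) * b : ℕ) : ℝ) ^ (m + 1) ≤
        (2 ^ (m + 1 + 2 * r)) ^ (m + 1) * X ^ (β + η / 4))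
    (hq0 : ((2 ^ (m + 1 + 2 * r) * b : ℕ) : ℝ) ^ m ≤ (2 ^ (m + 1 + 2 * r)) ^ m * X ^ β)
    (hsb : sb ≤ 4 ^ (m + 1 + 2 * r) * ((2 ^ (m + 1 + 2 * r) * b) ^ (m + 1) * (C1 * C1 * Bz)) +
      2 ^ (m + 1 + 2 * r) * ((2 ^ (m + 1 + 2 * r) * b) ^ m * (C1 * ⌊K2 * X ^ (η / 4)⌋₊))) :
    ((sa + sb : ℕ) : ℝ) ≤ X ^ (β + η) := by
  obtain ⟨-, -, -, -, f5, f6, f7, -, -, -⟩ := hf
  have hX0 : 0 < X := by linarith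
  have hSb2 : (sb : ℝ) ≤ 4 ^ (m + 1 + 2 * r) *
      (((2 ^ (m + 1 + 2 * r) * b : ℕ) : ℝ) ^ (m + 1) * (C1 * C1 * Bz)) +
      2 ^ (m + 1 + 2 * r) * (((2 ^ (m + 1 + 2 * r) * b : ℕ) : ℝ) ^ m *
        (C1 * (⌊K2 * X ^ (η / 4)⌋₊ : ℝ))) := by
    exact_mod_cast hsb
  have hfl : (⌊K2 * X ^ (η / 4)⌋₊ : ℝ) ≤ K2 * X ^ (η / 4) :=
    Nat.floor_le (mul_nonneg hK2.le (Real.rpow_nonneg hX0.le _))
  have hT1' : 4 ^ (m + 1 + 2 * r) *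
      (((2 ^ (m + 1 + 2 * r) * b : ℕ) : ℝ) ^ (m + 1) * (C1 * C1 * Bz)) ≤ X ^ (β + η) / 3 := by
    have h1 : (4 : ℝ) ^ (m + 1 + 2 * r) *
      (((2 ^ (m + 1 + 2 * r) * b : ℕ) : ℝ) ^ (m + 1) * (C1 * C1 * Bz)) ≤
        4 ^ (m + 1 + 2 * r) * (((2 ^ (m + 1 + 2 * r)) ^ (m + 1) * X ^ (β + η / 4)) *
          (C1 * C1 * Bz)) :=
      mul_le_mul_of_nonneg_left (mul_le_mul_of_nonneg_right hq1 (by positivity)) (by positivity)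
    refine h1.trans ?_
    rw [le_div_iff₀ (by norm_num)]
    refine le_trans (le_of_eq ?_) f6.le
    ring
  have hT2' : 2 ^ (m + 1 + 2 * r) * (((2 ^ (m + 1 + 2 * r) * b : ℕ) : ℝ) ^ m *
        (C1 * (⌊K2 * X ^ (η / 4)⌋₊ : ℝ))) ≤ X ^ (β + η) / 3 := by
    have h1 : (2 : ℝ) ^ (m + 1 + 2 * r) * (((2 ^ (m + 1 + 2 * r) * b : ℕ) : ℝ) ^ m *
        (C1 * (⌊K2 * X ^ (η / 4)⌋₊ : ℝ))) ≤
        2 ^ (m + 1 + 2 * r) * (((2 ^ (m + 1 + 2 * r)) ^ m * X ^ β) *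
          (C1 * (K2 * X ^ (η / 4)))) := by
      refine mul_le_mul_of_nonneg_left (mul_le_mul hq0 ?_ (by positivity) (by positivity))
        (by positivity)
      exact mul_le_mul_of_nonneg_left hfl (Nat.cast_nonneg _)
    refine h1.trans ?_
    rw [le_div_iff₀ (by norm_num)]
    refine le_trans (le_of_eq ?_) f7.le
    rw [Real.rpow_add hX0]
    ring
  have hfin : Kg * X ^ (β / 2) ≤ X ^ (β + η) / 3 := by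
    rw [le_div_iff₀ (by norm_num)]
    linarith
  push_cast
  linarith

/-- nondegeneracy of the pair. -/
theorem pl_nondeg {G : ℤ[X]} {θ : Fin 4 → 𝓞 L} (hF : Fld G θ) {C : ℕ} {K1n ε w m1 X T : ℝ}
    {l1 l2 : Fin 4 → ℤ} (hK1n : 1 ≤ K1n)
    (hnorm : ∀ l : Fin 4 → ℤ, l ≠ 0 → ∃ N1 : ℤ, N1 ≠ 0 ∧ ∏ j, K.ell (θ j) l = (N1 : 𝓞 L) ∧
      |(N1 : ℝ)| ≤ K1n * (dot l l : ℝ) ^ 2) (hX1 : 1 ≤ X) (hXT : X ≤ T ^ 4)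
    (hT1 : X ^ (w - ε) ≤ T) (hR : Red l1 l2) (ha2 : (dot l1 l1 : ℝ) ≤ X ^ (2 * (m1 + ε)))
    (f8 : K1n * X ^ (4 * (m1 + ε)) < X ^ (4 * (w - ε))) (hXC : (C : ℝ) + 1 ≤ X)
    {N : ℤ} {p : ℕ} {c : ℤ} {z : Fin 4 → ℤ} {s t : ℤ} (hP : Pt θ C X T l1 l2 N p c z s t) :
    NonDeg θ l1 l2 ∧ t ≠ 0 := by
  have hX0 : 0 < X := by linarith
  obtain ⟨c', hc', hc'C, hprod⟩ := hP.dat.nrm
  obtain ⟨N1, -, hN1, hN1b⟩ := hnorm l1 hR.1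
  have hpX : X ≤ p := hXT.trans hP.dat.lo
  refine nonDeg_of_dat G hF.monic hF.deg hF.irr θ hF.inj hF.split hR.2.2.2 hP.dat.prime hc' ?_
    hN1 ?_ hprod
  · have h1 : (|c'| : ℝ) ≤ C := by exact_mod_cast hc'C
    have h2 : (|c'| : ℝ) < p := by linarith
    exact_mod_cast h2
  · have h1 : (dot l1 l1 : ℝ) ^ 2 ≤ X ^ (4 * (m1 + ε)) := by
      have h2 : (0 : ℝ) ≤ dot l1 l1 := by exact_mod_cast pl_dot_nonneg l1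
      calc (dot l1 l1 : ℝ) ^ 2 ≤ (X ^ (2 * (m1 + ε))) ^ 2 := pow_le_pow_left₀ h2 ha2 2
        _ = X ^ (4 * (m1 + ε)) := by
          rw [← Real.rpow_natCast, ← Real.rpow_mul hX0.le]
          congr 1; push_cast; ring
    have h3 : X ^ (4 * (w - ε)) ≤ T ^ 4 := by
      calc X ^ (4 * (w - ε)) = (X ^ (w - ε)) ^ 4 := by
            rw [← Real.rpow_natCast, ← Real.rpow_mul hX0.le]
            congr 1; push_cast; ring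
        _ ≤ T ^ 4 := pow_le_pow_left₀ (Real.rpow_nonneg hX0.le _) hT1 4
    have h4 : |(N1 : ℝ)| < p := by
      calc |(N1 : ℝ)| ≤ K1n * (dot l1 l1 : ℝ) ^ 2 := hN1b
        _ ≤ K1n * X ^ (4 * (m1 + ε)) := mul_le_mul_of_nonneg_left h1 (by linarith)
        _ < X ^ (4 * (w - ε)) := f8
        _ ≤ T ^ 4 := h3
        _ ≤ p := hP.dat.lo
    exact_mod_cast h4

/-- abbreviation for the statement of `gap_sigma` with fixed constants. -/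
def GsStmt (θ : Fin 4 → 𝓞 L) (D C : ℕ) (ε K : ℝ) : Prop :=
    ∀ (H : ℕ) (X T : ℝ) (l1 l2 : Fin 4 → ℤ) (A B Λ : ℤ[X]) (S : Finset ℤ),
      2 ≤ H → 1 ≤ X → X ≤ T ^ 4 → (H : ℝ) ≤ T ^ 4 → T ≤ H → X ≤ H →
      (∀ a b : ℤ, a • l1 + b • l2 = 0 → a = 0 ∧ b = 0) →
      Λ.map (algebraMap ℤ (𝓞 L)) = ∏ j, piPoly θ l1 l2 j →
      A.natDegree ≤ D → B.natDegree ≤ D →
      (∀ i, |A.coeff i| ≤ (H : ℤ) ^ C) → (∀ i, |B.coeff i| ≤ (H : ℤ) ^ C) →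
      (∀ i, |Λ.coeff i| ≤ (H : ℤ) ^ C) →
      (∀ N ∈ S, ∃ (p : ℕ) (c : ℤ) (z : Fin 4 → ℤ) (s t : ℤ), Pt θ C X T l1 l2 N p c z s t ∧
        t ≠ 0 ∧ aeval ((s : ℚ) / t) A ≠ 0 ∧
        aeval ((s : ℚ) / t) A * (N : ℚ) = aeval ((s : ℚ) / t) B) →
      (S.card : ℝ) ≤ K * (H : ℝ) ^ ε

/-- the points with `A(σ) N = B(σ)`. -/
theorem pl_case_a {θ : Fin 4 → 𝓞 L} {C C0 : ℕ} {δ Kg X T : ℝ} (hδ : 0 ≤ δ) (hKg : 0 ≤ Kg)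
    (hgs : GsStmt θ 5 (2 * C + 2 * C0) δ Kg)
    {l1 l2 : Fin 4 → ℤ} {A B Λ : ℤ[X]} {S : Finset ℤ} (hX8 : 8 ≤ X) (hXT : X ≤ T ^ 4)
    (hT0 : 0 ≤ T) (hTX : T ≤ X / 4) (hR : Red l1 l2)
    (hΛ : Λ.map (algebraMap ℤ (𝓞 L)) = ∏ j, piPoly θ l1 l2 j)
    (hdA : A.natDegree ≤ 5) (hdB : B.natDegree ≤ 5)
    (hA : ∀ i, |A.coeff i| ≤ (⌈X⌉₊ : ℤ) ^ C0) (hB : ∀ i, |B.coeff i| ≤ (⌈X⌉₊ : ℤ) ^ C0)
    (hΛ' : ∀ i, |Λ.coeff i| ≤ (⌈X⌉₊ : ℤ) ^ C0)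
    (hS : ∀ N ∈ S, ∃ (p : ℕ) (c : ℤ) (z : Fin 4 → ℤ) (s t : ℤ), Pt θ C X T l1 l2 N p c z s t ∧
        t ≠ 0 ∧ aeval ((s : ℚ) / t) A ≠ 0 ∧
        aeval ((s : ℚ) / t) A * (N : ℚ) = aeval ((s : ℚ) / t) B) :
    (S.card : ℝ) ≤ Kg * X ^ δ := by
  have hX0 : 0 < X := by linarith
  obtain ⟨H', hH'def⟩ : ∃ H', H' = ⌊X⌋₊ := ⟨_, rfl⟩
  have hH'X : (H' : ℝ) ≤ X := by rw [hH'def]; exact Nat.floor_le hX0.le
  have hXH' : X < H' + 1 := by rw [hH'def]; exact Nat.lt_floor_add_one X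
  have hH'2 : 2 ≤ H' := by
    have : (1 : ℝ) < H' := by linarith
    exact_mod_cast this
  have hHH' : ⌈X⌉₊ ≤ H' ^ 2 := by
    have h1 : ⌈X⌉₊ ≤ H' + 1 := by
      rw [hH'def]; exact Nat.ceil_le_floor_add_one X
    nlinarith
  have hpow : (⌈X⌉₊ : ℤ) ^ C0 ≤ (H' : ℤ) ^ (2 * C + 2 * C0) := by
    have h1 : ⌈X⌉₊ ^ C0 ≤ H' ^ (2 * C + 2 * C0) := by
      calc ⌈X⌉₊ ^ C0 ≤ (H' ^ 2) ^ C0 := Nat.pow_le_pow_left hHH' _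
        _ = H' ^ (2 * C0) := by rw [← pow_mul]
        _ ≤ H' ^ (2 * C + 2 * C0) := Nat.pow_le_pow_right (by omega) (by omega)
    exact_mod_cast h1
  have h1 := hgs H' (X / 2) T l1 l2 A B Λ S hH'2 (by linarith) (by linarith)
    (hH'X.trans hXT) (by linarith) (by linarith) hR.2.2.2 hΛ hdA hdB
    (fun i => (hA i).trans hpow) (fun i => (hB i).trans hpow)
    (fun i => (hΛ' i).trans hpow) ?_
  · refine h1.trans (mul_le_mul_of_nonneg_left ?_ hKg)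
    exact Real.rpow_le_rpow (Nat.cast_nonneg _) hH'X hδ
  · intro N hN
    obtain ⟨p, c, z, s, t, hP, ht, h2, h3⟩ := hS N hN
    exact ⟨p, c, z, s, t, hP.half (by omega) hX0.le hT0, ht, h2, h3⟩

theorem pl_lH {X : ℝ} (hX1 : 1 ≤ X) (l : Fin 4 → ℤ) (a : ℝ) (ha : a ≤ 1)
    (hl : (dot l l : ℝ) ≤ X ^ (2 * a)) (j : Fin 4) : |l j| ≤ (⌈X⌉₊ : ℤ) := by
  have h1 : ((l j : ℤ) : ℝ) ^ 2 ≤ (⌈X⌉₊ : ℝ) ^ 2 := by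
    have h2 : ((l j * l j : ℤ) : ℝ) ≤ dot l l := by exact_mod_cast pl_sq_le_dot l j
    push_cast at h2
    have h3 : X ^ (2 * a) ≤ X ^ (2 : ℝ) := Real.rpow_le_rpow_of_exponent_le hX1 (by linarith)
    rw [Real.rpow_two] at h3
    have h4 : X ^ 2 ≤ (⌈X⌉₊ : ℝ) ^ 2 := pow_le_pow_left₀ (by linarith) (Nat.le_ceil X) 2
    nlinarith
  have h5 : |((l j : ℤ) : ℝ)| ≤ (⌈X⌉₊ : ℝ) := abs_le_of_sq_le_sq h1 (by positivity)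
  exact_mod_cast h5

/-- the local count for fixed constants. -/
theorem pl_main {G : ℤ[X]} {θ : Fin 4 → 𝓞 L} (hF : Fld G θ)
    {C C0 Ckp C1 Dg m r Bz Cb : ℕ} {w m1 m2 β η η0 ε1 ε2 ε K1 K2 Kg K1n : ℝ}
    (hC0 : ∀ (H : ℕ) (l1 l2 : Fin 4 → ℤ), 2 ≤ H → l1 ≠ 0 → (∀ j, |l1 j| ≤ H) →
      (∀ j, |l2 j| ≤ H) → NonDeg θ l1 l2 →
      ∃ (d : Fin 2 → ℕ) (A B : Fin 2 → ℤ[X]) (Z : Fin 2 → Fin 4 → ℤ[X]) (Λ : ℤ[X]) (c : ℤ),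
        KData θ l1 l2 d A B Z Λ c ∧ |c| ≤ (H : ℤ) ^ C0 ∧
        (∀ i k, |(A i).coeff k| ≤ (H : ℤ) ^ C0) ∧ (∀ i k, |(B i).coeff k| ≤ (H : ℤ) ^ C0) ∧
        (∀ i m k, |(Z i m).coeff k| ≤ (H : ℤ) ^ C0) ∧ (∀ k, |Λ.coeff k| ≤ (H : ℤ) ^ C0))
    (hkp : KpStmt θ C C0 Ckp) (hcl : ClStmt θ C C0 w m1 m2 β ε1 Dg C1 K1)
    (hcc : CcStmt θ C Dg m (C0 + Ckp + C1) w m1 β (η / 4) ε2 K2)
    (hbez : ∀ g Ψ : ℚ[X][X], Irreducible g → ¬ g ∣ Ψ → BiDeg Dg Dg g → BiDeg Dg Dg Ψ →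
      ∀ S : Finset (ℚ × ℚ), (∀ z ∈ S, ev g z.1 z.2 = 0 ∧ ev Ψ z.1 z.2 = 0) → S.card ≤ Bz)
    (hgs : GsStmt θ 5 (2 * C + 2 * C0) (β / 2) Kg)
    (hK1n : 1 ≤ K1n)
    (hnorm : ∀ l : Fin 4 → ℤ, l ≠ 0 → ∃ N1 : ℤ, N1 ≠ 0 ∧ ∏ j, K.ell (θ j) l = (N1 : 𝓞 L) ∧
      |(N1 : ℝ)| ≤ K1n * (dot l l : ℝ) ^ 2)
    (hβ : 0 < β) (hKg : 0 < Kg) (hK2 : 0 < K2) (hη0m : η0 * m = β) (hη04 : η0 ≤ η / 4)
    (hεε1 : ε ≤ ε1) (hεε2 : ε ≤ ε2) (hm1ε : m1 + ε ≤ 1) (hm2ε : m2 + ε ≤ 1)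
    (hCb : Cb = (3 * (C0 + Ckp + C1) + 16) +
      ((C0 + Ckp + C1) + 2 * Dg + (C0 + Ckp + C1) * Dg + 3))
    {X T : ℝ} {l1 l2 : Fin 4 → ℤ}
    (hf : PlNum β η η0 ε w m1 Kg K1n K2 m r C1 Bz Cb X)
    (hX8 : 8 ≤ X) (hXK1 : K1 ≤ X) (hXK2 : K2 ≤ X) (hXC : (C : ℝ) + 1 ≤ X) (hXD : (Dg : ℝ) + 1 ≤ X)
    (hXT : X ≤ T ^ 4) (hT1 : X ^ (w - ε) ≤ T) (hT2 : T ≤ X ^ (w + ε)) (hR : Red l1 l2)
    (ha1 : X ^ (2 * (m1 - ε)) ≤ dot l1 l1) (ha2 : (dot l1 l1 : ℝ) ≤ X ^ (2 * (m1 + ε)))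
    (ha3 : X ^ (2 * (m2 - ε)) ≤ dot l2 l2) (ha4 : (dot l2 l2 : ℝ) ≤ X ^ (2 * (m2 + ε)))
    (S : Finset ℤ) (hS : ∀ N ∈ S, ∃ (p : ℕ) (c : ℤ) (z : Fin 4 → ℤ) (s t : ℤ),
        Pt θ C X T l1 l2 N p c z s t) : (S.card : ℝ) ≤ X ^ (β + η) := by
  classical
  have hX1 : 1 ≤ X := by linarith
  have hX0 : 0 < X := by linarith
  have mono : ∀ a b : ℝ, a ≤ b → X ^ a ≤ X ^ b := fun a b h =>
    Real.rpow_le_rpow_of_exponent_le hX1 h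
  have hT0 : 0 < T := (Real.rpow_pos_of_pos hX0 _).trans_le hT1
  rcases S.eq_empty_or_nonempty with rfl | ⟨N0, hN0⟩
  · rw [Finset.card_empty, Nat.cast_zero]
    exact Real.rpow_nonneg hX0.le _
  have hl2 : l2 ≠ 0 := by
    rintro rfl
    have := hR.2.2.2 0 1 (by simp)
    omega
  have hnd : ∀ (N : ℤ) (p : ℕ) (c : ℤ) (z : Fin 4 → ℤ) (s t : ℤ), Pt θ C X T l1 l2 N p c z s t →
      NonDeg θ l1 l2 ∧ t ≠ 0 := fun N p c z s t hP =>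
    pl_nondeg hF hK1n hnorm hX1 hXT hT1 hR ha2 hf.f8 hXC hP
  have hND : NonDeg θ l1 l2 := by
    obtain ⟨p, c, z, s, t, hP⟩ := hS N0 hN0
    exact (hnd N0 p c z s t hP).1
  have hXH : X ≤ (⌈X⌉₊ : ℝ) := Nat.le_ceil X
  have hH1 : (⌈X⌉₊ : ℝ) < X + 1 := Nat.ceil_lt_add_one hX0.le
  have hHX : (⌈X⌉₊ : ℝ) ≤ 2 * X := by linarith
  have hH2 : 2 ≤ ⌈X⌉₊ := by
    have : (2 : ℝ) ≤ (⌈X⌉₊ : ℝ) := by linarith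
    exact_mod_cast this
  have hTX : T ≤ X / 4 := by
    have := hf.f9
    rw [Real.rpow_one] at this
    linarith
  have hTH : T ≤ (⌈X⌉₊ : ℝ) := by linarith
  have hCH : C ≤ ⌈X⌉₊ := by
    have : (C : ℝ) ≤ (⌈X⌉₊ : ℝ) := by linarith
    exact_mod_cast this
  have hDH : Dg + 1 ≤ ⌈X⌉₊ := by
    have : (Dg : ℝ) + 1 ≤ (⌈X⌉₊ : ℝ) := by linarith
    exact_mod_cast this
  obtain ⟨d, A, B, Z, Λ, e, hKD, -, hA, hB, -, hΛ⟩ := hC0 ⌈X⌉₊ l1 l2 hH2 hR.1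
    (pl_lH hX1 l1 (m1 + ε) hm1ε ha2) (pl_lH hX1 l2 (m2 + ε) hm2ε ha4) hND
  obtain ⟨b, hb1, hlo, hhi, hbX, hbad, hq1, hq0⟩ := pl_size hf hX1 hη0m hη04
  have hbad' := hbad ⌈X⌉₊ hHX
  have hbad1 : ⌈X⌉₊ ^ (3 * (C0 + Ckp + C1) + 16) < b ^ (r + 1) :=
    lt_of_le_of_lt (Nat.pow_le_pow_right (by omega) (by omega)) hbad'
  have hbad2 : ⌈X⌉₊ ^ ((C0 + Ckp + C1) + 2 * Dg + (C0 + Ckp + C1) * Dg + 3) < b ^ (r + 1) :=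
    lt_of_le_of_lt (Nat.pow_le_pow_right (by omega) (by omega)) hbad'
  have hHi1 : (1 : ℤ) ≤ (⌈X⌉₊ : ℤ) := by exact_mod_cast (by omega : 1 ≤ ⌈X⌉₊)
  have hd5 : ∀ i, d i ≤ 5 := by
    intro i
    rcases hKD.dd with ⟨h2, h3⟩ | ⟨h2, h3⟩ <;> fin_cases i <;> simp_all only [Fin.zero_eta,
      Fin.mk_one] <;> omega
  rw [← Finset.card_filter_add_card_filter_not (s := S) fun N => ∃ (p : ℕ) (c : ℤ)
    (z : Fin 4 → ℤ) (s t : ℤ), Pt θ C X T l1 l2 N p c z s t ∧ t ≠ 0 ∧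
      aeval ((s : ℚ) / t) (A 1) ≠ 0 ∧
      aeval ((s : ℚ) / t) (A 1) * (N : ℚ) = aeval ((s : ℚ) / t) (B 1)]
  refine pl_final hf hX1 hK2 ?_ hq1 hq0 ?_
  · exact pl_case_a (by linarith) hKg.le hgs hX8 hXT hT0.le hTX hR hKD.hΛ
      ((hKD.dA 1).trans (hd5 1)) ((hKD.dB 1).trans (hd5 1)) (hA 1) (hB 1) hΛ
      (fun N hN => (Finset.mem_filter.1 hN).2)
  · refine count_b (η := η / 4) (C2 := C0 + Ckp + C1) (r := r) hcl hcc (by omega) (by omega) hbez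
      hXK1 hXK2 hXH hHX hXT hT0.le hTH hH2 hCH hDH
      ((mono _ _ (by linarith)).trans hT1) (hT2.trans (mono _ _ (by linarith)))
      ((mono _ _ (by linarith)).trans hT1) (hT2.trans (mono _ _ (by linarith)))
      ((mono _ _ (by linarith)).trans ha1) (ha2.trans (mono _ _ (by linarith)))
      ((mono _ _ (by linarith)).trans ha3) (ha4.trans (mono _ _ (by linarith)))
      ((mono _ _ (by linarith)).trans ha1) hR hND hKD hA hB hΛ hb1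
      ((mono _ _ (by linarith)).trans hlo) (hhi.trans (mono _ _ (by linarith)))
      ((mono _ _ (by linarith)).trans hlo) (hhi.trans (mono _ _ (by linarith)))
      hbX hbad1 hbad2 _ ?_
    intro N hN
    rw [Finset.mem_filter] at hN
    obtain ⟨p, c, z, s, t, hP⟩ := hS N hN.1
    have ht := (hnd N p c z s t hP).2
    rcases hkp ⌈X⌉₊ X T l1 l2 d A B Z Λ e N p c z s t hH2 hXH hTH ht hR.1 hl2 hKD hA hB hP with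
      h1 | ⟨kn, kd, h1, h2, h3⟩
    · exact absurd ⟨p, c, z, s, t, hP, ht, h1.1, h1.2⟩ hN.2
    · exact ⟨p, c, z, s, t, kn, kd, hP, h1,
        h2.trans (pow_le_pow_right₀ hHi1 (by omega)), h3.trans (pow_le_pow_right₀ hHi1 (by omega))⟩

/-- the local count: at most `X^(β+η)` points over one reduced pair. -/
theorem pair_local_of {G : ℤ[X]} {θ : Fin 4 → 𝓞 L} (hF : Fld G θ) (C : ℕ) (w m1 m2 β : ℝ)
    (hw : 1 / 4 ≤ w) (hw' : w ≤ 1 / 2) (hm1 : 0 ≤ m1) (hm12 : m1 ≤ m2) (hm : m2 < w)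
    (hβ : 0 < β) (hcur : NumCurve w m1 β)
    (hkpS : ∀ C0 : ℕ, ∃ C1 : ℕ, KpStmt θ C C0 C1)
    (hclS : ∀ C0 : ℕ, ∃ ε : ℝ, 0 < ε ∧ ∃ (Dg C1 : ℕ) (K : ℝ), 0 < K ∧
      ClStmt θ C C0 w m1 m2 β ε Dg C1 K)
    (η : ℝ) (hη : 0 < η) :
    ∃ ε : ℝ, 0 < ε ∧ ∃ K : ℝ, 0 < K ∧ ∀ (X T : ℝ) (l1 l2 : Fin 4 → ℤ),
      K ≤ X → X ≤ T ^ 4 → X ^ (w - ε) ≤ T → T ≤ X ^ (w + ε) → Red l1 l2 →
      X ^ (2 * (m1 - ε)) ≤ dot l1 l1 → (dot l1 l1 : ℝ) ≤ X ^ (2 * (m1 + ε)) →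
      X ^ (2 * (m2 - ε)) ≤ dot l2 l2 → (dot l2 l2 : ℝ) ≤ X ^ (2 * (m2 + ε)) →
      ∀ S : Finset ℤ, (∀ N ∈ S, ∃ (p : ℕ) (c : ℤ) (z : Fin 4 → ℤ) (s t : ℤ),
        Pt θ C X T l1 l2 N p c z s t) → (S.card : ℝ) ≤ X ^ (β + η) := by
  have hw0 : 0 < w := by linarith
  have hm1w : m1 < w := lt_of_le_of_lt hm12 hm
  obtain ⟨C0, hC0⟩ := exists_kappa G hF.monic hF.deg hF.irr θ hF.inj hF.split
  obtain ⟨Ckp, hkp⟩ := hkpS C0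
  obtain ⟨ε1, hε1, Dg, C1, K1, hK1, hcl⟩ := hclS C0
  obtain ⟨Bz, hBz⟩ := bezout2 Dg Dg
  obtain ⟨K1n, hK1n, hnorm⟩ := norm_int hF
  obtain ⟨m, hmm⟩ := exists_nat_gt (4 * β / η + β + 1)
  have hpos : 0 < 4 * β / η := by positivity
  have hm0 : (0 : ℝ) < m := by linarith
  have hmβ : β < m := by linarith
  obtain ⟨η0, hη0⟩ : ∃ η0, η0 = β / m := ⟨_, rfl⟩
  have hη0p : 0 < η0 := by rw [hη0]; positivity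
  have hη01 : η0 < 1 := by rw [hη0, div_lt_one hm0]; exact hmβ
  have hη0m : η0 * m = β := by rw [hη0]; field_simp
  have hη04 : η0 ≤ η / 4 := by
    rw [hη0, div_le_iff₀ hm0]
    have h1 : 4 * β / η < m := by linarith
    rw [div_lt_iff₀ hη] at h1
    linarith
  obtain ⟨ε2, hε2, K2, hK2, hcc⟩ := curve_count hF C Dg m (C0 + Ckp + C1) w m1 β hw0 hw' hm1 hm1w
    hβ hcur (η / 4) (by positivity)
  obtain ⟨Cb, hCb⟩ : ∃ Cb, Cb = (3 * (C0 + Ckp + C1) + 16) +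
      ((C0 + Ckp + C1) + 2 * Dg + (C0 + Ckp + C1) * Dg + 3) := ⟨_, rfl⟩
  obtain ⟨r, hr⟩ := exists_nat_gt ((Cb : ℝ) / η0)
  have hr' : (Cb : ℝ) < η0 * ((r + 1 : ℕ) : ℝ) := by
    rw [div_lt_iff₀ hη0p] at hr
    push_cast
    nlinarith
  obtain ⟨Kg, hKg, hgs⟩ := gap_sigma hF 5 (2 * C + 2 * C0) (β / 2) (by positivity)
  obtain ⟨ε, hεdef⟩ : ∃ ε, ε = min (min ε1 ε2) (min ((w - m1) / 4) (1 / 8)) := ⟨_, rfl⟩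
  have hε : 0 < ε := by
    rw [hεdef]
    exact lt_min (lt_min hε1 hε2) (lt_min (by linarith) (by norm_num))
  have hεε1 : ε ≤ ε1 := by rw [hεdef]; exact (min_le_left _ _).trans (min_le_left _ _)
  have hεε2 : ε ≤ ε2 := by rw [hεdef]; exact (min_le_left _ _).trans (min_le_right _ _)
  have hεw : ε ≤ (w - m1) / 4 := by rw [hεdef]; exact (min_le_right _ _).trans (min_le_left _ _)
  have hε8 : ε ≤ 1 / 8 := by rw [hεdef]; exact (min_le_right _ _).trans (min_le_right _ _)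
  obtain ⟨Kn, hKn⟩ := Filter.eventually_atTop.1 (plNum_eventually (β := β) (η := η) (η0 := η0)
    (ε := ε) (w := w) (m1 := m1) (Kg := Kg) (K1n := K1n) (K2 := K2) (m := m) (r := r) (C1 := C1)
    (Bz := Bz) (Cb := Cb) hβ hη hη0p hη01 hε hr' (by linarith) (by linarith))
  have hC0' : (0 : ℝ) ≤ C := Nat.cast_nonneg _
  have hDg0' : (0 : ℝ) ≤ Dg := Nat.cast_nonneg _
  have hKn0 := abs_nonneg Kn
  have hKn1 := le_abs_self Kn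
  refine ⟨ε, hε, |Kn| + K1 + K2 + C + Dg + 8, by positivity,
    fun X T l1 l2 hKX hXT hT1 hT2 hR ha1 ha2 ha3 ha4 S hS => ?_⟩
  exact pl_main hF hC0 hkp hcl hcc hBz hgs hK1n hnorm hβ hKg hK2 hη0m hη04 hεε1 hεε2
    (by linarith) (by linarith) hCb (hKn X (by linarith)) (by linarith) (by linarith)
    (by linarith) (by linarith) (by linarith) hXT hT1 hT2 hR ha1 ha2 ha3 ha4 S hS

end Vale.Agent.P018.Q
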