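import Mathlib
import Vale.Agent.P018.Q.PairClass
import Vale.Agent.P018.Q.PairKp
import Vale.Agent.P018.Q.PairLocalB
import Vale.Agent.P018.Q.PairRel
import Vale.Agent.P018.Q.PairCurve
import Vale.Agent.P018.Q.SubK
import Vale.Agent.P018.Q.Swap

/-! # P018, quartics, family (A): the number of points over one reduced pair. -/

namespace Vale.Agent.P018.Q

open Polynomial NumberField Finset

variable {L : Type} [Field L] [NumberField L]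

/-- the point of the kappa model attached to a solution, with coordinates of bounded height;
in the remaining case `N` is on the rational curve `A 1 (σ) N = B 1 (σ)`. -/
theorem exists_kp {G : ℤ[X]} {θ : Fin 4 → 𝓞 L} (hF : Fld G θ) (C C0 : ℕ) : ∃ C1 : ℕ,
    ∀ (H : ℕ) (X T : ℝ) (l1 l2 : Fin 4 → ℤ) (d : Fin 2 → ℕ)
      (A B : Fin 2 → ℤ[X]) (Z : Fin 2 → Fin 4 → ℤ[X]) (Λ : ℤ[X]) (e : ℤ)
      (N : ℤ) (p : ℕ) (c : ℤ) (z : Fin 4 → ℤ) (s t : ℤ),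
      2 ≤ H → X ≤ H → T ≤ H → t ≠ 0 → l1 ≠ 0 → l2 ≠ 0 → KData θ l1 l2 d A B Z Λ e →
      (∀ i k, |(A i).coeff k| ≤ (H : ℤ) ^ C0) → (∀ i k, |(B i).coeff k| ≤ (H : ℤ) ^ C0) →
      Pt θ C X T l1 l2 N p c z s t →
      (aeval ((s : ℚ) / t) (A 1) ≠ 0 ∧
        aeval ((s : ℚ) / t) (A 1) * (N : ℚ) = aeval ((s : ℚ) / t) (B 1)) ∨
      ∃ kn kd : ℤ, KP A B Z N c s t kn kd z ∧ |kn| ≤ (H : ℤ) ^ C1 ∧ |kd| ≤ (H : ℤ) ^ C1 := by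
  exact PairKp.exists_kp hF C C0

/-- the local count: at most `X^(β+η)` points over one reduced pair. -/
theorem pair_local {G : ℤ[X]} {θ : Fin 4 → 𝓞 L} (hF : Fld G θ) (C : ℕ) (w m1 m2 β : ℝ)
    (hw : 1 / 4 ≤ w) (hw' : w ≤ 1 / 2) (hm1 : 0 ≤ m1) (hm12 : m1 ≤ m2) (hm : m2 < w)
    (hβ : 0 < β) (hrel : NumRel w m1 m2 β) (hcur : NumCurve w m1 β) (η : ℝ) (hη : 0 < η) :
    ∃ ε : ℝ, 0 < ε ∧ ∃ K : ℝ, 0 < K ∧ ∀ (X T : ℝ) (l1 l2 : Fin 4 → ℤ),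
      K ≤ X → X ≤ T ^ 4 → X ^ (w - ε) ≤ T → T ≤ X ^ (w + ε) → Red l1 l2 →
      X ^ (2 * (m1 - ε)) ≤ dot l1 l1 → (dot l1 l1 : ℝ) ≤ X ^ (2 * (m1 + ε)) →
      X ^ (2 * (m2 - ε)) ≤ dot l2 l2 → (dot l2 l2 : ℝ) ≤ X ^ (2 * (m2 + ε)) →
      ∀ S : Finset ℤ, (∀ N ∈ S, ∃ (p : ℕ) (c : ℤ) (z : Fin 4 → ℤ) (s t : ℤ),
        Pt θ C X T l1 l2 N p c z s t) → (S.card : ℝ) ≤ X ^ (β + η) := by
  exact pair_local_of hF C w m1 m2 β hw hw' hm1 hm12 hm hβ hcur (fun C0 => exists_kp hF C C0)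
    (fun C0 => class_curves hF C C0 w m1 m2 β (by linarith) hm1 (hm1.trans hm12) hm hβ hrel) η hη

end Vale.Agent.P018.Q
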