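import Mathlib
import Vale.Agent.P018.Q.GapCurves

/-! # P018, quartics, family (A): the trivial count over one reduced pair. -/

namespace Vale.Agent.P018.Q

open Polynomial NumberField Finset

variable {L : Type} [Field L] [NumberField L]

/-- integers with `s² D ≤ C T²` are bounded. -/
private theorem abs_le_aux {C : ℕ} {X T w m ε : ℝ} {s D : ℤ} (hX : 1 ≤ X) (hT0 : 0 ≤ T)
    (hT : T ≤ X ^ (w + ε)) (hD : X ^ (2 * (m - ε)) ≤ D) (h : (s : ℝ) ^ 2 * D ≤ C * T ^ 2) :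
    |(s : ℝ)| ≤ Real.sqrt C * X ^ (w - m + 2 * ε) := by
  have hX0 : 0 < X := by linarith
  have hA : 0 ≤ Real.sqrt C * X ^ (w - m + 2 * ε) := by positivity
  apply abs_le_of_sq_le_sq _ hA
  have hp : 0 < X ^ (2 * (m - ε)) := by positivity
  have h1 : (s : ℝ) ^ 2 * X ^ (2 * (m - ε)) ≤ C * (X ^ (w + ε)) ^ 2 := by
    calc (s : ℝ) ^ 2 * X ^ (2 * (m - ε)) ≤ (s : ℝ) ^ 2 * D := by
          exact mul_le_mul_of_nonneg_left hD (sq_nonneg _)
      _ ≤ C * T ^ 2 := h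
      _ ≤ C * (X ^ (w + ε)) ^ 2 := by gcongr
  have h2 : (Real.sqrt C * X ^ (w - m + 2 * ε)) ^ 2 * X ^ (2 * (m - ε)) =
      C * (X ^ (w + ε)) ^ 2 := by
    rw [mul_pow, Real.sq_sqrt (Nat.cast_nonneg C), mul_assoc]
    congr 1
    rw [← Real.rpow_natCast, ← Real.rpow_natCast, ← Real.rpow_mul hX0.le,
      ← Real.rpow_mul hX0.le, ← Real.rpow_add hX0]
    congr 1
    push_cast
    ring
  rw [← h2] at h1
  exact le_of_mul_le_mul_right h1 hp

/-- the trivial count over one reduced pair. -/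
theorem pair_trivial {G : ℤ[X]} {θ : Fin 4 → 𝓞 L} (hF : Fld G θ) (C : ℕ) (w m1 m2 : ℝ)
    (hw : 1 / 4 ≤ w) (hm1 : 0 ≤ m1) (hm12 : m1 ≤ m2) (hm : m2 < w) (η : ℝ) (hη : 0 < η) :
    ∃ ε : ℝ, 0 < ε ∧ ∃ K : ℝ, 0 < K ∧ ∀ (X T : ℝ) (l1 l2 : Fin 4 → ℤ),
      K ≤ X → X ≤ T ^ 4 → X ^ (w - ε) ≤ T → T ≤ X ^ (w + ε) → Red l1 l2 →
      X ^ (2 * (m1 - ε)) ≤ dot l1 l1 → (dot l1 l1 : ℝ) ≤ X ^ (2 * (m1 + ε)) →
      X ^ (2 * (m2 - ε)) ≤ dot l2 l2 → (dot l2 l2 : ℝ) ≤ X ^ (2 * (m2 + ε)) →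
      ∀ S : Finset ℤ, (∀ N ∈ S, ∃ (p : ℕ) (c : ℤ) (z : Fin 4 → ℤ) (s t : ℤ),
        Pt θ C X T l1 l2 N p c z s t) → (S.card : ℝ) ≤ X ^ (2 * w - m1 - m2 + η) := by
  obtain ⟨K0, hK0⟩ := pt_unique hF C
  set M : ℝ := 2 * Real.sqrt C + 1 with hM
  have hM1 : 1 ≤ M := by
    have := Real.sqrt_nonneg (C : ℝ)
    linarith
  refine ⟨η / 8, by positivity, max (max K0 1) ((M ^ 2) ^ (2 / η)), by positivity, ?_⟩
  intro X T l1 l2 hKX hXT hT1 hT2 _ hl1 _ hl2 _ S hS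
  have hXK0 : K0 ≤ X := le_trans (le_trans (le_max_left _ _) (le_max_left _ _)) hKX
  have hX1 : 1 ≤ X := le_trans (le_trans (le_max_right _ _) (le_max_left _ _)) hKX
  have hXM : (M ^ 2) ^ (2 / η) ≤ X := le_trans (le_max_right _ _) hKX
  have hX0 : 0 < X := by linarith
  have hT0 : 0 ≤ T := le_trans (by positivity) hT1
  have hMX : M ^ 2 ≤ X ^ (η / 2) := by
    have h1 : ((M ^ 2) ^ (2 / η)) ^ (η / 2) ≤ X ^ (η / 2) := by
      apply Real.rpow_le_rpow (by positivity) hXM (by positivity)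
    rwa [← Real.rpow_mul (by positivity), show 2 / η * (η / 2) = 1 by field_simp,
      Real.rpow_one] at h1
  choose! p c z s t hPt using hS
  have hbd : ∀ m : ℝ, m < w → 2 * (⌊Real.sqrt C * X ^ (w - m + 2 * (η / 8))⌋ : ℝ) + 1 ≤
      M * X ^ (w - m + η / 4) := by
    intro m hmw
    have h1 : (1 : ℝ) ≤ X ^ (w - m + η / 4) := Real.one_le_rpow hX1 (by linarith)
    have h2 := Int.floor_le (Real.sqrt C * X ^ (w - m + 2 * (η / 8)))
    rw [show w - m + 2 * (η / 8) = w - m + η / 4 by ring] at h2 ⊢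
    have h3 : M * X ^ (w - m + η / 4) =
        2 * (Real.sqrt C * X ^ (w - m + η / 4)) + X ^ (w - m + η / 4) := by
      rw [hM]; ring
    rw [h3]
    linarith
  set A : ℤ := ⌊Real.sqrt C * X ^ (w - m1 + 2 * (η / 8))⌋ with hA
  set B : ℤ := ⌊Real.sqrt C * X ^ (w - m2 + 2 * (η / 8))⌋ with hB
  have hA0 : 0 ≤ A := Int.floor_nonneg.2 (by positivity)
  have hB0 : 0 ≤ B := Int.floor_nonneg.2 (by positivity)
  have hmem : ∀ N ∈ S, (s N, t N) ∈ (Finset.Icc (-A) A) ×ˢ (Finset.Icc (-B) B) := by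
    intro N hN
    have h := hPt N hN
    have h1 := abs_le_aux hX1 hT0 hT2 hl1 h.hs
    have h2 := abs_le_aux hX1 hT0 hT2 hl2 h.ht
    have h3 : |s N| ≤ A := by
      rw [hA, Int.le_floor]; push_cast; exact h1
    have h4 : |t N| ≤ B := by
      rw [hB, Int.le_floor]; push_cast; exact h2
    rw [Finset.mem_product, Finset.mem_Icc, Finset.mem_Icc]
    exact ⟨abs_le.1 h3, abs_le.1 h4⟩
  have hinj : Set.InjOn (fun N => (s N, t N)) S := by
    intro N hN N' hN' he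
    have he1 : s N = s N' := congrArg Prod.fst he
    have he2 : t N = t N' := congrArg Prod.snd he
    exact hK0 X T l1 l2 N N' _ _ _ _ _ _ _ _ _ _ hXK0 hXT (hPt N hN) (hPt N' hN')
      (by rw [he1, he2])
  have hcard : S.card ≤ ((Finset.Icc (-A) A) ×ˢ (Finset.Icc (-B) B)).card :=
    Finset.card_le_card_of_injOn _ hmem hinj
  rw [Finset.card_product, Int.card_Icc, Int.card_Icc] at hcard
  have hcA : (((A + 1 - -A).toNat : ℕ) : ℝ) = 2 * (A : ℝ) + 1 := by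
    have : (((A + 1 - -A).toNat : ℕ) : ℤ) = 2 * A + 1 := by omega
    exact_mod_cast this
  have hcB : (((B + 1 - -B).toNat : ℕ) : ℝ) = 2 * (B : ℝ) + 1 := by
    have : (((B + 1 - -B).toNat : ℕ) : ℤ) = 2 * B + 1 := by omega
    exact_mod_cast this
  have hcard' : (S.card : ℝ) ≤ (2 * (A : ℝ) + 1) * (2 * (B : ℝ) + 1) := by
    rw [← hcA, ← hcB]; exact_mod_cast hcard
  have hB0' : (0 : ℝ) ≤ 2 * (B : ℝ) + 1 := by
    have : (0 : ℝ) ≤ B := by exact_mod_cast hB0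
    linarith
  calc (S.card : ℝ) ≤ (2 * (A : ℝ) + 1) * (2 * (B : ℝ) + 1) := hcard'
    _ ≤ (M * X ^ (w - m1 + η / 4)) * (M * X ^ (w - m2 + η / 4)) := by
        apply mul_le_mul (hbd m1 (by linarith)) (hbd m2 hm) hB0' (by positivity)
    _ = M ^ 2 * X ^ (2 * w - m1 - m2 + η / 2) := by
        have hh : X ^ (2 * w - m1 - m2 + η / 2) =
            X ^ (w - m1 + η / 4) * X ^ (w - m2 + η / 4) := by
          rw [← Real.rpow_add hX0]
          congr 1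
          ring
        rw [hh]
        ring
    _ ≤ X ^ (η / 2) * X ^ (2 * w - m1 - m2 + η / 2) := by gcongr
    _ = X ^ (2 * w - m1 - m2 + η) := by
        rw [← Real.rpow_add hX0]
        congr 1
        ring

end Vale.Agent.P018.Q
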