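import Mathlib
import Vale.Agent.P018.Q.Defs
import Vale.Agent.P018.Q.Lattice

/-! # P018, quartics, family (A): summation over the reduced pairs. -/

namespace Vale.Agent.P018.Q

open Finset

theorem sum_geom32 (n : ℕ) : ∑ k ∈ Finset.range (n + 1), (32 : ℝ) ^ k ≤ 2 * 32 ^ n := by
  induction n with
  | zero => simp
  | succ n ih =>
    rw [Finset.sum_range_succ, pow_succ]
    have : (0 : ℝ) < 32 ^ n := by positivity
    linarith

/-- the number of reduced pairs in a box. -/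
theorem card_box : ∃ C : ℝ, 0 < C ∧ ∀ (A B : ℝ), 1 ≤ B → 1 ≤ A →
    ∀ S : Finset ((Fin 4 → ℤ) × (Fin 4 → ℤ)),
    (∀ l ∈ S, Red l.1 l.2 ∧ (dot l.1 l.1 : ℝ) ≤ A ^ 2 ∧ (dot l.2 l.2 : ℝ) ≤ B ^ 2) →
    (S.card : ℝ) ≤ C * A ^ 5 * B ^ 3 := by
  classical
  obtain ⟨C, hC, h⟩ := card_red
  refine ⟨2 * C, by positivity, ?_⟩
  intro A B hB hA S hS
  set n : ℕ := Nat.log 4 ⌊A ^ 2⌋₊ with hn
  set f : (Fin 4 → ℤ) × (Fin 4 → ℤ) → ℕ := fun l => Nat.log 4 (dot l.1 l.1).toNat with hf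
  have hfl : ⌊A ^ 2⌋₊ ≠ 0 := by
    have : 1 ≤ ⌊A ^ 2⌋₊ := Nat.le_floor (by rw [Nat.cast_one]; nlinarith)
    omega
  have h4n : (2 : ℝ) ^ n ≤ A := by
    have h1 : 4 ^ n ≤ ⌊A ^ 2⌋₊ := Nat.pow_log_le_self 4 hfl
    have h2 : ((4 ^ n : ℕ) : ℝ) ≤ A ^ 2 := (Nat.le_floor_iff (by positivity)).1 h1
    have h3 : ((2 : ℝ) ^ n) ^ 2 ≤ A ^ 2 := by
      rw [← pow_mul, mul_comm n 2, pow_mul]
      push_cast at h2
      norm_num
      exact h2
    exact (pow_le_pow_iff_left₀ (by positivity) (by linarith) (by norm_num)).1 h3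
  have hmem : ∀ l ∈ S, f l ∈ Finset.range (n + 1) := by
    intro l hl
    obtain ⟨-, h1, -⟩ := hS l hl
    rw [Finset.mem_range, Nat.lt_succ_iff]
    apply Nat.log_mono_right
    apply Nat.le_floor
    have h0 : (((dot l.1 l.1).toNat : ℕ) : ℤ) = dot l.1 l.1 := Int.toNat_of_nonneg (dot_nonneg _)
    have h0' : (((dot l.1 l.1).toNat : ℕ) : ℝ) = ((dot l.1 l.1 : ℤ) : ℝ) := by exact_mod_cast h0
    rw [h0']; exact h1
  have hcard : S.card = ∑ k ∈ Finset.range (n + 1), (S.filter (fun l => f l = k)).card :=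
    Finset.card_eq_sum_card_fiberwise hmem
  have hk : ∀ k ∈ Finset.range (n + 1), ((S.filter (fun l => f l = k)).card : ℝ) ≤
      C * B ^ 3 * 32 ^ k := by
    intro k _
    have := h (2 ^ k) B hB (by positivity) (S.filter (fun l => f l = k)) (by
      intro l hl
      rw [Finset.mem_filter] at hl
      obtain ⟨hlS, hlk⟩ := hl
      obtain ⟨hr, h1, h2⟩ := hS l hlS
      have hpos := dot_pos hr.1
      have h0 : (((dot l.1 l.1).toNat : ℕ) : ℤ) = dot l.1 l.1 := Int.toNat_of_nonneg hpos.le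
      have hne : (dot l.1 l.1).toNat ≠ 0 := by omega
      have hlow : 4 ^ k ≤ (dot l.1 l.1).toNat := by
        rw [← hlk]; exact Nat.pow_log_le_self 4 hne
      have hup : (dot l.1 l.1).toNat < 4 ^ (k + 1) := by
        rw [← hlk]; exact Nat.lt_pow_succ_log_self (by norm_num) _
      have h0' : (((dot l.1 l.1).toNat : ℕ) : ℝ) = ((dot l.1 l.1 : ℤ) : ℝ) := by
        exact_mod_cast h0
      have hpw : ((2 : ℝ) ^ k) ^ 2 = 4 ^ k := by
        rw [← pow_mul, mul_comm k 2, pow_mul]; norm_num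
      refine ⟨hr, ?_, ?_, h2⟩
      · rw [hpw, ← h0']; exact_mod_cast hlow
      · rw [hpw, ← h0']
        have : (((dot l.1 l.1).toNat : ℕ) : ℝ) ≤ ((4 ^ (k + 1) : ℕ) : ℝ) := by
          exact_mod_cast hup.le
        push_cast at this
        rw [pow_succ] at this
        linarith)
    have hpw : ((2 : ℝ) ^ k) ^ 5 = 32 ^ k := by
      rw [← pow_mul, mul_comm k 5, pow_mul]; norm_num
    rw [hpw] at this
    calc ((S.filter (fun l => f l = k)).card : ℝ) ≤ C * 32 ^ k * B ^ 3 := this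
      _ = C * B ^ 3 * 32 ^ k := by ring
  have h32 : (32 : ℝ) ^ n ≤ A ^ 5 := by
    calc (32 : ℝ) ^ n = (2 ^ n) ^ 5 := by rw [← pow_mul, mul_comm n 5, pow_mul]; norm_num
      _ ≤ A ^ 5 := pow_le_pow_left₀ (by positivity) h4n 5
  calc (S.card : ℝ) = ∑ k ∈ Finset.range (n + 1), ((S.filter (fun l => f l = k)).card : ℝ) := by
        rw [hcard]; push_cast; rfl
    _ ≤ ∑ k ∈ Finset.range (n + 1), C * B ^ 3 * 32 ^ k := Finset.sum_le_sum hk
    _ = C * B ^ 3 * ∑ k ∈ Finset.range (n + 1), 32 ^ k := by rw [Finset.mul_sum]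
    _ ≤ C * B ^ 3 * (2 * 32 ^ n) := by
        apply mul_le_mul_of_nonneg_left (sum_geom32 n); positivity
    _ ≤ C * B ^ 3 * (2 * A ^ 5) := by
        apply mul_le_mul_of_nonneg_left _ (by positivity)
        linarith
    _ = 2 * C * A ^ 5 * B ^ 3 := by ring

/-- summation over the reduced pairs. -/
theorem sum_pairs (m1 m2 ε : ℝ) (hm1 : 0 ≤ m1) (hm2 : 0 ≤ m2) (hε : 0 < ε) :
    ∃ K : ℝ, 0 < K ∧ ∀ (X β : ℝ) (S : Finset ℤ) (R : ℤ → (Fin 4 → ℤ) × (Fin 4 → ℤ) → Prop),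
      K ≤ X →
      (∀ N ∈ S, ∃ l, R N l ∧ Red l.1 l.2 ∧
        X ^ (2 * (m1 - ε)) ≤ dot l.1 l.1 ∧ (dot l.1 l.1 : ℝ) ≤ X ^ (2 * (m1 + ε)) ∧
        (dot l.2 l.2 : ℝ) ≤ X ^ (2 * (m2 + ε))) →
      (∀ l, Red l.1 l.2 →
        X ^ (2 * (m1 - ε)) ≤ dot l.1 l.1 → (dot l.1 l.1 : ℝ) ≤ X ^ (2 * (m1 + ε)) →
        (dot l.2 l.2 : ℝ) ≤ X ^ (2 * (m2 + ε)) →
        ∀ S' ⊆ S, (∀ N ∈ S', R N l) → (S'.card : ℝ) ≤ X ^ β) →
      (S.card : ℝ) ≤ X ^ (5 * m1 + 3 * m2 + β + 10 * ε) := by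
  classical
  obtain ⟨C, hC, hbox⟩ := card_box
  refine ⟨max 1 (C ^ (1 / (2 * ε))), by positivity, ?_⟩
  intro X β S R hKX h1 h2
  have hX1 : 1 ≤ X := le_trans (le_max_left _ _) hKX
  have hX0 : 0 < X := by linarith
  have hXC : C ≤ X ^ (2 * ε) := by
    have h3 : C ^ (1 / (2 * ε)) ≤ X := le_trans (le_max_right _ _) hKX
    have h4 : (C ^ (1 / (2 * ε))) ^ (2 * ε) ≤ X ^ (2 * ε) :=
      Real.rpow_le_rpow (by positivity) h3 (by positivity)
    rw [← Real.rpow_mul hC.le] at h4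
    have h5 : 1 / (2 * ε) * (2 * ε) = 1 := by field_simp
    rwa [h5, Real.rpow_one] at h4
  choose! f hf using h1
  have hcard : S.card = ∑ l ∈ S.image f, (S.filter (fun N => f N = l)).card :=
    Finset.card_eq_sum_card_fiberwise (fun N hN => Finset.mem_image_of_mem f hN)
  have hfib : ∀ l ∈ S.image f, ((S.filter (fun N => f N = l)).card : ℝ) ≤ X ^ β := by
    intro l hl
    obtain ⟨N, hN, rfl⟩ := Finset.mem_image.1 hl
    obtain ⟨-, hr, ha, hb, hc⟩ := hf N hN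
    refine h2 (f N) hr ha hb hc _ (Finset.filter_subset _ _) ?_
    intro N' hN'
    rw [Finset.mem_filter] at hN'
    rw [← hN'.2]
    exact (hf N' hN'.1).1
  have himg : ((S.image f).card : ℝ) ≤ C * (X ^ (m1 + ε)) ^ 5 * (X ^ (m2 + ε)) ^ 3 := by
    apply hbox
    · exact Real.one_le_rpow hX1 (by linarith)
    · exact Real.one_le_rpow hX1 (by linarith)
    · intro l hl
      obtain ⟨N, hN, rfl⟩ := Finset.mem_image.1 hl
      obtain ⟨-, hr, ha, hb, hc⟩ := hf N hN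
      have e1 : (X ^ (m1 + ε)) ^ 2 = X ^ (2 * (m1 + ε)) := by
        rw [← Real.rpow_natCast, ← Real.rpow_mul hX0.le]; congr 1; push_cast; ring
      have e2 : (X ^ (m2 + ε)) ^ 2 = X ^ (2 * (m2 + ε)) := by
        rw [← Real.rpow_natCast, ← Real.rpow_mul hX0.le]; congr 1; push_cast; ring
      rw [e1, e2]
      exact ⟨hr, hb, hc⟩
  have hXb : 0 < X ^ β := Real.rpow_pos_of_pos hX0 _
  calc (S.card : ℝ) = ∑ l ∈ S.image f, ((S.filter (fun N => f N = l)).card : ℝ) := by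
        rw [hcard]; push_cast; rfl
    _ ≤ ∑ _l ∈ S.image f, X ^ β := Finset.sum_le_sum hfib
    _ = (S.image f).card * X ^ β := by rw [Finset.sum_const, nsmul_eq_mul]
    _ ≤ (C * (X ^ (m1 + ε)) ^ 5 * (X ^ (m2 + ε)) ^ 3) * X ^ β :=
        mul_le_mul_of_nonneg_right himg hXb.le
    _ ≤ (X ^ (2 * ε) * (X ^ (m1 + ε)) ^ 5 * (X ^ (m2 + ε)) ^ 3) * X ^ β := by
        gcongr
    _ = X ^ (5 * m1 + 3 * m2 + β + 10 * ε) := by
        rw [← Real.rpow_natCast, ← Real.rpow_natCast, ← Real.rpow_mul hX0.le,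
          ← Real.rpow_mul hX0.le, ← Real.rpow_add hX0, ← Real.rpow_add hX0,
          ← Real.rpow_add hX0]
        congr 1; push_cast; ring

end Vale.Agent.P018.Q
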