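import Mathlib
import Vale.Agent.P018.Q.Pair
import Vale.Agent.P018.Q.NumA
import Vale.Agent.P018.Q.Lattice
import Vale.Agent.P018.Q.SumPairs
import Vale.Agent.P018.Q.FamDefs
import Vale.Agent.P018.Q.PairTrivial

/-! # P018, quartics, family (A): the count near one pair of exponents. -/

namespace Vale.Agent.P018.Q

open Polynomial NumberField Finset

variable {L : Type} [Field L] [NumberField L]

/-- summation over the pairs of a bound for every pair. -/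
private theorem lp_fin (θ : Fin 4 → 𝓞 L) (C : ℕ) (w m1 m2 γ : ℝ)
    (hm1 : 0 ≤ m1) (hm2 : 0 ≤ m2) (hγ : 5 * m1 + 3 * m2 + γ < 1)
    (h : ∃ ε : ℝ, 0 < ε ∧ ∃ K : ℝ, 0 < K ∧ ∀ (X T : ℝ) (l1 l2 : Fin 4 → ℤ),
      K ≤ X → X ≤ T ^ 4 → X ^ (w - ε) ≤ T → T ≤ X ^ (w + ε) → Red l1 l2 →
      X ^ (2 * (m1 - ε)) ≤ dot l1 l1 → (dot l1 l1 : ℝ) ≤ X ^ (2 * (m1 + ε)) →
      X ^ (2 * (m2 - ε)) ≤ dot l2 l2 → (dot l2 l2 : ℝ) ≤ X ^ (2 * (m2 + ε)) →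
      ∀ S : Finset ℤ, (∀ N ∈ S, ∃ (p : ℕ) (c : ℤ) (z : Fin 4 → ℤ) (s t : ℤ),
        Pt θ C X T l1 l2 N p c z s t) → (S.card : ℝ) ≤ X ^ γ) :
    ∃ ε : ℝ, 0 < ε ∧ ∃ K : ℝ, 0 < K ∧ ∀ (X T : ℝ) (S : Finset ℤ),
      K ≤ X → X ≤ T ^ 4 → X ^ (w - ε) ≤ T → T ≤ X ^ (w + ε) →
      (∀ N ∈ S, ∃ (l1 l2 : Fin 4 → ℤ) (p : ℕ) (c : ℤ) (z : Fin 4 → ℤ) (s t : ℤ), Red l1 l2 ∧
        (dot l1 l1 : ℝ) * dot l2 l2 ≤ C * T ^ (4 / 3 : ℝ) ∧ Pt θ C X T l1 l2 N p c z s t ∧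
        X ^ (2 * (m1 - ε)) ≤ dot l1 l1 ∧ (dot l1 l1 : ℝ) ≤ X ^ (2 * (m1 + ε)) ∧
        X ^ (2 * (m2 - ε)) ≤ dot l2 l2 ∧ (dot l2 l2 : ℝ) ≤ X ^ (2 * (m2 + ε))) →
      (S.card : ℝ) ≤ X ^ (1 - ε) := by
  classical
  obtain ⟨ε0, hε0, K0, hK0, h⟩ := h
  set ε : ℝ := min ε0 ((1 - (5 * m1 + 3 * m2 + γ)) / 11) with hε
  have hεpos : 0 < ε := lt_min hε0 (by linarith)
  have hε1 : ε ≤ ε0 := min_le_left _ _
  have hε2 : ε ≤ (1 - (5 * m1 + 3 * m2 + γ)) / 11 := min_le_right _ _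
  obtain ⟨K1, hK1, hsum⟩ := sum_pairs m1 m2 ε hm1 hm2 hεpos
  refine ⟨ε, hεpos, max (max K0 K1) 1, by positivity, ?_⟩
  intro X T S hKX hXT hT1 hT2 hS
  have hX0 : K0 ≤ X := le_trans (le_trans (le_max_left _ _) (le_max_left _ _)) hKX
  have hX1 : K1 ≤ X := le_trans (le_trans (le_max_right _ _) (le_max_left _ _)) hKX
  have hX : 1 ≤ X := le_trans (le_max_right _ _) hKX
  have mono : ∀ {a b : ℝ}, a ≤ b → X ^ a ≤ X ^ b := fun hab =>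
    Real.rpow_le_rpow_of_exponent_le hX hab
  let R : ℤ → (Fin 4 → ℤ) × (Fin 4 → ℤ) → Prop := fun N l =>
    X ^ (2 * (m2 - ε)) ≤ dot l.2 l.2 ∧ ∃ (p : ℕ) (c : ℤ) (z : Fin 4 → ℤ) (s t : ℤ),
      Pt θ C X T l.1 l.2 N p c z s t
  refine (hsum X γ S R hX1 ?_ ?_).trans (mono (by linarith))
  · intro N hN
    obtain ⟨l1, l2, p, c, z, s, t, hred, -, hpt, h1, h2, h3, h4⟩ := hS N hN
    exact ⟨(l1, l2), ⟨h3, p, c, z, s, t, hpt⟩, hred, h1, h2, h4⟩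
  · intro l hred h1 h2 h4 S' _ hR
    rcases S'.eq_empty_or_nonempty with rfl | ⟨N0, hN0⟩
    · rw [card_empty, Nat.cast_zero]
      positivity
    · have h3 := (hR N0 hN0).1
      exact h X T l.1 l.2 hX0 hXT ((mono (by linarith)).trans hT1)
        (hT2.trans (mono (by linarith))) hred ((mono (by linarith)).trans h1)
        (h2.trans (mono (by linarith))) ((mono (by linarith)).trans h3)
        (h4.trans (mono (by linarith))) S' (fun N hN => (hR N hN).2)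

/-- the count near the exponents `(m1, m2)`. -/
theorem local_pairs {G : ℤ[X]} {θ : Fin 4 → 𝓞 L} (hF : Fld G θ) (C : ℕ) (w m1 m2 : ℝ)
    (hw : 1 / 4 ≤ w) (hw' : w ≤ 0.349) (hm1 : 0 ≤ m1) (hm2 : 0 ≤ m2) :
    ∃ ε : ℝ, 0 < ε ∧ ∃ K : ℝ, 0 < K ∧ ∀ (X T : ℝ) (S : Finset ℤ),
      K ≤ X → X ≤ T ^ 4 → X ^ (w - ε) ≤ T → T ≤ X ^ (w + ε) →
      (∀ N ∈ S, ∃ (l1 l2 : Fin 4 → ℤ) (p : ℕ) (c : ℤ) (z : Fin 4 → ℤ) (s t : ℤ), Red l1 l2 ∧
        (dot l1 l1 : ℝ) * dot l2 l2 ≤ C * T ^ (4 / 3 : ℝ) ∧ Pt θ C X T l1 l2 N p c z s t ∧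
        X ^ (2 * (m1 - ε)) ≤ dot l1 l1 ∧ (dot l1 l1 : ℝ) ≤ X ^ (2 * (m1 + ε)) ∧
        X ^ (2 * (m2 - ε)) ≤ dot l2 l2 ∧ (dot l2 l2 : ℝ) ≤ X ^ (2 * (m2 + ε))) →
      (S.card : ℝ) ≤ X ^ (1 - ε) := by
  classical
  rcases lt_or_ge m2 m1 with hlt | hm12
  · -- the pair is not reduced
    refine ⟨(m1 - m2) / 4, by linarith, 2, by norm_num, ?_⟩
    intro X T S hKX _ _ _ hS
    rcases S.eq_empty_or_nonempty with rfl | ⟨N, hN⟩
    · rw [card_empty, Nat.cast_zero]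
      positivity
    · exfalso
      obtain ⟨l1, l2, p, c, z, s, t, hred, -, -, h1, -, -, h4⟩ := hS N hN
      have h5 : (dot l1 l1 : ℝ) ≤ dot l2 l2 := by exact_mod_cast hred.2.1
      have h6 := (h1.trans h5).trans h4
      rw [Real.rpow_le_rpow_left_iff (by linarith)] at h6
      linarith
  rcases lt_or_ge (2 / 3 * w) (m1 + m2) with hgt | hle
  · -- the pair is too long
    set δ : ℝ := 2 * (m1 + m2) - 4 / 3 * w with hδ
    have hδ0 : 0 < δ := by rw [hδ]; linarith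
    refine ⟨δ / 16, by linarith, max 1 (((C : ℝ) + 1) ^ (3 / (2 * δ))), by positivity, ?_⟩
    intro X T S hKX _ hT1 hT2 hS
    have hX1 : 1 ≤ X := le_trans (le_max_left _ _) hKX
    have hXC : ((C : ℝ) + 1) ^ (3 / (2 * δ)) ≤ X := le_trans (le_max_right _ _) hKX
    have hX0 : 0 < X := by linarith
    rcases S.eq_empty_or_nonempty with rfl | ⟨N, hN⟩
    · rw [card_empty, Nat.cast_zero]
      positivity
    · exfalso
      obtain ⟨l1, l2, p, c, z, s, t, -, hprod, -, h1, -, h3, -⟩ := hS N hN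
      have hT0 : 0 ≤ T := le_trans (by positivity) hT1
      have e1 : X ^ (2 * (m1 - δ / 16)) * X ^ (2 * (m2 - δ / 16)) ≤
          C * (X ^ (w + δ / 16)) ^ (4 / 3 : ℝ) := by
        refine (mul_le_mul h1 h3 (by positivity) ((by positivity : (0:ℝ) ≤ _).trans h1)).trans
          (hprod.trans ?_)
        gcongr
      rw [← Real.rpow_add hX0, ← Real.rpow_mul hX0.le] at e1
      have e2 : X ^ (2 * (m1 - δ / 16) + 2 * (m2 - δ / 16)) =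
          X ^ ((w + δ / 16) * (4 / 3)) * X ^ (2 * δ / 3) := by
        rw [← Real.rpow_add hX0]
        congr 1
        rw [hδ]
        ring
      rw [e2, mul_comm] at e1
      have e3 : X ^ (2 * δ / 3) ≤ C := le_of_mul_le_mul_right e1 (by positivity)
      have e4 : (C : ℝ) + 1 ≤ X ^ (2 * δ / 3) := by
        have := Real.rpow_le_rpow (by positivity) hXC (show 0 ≤ 2 * δ / 3 by positivity)
        rwa [← Real.rpow_mul (by positivity), show 3 / (2 * δ) * (2 * δ / 3) = 1 by field_simp,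
          Real.rpow_one] at this
      linarith
  have hm2w : m2 < w := by linarith
  rcases lt_or_ge (4 * m1 + 2 * m2) (1 - 2 * w) with hsm | hbig
  · -- the trivial count
    obtain ⟨δ, hδ⟩ : ∃ δ : ℝ, δ = 1 - 2 * w - (4 * m1 + 2 * m2) := ⟨_, rfl⟩
    exact lp_fin θ C w m1 m2 (2 * w - m1 - m2 + δ / 2) hm1 hm2 (by linarith)
      (pair_trivial hF C w m1 m2 hw hm1 hm12 hm2w (δ / 2) (by linarith))
  · obtain ⟨β, hβ, hβ1, hrel, hcur⟩ := admA w m1 m2 hw hw' hm1 hm12 hle hbig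
    obtain ⟨δ, hδ⟩ : ∃ δ : ℝ, δ = 1 - (5 * m1 + 3 * m2 + β) := ⟨_, rfl⟩
    norm_num at hw'
    exact lp_fin θ C w m1 m2 (β + δ / 2) hm1 hm2 (by linarith)
      (pair_local hF C w m1 m2 β hw (by linarith) hm1 hm12 hm2w hβ hrel hcur (δ / 2)
        (by linarith))

end Vale.Agent.P018.Q
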