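import Mathlib
import Vale.Agent.P018.Q.Pair
import Vale.Agent.P018.Q.NumA
import Vale.Agent.P018.Q.Lattice
import Vale.Agent.P018.Q.SumPairs
import Vale.Agent.P018.Q.FamDefs
import Vale.Agent.P018.Q.PairTrivial
import Vale.Agent.P018.Q.AssLP
import Vale.Agent.P018.Q.AllPairs

/-! # P018, quartics, family (A): summation over the reduced pairs, compactness. -/

namespace Vale.Agent.P018.Q

open Polynomial NumberField Finset

variable {L : Type} [Field L] [NumberField L]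

/-- compactness in the exponents of the reduced pairs. -/
theorem all_pairs {G : ℤ[X]} {θ : Fin 4 → 𝓞 L} (hF : Fld G θ) (C : ℕ) (w : ℝ)
    (hw : 1 / 4 ≤ w) (hw' : w ≤ 0.349) :
    ∃ ε : ℝ, 0 < ε ∧ ∃ K : ℝ, 0 < K ∧ ∀ (X T : ℝ) (S : Finset ℤ),
      K ≤ X → X ≤ T ^ 4 → X ^ (w - ε) ≤ T → T ≤ X ^ (w + ε) →
      (∀ N ∈ S, ∃ (l1 l2 : Fin 4 → ℤ) (p : ℕ) (c : ℤ) (z : Fin 4 → ℤ) (s t : ℤ), Red l1 l2 ∧
        (dot l1 l1 : ℝ) * dot l2 l2 ≤ C * T ^ (4 / 3 : ℝ) ∧ Pt θ C X T l1 l2 N p c z s t) →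
      (S.card : ℝ) ≤ X ^ (1 - ε) := by
  exact all_of_local θ C w hw' fun m1 m2 h1 h2 => local_pairs hF C w m1 m2 hw hw' h1 h2

end Vale.Agent.P018.Q
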