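import Mathlib
import Vale.Agent.P018.Q.Defs

/-! # P018, quartics, part (B): definitions.

In part (B) the element `z` (the `γ` of the solution) runs through a plane lattice
`u1 g1 + u2 g2`.  Over `ℂ` put `α j = φ (θ j)`, `g1 j = φ (el (θ j) g1)`, `g2 j` similarly; the
(cone over the) surface is `c (n - α j) = π j ^ 2 * (u1 g1 j + u2 g2 j)`, `π j = ∑ y_k α_j^k`,
dehomogenised by `u1 = 1`, `w = u2/u1`.  The functions are the monomials `u^a π^e` (values in
`𝓞 L`; sign changes of the `π j` multiply them by signs). -/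

namespace Vale.Agent.P018.QB

open Polynomial NumberField Vale.Agent.P018.Q

/-- short name for `K.ell`: `el t y = ∑ y_k t^k`. -/
abbrev el {R : Type*} [CommRing R] (t : R) (y : Fin 4 → ℤ) : R := K.ell t y

/-- exponents `(a1, a2)` of `u1, u2` and `e j` of the `π j`. -/
abbrev Ix := (ℕ × ℕ) × (Fin 4 → ℕ)

/-- the monomial `u1^a1 u2^a2 ∏ π_j^(e j)`. -/
def fv {R : Type*} [CommRing R] (u1 u2 : R) (pi : Fin 4 → R) (x : Ix) : R :=
  u1 ^ x.1.1 * u2 ^ x.1.2 * ∏ j, pi j ^ x.2 j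

/-- all monomials of degree `i` in `u` and degree `l` in `π`. -/
def mons (i l : ℕ) : Finset Ix :=
  (Finset.HasAntidiagonal.antidiagonal i) ×ˢ (Finset.piAntidiag Finset.univ l)

/-- a non special lattice: `α` injective, `c ≠ 0`, the four linear forms pairwise not
proportional (hence `g1 j`, `g2 j` are not both `0`). -/
structure Lat (α g1 g2 : Fin 4 → ℂ) (c : ℂ) : Prop where
  inj : Function.Injective α
  c0 : c ≠ 0
  ns : ∀ j k, j ≠ k → g1 j * g2 k ≠ g1 k * g2 j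

/-- a (generic or special) point of the surface over a field extension of `ℂ`. -/
structure Mdl (α g1 g2 : Fin 4 → ℂ) (c : ℂ) (Ω : Type) [Field Ω] [Algebra ℂ Ω] (n w : Ω)
    (pi : Fin 4 → Ω) : Prop where
  ne : ∀ j, algebraMap ℂ Ω (g1 j) + w * algebraMap ℂ Ω (g2 j) ≠ 0
  eq : ∀ j, pi j ^ 2 * (algebraMap ℂ Ω (g1 j) + w * algebraMap ℂ Ω (g2 j)) =
    algebraMap ℂ Ω c * (n - algebraMap ℂ Ω (α j))

/-- the span of the functions with exponents in `S` (at `u1 = 1`, `u2 = w`). -/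
noncomputable def spn {Ω : Type} [Field Ω] [Algebra ℂ Ω] (w : Ω) (pi : Fin 4 → Ω)
    (S : Set Ix) : Submodule ℂ Ω :=
  Submodule.span ℂ ((fun x => fv 1 w pi x) '' S)

/-- the value `Φ(n, w)`: `n` is the outer variable. -/
noncomputable def evB {Ω : Type} [Field Ω] [Algebra ℂ Ω] (n w : Ω) (Φ : ℂ[X][X]) : Ω :=
  Φ.eval₂ (aeval w : ℂ[X] →ₐ[ℂ] Ω).toRingHom n

/-- the complex polynomial of an integer polynomial. -/
noncomputable def toC (Φ : ℤ[X][X]) : ℂ[X][X] := Φ.map (mapRingHom (Int.castRingHom ℂ))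

/-- the data of a solution on the lattice `(g1, g2)`. -/
structure BDat {L : Type} [Field L] [NumberField L] (θ : Fin 4 → 𝓞 L) (C : ℕ) (X T U : ℝ)
    (c : ℤ) (g1 g2 : Fin 4 → ℤ) (N : ℤ) (p : ℕ) (y : Fin 4 → ℤ) (u1 u2 : ℤ) : Prop where
  dat : Dat θ C X T N p c y (fun j => u1 * g1 j + u2 * g2 j)
  lowN : X ≤ C * |(N : ℝ)|
  hu1 : |(u1 : ℝ)| ≤ U
  hu2 : |(u2 : ℝ)| ≤ U
  u10 : u1 ≠ 0

/-- the pair `(g1, g2)` is not special. -/
def NonSpec {L : Type} [Field L] [NumberField L] (θ : Fin 4 → 𝓞 L) (g1 g2 : Fin 4 → ℤ) : Prop :=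
  ∀ j k, j ≠ k → el (θ j) g1 * el (θ k) g2 ≠ el (θ k) g1 * el (θ j) g2

/-- `θ` are the four roots in `𝓞 L` of an irreducible monic integer quartic. -/
structure Root4 {L : Type} [Field L] [NumberField L] (θ : Fin 4 → 𝓞 L) (G : ℤ[X]) : Prop where
  monic : G.Monic
  deg : G.natDegree = 4
  irr : Irreducible (G.map (Int.castRingHom ℚ))
  inj : Function.Injective θ
  roots : G.map (algebraMap ℤ (𝓞 L)) = ∏ i, (X - C (θ i))

/-- the complex numbers `φ (el (θ j) g)`. -/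
noncomputable def cf {L : Type} [Field L] [NumberField L] (θ : Fin 4 → 𝓞 L) (φ : L →+* ℂ)
    (g : Fin 4 → ℤ) (j : Fin 4) : ℂ := φ ((el (θ j) g : 𝓞 L) : L)

/-- the elements `el (θ j) y`. -/
def pv {R : Type*} [CommRing R] (θ : Fin 4 → R) (y : Fin 4 → ℤ) (j : Fin 4) : R := el (θ j) y

end Vale.Agent.P018.QB
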