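import Mathlib
import Vale.Agent.P018.Q.BDefs
import Vale.Agent.P018.Q.Data

/-! # P018, (B): sizes of the conjugates of `z` and the cells. -/

namespace Vale.Agent.P018.QB

open Polynomial NumberField Vale.Agent.P018.Q

variable {L : Type} [Field L] [NumberField L]

theorem cf_lin (θ : Fin 4 → 𝓞 L) (φ : L →+* ℂ) (g g' : Fin 4 → ℤ) (u1 u2 : ℤ) (i : Fin 4) :
    cf θ φ (fun j => u1 * g j + u2 * g' j) i = u1 * cf θ φ g i + u2 * cf θ φ g' i := by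
  have h : el (θ i) (fun j => u1 * g j + u2 * g' j) =
      (u1 : 𝓞 L) * el (θ i) g + (u2 : 𝓞 L) * el (θ i) g' := by
    simp only [el, K.ell, Finset.mul_sum, ← Finset.sum_add_distrib]
    refine Finset.sum_congr rfl fun j _ => ?_
    push_cast
    ring
  unfold cf
  rw [h]
  simp only [map_add, map_mul, map_intCast]

theorem abs_le_dot (g : Fin 4 → ℤ) (j : Fin 4) : |(g j : ℝ)| ≤ √((dot g g : ℤ) : ℝ) := by
  refine Real.abs_le_sqrt ?_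
  have h : (g j) ^ 2 ≤ dot g g := by
    unfold dot
    rw [sq]
    exact Finset.single_le_sum (f := fun i => g i * g i) (fun i _ => mul_self_nonneg _)
      (Finset.mem_univ j)
  exact_mod_cast h

theorem cf_upper (θ : Fin 4 → 𝓞 L) : ∃ B : ℝ, 1 ≤ B ∧ (∀ (φ : L →+* ℂ) (j : Fin 4),
    ‖φ (θ j : L)‖ ≤ B) ∧ ∀ (φ : L →+* ℂ) (g : Fin 4 → ℤ) (j : Fin 4),
    ‖cf θ φ g j‖ ≤ B * √((dot g g : ℤ) : ℝ) := by
  classical
  set B : ℝ := 1 + ∑ φ : L →+* ℂ, ∑ i, ∑ j : Fin 4, ‖φ (θ i : L)‖ ^ (j : ℕ) with hB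
  have h3 : ∀ (φ : L →+* ℂ) (i : Fin 4), ∑ j : Fin 4, ‖φ (θ i : L)‖ ^ (j : ℕ) ≤ B := by
    intro φ i
    have h1 : ∑ j : Fin 4, ‖φ (θ i : L)‖ ^ (j : ℕ) ≤ ∑ i, ∑ j : Fin 4, ‖φ (θ i : L)‖ ^ (j : ℕ) :=
      Finset.single_le_sum (f := fun i => ∑ j : Fin 4, ‖φ (θ i : L)‖ ^ (j : ℕ))
        (fun _ _ => Finset.sum_nonneg fun _ _ => by positivity) (Finset.mem_univ i)
    have h2 : ∑ i, ∑ j : Fin 4, ‖φ (θ i : L)‖ ^ (j : ℕ) ≤
        ∑ φ : L →+* ℂ, ∑ i, ∑ j : Fin 4, ‖φ (θ i : L)‖ ^ (j : ℕ) :=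
      Finset.single_le_sum (f := fun φ : L →+* ℂ => ∑ i, ∑ j : Fin 4, ‖φ (θ i : L)‖ ^ (j : ℕ))
        (fun _ _ => Finset.sum_nonneg fun _ _ => Finset.sum_nonneg fun _ _ => by positivity)
        (Finset.mem_univ φ)
    linarith
  have hB1 : 1 ≤ B := by
    have : 0 ≤ ∑ φ : L →+* ℂ, ∑ i, ∑ j : Fin 4, ‖φ (θ i : L)‖ ^ (j : ℕ) :=
      Finset.sum_nonneg fun _ _ => Finset.sum_nonneg fun _ _ => Finset.sum_nonneg fun _ _ => by
        positivity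
    linarith
  refine ⟨B, hB1, ?_, ?_⟩
  · intro φ j
    refine le_trans ?_ (h3 φ j)
    have h := Finset.single_le_sum (f := fun k : Fin 4 => ‖φ (θ j : L)‖ ^ (k : ℕ))
      (fun _ _ => by positivity) (Finset.mem_univ (1 : Fin 4))
    simpa using h
  · intro φ g j
    have h1 := data_upper (φ.comp (algebraMap (𝓞 L) L)) (θ j) g _ (abs_le_dot g)
    refine h1.trans ?_
    rw [mul_comm]
    exact mul_le_mul_of_nonneg_right (h3 φ j) (Real.sqrt_nonneg _)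

/-- lower bounds for the conjugates of `z` (from `dat_lower` and the equation). -/
theorem z_lower' (θ : Fin 4 → 𝓞 L) (C : ℕ) :
    ∃ K1 : ℝ, 0 < K1 ∧ ∀ (X T : ℝ) (N : ℤ) (p : ℕ) (c : ℤ) (y z : Fin 4 → ℤ), 1 ≤ T → K1 ≤ X →
      X ≤ C * |(N : ℝ)| → Dat θ C X T N p c y z → ∀ (φ : L →+* ℂ) (i : Fin 4),
        X / T ^ 2 ≤ K1 * ‖cf θ φ z i‖ ∧ ‖cf θ φ z i‖ ≤ K1 * (X / T ^ 2) := by
  obtain ⟨K0, hK0, hlow⟩ := dat_lower θ C
  obtain ⟨B, hB1, hB, -⟩ := cf_upper θ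
  refine ⟨2 * C / K0 ^ 2 + C * (C + 1) / K0 ^ 2 + 2 * (C + 1) * B, by positivity, ?_⟩
  intro X T N p c y z hT hX hN hd φ i
  have hT0 : 0 < T := by linarith
  have hCpos : (1 : ℝ) ≤ C := by
    have h1 := Int.one_le_abs hd.c0
    have h2 := hd.cC
    have h3 : (1 : ℤ) ≤ C := by omega
    exact_mod_cast h3
  obtain ⟨hy1, hy2⟩ := hlow X T N p c y z hT hd φ i
  have e1 := congrArg (fun x : 𝓞 L => ‖φ (x : L)‖) (hd.eqn i)
  simp only [map_mul, map_pow, map_sub, map_intCast, norm_mul, norm_pow,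
    Complex.norm_intCast] at e1
  set r : ℝ := ‖φ (K.ell (θ i) y : 𝓞 L)‖ with hr
  have hcf : ‖φ ((K.ell (θ i) z : 𝓞 L) : L)‖ = ‖cf θ φ z i‖ := rfl
  rw [hcf] at e1
  set q : ℝ := ‖cf θ φ z i‖ with hq
  have hq0 : 0 ≤ q := norm_nonneg _
  have hr0 : 0 < r := lt_of_lt_of_le (by positivity) hy1
  have hc1 : (1 : ℝ) ≤ |(c : ℝ)| := by exact_mod_cast Int.one_le_abs hd.c0
  have hcC : |(c : ℝ)| ≤ C := by exact_mod_cast hd.cC
  have hXB : 2 * (C + 1) * B ≤ X := by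
    have : 0 ≤ 2 * C / K0 ^ 2 + C * (C + 1) / K0 ^ 2 := by positivity
    linarith
  have hX0 : 0 < X := lt_of_lt_of_le (by positivity) hXB
  have hlo : |(N : ℝ)| - B ≤ ‖(N : ℂ) - φ (θ i : L)‖ := by
    have h1 := norm_sub_norm_le (N : ℂ) (φ (θ i : L))
    rw [Complex.norm_intCast] at h1
    linarith [hB φ i]
  have hup : ‖(N : ℂ) - φ (θ i : L)‖ ≤ |(N : ℝ)| + B := by
    have h1 := norm_sub_le (N : ℂ) (φ (θ i : L))
    rw [Complex.norm_intCast] at h1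
    linarith [hB φ i]
  have hN1 : X ≤ 2 * C * ‖(N : ℂ) - φ (θ i : L)‖ := by
    have h1 : 2 * C * (|(N : ℝ)| - B) ≤ 2 * C * ‖(N : ℂ) - φ (θ i : L)‖ :=
      mul_le_mul_of_nonneg_left hlo (by positivity)
    nlinarith
  have hN2 : ‖(N : ℂ) - φ (θ i : L)‖ ≤ (C + 1) * X := by
    have h1 := hd.hN
    nlinarith
  have hN0 : 0 ≤ ‖(N : ℂ) - φ (θ i : L)‖ := norm_nonneg _
  constructor
  · rw [div_le_iff₀ (by positivity)]
    have h1 : r ^ 2 ≤ (K0⁻¹ * T) ^ 2 := pow_le_pow_left₀ hr0.le hy2 2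
    have h2 : ‖(N : ℂ) - φ (θ i : L)‖ ≤ r ^ 2 * q := by
      rw [← e1]
      nlinarith
    have h3 : r ^ 2 * q ≤ (K0⁻¹ * T) ^ 2 * q := mul_le_mul_of_nonneg_right h1 hq0
    have h4 : X ≤ 2 * C * ((K0⁻¹ * T) ^ 2 * q) := by
      refine hN1.trans (mul_le_mul_of_nonneg_left (h2.trans h3) (by positivity))
    have h5 : 2 * C * ((K0⁻¹ * T) ^ 2 * q) = 2 * C / K0 ^ 2 * q * T ^ 2 := by
      field_simp
    rw [h5] at h4
    refine h4.trans (mul_le_mul_of_nonneg_right (mul_le_mul_of_nonneg_right ?_ hq0)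
      (by positivity))
    have : 0 ≤ C * (C + 1) / K0 ^ 2 + 2 * (C + 1) * B := by positivity
    linarith
  · have h1 : (K0 * T) ^ 2 ≤ r ^ 2 := pow_le_pow_left₀ (by positivity) hy1 2
    have h2 : (K0 * T) ^ 2 * q ≤ C * ((C + 1) * X) := by
      refine (mul_le_mul_of_nonneg_right h1 hq0).trans ?_
      rw [← e1]
      exact mul_le_mul hcC hN2 hN0 (by positivity)
    have h3 : q ≤ C * (C + 1) / K0 ^ 2 * (X / T ^ 2) := by
      rw [div_mul_div_comm, le_div_iff₀ (by positivity)]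
      calc q * (K0 ^ 2 * T ^ 2) = (K0 * T) ^ 2 * q := by ring
        _ ≤ C * ((C + 1) * X) := h2
        _ = C * (C + 1) * X := by ring
    refine h3.trans (mul_le_mul_of_nonneg_right ?_ (by positivity))
    have : 0 ≤ 2 * C / K0 ^ 2 + 2 * (C + 1) * B := by positivity
    linarith

/-- the cells. -/
theorem exists_cells' (θ : Fin 4 → 𝓞 L) (C : ℕ) :
    ∃ K : ℝ, 0 < K ∧ ∀ (X T ρ : ℝ), 1 ≤ T → K ≤ X → 0 < ρ → ρ ≤ 1 → ∀ (g g' : Fin 4 → ℤ),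
      g ≠ 0 → g' ≠ 0 → ∀ (S : Finset ℤ) (p : ℤ → ℕ) (c : ℤ) (y : ℤ → Fin 4 → ℤ) (u1 u2 : ℤ → ℤ),
      (∀ N ∈ S, Dat θ C X T N (p N) c (y N) (fun j => u1 N * g j + u2 N * g' j) ∧
        X ≤ C * |(N : ℝ)| ∧ u1 N ≠ 0 ∧ (u1 N : ℝ) ^ 2 * dot g g ≤ C * (X / T ^ 2) ^ 2 ∧
        (u2 N : ℝ) ^ 2 * dot g' g' ≤ (u1 N : ℝ) ^ 2 * dot g g) →
      ∃ (k : ℕ) (cl : ℤ → ℕ) (w0 : ℕ → ℝ), (k : ℝ) ≤ K / ρ ∧ (∀ N ∈ S, cl N < k) ∧
        ∀ N ∈ S, ∀ (φ : L →+* ℂ) (j : Fin 4),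
          |(u2 N : ℝ) / u1 N - w0 (cl N)| * ‖cf θ φ g' j‖ ≤
            ρ * ‖cf θ φ g j + w0 (cl N) * cf θ φ g' j‖ := by
  classical
  obtain ⟨K1, hK1, hz⟩ := z_lower' θ C
  obtain ⟨B, hB1, -, hB⟩ := cf_upper θ
  have hC0 : (0 : ℝ) ≤ C := Nat.cast_nonneg C
  refine ⟨K1 + (2 * (B * K1 * (C + 1)) + 1), by positivity, ?_⟩
  intro X T ρ hT hX hρ hρ1 g g' hg hg' S p c y u1 u2 hS
  have hT0 : 0 < T := by linarith
  have hXK : K1 ≤ X := by
    have : 0 ≤ 2 * (B * K1 * (C + 1)) + 1 := by positivity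
    linarith
  have hX0 : 0 < X := by linarith
  have hdpos : ∀ h : Fin 4 → ℤ, h ≠ 0 → (0 : ℝ) < ((dot h h : ℤ) : ℝ) := by
    intro h hh
    obtain ⟨j, hj⟩ := Function.ne_iff.1 hh
    have h1 : (g' 0 : ℝ) = g' 0 := rfl
    have h2 : 0 < dot h h := by
      unfold dot
      exact Finset.sum_pos' (fun i _ => mul_self_nonneg _)
        ⟨j, Finset.mem_univ j, mul_self_pos.2 hj⟩
    exact_mod_cast h2
  have ha := hdpos g hg
  have ha' := hdpos g' hg'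
  set a : ℝ := √((dot g g : ℤ) : ℝ) with hadef
  set a' : ℝ := √((dot g' g' : ℤ) : ℝ) with hadef'
  have ha2 : a ^ 2 = ((dot g g : ℤ) : ℝ) := Real.sq_sqrt ha.le
  have ha2' : a' ^ 2 = ((dot g' g' : ℤ) : ℝ) := Real.sq_sqrt ha'.le
  have ha0 : 0 < a := Real.sqrt_pos.2 ha
  have ha0' : 0 < a' := Real.sqrt_pos.2 ha'
  -- the length of the cells
  obtain ⟨δ, hδ⟩ : ∃ δ : ℝ, δ = ρ * a / (a' * (B * K1 * (C + 1))) := ⟨_, rfl⟩
  have hδ0 : 0 < δ := by rw [hδ]; positivity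
  have hM : 2 * (a / a') / δ = 2 * (B * K1 * (C + 1)) / ρ := by
    rw [hδ]; field_simp
  -- the abscissa
  let w : ℤ → ℝ := fun N => (u2 N : ℝ) / u1 N
  have hu1 : ∀ N ∈ S, (0 : ℝ) < |(u1 N : ℝ)| := by
    intro N hN
    exact abs_pos.2 (by exact_mod_cast (hS N hN).2.2.1)
  have hw : ∀ N ∈ S, |w N| ≤ a / a' := by
    intro N hN
    obtain ⟨-, -, h3, -, h5⟩ := hS N hN
    have h6 := hu1 N hN
    rw [← ha2, ← ha2', ← mul_pow, ← mul_pow, sq_le_sq, abs_mul, abs_mul, abs_of_pos ha0,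
      abs_of_pos ha0'] at h5
    show |(u2 N : ℝ) / u1 N| ≤ a / a'
    rw [abs_div, div_le_div_iff₀ h6 ha0']
    linarith
  let cl : ℤ → ℕ := fun N => ⌊(w N + a / a') / δ⌋₊
  have hcl0 : ∀ N ∈ S, 0 ≤ (w N + a / a') / δ := by
    intro N hN
    have := (abs_le.1 (hw N hN)).1
    have h2 : 0 ≤ w N + a / a' := by linarith
    positivity
  let w0 : ℕ → ℝ := fun m => if h : ∃ N ∈ S, cl N = m then w h.choose else 0
  refine ⟨⌊2 * (a / a') / δ⌋₊ + 1, cl, w0, ?_, ?_, ?_⟩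
  · have h1 : (⌊2 * (a / a') / δ⌋₊ : ℝ) ≤ 2 * (a / a') / δ := Nat.floor_le (by positivity)
    rw [hM] at h1
    have h2 : (1 : ℝ) ≤ 1 / ρ := by rw [le_div_iff₀ hρ]; linarith
    have h3 : 0 ≤ K1 / ρ := by positivity
    rw [hM]
    push_cast
    calc (⌊2 * (B * K1 * (C + 1)) / ρ⌋₊ : ℝ) + 1
        ≤ 2 * (B * K1 * (C + 1)) / ρ + 1 / ρ := by
          refine add_le_add ?_ h2
          rw [← hM] at h1 ⊢
          exact h1
      _ ≤ (K1 + (2 * (B * K1 * (C + 1)) + 1)) / ρ := by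
          rw [add_div K1, add_div]; linarith
  · intro N hN
    have h1 := (abs_le.1 (hw N hN)).2
    refine Nat.lt_succ_of_le (Nat.floor_le_floor ?_)
    rw [div_le_div_iff_of_pos_right hδ0]
    linarith
  · intro N hN φ j
    have hex : ∃ N' ∈ S, cl N' = cl N := ⟨N, hN, rfl⟩
    have hw0 : w0 (cl N) = w hex.choose := dif_pos hex
    obtain ⟨hN0, hcl⟩ := hex.choose_spec
    set N0 := hex.choose with hN0def
    rw [hw0]
    -- the two points are in one cell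
    have hdist : |w N - w N0| ≤ δ := by
      have h1 := Nat.floor_le (hcl0 N hN)
      have h2 := Nat.lt_floor_add_one ((w N + a / a') / δ)
      have h3 := Nat.floor_le (hcl0 N0 hN0)
      have h4 := Nat.lt_floor_add_one ((w N0 + a / a') / δ)
      have h5 : (⌊(w N0 + a / a') / δ⌋₊ : ℝ) = (⌊(w N + a / a') / δ⌋₊ : ℝ) := by
        exact_mod_cast hcl
      rw [h5] at h3 h4
      have h6 : |(w N + a / a') / δ - (w N0 + a / a') / δ| ≤ 1 := by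
        rw [abs_le]; constructor <;> linarith
      rw [← sub_div, abs_div, abs_of_pos hδ0, div_le_one hδ0] at h6
      have h7 : w N + a / a' - (w N0 + a / a') = w N - w N0 := by ring
      rwa [h7] at h6
    obtain ⟨hd0, hN1, hu0, hu2, -⟩ := hS N0 hN0
    have hzl := (hz X T N0 (p N0) c (y N0) _ hT hXK hN1 hd0 φ j).1
    rw [cf_lin] at hzl
    have hfac : (u1 N0 : ℂ) * cf θ φ g j + (u2 N0 : ℂ) * cf θ φ g' j =
        (u1 N0 : ℂ) * (cf θ φ g j + ((w N0 : ℝ) : ℂ) * cf θ φ g' j) := by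
      have h1 : (u1 N0 : ℂ) ≠ 0 := by exact_mod_cast hu0
      show _ = (u1 N0 : ℂ) * (cf θ φ g j + (((u2 N0 : ℝ) / u1 N0 : ℝ) : ℂ) * cf θ φ g' j)
      push_cast
      field_simp
    rw [hfac, norm_mul, Complex.norm_intCast] at hzl
    set Q : ℝ := ‖cf θ φ g j + ((w N0 : ℝ) : ℂ) * cf θ φ g' j‖ with hQ
    have hQ0 : 0 ≤ Q := norm_nonneg _
    have hua : |(u1 N0 : ℝ)| * a ≤ (C + 1) * (X / T ^ 2) := by
      have h1 : (|(u1 N0 : ℝ)| * a) ^ 2 ≤ ((C + 1) * (X / T ^ 2)) ^ 2 := by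
        rw [mul_pow, sq_abs, ha2, mul_pow]
        refine hu2.trans (mul_le_mul_of_nonneg_right ?_ (by positivity))
        nlinarith
      exact (pow_le_pow_iff_left₀ (by positivity) (by positivity) two_ne_zero).1 h1
    have hXT : 0 < X / T ^ 2 := by positivity
    have hQa : a ≤ (C + 1) * K1 * Q := by
      have h1 : |(u1 N0 : ℝ)| * a ≤ (C + 1) * (K1 * (|(u1 N0 : ℝ)| * Q)) :=
        hua.trans (mul_le_mul_of_nonneg_left hzl (by positivity))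
      have h2 : |(u1 N0 : ℝ)| * a ≤ |(u1 N0 : ℝ)| * ((C + 1) * K1 * Q) := by
        refine h1.trans (le_of_eq ?_)
        ring
      exact le_of_mul_le_mul_left h2 (hu1 N0 hN0)
    calc |(u2 N : ℝ) / u1 N - w N0| * ‖cf θ φ g' j‖ ≤ δ * (B * a') :=
          mul_le_mul hdist (hB φ g' j) (norm_nonneg _) hδ0.le
      _ = ρ * (a / (K1 * (C + 1))) := by rw [hδ]; field_simp
      _ ≤ ρ * Q := by
          refine mul_le_mul_of_nonneg_left ?_ hρ.le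
          rw [div_le_iff₀ (by positivity)]
          linarith

end Vale.Agent.P018.QB
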