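import Mathlib
import Vale.Agent.P018.Q.BDefs
import Vale.Agent.P018.Q.BBezA
import Vale.Agent.P018.Q.RelPig

/-! # Bezout over `ℂ`, and curves through many rational points. -/

namespace Vale.Agent.P018.QB

open Polynomial NumberField Vale.Agent.P018.Q

theorem evB_eq (n w : ℂ) (Φ : ℂ[X][X]) : evB n w Φ = evK Φ n w := by
  unfold evB evK
  rw [eval_map]
  congr 1

/-- Bezout (see `Q/Bezout2.lean` for the same over `ℚ`: copy the proof). -/
theorem bezC (D : ℕ) : ∃ C : ℕ, ∀ q G : ℂ[X][X], Irreducible q → ¬ q ∣ G → BiDeg D D q →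
    BiDeg D D G → ∀ S : Finset (ℂ × ℂ), (∀ z ∈ S, evB z.1 z.2 q = 0 ∧ evB z.1 z.2 G = 0) →
    S.card ≤ C := by
  classical
  obtain ⟨C, hC⟩ := bezK ℂ D D
  refine ⟨C, fun q G hq hdvd h1 h2 S hS => hC q G hq hdvd h1 h2 S fun z hz => ?_⟩
  rw [← evB_eq, ← evB_eq]
  exact hS z hz

/-- small integer solutions of a degenerate linear system. -/
theorem bz_kernel {β S : Type} [Fintype β] (r : S → β → ℤ) (A : ℕ) (hA : 1 ≤ A)
    (hr : ∀ s b, |r s b| ≤ A) (x : β → ℂ) (hx : x ≠ 0)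
    (hx0 : ∀ s, ∑ b, (r s b : ℂ) * x b = 0) :
    ∃ t : β → ℤ, t ≠ 0 ∧ (∀ s, ∑ b, r s b * t b = 0) ∧
      ∀ b, |t b| ≤ (((2 * Fintype.card β * A) ^ Fintype.card β : ℕ) : ℤ) := by
  classical
  set n := Fintype.card β with hn
  obtain ⟨b₀, hb₀⟩ := Function.ne_iff.1 hx
  have hn1 : 1 ≤ n := Fintype.card_pos_iff.2 ⟨b₀⟩
  obtain ⟨κ, a, -, hspan, hli⟩ := exists_linearIndependent' (K := ℂ)
    (fun (s : S) (b : β) => (r s b : ℂ))
  have hfin : Finite κ := hli.finite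
  have := Fintype.ofFinite κ
  -- the linear form
  let ξ : (β → ℂ) →ₗ[ℂ] ℂ := ∑ b, x b • LinearMap.proj b
  have hξ : ∀ w : β → ℂ, ξ w = ∑ b, w b * x b := by
    intro w
    simp only [ξ, LinearMap.sum_apply, LinearMap.smul_apply, LinearMap.proj_apply, smul_eq_mul]
    exact Finset.sum_congr rfl fun b _ => mul_comm _ _
  have hlt : Fintype.card κ < n := by
    have h1 := finrank_span_eq_card hli
    rw [← h1, hspan]
    have h2 : Submodule.span ℂ (Set.range fun (s : S) (b : β) => (r s b : ℂ)) ≤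
        LinearMap.ker ξ := by
      rw [Submodule.span_le]
      rintro _ ⟨s, rfl⟩
      rw [SetLike.mem_coe, LinearMap.mem_ker, hξ]
      exact hx0 s
    have h3 : LinearMap.ker ξ ≠ ⊤ := by
      intro h
      apply hb₀
      have h4 : ξ (Pi.single b₀ 1) = 0 := by
        rw [← LinearMap.mem_ker, h]
        exact Submodule.mem_top
      rw [hξ, Finset.sum_eq_single b₀] at h4
      · simpa using h4
      · intro b _ hb
        rw [Pi.single_eq_of_ne hb, zero_mul]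
      · intro h
        exact absurd (Finset.mem_univ _) h
    refine (Submodule.finrank_mono h2).trans_lt ?_
    refine (Submodule.finrank_lt (lt_top_iff_ne_top.2 h3).ne).trans_le ?_
    rw [Module.finrank_fintype_fun_eq_card]
  -- pigeonhole
  set W : ℕ := (2 * n * A) ^ n with hW
  have hnA : 1 ≤ 2 * n * A := by
    have : 1 ≤ n * A := Nat.mul_pos hn1 hA
    nlinarith
  obtain ⟨t, ht0, htW, htk, -⟩ := rel_pigeon (ι := β) (κ := κ) (τ := Empty) (fun _ => W)
    (fun b k => r (a k) b) (fun _ => (n : ℝ) * A * W) (fun _ t => t.elim) (fun t => t.elim)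
    (fun t => t.elim) (by
      intro f hf k
      have h1 : |∑ b, f b * r (a k) b| ≤ ∑ b : β, (W : ℤ) * A := by
        refine (Finset.abs_sum_le_sum_abs _ _).trans (Finset.sum_le_sum fun b _ => ?_)
        rw [abs_mul, abs_of_nonneg (hf b).1]
        exact mul_le_mul (hf b).2 (hr _ _) (abs_nonneg _) (by positivity)
      rw [Finset.sum_const, Finset.card_univ, ← hn, nsmul_eq_mul] at h1
      have h2 : |((∑ b, f b * r (a k) b : ℤ) : ℝ)| ≤ (((n : ℤ) * ((W : ℤ) * A) : ℤ) : ℝ) := by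
        rw [← Int.cast_abs]
        exact_mod_cast h1
      refine h2.trans (le_of_eq ?_)
      push_cast
      ring) (by
      rw [Finset.prod_const, Finset.prod_const, Finset.card_univ, Finset.card_univ, ← hn]
      simp only [Finset.univ_eq_empty, Finset.prod_empty, mul_one]
      have h1 : (2 * ((n : ℝ) * A * W) + 1) ≤ ((2 * n * A : ℕ) : ℝ) * ((W : ℝ) + 1) := by
        have h2 : (1 : ℝ) ≤ ((2 * n * A : ℕ) : ℝ) := by exact_mod_cast hnA
        push_cast at h2 ⊢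
        nlinarith
      have hW1 : (1 : ℝ) ≤ (W : ℝ) + 1 := by
        have : (0 : ℝ) ≤ W := Nat.cast_nonneg _
        linarith
      calc (2 * ((n : ℝ) * A * W) + 1) ^ Fintype.card κ
          ≤ (((2 * n * A : ℕ) : ℝ) * ((W : ℝ) + 1)) ^ Fintype.card κ :=
            pow_le_pow_left₀ (by positivity) h1 _
        _ = ((2 * n * A : ℕ) : ℝ) ^ Fintype.card κ * ((W : ℝ) + 1) ^ Fintype.card κ := by
            rw [mul_pow]
        _ ≤ (W : ℝ) * ((W : ℝ) + 1) ^ Fintype.card κ := by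
            refine mul_le_mul_of_nonneg_right ?_ (by positivity)
            rw [hW]
            push_cast
            exact pow_le_pow_right₀ (by exact_mod_cast hnA) hlt.le
        _ < ((W : ℝ) + 1) * ((W : ℝ) + 1) ^ Fintype.card κ := by
            refine mul_lt_mul_of_pos_right (by linarith) (by positivity)
        _ = ((W : ℝ) + 1) ^ (Fintype.card κ + 1) := by rw [pow_succ, mul_comm]
        _ ≤ ((W : ℝ) + 1) ^ n := pow_le_pow_right₀ hW1 hlt)
  refine ⟨t, ht0, fun s => ?_, htW⟩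
  -- all equations
  let η : (β → ℂ) →ₗ[ℂ] ℂ := ∑ b, (t b : ℂ) • LinearMap.proj b
  have hη : ∀ w : β → ℂ, η w = ∑ b, w b * t b := by
    intro w
    simp only [η, LinearMap.sum_apply, LinearMap.smul_apply, LinearMap.proj_apply, smul_eq_mul]
    exact Finset.sum_congr rfl fun b _ => mul_comm _ _
  have h1 : Submodule.span ℂ (Set.range ((fun (s : S) (b : β) => (r s b : ℂ)) ∘ a)) ≤
      LinearMap.ker η := by
    rw [Submodule.span_le]
    rintro _ ⟨k, rfl⟩
    rw [SetLike.mem_coe, LinearMap.mem_ker, hη]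
    have h2 := htk k
    have h3 : ((∑ b, t b * r (a k) b : ℤ) : ℂ) = 0 := by rw [h2]; simp
    push_cast at h3
    rw [← h3]
    exact Finset.sum_congr rfl fun b _ => mul_comm _ _
  rw [hspan] at h1
  have h2 := h1 (Submodule.subset_span ⟨s, rfl⟩)
  rw [LinearMap.mem_ker, hη] at h2
  have h3 : ((∑ b, r s b * t b : ℤ) : ℂ) = 0 := by
    push_cast
    exact h2
  exact_mod_cast h3

/-- the polynomial with given coefficients. -/
noncomputable def bzP {R : Type*} [CommRing R] (d1 d2 : ℕ) (x : Fin (d1 + 1) × Fin (d2 + 1) → R) :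
    R[X][X] := ∑ z, monomial (z.1 : ℕ) (monomial (z.2 : ℕ) (x z))

theorem bz_coeff {R : Type*} [CommRing R] (d1 d2 : ℕ) (x : Fin (d1 + 1) × Fin (d2 + 1) → R)
    (z : Fin (d1 + 1) × Fin (d2 + 1)) : ((bzP d1 d2 x).coeff z.1).coeff z.2 = x z := by
  classical
  unfold bzP
  rw [finsetSum_coeff, finsetSum_coeff, Finset.sum_eq_single z]
  · simp
  · intro y _ hy
    rw [coeff_monomial]
    split_ifs with h1
    · rw [coeff_monomial, if_neg]
      intro h2
      exact hy (Prod.ext (Fin.ext h1) (Fin.ext h2))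
    · simp
  · intro h
    exact absurd (Finset.mem_univ _) h

theorem bz_bideg {R : Type*} [CommRing R] (d1 d2 : ℕ) (x : Fin (d1 + 1) × Fin (d2 + 1) → R) :
    BiDeg d1 d2 (bzP d1 d2 x) := by
  classical
  constructor
  · refine natDegree_sum_le_of_forall_le _ _ fun z _ => ?_
    exact (natDegree_monomial_le _).trans (by omega)
  · intro i
    unfold bzP
    rw [finsetSum_coeff]
    refine natDegree_sum_le_of_forall_le _ _ fun z _ => ?_
    rw [coeff_monomial]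
    split_ifs
    · exact (natDegree_monomial_le _).trans (by omega)
    · simp

theorem bz_eq {R : Type*} [CommRing R] {d1 d2 : ℕ} {P : R[X][X]} (h : BiDeg d1 d2 P) :
    P = bzP d1 d2 fun z => (P.coeff z.1).coeff z.2 := by
  ext i j
  by_cases hi : i < d1 + 1
  · by_cases hj : j < d2 + 1
    · have := bz_coeff d1 d2 (fun z => (P.coeff z.1).coeff z.2) (⟨i, hi⟩, ⟨j, hj⟩)
      exact this.symm
    · rw [coeff_eq_zero_of_natDegree_lt (lt_of_le_of_lt (h.2 i) (by omega)),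
        coeff_eq_zero_of_natDegree_lt (lt_of_le_of_lt ((bz_bideg d1 d2 _).2 i) (by omega))]
  · rw [coeff_eq_zero_of_natDegree_lt (lt_of_le_of_lt h.1 (by omega)),
      coeff_eq_zero_of_natDegree_lt (lt_of_le_of_lt (bz_bideg d1 d2 _).1 (by omega))]

/-- the value in terms of the linear forms. -/
theorem bz_val (d1 d2 : ℕ) (x : Fin (d1 + 1) × Fin (d2 + 1) → ℂ) (N u1 u2 : ℤ) (hu : u1 ≠ 0) :
    (u1 : ℂ) ^ d2 * evB (N : ℂ) ((u2 : ℂ) / u1) (bzP d1 d2 x) =
      ∑ z, ((N ^ (z.1 : ℕ) * u2 ^ (z.2 : ℕ) * u1 ^ (d2 - (z.2 : ℕ)) : ℤ) : ℂ) * x z := by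
  rw [evB_eq]
  unfold evK bzP
  rw [Polynomial.map_sum, eval_finsetSum, Finset.mul_sum]
  refine Finset.sum_congr rfl fun z _ => ?_
  rw [map_monomial, eval_monomial, coe_evalRingHom, eval_monomial]
  have hu' : (u1 : ℂ) ≠ 0 := by exact_mod_cast hu
  have h1 : (u1 : ℂ) ^ d2 = (u1 : ℂ) ^ (z.2 : ℕ) * (u1 : ℂ) ^ (d2 - (z.2 : ℕ)) := by
    rw [← pow_add]
    congr 1
    omega
  rw [h1, div_pow]
  push_cast
  field_simp

/-- an irreducible complex curve with many rational points of height `≤ H` is defined by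
an integer polynomial of bounded height (take the linear system of all polynomials of bidegree
`≤` that of `Φ` through the points: by Bezout its solution space is `ℂ Φ`, and it has integer
coefficients after clearing the denominators). -/
theorem rational_of_points (D : ℕ) :
    ∃ K : ℕ, ∀ (H : ℕ), 2 ≤ H → ∀ (Φ : ℂ[X][X]), Irreducible Φ → BiDeg D D Φ →
      ∀ (S : Finset ℤ) (u1 u2 : ℤ → ℤ),
      (∀ N ∈ S, |N| ≤ H ∧ |u1 N| ≤ H ∧ |u2 N| ≤ H ∧ u1 N ≠ 0 ∧
        evB (N : ℂ) ((u2 N : ℂ) / u1 N) Φ = 0) → K < S.card →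
      ∃ (Ψ : ℤ[X][X]) (a : ℂ), a ≠ 0 ∧ toC Ψ = C (C a) * Φ ∧
        (∀ i j, |(Ψ.coeff i).coeff j| ≤ (H : ℤ) ^ K) := by
  classical
  obtain ⟨C₀, hC₀⟩ := bezC D
  set n0 : ℕ := (D + 1) * (D + 1) with hn0
  refine ⟨C₀ + (1 + n0 + 2 * D) * n0, fun H hH Φ hΦ hbd S u1 u2 hS hK => ?_⟩
  have hΦ0 : Φ ≠ 0 := hΦ.ne_zero
  -- the exact bidegree
  obtain ⟨d2, i0, hd2, hi0, hi0'⟩ : ∃ d2 i0 : ℕ, (∀ i, (Φ.coeff i).natDegree ≤ d2) ∧
      Φ.coeff i0 ≠ 0 ∧ (Φ.coeff i0).natDegree = d2 := by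
    obtain ⟨i0, hi0, hmax⟩ := Finset.exists_max_image Φ.support
      (fun i => (Φ.coeff i).natDegree) (by rwa [Finset.nonempty_iff_ne_empty, Ne, support_eq_empty])
    refine ⟨(Φ.coeff i0).natDegree, i0, fun i => ?_, mem_support_iff.1 hi0, rfl⟩
    by_cases hi : i ∈ Φ.support
    · exact hmax i hi
    · rw [notMem_support_iff.1 hi]
      simp
  set d1 := Φ.natDegree with hd1
  have hd1D : d1 ≤ D := hbd.1
  have hd2D : d2 ≤ D := hi0' ▸ hbd.2 i0
  have hb : BiDeg d1 d2 Φ := ⟨le_rfl, hd2⟩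
  set x : Fin (d1 + 1) × Fin (d2 + 1) → ℂ := fun z => (Φ.coeff z.1).coeff z.2 with hx
  have hΦx : Φ = bzP d1 d2 x := bz_eq hb
  have hx0 : x ≠ 0 := by
    intro h
    apply hΦ0
    rw [hΦx, h]
    unfold bzP
    simp
  have hH0 : (0 : ℤ) ≤ H := by positivity
  have hH1 : (1 : ℤ) ≤ H := by exact_mod_cast (by omega : 1 ≤ H)
  obtain ⟨t, ht0, htr, htb⟩ := bz_kernel (β := Fin (d1 + 1) × Fin (d2 + 1)) (S := S)
    (fun N z => (N : ℤ) ^ (z.1 : ℕ) * u2 N ^ (z.2 : ℕ) * u1 N ^ (d2 - (z.2 : ℕ)))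
    (H ^ (2 * D)) (Nat.one_le_pow _ _ (by omega)) (by
      intro N z
      obtain ⟨h1, h2, h3, -, -⟩ := hS N N.2
      rw [abs_mul, abs_mul, abs_pow, abs_pow, abs_pow]
      push_cast
      calc |(N : ℤ)| ^ (z.1 : ℕ) * |u2 N| ^ (z.2 : ℕ) * |u1 N| ^ (d2 - (z.2 : ℕ))
          ≤ (H : ℤ) ^ (z.1 : ℕ) * (H : ℤ) ^ (z.2 : ℕ) * (H : ℤ) ^ (d2 - (z.2 : ℕ)) := by gcongr
        _ = (H : ℤ) ^ ((z.1 : ℕ) + z.2 + (d2 - (z.2 : ℕ))) := by rw [pow_add, pow_add]
        _ ≤ (H : ℤ) ^ (2 * D) := pow_le_pow_right₀ hH1 (by omega)) x hx0 (by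
      intro N
      obtain ⟨-, -, -, h4, h5⟩ := hS N N.2
      have h6 := bz_val d1 d2 x (N : ℤ) (u1 N) (u2 N) h4
      rw [← hΦx, h5, mul_zero] at h6
      exact h6.symm)
  have htoC : toC (bzP d1 d2 t) = bzP d1 d2 fun z => (t z : ℂ) := by
    unfold toC bzP
    rw [Polynomial.map_sum]
    refine Finset.sum_congr rfl fun z _ => ?_
    simp
  set G : ℂ[X][X] := bzP d1 d2 fun z => (t z : ℂ) with hG
  have hGb : BiDeg d1 d2 G := bz_bideg _ _ _
  have hG0 : G ≠ 0 := by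
    intro h
    apply ht0
    funext z
    have h1 := bz_coeff d1 d2 (fun z => (t z : ℂ)) z
    rw [← hG, h, coeff_zero, coeff_zero] at h1
    exact_mod_cast h1.symm
  -- divisibility
  have hdvd : Φ ∣ G := by
    by_contra hcon
    have h1 := hC₀ Φ G hΦ hcon hbd ⟨hGb.1.trans hd1D, fun i => (hGb.2 i).trans hd2D⟩
      (S.image fun N : ℤ => ((N : ℂ), (u2 N : ℂ) / u1 N)) (by
        intro z hz
        obtain ⟨N, hN, rfl⟩ := Finset.mem_image.1 hz
        obtain ⟨-, -, -, h4, h5⟩ := hS N hN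
        refine ⟨h5, ?_⟩
        have h6 := bz_val d1 d2 (fun z => (t z : ℂ)) N (u1 N) (u2 N) h4
        have h7 := htr ⟨N, hN⟩
        have h8 : ∑ z : Fin (d1 + 1) × Fin (d2 + 1),
            ((N ^ (z.1 : ℕ) * u2 N ^ (z.2 : ℕ) * u1 N ^ (d2 - (z.2 : ℕ)) : ℤ) : ℂ) * (t z : ℂ) =
            0 := by
          rw [← Int.cast_zero (R := ℂ), ← h7]
          push_cast
          rfl
        rw [h8] at h6
        have hu' : (u1 N : ℂ) ^ d2 ≠ 0 := pow_ne_zero _ (by exact_mod_cast h4)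
        exact (mul_eq_zero.1 h6).resolve_left hu')
    rw [Finset.card_image_of_injective _ (by
      intro N M h
      simpa using congrArg Prod.fst h)] at h1
    omega
  obtain ⟨h, hh⟩ := hdvd
  have hh0 : h ≠ 0 := by
    rintro rfl
    exact hG0 (by rw [hh, mul_zero])
  have hdeg : h.natDegree = 0 := by
    have h1 := hGb.1
    rw [hh, natDegree_mul hΦ0 hh0] at h1
    omega
  obtain ⟨h', rfl⟩ : ∃ h', h = C h' := ⟨_, eq_C_of_natDegree_eq_zero hdeg⟩
  have hh'0 : h' ≠ 0 := by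
    rintro rfl
    exact hh0 (map_zero C)
  have hdeg' : h'.natDegree = 0 := by
    have h1 := hGb.2 i0
    rw [hh, coeff_mul_C, natDegree_mul hi0 hh'0] at h1
    omega
  obtain ⟨a, rfl⟩ : ∃ a, h' = C a := ⟨_, eq_C_of_natDegree_eq_zero hdeg'⟩
  have ha0 : a ≠ 0 := by
    rintro rfl
    exact hh'0 (map_zero C)
  refine ⟨bzP d1 d2 t, a, ha0, by rw [htoC, hh, mul_comm], fun i j => ?_⟩
  have hK0 : (0 : ℤ) ≤ (H : ℤ) ^ (C₀ + (1 + n0 + 2 * D) * n0) := by positivity
  by_cases hi : i < d1 + 1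
  · by_cases hj : j < d2 + 1
    · have h1 := bz_coeff d1 d2 t (⟨i, hi⟩, ⟨j, hj⟩)
      rw [show ((bzP d1 d2 t).coeff i).coeff j = t (⟨i, hi⟩, ⟨j, hj⟩) from h1]
      refine (htb _).trans ?_
      have hn : Fintype.card (Fin (d1 + 1) × Fin (d2 + 1)) ≤ n0 := by
        rw [Fintype.card_prod, Fintype.card_fin, Fintype.card_fin, hn0]
        exact Nat.mul_le_mul (by omega) (by omega)
      have h2 : (2 * Fintype.card (Fin (d1 + 1) × Fin (d2 + 1)) * H ^ (2 * D)) ^
          Fintype.card (Fin (d1 + 1) × Fin (d2 + 1)) ≤ H ^ (C₀ + (1 + n0 + 2 * D) * n0) := by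
        have h3 : 2 * Fintype.card (Fin (d1 + 1) × Fin (d2 + 1)) * H ^ (2 * D) ≤
            H ^ (1 + n0 + 2 * D) := by
          rw [pow_add, pow_add, pow_one]
          refine Nat.mul_le_mul (Nat.mul_le_mul hH ?_) le_rfl
          exact hn.trans ((Nat.lt_two_pow_self).le.trans (Nat.pow_le_pow_left hH _))
        calc (2 * Fintype.card (Fin (d1 + 1) × Fin (d2 + 1)) * H ^ (2 * D)) ^
              Fintype.card (Fin (d1 + 1) × Fin (d2 + 1))
            ≤ (H ^ (1 + n0 + 2 * D)) ^ Fintype.card (Fin (d1 + 1) × Fin (d2 + 1)) :=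
              Nat.pow_le_pow_left h3 _
          _ ≤ (H ^ (1 + n0 + 2 * D)) ^ n0 :=
              Nat.pow_le_pow_right (Nat.pos_of_ne_zero (pow_ne_zero _ (by omega))) hn
          _ = H ^ ((1 + n0 + 2 * D) * n0) := by rw [← pow_mul]
          _ ≤ H ^ (C₀ + (1 + n0 + 2 * D) * n0) := Nat.pow_le_pow_right (by omega) (by omega)
      exact_mod_cast h2
    · rw [coeff_eq_zero_of_natDegree_lt (lt_of_le_of_lt ((bz_bideg d1 d2 t).2 i) (by omega))]
      simp
  · rw [coeff_eq_zero_of_natDegree_lt (lt_of_le_of_lt (bz_bideg d1 d2 t).1 (by omega))]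
    simp

end Vale.Agent.P018.QB
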