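import Mathlib
import Vale.Agent.P018.Q.BDefs

/-! # P018, (B): auxiliary lemmas for `curve_count`. -/

namespace Vale.Agent.P018.QB

open Polynomial NumberField Vale.Agent.P018.Q

variable {L : Type} [Field L] [NumberField L]

/-- Vandermonde. -/
theorem cc_vander {R : Type*} [CommRing R] [IsDomain R] {θ : Fin 4 → R}
    (hθ : Function.Injective θ) {a : Fin 4 → R}
    (h : ∀ j, ∑ m : Fin 4, a m * θ j ^ (m : ℕ) = 0) : a = 0 := by
  have h1 : (Matrix.vandermonde θ).mulVec a = 0 := by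
    funext j
    simp only [Matrix.mulVec, dotProduct, Matrix.vandermonde_apply, Pi.zero_apply]
    rw [← h j]
    exact Finset.sum_congr rfl fun m _ => mul_comm _ _
  exact Matrix.eq_zero_of_mulVec_eq_zero (Matrix.det_vandermonde_ne_zero_iff.mpr hθ) h1

/-- counting proportional integer vectors of bounded content. -/
theorem cc_prop_count (M : ℕ) (V : Finset (Fin 4 → ℤ)) (h0 : ∀ v ∈ V, v ≠ 0)
    (hp : ∀ v ∈ V, ∀ w ∈ V, ∀ a b, v a * w b = v b * w a)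
    (hc : ∀ v ∈ V, ∀ d : ℤ, (∀ a, d ∣ v a) → |d| ≤ M) : V.card ≤ (2 * M + 1) * (M + 1) := by
  classical
  rcases V.eq_empty_or_nonempty with rfl | ⟨w, hw⟩
  · simp
  obtain ⟨a, ha⟩ : ∃ a, w a ≠ 0 := by
    by_contra hcon
    push Not at hcon
    exact h0 w hw (funext hcon)
  have haQ : (w a : ℚ) ≠ 0 := by exact_mod_cast ha
  set r : (Fin 4 → ℤ) → ℚ := fun v => (v a : ℚ) / w a with hr
  -- every vector is a multiple
  have key : ∀ v ∈ V, ∀ b, (v b : ℚ) = r v * w b := by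
    intro v hv b
    have h1 := hp v hv w hw a b
    have h2 : (v a : ℚ) * w b = v b * w a := by exact_mod_cast h1
    rw [hr]
    field_simp
    linarith
  have key2 : ∀ v ∈ V, ∀ b, v b * (r v).den = (r v).num * w b := by
    intro v hv b
    have h1 := key v hv b
    have h2 : (r v : ℚ) * (r v).den = (r v).num := Rat.mul_den_eq_num _
    have h3 : (v b : ℚ) * (r v).den = (r v).num * w b := by
      rw [h1, ← h2]; ring
    exact_mod_cast h3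
  have hcop : ∀ v, IsCoprime (r v).num ((r v).den : ℤ) := fun v =>
    Rat.isCoprime_num_den (r v)
  have hnum : ∀ v ∈ V, |(r v).num| ≤ M := by
    intro v hv
    refine hc v hv _ fun b => ?_
    exact (hcop v).dvd_of_dvd_mul_right ⟨w b, key2 v hv b⟩
  have hden : ∀ v ∈ V, ((r v).den : ℤ) ≤ M := by
    intro v hv
    have h1 := hc w hw ((r v).den : ℤ) fun b => by
      refine (hcop v).symm.dvd_of_dvd_mul_left ⟨v b, ?_⟩
      rw [← key2 v hv b]; ring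
    exact (le_abs_self _).trans h1
  have hmap : ∀ v ∈ V, ((r v).num, (r v).den) ∈ (Finset.Icc (-(M : ℤ)) M) ×ˢ Finset.range (M + 1) := by
    intro v hv
    rw [Finset.mem_product, Finset.mem_Icc, Finset.mem_range]
    have h1 := abs_le.1 (hnum v hv)
    have h2 := hden v hv
    refine ⟨⟨h1.1, h1.2⟩, ?_⟩
    have : (r v).den ≤ M := by exact_mod_cast h2
    simpa using Nat.lt_succ_of_le this
  have hinj : Set.InjOn (fun v => ((r v).num, (r v).den)) (V : Set (Fin 4 → ℤ)) := by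
    intro v hv v' hv' hvv
    simp only [Prod.mk.injEq] at hvv
    have h1 : r v = r v' := by
      rw [← Rat.num_div_den (r v), ← Rat.num_div_den (r v'), hvv.1, hvv.2]
    funext b
    have h2 : (v b : ℚ) = v' b := by
      rw [key v hv b, key v' hv' b, h1]
    exact_mod_cast h2
  calc V.card ≤ ((Finset.Icc (-(M : ℤ)) M) ×ˢ Finset.range (M + 1)).card :=
        Finset.card_le_card_of_injOn _ hmap hinj
    _ = (2 * M + 1) * (M + 1) := by
        rw [Finset.card_product, Int.card_Icc, Finset.card_range]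
        congr 1
        omega

/-- divisors of a fixed integer are bounded. -/
theorem cc_dvd_bound (d : ℤ) (x : 𝓞 L) (hx : x ≠ 0) (h : (d : 𝓞 L) ∣ x) :
    |d| ≤ |Algebra.norm ℤ x| := by
  obtain ⟨y, rfl⟩ := h
  rw [map_mul, abs_mul]
  have hy : y ≠ 0 := fun h0 => hx (by rw [h0, mul_zero])
  have hd : (d : 𝓞 L) ≠ 0 := fun h0 => hx (by rw [h0, zero_mul])
  have hd0 : d ≠ 0 := by rintro rfl; simp at hd
  have h1 : (1 : ℤ) ≤ |Algebra.norm ℤ y| := Int.one_le_abs (Algebra.norm_ne_zero_iff.2 hy)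
  have h2 : Algebra.norm ℤ (d : 𝓞 L) = d ^ (Fintype.card (Module.Free.ChooseBasisIndex ℤ (𝓞 L))) := by
    have := Algebra.norm_algebraMap_of_basis (RingOfIntegers.basis L) d
    simpa using this
  have h3 : (Fintype.card (Module.Free.ChooseBasisIndex ℤ (𝓞 L))) ≠ 0 := by
    have : Nonempty (Module.Free.ChooseBasisIndex ℤ (𝓞 L)) := (RingOfIntegers.basis L).index_nonempty
    exact Fintype.card_ne_zero
  have h4 : |d| ≤ |Algebra.norm ℤ (d : 𝓞 L)| := by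
    rw [h2, abs_pow]
    exact le_self_pow₀ (Int.one_le_abs hd0) h3
  nlinarith [abs_nonneg d, abs_nonneg (Algebra.norm ℤ (d : 𝓞 L))]

/-- the bound for contents. -/
noncomputable def ccM (θ : Fin 4 → 𝓞 L) (C : ℕ) : ℕ :=
  ∑ c ∈ Finset.Icc (-(C : ℤ)) C, (Algebra.norm ℤ ((c : 𝓞 L) * (θ 1 - θ 0))).natAbs

theorem cc_ccM {θ : Fin 4 → 𝓞 L} (hθ : Function.Injective θ) {C : ℕ} {c : ℤ} (hc : c ≠ 0)
    (hcC : |c| ≤ C) {d : ℤ} (h : (d : 𝓞 L) ∣ (c : 𝓞 L) * (θ 1 - θ 0)) : |d| ≤ ccM θ C := by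
  have hx : (c : 𝓞 L) * (θ 1 - θ 0) ≠ 0 := by
    refine mul_ne_zero (by exact_mod_cast hc) (sub_ne_zero.2 fun h => ?_)
    exact absurd (hθ h) (by decide)
  refine (cc_dvd_bound d _ hx h).trans ?_
  rw [Int.abs_eq_natAbs]
  have h2 : (Algebra.norm ℤ ((c : 𝓞 L) * (θ 1 - θ 0))).natAbs ≤ ccM θ C :=
    Finset.single_le_sum (f := fun c : ℤ => (Algebra.norm ℤ ((c : 𝓞 L) * (θ 1 - θ 0))).natAbs)
      (fun _ _ => Nat.zero_le _) (Finset.mem_Icc.2 (abs_le.1 hcC))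
  exact_mod_cast h2

theorem cc_content {θ : Fin 4 → 𝓞 L} (hθ : Function.Injective θ) {C : ℕ} {X T : ℝ} {N : ℤ}
    {p : ℕ} {c : ℤ} {y z : Fin 4 → ℤ} (hD : Dat θ C X T N p c y z) (d : ℤ)
    (h : (∀ a, d ∣ z a) ∨ (∀ a, d ∣ y a)) : |d| ≤ ccM θ C := by
  refine cc_ccM hθ hD.c0 hD.cC ?_
  have h0 := hD.eqn 0
  have h1 := hD.eqn 1
  have e : (c : 𝓞 L) * (θ 1 - θ 0) = K.ell (θ 0) y ^ 2 * K.ell (θ 0) z -
      K.ell (θ 1) y ^ 2 * K.ell (θ 1) z := by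
    rw [← h0, ← h1]; ring
  have hell : ∀ (w : Fin 4 → ℤ) (t : 𝓞 L), (∀ a, d ∣ w a) → (d : 𝓞 L) ∣ K.ell t w := by
    intro w t hw
    unfold K.ell
    refine Finset.dvd_sum fun a _ => Dvd.dvd.mul_right ?_ _
    obtain ⟨e, he⟩ := hw a
    exact ⟨(e : 𝓞 L), by rw [he]; push_cast; ring⟩
  rw [e]
  rcases h with h | h
  · exact dvd_sub ((hell z _ h).mul_left _) ((hell z _ h).mul_left _)
  · exact dvd_sub ((dvd_pow (hell y _ h) two_ne_zero).mul_right _)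
      ((dvd_pow (hell y _ h) two_ne_zero).mul_right _)

/-- counting via the fibres of `v`. -/
theorem cc_fibre (K M : ℕ) (S : Finset ℤ) (v : ℤ → Fin 4 → ℤ) (h0 : ∀ N ∈ S, v N ≠ 0)
    (hp : ∀ N ∈ S, ∀ N' ∈ S, ∀ a b, v N a * v N' b = v N b * v N' a)
    (hc : ∀ N ∈ S, ∀ d : ℤ, (∀ a, d ∣ v N a) → |d| ≤ M)
    (hf : ∀ w, ∀ S' ⊆ S, (∀ N ∈ S', v N = w) → S'.card ≤ K) :
    S.card ≤ K * ((2 * M + 1) * (M + 1)) := by
  classical
  refine (Finset.card_le_mul_card_image (f := v) S K fun w _ => ?_).trans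
    (Nat.mul_le_mul_left _ (cc_prop_count M (S.image v) ?_ ?_ ?_))
  · exact hf w _ (Finset.filter_subset _ _) fun N hN => (Finset.mem_filter.1 hN).2
  · intro x hx
    obtain ⟨N, hN, rfl⟩ := Finset.mem_image.1 hx
    exact h0 N hN
  · intro x hx x' hx' a b
    obtain ⟨N, hN, rfl⟩ := Finset.mem_image.1 hx
    obtain ⟨N', hN', rfl⟩ := Finset.mem_image.1 hx'
    exact hp N hN N' hN' a b
  · intro x hx d hd
    obtain ⟨N, hN, rfl⟩ := Finset.mem_image.1 hx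
    exact hc N hN d hd

/-- constant direction up to signs. -/
theorem cc_signs {θ : Fin 4 → 𝓞 L} (hθ : Function.Injective θ) (φ : L →+* ℂ) (r : Fin 4 → ℂ)
    (hr : ∀ j, r j ≠ 0) (Kf M : ℕ) (S : Finset ℤ) (y : ℤ → Fin 4 → ℤ)
    (hy : ∀ N ∈ S, ∀ j, K.ell (θ j) (y N) ≠ 0)
    (h : ∀ N ∈ S, ∀ j, r 0 * φ ((K.ell (θ j) (y N) : 𝓞 L) : L) ^ 2 =
      r j * φ ((K.ell (θ 0) (y N) : 𝓞 L) : L) ^ 2)
    (hc : ∀ N ∈ S, ∀ d : ℤ, (∀ a, d ∣ y N a) → |d| ≤ M)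
    (hf : ∀ w, ∀ S' ⊆ S, (∀ N ∈ S', y N = w) → S'.card ≤ Kf) :
    S.card ≤ (Kf * ((2 * M + 1) * (M + 1))) * 16 := by
  classical
  rcases S.eq_empty_or_nonempty with rfl | ⟨N0, hN0⟩
  · simp
  have hφ : Function.Injective (fun x : 𝓞 L => φ (x : L)) :=
    φ.injective.comp RingOfIntegers.coe_injective
  -- squares
  have hsq : ∀ N ∈ S, ∀ j, (K.ell (θ j) (y N) * K.ell (θ 0) (y N0)) ^ 2 =
      (K.ell (θ j) (y N0) * K.ell (θ 0) (y N)) ^ 2 := by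
    intro N hN j
    apply hφ
    have h1 := h N hN j
    have h2 := h N0 hN0 j
    have h3 : φ (((K.ell (θ j) (y N) * K.ell (θ 0) (y N0)) ^ 2 : 𝓞 L) : L) =
        φ ((K.ell (θ j) (y N) : 𝓞 L) : L) ^ 2 * φ ((K.ell (θ 0) (y N0) : 𝓞 L) : L) ^ 2 := by
      simp [mul_pow]
    have h4 : φ (((K.ell (θ j) (y N0) * K.ell (θ 0) (y N)) ^ 2 : 𝓞 L) : L) =
        φ ((K.ell (θ j) (y N0) : 𝓞 L) : L) ^ 2 * φ ((K.ell (θ 0) (y N) : 𝓞 L) : L) ^ 2 := by
      simp [mul_pow]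
    change φ (((K.ell (θ j) (y N) * K.ell (θ 0) (y N0)) ^ 2 : 𝓞 L) : L) =
      φ (((K.ell (θ j) (y N0) * K.ell (θ 0) (y N)) ^ 2 : 𝓞 L) : L)
    rw [h3, h4]
    apply mul_left_cancel₀ (hr 0)
    rw [← mul_assoc, h1, ← mul_assoc, h2]
    ring
  set s : ℤ → Fin 4 → Bool := fun N j =>
    decide (K.ell (θ j) (y N) * K.ell (θ 0) (y N0) = K.ell (θ j) (y N0) * K.ell (θ 0) (y N))
    with hs
  have hcard : (S.image s).card ≤ 16 := by
    refine (Finset.card_le_univ _).trans ?_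
    simp
  refine (Finset.card_le_mul_card_image (f := s) S (Kf * ((2 * M + 1) * (M + 1)))
    fun w _ => ?_).trans (Nat.mul_le_mul_left _ hcard)
  refine cc_fibre Kf M _ y ?_ ?_ ?_ ?_
  · intro N hN h0
    refine hy N (Finset.mem_filter.1 hN).1 0 ?_
    rw [h0]
    simp [K.ell]
  · intro N hN N' hN' a b
    obtain ⟨hN1, hN2⟩ := Finset.mem_filter.1 hN
    obtain ⟨hN'1, hN'2⟩ := Finset.mem_filter.1 hN'
    have hp : ∀ j, K.ell (θ j) (y N) * K.ell (θ 0) (y N') =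
        K.ell (θ j) (y N') * K.ell (θ 0) (y N) := by
      intro j
      apply mul_right_cancel₀ (hy N0 hN0 0)
      have e : s N j = s N' j := by rw [hN2, hN'2]
      simp only [hs, decide_eq_decide] at e
      by_cases h1 : K.ell (θ j) (y N) * K.ell (θ 0) (y N0) =
          K.ell (θ j) (y N0) * K.ell (θ 0) (y N)
      · have h2 := e.1 h1
        linear_combination K.ell (θ 0) (y N') * h1 - K.ell (θ 0) (y N) * h2
      · have h2 := fun h => h1 (e.2 h)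
        have h3 := (sq_eq_sq_iff_eq_or_eq_neg.1 (hsq N hN1 j)).resolve_left h1
        have h4 := (sq_eq_sq_iff_eq_or_eq_neg.1 (hsq N' hN'1 j)).resolve_left h2
        linear_combination K.ell (θ 0) (y N') * h3 - K.ell (θ 0) (y N) * h4
    -- Vandermonde
    have hv : ∀ m, (y N m : 𝓞 L) * K.ell (θ 0) (y N') = (y N' m : 𝓞 L) * K.ell (θ 0) (y N) := by
      have := cc_vander hθ (a := fun m => (y N m : 𝓞 L) * K.ell (θ 0) (y N') -
        (y N' m : 𝓞 L) * K.ell (θ 0) (y N)) fun j => by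
          have h5 := hp j
          calc ∑ m : Fin 4, ((y N m : 𝓞 L) * K.ell (θ 0) (y N') -
                (y N' m : 𝓞 L) * K.ell (θ 0) (y N)) * θ j ^ (m : ℕ) =
              K.ell (θ j) (y N) * K.ell (θ 0) (y N') -
                K.ell (θ j) (y N') * K.ell (θ 0) (y N) := by
                conv_rhs => rw [K.ell.eq_1 (θ j) (y N), K.ell.eq_1 (θ j) (y N'),
                  Finset.sum_mul, Finset.sum_mul, ← Finset.sum_sub_distrib]
                refine Finset.sum_congr rfl fun m _ => ?_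
                ring
            _ = 0 := by rw [h5, sub_self]
      intro m
      have h6 := congrFun this m
      exact sub_eq_zero.1 h6
    have h7 : ((y N a * y N' b : ℤ) : 𝓞 L) = ((y N b * y N' a : ℤ) : 𝓞 L) := by
      apply mul_right_cancel₀ (hy N' hN'1 0)
      push_cast
      linear_combination (y N' b : 𝓞 L) * hv a - (y N' a : 𝓞 L) * hv b
    exact_mod_cast h7
  · intro N hN d hd
    exact hc N (Finset.mem_filter.1 hN).1 d hd
  · intro w' S' hS' h'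
    exact hf w' S' (hS'.trans (Finset.filter_subset _ _)) h'

theorem cc_root_ne {θ : Fin 4 → 𝓞 L} {G : ℤ[X]} (hG : Root4 θ G) (N : ℤ) (j : Fin 4) :
    (N : 𝓞 L) - θ j ≠ 0 := by
  intro h
  have h1 : (G.map (algebraMap ℤ (𝓞 L))).eval (N : 𝓞 L) = 0 := by
    rw [hG.roots, eval_prod]
    exact Finset.prod_eq_zero (Finset.mem_univ j) (by simpa using h)
  have h2 : (G.map (algebraMap ℤ (𝓞 L))).eval (N : 𝓞 L) = ((G.eval N : ℤ) : 𝓞 L) := by
    have := eval_intCast_map (algebraMap ℤ (𝓞 L)) G N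
    simpa only [Int.cast_id, eq_intCast] using this
  have h3 : G.eval N = 0 := by
    rw [h2] at h1
    exact_mod_cast h1
  have h4 : (G.map (Int.castRingHom ℚ)).IsRoot (N : ℚ) := by
    have := eval_intCast_map (Int.castRingHom ℚ) G N
    rw [IsRoot, this, Int.cast_id, h3]
    simp
  have h5 := degree_eq_one_of_irreducible_of_root hG.irr h4
  have h6 : (G.map (Int.castRingHom ℚ)).natDegree = 4 := by
    rw [natDegree_map_eq_of_injective (RingHom.injective_int _), hG.deg]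
  have h7 : (G.map (Int.castRingHom ℚ)).natDegree = 1 :=
    natDegree_eq_of_degree_eq_some (by simpa using h5)
  omega

theorem cc_pi_ne {θ : Fin 4 → 𝓞 L} {C : ℕ} {X T : ℝ} {N : ℤ} {p : ℕ} {c : ℤ}
    {y z : Fin 4 → ℤ} (hD : Dat θ C X T N p c y z) (j : Fin 4) : K.ell (θ j) y ≠ 0 := by
  obtain ⟨c', h1, -, h2⟩ := hD.nrm
  intro h
  rw [Finset.prod_eq_zero (Finset.mem_univ j) h] at h2
  have h3 : (p : ℤ) * c' = 0 := by exact_mod_cast h2.symm
  rcases mul_eq_zero.1 h3 with h4 | h4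
  · exact hD.prime.ne_zero (by exact_mod_cast h4)
  · exact h1 h4

theorem cc_ga_ne {θ : Fin 4 → 𝓞 L} {G : ℤ[X]} (hG : Root4 θ G) {C : ℕ} {X T : ℝ} {N : ℤ} {p : ℕ}
    {c : ℤ} {y z : Fin 4 → ℤ} (hD : Dat θ C X T N p c y z) (j : Fin 4) : K.ell (θ j) z ≠ 0 := by
  intro h
  have h1 := hD.eqn j
  rw [h, mul_zero] at h1
  rcases mul_eq_zero.1 h1 with h2 | h2
  · exact hD.c0 (by exact_mod_cast h2)
  · exact cc_root_ne hG N j h2

/-- finitely many values of `w`. -/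
theorem cc_fibre_w {θ : Fin 4 → 𝓞 L} {G : ℤ[X]} (hG : Root4 θ G) {C : ℕ} {X T U : ℝ} {c : ℤ}
    {g1 g2 : Fin 4 → ℤ} (Kf D : ℕ) (S : Finset ℤ) (p : ℤ → ℕ) (y : ℤ → Fin 4 → ℤ)
    (u1 u2 : ℤ → ℤ) (hB : ∀ N ∈ S, BDat θ C X T U c g1 g2 N (p N) (y N) (u1 N) (u2 N))
    (F : ℂ[X]) (hF : F ≠ 0) (hD : F.natDegree ≤ D)
    (hroot : ∀ N ∈ S, F.eval ((u2 N : ℂ) / u1 N) = 0)
    (hf : ∀ w, ∀ S' ⊆ S, (∀ N ∈ S', (fun j => u1 N * g1 j + u2 N * g2 j) = w) → S'.card ≤ Kf) :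
    S.card ≤ (Kf * ((2 * ccM θ C + 1) * (ccM θ C + 1))) * D := by
  classical
  have hcard : (S.image fun N => (u2 N : ℂ) / u1 N).card ≤ D := by
    have h1 : (S.image fun N => (u2 N : ℂ) / u1 N) ⊆ F.roots.toFinset := by
      intro x hx
      obtain ⟨N, hN, rfl⟩ := Finset.mem_image.1 hx
      rw [Multiset.mem_toFinset, mem_roots hF]
      exact hroot N hN
    exact (Finset.card_le_card h1).trans ((Multiset.toFinset_card_le _).trans
      ((card_roots' F).trans hD))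
  refine (Finset.card_le_mul_card_image (f := fun N => (u2 N : ℂ) / u1 N) S
    (Kf * ((2 * ccM θ C + 1) * (ccM θ C + 1))) fun w _ => ?_).trans (Nat.mul_le_mul_left _ hcard)
  refine cc_fibre Kf (ccM θ C) _ (fun N j => u1 N * g1 j + u2 N * g2 j) ?_ ?_ ?_ ?_
  · intro N hN h0
    refine cc_ga_ne hG (hB N (Finset.mem_filter.1 hN).1).dat 0 ?_
    rw [h0]
    simp [K.ell]
  · intro N hN N' hN' a b
    obtain ⟨hN1, hN2⟩ := Finset.mem_filter.1 hN
    obtain ⟨hN'1, hN'2⟩ := Finset.mem_filter.1 hN'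
    have h1 : (u1 N : ℂ) ≠ 0 := by exact_mod_cast (hB N hN1).u10
    have h2 : (u1 N' : ℂ) ≠ 0 := by exact_mod_cast (hB N' hN'1).u10
    have h3 : (u2 N : ℂ) / u1 N = (u2 N' : ℂ) / u1 N' := by rw [hN2, hN'2]
    rw [div_eq_div_iff h1 h2] at h3
    have h4 : u2 N * u1 N' = u2 N' * u1 N := by exact_mod_cast h3
    linear_combination (g1 b * g2 a - g1 a * g2 b) * h4
  · intro N hN d hd
    exact cc_content hG.inj (hB N (Finset.mem_filter.1 hN).1).dat d (Or.inl hd)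
  · intro w' S' hS' h'
    exact hf w' S' (hS'.trans (Finset.filter_subset _ _)) h'

/-- the third case. -/
theorem cc_dir {θ : Fin 4 → 𝓞 L} {G : ℤ[X]} (hG : Root4 θ G) (φ : L →+* ℂ) {C : ℕ}
    {X T U : ℝ} {c : ℤ} {g1 g2 : Fin 4 → ℤ} {N : ℤ} {p : ℕ} {y : Fin 4 → ℤ} {u1 u2 : ℤ}
    (hB : BDat θ C X T U c g1 g2 N p y u1 u2) (r : Fin 4 → ℂ) (j k : Fin 4)
    (h : r k * (((N : ℂ) - φ (θ j)) * (cf θ φ g1 k + (u2 : ℂ) / u1 * cf θ φ g2 k)) =
          r j * (((N : ℂ) - φ (θ k)) * (cf θ φ g1 j + (u2 : ℂ) / u1 * cf θ φ g2 j))) :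
    r k * φ ((K.ell (θ j) y : 𝓞 L) : L) ^ 2 = r j * φ ((K.ell (θ k) y : 𝓞 L) : L) ^ 2 := by
  set z : Fin 4 → ℤ := fun j => u1 * g1 j + u2 * g2 j with hz
  have hφ : Function.Injective (fun x : 𝓞 L => φ (x : L)) :=
    φ.injective.comp RingOfIntegers.coe_injective
  have hu : (u1 : ℂ) ≠ 0 := by exact_mod_cast hB.u10
  have hc : (c : ℂ) ≠ 0 := by exact_mod_cast hB.dat.c0
  have hga : ∀ i, (u1 : ℂ) * (cf θ φ g1 i + (u2 : ℂ) / u1 * cf θ φ g2 i) =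
      φ ((K.ell (θ i) z : 𝓞 L) : L) := by
    intro i
    have h1 : K.ell (θ i) z = (u1 : 𝓞 L) * el (θ i) g1 + (u2 : 𝓞 L) * el (θ i) g2 := by
      simp only [hz, el, K.ell, Finset.mul_sum, ← Finset.sum_add_distrib]
      refine Finset.sum_congr rfl fun m _ => ?_
      push_cast
      ring
    rw [h1]
    have h2 : φ (((u1 : 𝓞 L) * el (θ i) g1 + (u2 : 𝓞 L) * el (θ i) g2 : 𝓞 L) : L) =
        (u1 : ℂ) * cf θ φ g1 i + (u2 : ℂ) * cf θ φ g2 i := by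
      simp [cf]
    rw [h2]
    field_simp
  have heq : ∀ i, (c : ℂ) * ((N : ℂ) - φ (θ i)) =
      φ ((K.ell (θ i) y : 𝓞 L) : L) ^ 2 * φ ((K.ell (θ i) z : 𝓞 L) : L) := by
    intro i
    have h1 := congrArg (fun x : 𝓞 L => φ (x : L)) (hB.dat.eqn i)
    simpa using h1
  have hne : ∀ i, φ ((K.ell (θ i) z : 𝓞 L) : L) ≠ 0 := by
    intro i h0
    refine cc_ga_ne hG hB.dat i (hφ ?_)
    simpa using h0
  apply mul_right_cancel₀ (mul_ne_zero (hne j) (hne k))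
  have e1 := heq j
  have e2 := heq k
  have e3 := hga j
  have e4 := hga k
  linear_combination (r k * φ ((K.ell (θ k) z : 𝓞 L) : L)) * (-e1) +
    (r j * φ ((K.ell (θ j) z : 𝓞 L) : L)) * e2 + (c : ℂ) * u1 * h +
    (r k * c * ((N : ℂ) - φ (θ j))) * (-e4) + (r j * c * ((N : ℂ) - φ (θ k))) * e3

theorem cc_bideg {Ψ : ℤ[X][X]} {Φ : ℂ[X][X]} {a : ℂ} (h : toC Ψ = C (C a) * Φ) {D : ℕ}
    (hΦ : BiDeg D D Φ) : BiDeg D D Ψ := by
  have hinj : Function.Injective (Int.castRingHom ℂ) := RingHom.injective_int _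
  constructor
  · have h1 : (toC Ψ).natDegree = Ψ.natDegree := by
      unfold toC
      refine natDegree_map_eq_of_injective ?_ _
      exact map_injective _ hinj
    rw [← h1, h]
    exact (natDegree_C_mul_le _ _).trans hΦ.1
  · intro i
    have h1 : (toC Ψ).coeff i = (Ψ.coeff i).map (Int.castRingHom ℂ) := by
      unfold toC
      rw [coeff_map]
      rfl
    have h2 : ((toC Ψ).coeff i).natDegree = (Ψ.coeff i).natDegree := by
      rw [h1]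
      exact natDegree_map_eq_of_injective hinj _
    rw [← h2, h, coeff_C_mul]
    exact (natDegree_C_mul_le _ _).trans (hΦ.2 i)

theorem cc_evB0 {Φ : ℂ[X][X]} (h : Φ.natDegree = 0) (n w : ℂ) :
    evB n w Φ = (Φ.coeff 0).eval w := by
  rw [eq_C_of_natDegree_eq_zero h]
  simp [evB]

theorem cc_evB_mul (a : ℂ) (Φ : ℂ[X][X]) (n w : ℂ) :
    evB n w (C (C a) * Φ) = a * evB n w Φ := by
  simp [evB]

theorem cc_height (C K0 : ℕ) (T : ℝ) (hT : 1 ≤ T) : ∃ H : ℕ, 2 ≤ H ∧ (C : ℝ) * (C * T ^ 4) ≤ H ∧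
    (C : ℝ) * T ^ 4 ≤ H ∧
    (H : ℝ) ^ K0 ≤ (((C ^ 2 + C + 3) ^ K0 + 4 * K0 : ℕ) : ℝ) *
      T ^ ((C ^ 2 + C + 3) ^ K0 + 4 * K0) := by
  have hT4 : 1 ≤ T ^ 4 := one_le_pow₀ hT
  have hC : (0 : ℝ) ≤ C := Nat.cast_nonneg _
  have h1 : ((C : ℝ) ^ 2 + C + 2) * T ^ 4 ≤ (⌈((C : ℝ) ^ 2 + C + 2) * T ^ 4⌉₊ : ℝ) := Nat.le_ceil _
  have h2 : (⌈((C : ℝ) ^ 2 + C + 2) * T ^ 4⌉₊ : ℝ) ≤ ((C : ℝ) ^ 2 + C + 2) * T ^ 4 + 1 :=
    (Nat.ceil_lt_add_one (by positivity)).le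
  refine ⟨⌈((C : ℝ) ^ 2 + C + 2) * T ^ 4⌉₊, ?_, ?_, ?_, ?_⟩
  · have : (2 : ℝ) ≤ (⌈((C : ℝ) ^ 2 + C + 2) * T ^ 4⌉₊ : ℝ) := by
      refine le_trans ?_ h1
      nlinarith [mul_nonneg hC hC, sq_nonneg (C : ℝ)]
    exact_mod_cast this
  · refine le_trans ?_ h1
    nlinarith [mul_nonneg hC (zero_le_one.trans hT4)]
  · refine le_trans ?_ h1
    nlinarith [mul_nonneg (sq_nonneg (C : ℝ)) (zero_le_one.trans hT4)]
  · have h3 : (⌈((C : ℝ) ^ 2 + C + 2) * T ^ 4⌉₊ : ℝ) ≤ ((C : ℝ) ^ 2 + C + 3) * T ^ 4 := by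
      nlinarith
    have h4 : ((C : ℝ) ^ 2 + C + 3) ^ K0 ≤ (((C ^ 2 + C + 3) ^ K0 + 4 * K0 : ℕ) : ℝ) := by
      push_cast
      have : (0 : ℝ) ≤ 4 * (K0 : ℝ) := by positivity
      linarith
    calc (⌈((C : ℝ) ^ 2 + C + 2) * T ^ 4⌉₊ : ℝ) ^ K0 ≤ (((C : ℝ) ^ 2 + C + 3) * T ^ 4) ^ K0 :=
          pow_le_pow_left₀ (Nat.cast_nonneg _) h3 _
      _ = ((C : ℝ) ^ 2 + C + 3) ^ K0 * T ^ (4 * K0) := by rw [mul_pow, ← pow_mul]
      _ ≤ (((C ^ 2 + C + 3) ^ K0 + 4 * K0 : ℕ) : ℝ) * T ^ ((C ^ 2 + C + 3) ^ K0 + 4 * K0) := by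
          refine mul_le_mul h4 (pow_le_pow_right₀ hT (Nat.le_add_left _ _)) (by positivity)
            (Nat.cast_nonneg _)

end Vale.Agent.P018.QB
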