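import Mathlib
import Vale.Agent.P018.Q.BDefs

/-! # P018, (B), curve step: functions congruent to polynomials in one parameter.

Tool: if `l ∣ z - 1` in a commutative ring then `l ^ ν ∣ z ^ (l ^ (ν - 1)) - 1`. -/

namespace Vale.Agent.P018.QB

open Polynomial NumberField Vale.Agent.P018.Q

/-- on `S` the function `F` is congruent to a polynomial in `x`, modulo `m`. -/
def IsPol {ι R : Type*} [CommRing R] (S : Set ι) (x : ι → ℤ) (m : ℤ) (F : ι → R) : Prop :=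
  ∃ Q : R[X], ∀ P ∈ S, (m : R) ∣ F P - Q.eval ((x P : ℤ) : R)

section

variable {ι R : Type*} [CommRing R] {S : Set ι} {x : ι → ℤ} {m : ℤ} {F G : ι → R}

theorem IsPol.const (c : R) : IsPol S x m fun _ => c :=
  ⟨C c, fun P _ => by rw [eval_C, sub_self]; exact dvd_zero _⟩

theorem IsPol.mul (hF : IsPol S x m F) (hG : IsPol S x m G) : IsPol S x m fun P => F P * G P := by
  obtain ⟨Q, hQ⟩ := hF
  obtain ⟨Q', hQ'⟩ := hG
  refine ⟨Q * Q', fun P hP => ?_⟩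
  rw [eval_mul]
  have e : F P * G P - Q.eval ((x P : ℤ) : R) * Q'.eval ((x P : ℤ) : R) =
      (F P - Q.eval ((x P : ℤ) : R)) * G P +
        Q.eval ((x P : ℤ) : R) * (G P - Q'.eval ((x P : ℤ) : R)) := by ring
  rw [e]
  exact dvd_add (Dvd.dvd.mul_right (hQ P hP) _) (Dvd.dvd.mul_left (hQ' P hP) _)

theorem IsPol.pow (hF : IsPol S x m F) (n : ℕ) : IsPol S x m fun P => F P ^ n := by
  induction n with
  | zero =>
    simp only [pow_zero]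
    exact IsPol.const 1
  | succ n ih =>
    simp only [pow_succ]
    exact ih.mul hF

theorem IsPol.congr (hF : IsPol S x m F) (h : ∀ P ∈ S, (m : R) ∣ G P - F P) :
    IsPol S x m G := by
  obtain ⟨Q, hQ⟩ := hF
  refine ⟨Q, fun P hP => ?_⟩
  have e : G P - Q.eval ((x P : ℤ) : R) = (G P - F P) + (F P - Q.eval ((x P : ℤ) : R)) := by ring
  rw [e]
  exact dvd_add (h P hP) (hQ P hP)

end

theorem qbc_pow {R : Type*} [CommRing R] {l ν : ℕ} (hν : 1 ≤ ν) {z : R} (h : (l : R) ∣ z - 1) :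
    (((l : ℤ) ^ ν : ℤ) : R) ∣ z ^ (l ^ (ν - 1)) - 1 := by
  have h1 := dvd_sub_pow_of_dvd_sub h (ν - 1)
  rw [one_pow, Nat.sub_add_cancel hν] at h1
  push_cast
  exact h1

theorem qbc_modEq {R : Type*} [CommRing R] {l ν : ℕ} (hν : 1 ≤ ν) {z : R} (h : (l : R) ∣ z - 1)
    (hl : Odd l) : ∃ k : ℕ, l ^ (ν - 1) = 2 * k + 1 ∧
      (((l : ℤ) ^ ν : ℤ) : R) ∣ z ^ (2 * k) * z - 1 := by
  obtain ⟨k, hk⟩ := hl.pow (n := ν - 1)
  refine ⟨k, hk, ?_⟩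
  have h1 := qbc_pow hν h
  rwa [hk, pow_succ] at h1

/-- solution of `A F^2 = B` in one residue class. -/
theorem isPol_of_sq {ι R : Type*} [CommRing R] (S : Set ι) (x : ι → ℤ) (l ν : ℕ) (hl : Odd l)
    (hν : 1 ≤ ν) (A B F : ι → R) (A0 F0 V : R) (hA : IsPol S x ((l : ℤ) ^ ν) A)
    (hB : IsPol S x ((l : ℤ) ^ ν) B)
    (hAF : ∀ P ∈ S, (((l : ℤ) ^ ν : ℤ) : R) ∣ A P * F P ^ 2 - B P)
    (hA0 : ∀ P ∈ S, (l : R) ∣ A P - A0) (hF0 : ∀ P ∈ S, (l : R) ∣ F P - F0)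
    (hV : (l : R) ∣ V * (A0 * F0) - 1) : IsPol S x ((l : ℤ) ^ ν) F := by
  obtain ⟨k, hk⟩ := hl.pow (n := ν - 1)
  set L : R := (((l : ℤ) ^ ν : ℤ) : R) with hL
  have key : ∀ z : R, (l : R) ∣ z - 1 → L ∣ z ^ (2 * k) * z - 1 := by
    intro z hz
    have h1 := qbc_pow hν hz
    rwa [hk, pow_succ] at h1
  -- `z = V A F`
  have hz : ∀ P ∈ S, (l : R) ∣ V * (A P * F P) - 1 := by
    intro P hP
    have e : V * (A P * F P) - 1 = V * F P * (A P - A0) + V * A0 * (F P - F0) +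
        (V * (A0 * F0) - 1) := by ring
    rw [e]
    exact dvd_add (dvd_add (Dvd.dvd.mul_left (hA0 P hP) _) (Dvd.dvd.mul_left (hF0 P hP) _)) hV
  have h1 : IsPol S x ((l : ℤ) ^ ν) fun P => V * (A P * F P) := by
    refine (((IsPol.const (V ^ 2)).mul (hA.mul hB)).pow (k + 1)).congr fun P hP => ?_
    set z := V * (A P * F P) with hzd
    have h2 := key z (hz P hP)
    have h3 : L ∣ z ^ 2 - V ^ 2 * (A P * B P) := by
      have e : z ^ 2 - V ^ 2 * (A P * B P) = V ^ 2 * A P * (A P * F P ^ 2 - B P) := by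
        rw [hzd]; ring
      rw [e]
      exact Dvd.dvd.mul_left (hAF P hP) _
    have h4 : L ∣ (z ^ 2) ^ (k + 1) - (V ^ 2 * (A P * B P)) ^ (k + 1) :=
      h3.trans (sub_dvd_pow_sub_pow _ _ _)
    have e : z - (V ^ 2 * (A P * B P)) ^ (k + 1) = -(z * (z ^ (2 * k) * z - 1)) +
        ((z ^ 2) ^ (k + 1) - (V ^ 2 * (A P * B P)) ^ (k + 1)) := by ring
    rw [e]
    exact dvd_add ((Dvd.dvd.mul_left h2 _).neg_right) h4
  -- the inverse of `V`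
  set c := V * (A0 * F0) with hc
  have hW := key c hV
  -- the inverse of `A`
  have ht : ∀ P ∈ S, (l : R) ∣ V * F0 * A P - 1 := by
    intro P hP
    have e : V * F0 * A P - 1 = V * F0 * (A P - A0) + (c - 1) := by rw [hc]; ring
    rw [e]
    exact dvd_add (Dvd.dvd.mul_left (hA0 P hP) _) hV
  have h5 : IsPol S x ((l : ℤ) ^ ν) fun P =>
      (V * F0) * ((V * F0 * A P) ^ (2 * k) * ((A0 * F0 * c ^ (2 * k)) * (V * (A P * F P)))) :=
    (IsPol.const _).mul ((((IsPol.const _).mul hA).pow _).mul ((IsPol.const _).mul h1))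
  refine h5.congr fun P hP => ?_
  have h6 := key _ (ht P hP)
  have e : F P - (V * F0) * ((V * F0 * A P) ^ (2 * k) *
      ((A0 * F0 * c ^ (2 * k)) * (V * (A P * F P)))) =
      -(F P * ((V * F0 * A P) ^ (2 * k) * (V * F0 * A P) - 1)) -
        (V * F0) * (V * F0 * A P) ^ (2 * k) * (A P * F P) * (c ^ (2 * k) * c - 1) := by
    rw [hc]
    ring
  rw [e]
  exact dvd_sub ((Dvd.dvd.mul_left h6 _).neg_right) (Dvd.dvd.mul_left hW _)

/-- an inverse and a square root modulo `l ^ ν`. -/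
theorem sqrt_lift (l ν : ℕ) (hl : l.Prime) (hl2 : l ≠ 2) (hν : 1 ≤ ν) (u r κ : ℤ)
    (hu : ¬ (l : ℤ) ∣ u) (hr : ¬ (l : ℤ) ∣ r) (hκ : (l : ℤ) ∣ κ ^ 2 * r - u) :
    ∃ κ' lam : ℤ, (l : ℤ) ∣ κ' - κ ∧ (l : ℤ) ^ ν ∣ κ' ^ 2 * r - u ∧
      (l : ℤ) ^ ν ∣ κ' * lam - 1 := by
  have hlp : Prime (l : ℤ) := Nat.prime_iff_prime_int.1 hl
  have hodd : Odd l := hl.odd_of_ne_two hl2
  obtain ⟨k, hk⟩ := hodd.pow (n := ν - 1)
  have key : ∀ z : ℤ, (l : ℤ) ∣ z - 1 → (l : ℤ) ^ ν ∣ z ^ (2 * k) * z - 1 := by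
    intro z hz
    have h1 := qbc_pow (R := ℤ) hν hz
    rw [hk, pow_succ] at h1
    exact_mod_cast h1
  have hinv : ∀ a : ℤ, ¬ (l : ℤ) ∣ a → ∃ b : ℤ, (l : ℤ) ^ ν ∣ a * b - 1 := by
    intro a ha
    have h1 : IsCoprime ((l : ℤ) ^ ν) a := (hlp.coprime_iff_not_dvd.2 ha).pow_left
    obtain ⟨s, t, hst⟩ := h1
    refine ⟨t, -s, ?_⟩
    linear_combination hst
  have hκl : ¬ (l : ℤ) ∣ κ := by
    intro h
    apply hu
    have h1 : (l : ℤ) ∣ κ ^ 2 * r := Dvd.dvd.mul_right (dvd_pow h two_ne_zero) _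
    have h2 := dvd_sub h1 hκ
    rwa [sub_sub_cancel] at h2
  obtain ⟨r', hr'⟩ := hinv r hr
  obtain ⟨k', hk'⟩ := hinv κ hκl
  have hlL : (l : ℤ) ∣ (l : ℤ) ^ ν := dvd_pow_self _ (by omega)
  set y : ℤ := u * r' * k' ^ 2 with hy
  have hyl : (l : ℤ) ∣ y - 1 := by
    have e : y - 1 = -(r' * k' ^ 2 * (κ ^ 2 * r - u)) + (κ * k') ^ 2 * (r * r' - 1) +
        (κ * k' + 1) * (κ * k' - 1) := by
      rw [hy]; ring
    rw [e]
    exact dvd_add (dvd_add (Dvd.dvd.mul_left hκ _).neg_right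
      (Dvd.dvd.mul_left (hlL.trans hr') _)) (Dvd.dvd.mul_left (hlL.trans hk') _)
  have hyl2 : (l : ℤ) ∣ y ^ (k + 1) - 1 := by
    have h1 := hyl.trans (sub_dvd_pow_sub_pow y 1 (k + 1))
    rwa [one_pow] at h1
  have hκ' : (l : ℤ) ∣ κ * y ^ (k + 1) - κ := by
    have e : κ * y ^ (k + 1) - κ = κ * (y ^ (k + 1) - 1) := by ring
    rw [e]
    exact Dvd.dvd.mul_left hyl2 _
  have hκ'l : ¬ (l : ℤ) ∣ κ * y ^ (k + 1) := by
    intro h
    apply hκl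
    have h1 := dvd_sub h hκ'
    rwa [sub_sub_cancel] at h1
  obtain ⟨lam, hlam⟩ := hinv _ hκ'l
  refine ⟨κ * y ^ (k + 1), lam, hκ', ?_, hlam⟩
  have e : (κ * y ^ (k + 1)) ^ 2 * r - u = κ ^ 2 * r * y * (y ^ (2 * k) * y - 1) +
      u * ((κ * k') ^ 2 * (r * r' - 1) + (κ * k' + 1) * (κ * k' - 1)) := by
    have e1 : (κ * y ^ (k + 1)) ^ 2 * r - u = κ ^ 2 * r * y * (y ^ (2 * k) * y - 1) +
      (κ ^ 2 * r * y - u) := by ring
    rw [e1]
    congr 1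
    rw [hy]
    ring
  rw [e]
  exact dvd_add (Dvd.dvd.mul_left (key y hyl) _) (Dvd.dvd.mul_left (dvd_add
    (Dvd.dvd.mul_left hr' _) (Dvd.dvd.mul_left hk' _)) _)

end Vale.Agent.P018.QB
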