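import Mathlib
import Vale.Agent.P018.Hensel

/-! # P018, quartics: the pigeonhole step modulo `q ^ ν`, Newton iteration for approximate zeros. -/

set_option linter.all false

namespace Vale.Agent.P018.Q

open Polynomial Finset

/-- a polynomial whose Taylor coefficients at `x0` are divisible by `q ^ (ν - j)` is divisible by
`q ^ ν` at all points congruent to `x0` modulo `q`. -/
theorem taylor_dvd {q : ℤ} {ν : ℕ} (Φ : ℤ[X]) {x0 x : ℤ}
    (hc : ∀ j < ν, q ^ (ν - j) ∣ (taylor x0 Φ).coeff j) (hx : q ∣ x - x0) :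
    q ^ ν ∣ Φ.eval x := by
  have h1 : Φ.eval x = (taylor x0 Φ).eval (x - x0) := by
    rw [taylor_eval, sub_add_cancel]
  rw [h1, eval_eq_sum_range]
  refine Finset.dvd_sum fun i _ => ?_
  have h2 : q ^ i ∣ (x - x0) ^ i := pow_dvd_pow_of_dvd hx i
  rcases lt_or_ge i ν with hi | hi
  · have h3 := mul_dvd_mul (hc i hi) h2
    rwa [← pow_add, Nat.sub_add_cancel hi.le] at h3
  · exact ((pow_dvd_pow q hi).trans h2).mul_left _

/-- abstract pigeonhole step: functions `f k` which are congruent to polynomials in one parameter. -/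
theorem siegel_class {ι : Type} (n ν : ℕ) (q : ℤ) (hq : 2 ≤ q) (S : Set ι) (f : ℕ → ι → ℤ)
    (φ : ℕ → ℤ[X]) (u x : ι → ℤ) (x0 : ℤ) (Sz W : ℕ → ℝ) (hW : ∀ k, 0 ≤ W k)
    (hu : ∀ P ∈ S, IsCoprime (u P) q) (hx : ∀ P ∈ S, q ∣ x P - x0)
    (hf : ∀ P ∈ S, ∀ k < n, q ^ ν ∣ u P * f k P - (φ k).eval (x P))
    (hSz : ∀ P ∈ S, ∀ k < n, |(f k P : ℝ)| ≤ Sz k)
    (hbig : (q : ℝ) ^ (ν * (ν + 1) / 2) < ∏ k ∈ range n, ((⌊W k⌋₊ : ℝ) + 1))
    (hval : ∑ k ∈ range n, W k * Sz k < (q : ℝ) ^ ν) :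
    ∃ w : ℕ → ℤ, (∃ k < n, w k ≠ 0) ∧ (∀ k, |(w k : ℝ)| ≤ W k) ∧
      ∀ P ∈ S, ∑ k ∈ range n, w k * f k P = 0 := by
  obtain ⟨Q, rfl⟩ : ∃ Q : ℕ, q = (Q : ℤ) := ⟨q.toNat, by rw [Int.toNat_of_nonneg (by linarith)]⟩
  have hQ2 : 2 ≤ Q := by exact_mod_cast hq
  -- the linear forms
  set c : (Fin n → ℕ) → ℕ → ℤ := fun w j =>
    ∑ k : Fin n, (w k : ℤ) * (taylor x0 (φ k)).coeff j with hc
  set dom : Finset (Fin n → ℕ) := Fintype.piFinset fun k : Fin n => range (⌊W k⌋₊ + 1) with hdom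
  set cod : Finset (Fin ν → ℕ) := Fintype.piFinset fun j : Fin ν => range (Q ^ (ν - (j : ℕ)))
    with hcod
  set F : (Fin n → ℕ) → Fin ν → ℕ := fun w j => (c w j % ((Q : ℤ) ^ (ν - (j : ℕ)))).toNat with hF
  have hQpos : ∀ k : ℕ, (0 : ℤ) < (Q : ℤ) ^ k := fun k => by positivity
  have hcardd : dom.card = ∏ k ∈ range n, (⌊W k⌋₊ + 1) := by
    rw [hdom, Fintype.card_piFinset]
    simp only [card_range]
    exact Fin.prod_univ_eq_prod_range (fun k => ⌊W k⌋₊ + 1) n
  have hcardc : cod.card = Q ^ (ν * (ν + 1) / 2) := by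
    rw [hcod, Fintype.card_piFinset]
    simp only [card_range]
    rw [Fin.prod_univ_eq_prod_range (fun j => Q ^ (ν - j)) ν, Finset.prod_pow_eq_pow_sum]
    congr 1
    have h1 : ∑ j ∈ range ν, (ν - j) = ∑ j ∈ range ν, (j + 1) := by
      rw [← Finset.sum_range_reflect]
      refine Finset.sum_congr rfl fun j hj => ?_
      have := Finset.mem_range.1 hj
      omega
    have h2 : ∑ j ∈ range ν, (j + 1) = ∑ j ∈ range (ν + 1), j := by
      rw [Finset.sum_range_succ' (fun j => j) ν, add_zero]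
    rw [h1, h2, Finset.sum_range_id, Nat.add_sub_cancel, mul_comm]
  have hlt : cod.card < dom.card := by
    rw [hcardd, hcardc]
    have : ((Q ^ (ν * (ν + 1) / 2) : ℕ) : ℝ) < ((∏ k ∈ range n, (⌊W k⌋₊ + 1) : ℕ) : ℝ) := by
      push_cast
      exact_mod_cast hbig
    exact_mod_cast this
  have hmaps : ∀ w ∈ dom, F w ∈ cod := by
    intro w _
    rw [hcod, Fintype.mem_piFinset]
    intro j
    rw [Finset.mem_range, hF]
    have h1 := Int.emod_lt_of_pos (c w j) (hQpos (ν - (j : ℕ)))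
    have h2 := Int.emod_nonneg (c w j) (hQpos (ν - (j : ℕ))).ne'
    have h3 : (((c w j % ((Q : ℤ) ^ (ν - (j : ℕ)))).toNat : ℕ) : ℤ) <
        ((Q ^ (ν - (j : ℕ)) : ℕ) : ℤ) := by
      rw [Int.toNat_of_nonneg h2]
      push_cast
      exact h1
    exact_mod_cast h3
  obtain ⟨w1, hw1, w2, hw2, hne, heq⟩ :=
    Finset.exists_ne_map_eq_of_card_lt_of_maps_to hlt hmaps
  -- the difference
  have hdvd : ∀ j < ν, (Q : ℤ) ^ (ν - j) ∣ c w1 j - c w2 j := by
    intro j hj
    have h1 := congrFun heq ⟨j, hj⟩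
    simp only [hF] at h1
    have a1 := Int.emod_nonneg (c w1 j) (hQpos (ν - j)).ne'
    have a2 := Int.emod_nonneg (c w2 j) (hQpos (ν - j)).ne'
    have h2 : c w1 j % (Q : ℤ) ^ (ν - j) = c w2 j % (Q : ℤ) ^ (ν - j) := by
      rw [← Int.toNat_of_nonneg a1, ← Int.toNat_of_nonneg a2, h1]
    exact Int.ModEq.dvd (Int.ModEq.symm h2)
  set w : ℕ → ℤ := fun k => if h : k < n then (w1 ⟨k, h⟩ : ℤ) - w2 ⟨k, h⟩ else 0 with hw
  have hwk : ∀ k : Fin n, w k = (w1 k : ℤ) - w2 k := fun k => by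
    simp [hw]
  have hwW : ∀ k, |(w k : ℝ)| ≤ W k := by
    intro k
    by_cases hk : k < n
    · have e : w k = (w1 ⟨k, hk⟩ : ℤ) - w2 ⟨k, hk⟩ := by simp [hw, hk]
      rw [hdom, Fintype.mem_piFinset] at hw1 hw2
      have b1 := Finset.mem_range.1 (hw1 ⟨k, hk⟩)
      have b2 := Finset.mem_range.1 (hw2 ⟨k, hk⟩)
      have b3 : |w k| ≤ (⌊W k⌋₊ : ℤ) := by
        rw [e, abs_le]
        constructor <;> simp only at b1 b2 ⊢ <;> omega
      have b4 : ((⌊W k⌋₊ : ℕ) : ℝ) ≤ W k := Nat.floor_le (hW k)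
      have b5 : |(w k : ℝ)| ≤ ((⌊W k⌋₊ : ℕ) : ℝ) := by exact_mod_cast b3
      exact b5.trans b4
    · have e : w k = 0 := by simp [hw, hk]
      rw [e]
      simpa using hW k
  refine ⟨w, ?_, hwW, ?_⟩
  · by_contra hcon
    push Not at hcon
    apply hne
    funext k
    have h1 := hcon k k.2
    rw [hwk k] at h1
    omega
  · intro P hP
    -- the polynomial
    set Φ : ℤ[X] := ∑ k ∈ range n, C (w k) * φ k with hΦ
    have hcoef : ∀ j, (taylor x0 Φ).coeff j = c w1 j - c w2 j := by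
      intro j
      rw [hΦ, map_sum, finset_sum_coeff]
      have h1 : ∀ k ∈ range n, (taylor x0 (C (w k) * φ k)).coeff j =
          w k * (taylor x0 (φ k)).coeff j := by
        intro k _
        rw [taylor_mul, taylor_C, coeff_C_mul]
      rw [Finset.sum_congr rfl h1, ← Fin.sum_univ_eq_sum_range
        (fun k => w k * (taylor x0 (φ k)).coeff j) n, hc, ← Finset.sum_sub_distrib]
      refine Finset.sum_congr rfl fun k _ => ?_
      rw [hwk k]
      ring
    have h1 : (Q : ℤ) ^ ν ∣ Φ.eval (x P) :=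
      taylor_dvd Φ (fun j hj => by rw [hcoef j]; exact hdvd j hj) (hx P hP)
    have h2 : (Q : ℤ) ^ ν ∣ u P * ∑ k ∈ range n, w k * f k P := by
      have h3 : u P * ∑ k ∈ range n, w k * f k P =
          (∑ k ∈ range n, w k * (u P * f k P - (φ k).eval (x P))) + Φ.eval (x P) := by
        rw [hΦ, eval_finset_sum, Finset.mul_sum, ← Finset.sum_add_distrib]
        refine Finset.sum_congr rfl fun k _ => ?_
        rw [eval_mul, eval_C]
        ring
      rw [h3]
      refine dvd_add (Finset.dvd_sum fun k hk => ?_) h1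
      exact (hf P hP k (Finset.mem_range.1 hk)).mul_left _
    have h4 : (Q : ℤ) ^ ν ∣ ∑ k ∈ range n, w k * f k P :=
      (IsCoprime.pow_right (hu P hP)).symm.dvd_of_dvd_mul_left h2
    have h5 : |((∑ k ∈ range n, w k * f k P : ℤ) : ℝ)| < ((Q : ℝ)) ^ ν := by
      refine lt_of_le_of_lt ?_ (by exact_mod_cast hval)
      push_cast
      refine (Finset.abs_sum_le_sum_abs _ _).trans (Finset.sum_le_sum fun k hk => ?_)
      rw [abs_mul]
      exact mul_le_mul (hwW k) (hSz P hP k (Finset.mem_range.1 hk)) (abs_nonneg _) (hW k)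
    have h6 : |∑ k ∈ range n, w k * f k P| < (Q : ℤ) ^ ν := by exact_mod_cast h5
    exact Int.eq_zero_of_abs_lt_dvd h4 h6

/-- Newton iteration with polynomials, for approximate zeros. -/
theorem hensel_poly' (P : ℤ[X][X]) {l x0 y0 v : ℤ} (hv : l ∣ 1 - v * ev2 (derivative P) x0 y0)
    (j : ℕ) : ∃ φ : ℤ[X], ∀ x y : ℤ, l ∣ x - x0 → l ∣ y - y0 → l ^ (j + 1) ∣ ev2 P x y →
      l ^ (j + 1) ∣ y - φ.eval x := by
  induction j with
  | zero => exact ⟨C y0, fun x y _ hy _ => by simpa using hy⟩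
  | succ j ih =>
    obtain ⟨φ, hφ⟩ := ih
    refine ⟨φ - C v * P.eval φ, fun x y hx hy hP => ?_⟩
    have h0 := hφ x y hx hy ((pow_dvd_pow l (Nat.le_succ (j + 1))).trans hP)
    obtain ⟨k, hk⟩ := (P.map (evalRingHom x)).binomExpansion y (φ.eval x - y)
    have h1 : ev2 P x (φ.eval x) = ev2 P x y + ev2 (derivative P) x y * (φ.eval x - y) +
        k * (φ.eval x - y) ^ 2 := by
      rw [add_sub_cancel] at hk
      rw [ev2, hk, derivative_map]
      rfl
    have h3 : l ∣ 1 - v * ev2 (derivative P) x y - v * k * (φ.eval x - y) := by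
      have h4 := ev2_dvd (derivative P) hx hy
      have h5 : l ∣ φ.eval x - y := by
        rw [← dvd_neg, neg_sub]
        exact (dvd_pow_self l (Nat.succ_ne_zero j)).trans h0
      have h6 : 1 - v * ev2 (derivative P) x y - v * k * (φ.eval x - y) =
        (1 - v * ev2 (derivative P) x0 y0) - v * (ev2 (derivative P) x y - ev2 (derivative P) x0 y0)
          - v * k * (φ.eval x - y) := by ring
      rw [h6]
      exact dvd_sub (dvd_sub hv (h4.mul_left v)) (h5.mul_left _)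
    have h7 : y - (φ - C v * P.eval φ).eval x =
        (y - φ.eval x) * (1 - v * ev2 (derivative P) x y - v * k * (φ.eval x - y)) +
          v * ev2 P x y := by
      rw [eval_sub, eval_mul, eval_C, ev2_eval, h1]
      ring
    rw [h7]
    refine dvd_add ?_ (hP.mul_left v)
    rw [pow_succ l (j + 1)]
    exact mul_dvd_mul h0 h3

end Vale.Agent.P018.Q
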