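import Mathlib
import Vale.Agent.P018.Q.BDefs
import Vale.Agent.P018.Q.BCRing
import Vale.Agent.P018.Q.Siegel

/-! # P018, (B), curve step: one class modulo `l` is parametrised by polynomials in `x = u2/u1`,
modulo `l ^ ν`. -/

namespace Vale.Agent.P018.QB

open Polynomial NumberField Vale.Agent.P018.Q

theorem el_map {R R' : Type*} [CommRing R] [CommRing R'] (f : R →+* R') (t : R) (y : Fin 4 → ℤ) :
    f (el t y) = el (f t) y := by
  simp only [el, K.ell, map_sum, map_mul, map_pow, map_intCast]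

theorem bc_el_comb {R : Type*} [CommRing R] (t : R) (a b : ℤ) (g h : Fin 4 → ℤ) :
    el t (fun m => a * g m + b * h m) = (a : R) * el t g + (b : R) * el t h := by
  simp only [el, K.ell, Finset.mul_sum, ← Finset.sum_add_distrib]
  refine Finset.sum_congr rfl fun m _ => ?_
  push_cast
  ring

theorem dvd_el {R : Type*} [CommRing R] (t : R) (l : ℕ) (v : Fin 4 → ℤ)
    (h : ∀ m, (l : ℤ) ∣ v m) : (l : R) ∣ el t v := by
  simp only [el, K.ell]
  refine Finset.dvd_sum fun m _ => ?_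
  obtain ⟨a, ha⟩ := h m
  rw [ha]
  push_cast
  exact ⟨(a : R) * t ^ (m : ℕ), by ring⟩

/-- transfer of the equation to `ℤ[X]/(G)`. -/
theorem eqn_root {L : Type} [Field L] [NumberField L] (θ : Fin 4 → 𝓞 L) (G : ℤ[X])
    (hG : Root4 θ G) (c N : ℤ) (y z : Fin 4 → ℤ)
    (h : ∀ j, (c : 𝓞 L) * ((N : 𝓞 L) - θ j) = el (θ j) y ^ 2 * el (θ j) z) :
    (c : AdjoinRoot G) * ((N : AdjoinRoot G) - AdjoinRoot.root G) =
      el (AdjoinRoot.root G) y ^ 2 * el (AdjoinRoot.root G) z := by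
  set F : ℤ[X] := (c : ℤ[X]) * ((N : ℤ[X]) - X) - el (X : ℤ[X]) y ^ 2 * el (X : ℤ[X]) z with hF
  have hev : ∀ {R : Type} [CommRing R] (f : ℤ[X] →+* R), f F =
      (c : R) * ((N : R) - f X) - el (f X) y ^ 2 * el (f X) z := by
    intro R _ f
    rw [hF, map_sub, map_mul, map_sub, map_mul, map_pow, el_map, el_map, map_intCast, map_intCast]
  have hdvd : G ∣ F := by
    have hinj : Function.Injective (algebraMap ℤ L) := (algebraMap ℤ L).injective_int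
    rw [← map_dvd_map (algebraMap ℤ L) hinj hG.monic]
    have h1 : G.map (algebraMap ℤ L) = ∏ i, (X - C ((θ i : 𝓞 L) : L)) := by
      have h2 := congrArg (Polynomial.map (algebraMap (𝓞 L) L)) hG.roots
      rw [Polynomial.map_map, ← IsScalarTower.algebraMap_eq, Polynomial.map_prod] at h2
      rw [h2]
      refine Finset.prod_congr rfl fun i _ => ?_
      rw [Polynomial.map_sub, map_X, map_C]
    rw [h1]
    refine Finset.prod_dvd_of_coprime ?_ ?_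
    · have h3 : Function.Injective (fun i => ((θ i : 𝓞 L) : L)) := fun i j hij =>
        hG.inj (RingOfIntegers.coe_injective hij)
      exact fun i _ j _ hij => pairwise_coprime_X_sub_C h3 hij
    · intro i _
      rw [dvd_iff_isRoot, IsRoot.def, eval_map]
      have h4 := hev (eval₂RingHom (algebraMap ℤ L) ((θ i : 𝓞 L) : L))
      rw [coe_eval₂RingHom, eval₂_X] at h4
      rw [h4]
      have h5 := congrArg (algebraMap (𝓞 L) L) (h i)
      rw [map_mul, map_sub, map_intCast, map_intCast, map_mul, map_pow, el_map, el_map] at h5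
      rw [h5, sub_self]
  have h6 := hev (AdjoinRoot.mk G)
  rw [AdjoinRoot.mk_eq_zero.mpr hdvd, AdjoinRoot.mk_X] at h6
  exact (sub_eq_zero.mp h6.symm)

/-- coordinates in `ℤ[X]/(G)`. -/
theorem exists_coord (G : ℤ[X]) (hm : G.Monic) (hd : G.natDegree = 4) :
    ∃ co : Fin 4 → (AdjoinRoot G →ₗ[ℤ] ℤ), ∀ (y : Fin 4 → ℤ) (m : Fin 4),
      co m (el (AdjoinRoot.root G) y) = y m := by
  set pb := AdjoinRoot.powerBasis' hm with hpb
  have hdim : pb.dim = 4 := by rw [hpb, AdjoinRoot.powerBasis'_dim, hd]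
  have hgen : pb.gen = AdjoinRoot.root G := by rw [hpb, AdjoinRoot.powerBasis'_gen]
  set B := pb.basis.reindex (finCongr hdim) with hB
  refine ⟨fun m => B.coord m, fun y m => ?_⟩
  have h1 : el (AdjoinRoot.root G) y = ∑ k, y k • B k := by
    simp only [el, K.ell]
    refine Finset.sum_congr rfl fun k _ => ?_
    rw [hB, Module.Basis.reindex_apply, pb.basis_eq_pow, hgen, zsmul_eq_mul]
    rfl
  rw [h1, Module.Basis.coord_apply, B.repr_sum_self]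

/-- units modulo `l` in `ℤ[X]/(G)`. -/
theorem exists_unit_mod (G : ℤ[X]) (l : ℕ) (hl : l.Prime) (c N0 : ℤ) (hc : ¬ (l : ℤ) ∣ c)
    (hN : ¬ (l : ℤ) ∣ G.eval N0) :
    ∃ V : AdjoinRoot G, (l : AdjoinRoot G) ∣
      V * ((c : AdjoinRoot G) * ((N0 : AdjoinRoot G) - AdjoinRoot.root G)) - 1 := by
  have h1 : ((N0 : AdjoinRoot G) - AdjoinRoot.root G) ∣ ((G.eval N0 : ℤ) : AdjoinRoot G) := by
    have h2 := sub_dvd_eval_sub (N0 : AdjoinRoot G) (AdjoinRoot.root G)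
      (G.map (algebraMap ℤ (AdjoinRoot G)))
    have h3 : (G.map (algebraMap ℤ (AdjoinRoot G))).eval (AdjoinRoot.root G) = 0 := by
      rw [eval_map_algebraMap, AdjoinRoot.aeval_eq, AdjoinRoot.mk_self]
    have h4 : (G.map (algebraMap ℤ (AdjoinRoot G))).eval (N0 : AdjoinRoot G) =
        ((G.eval N0 : ℤ) : AdjoinRoot G) := by
      have : (N0 : AdjoinRoot G) = algebraMap ℤ (AdjoinRoot G) N0 := by simp
      rw [this, eval_map_apply]
      simp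
    rwa [h3, h4, sub_zero] at h2
  obtain ⟨W, hW⟩ := h1
  have hlp : Prime (l : ℤ) := Nat.prime_iff_prime_int.mp hl
  have h5 : IsCoprime (c * G.eval N0) (l : ℤ) := by
    refine (IsCoprime.symm ?_)
    rw [Prime.coprime_iff_not_dvd hlp]
    intro h
    rcases hlp.dvd_or_dvd h with h | h
    · exact hc h
    · exact hN h
  obtain ⟨a, b, hab⟩ := h5
  refine ⟨(a : AdjoinRoot G) * W, -(b : AdjoinRoot G), ?_⟩
  have h6 : ((a * (c * G.eval N0) + b * l : ℤ) : AdjoinRoot G) = 1 := by rw [hab]; simp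
  push_cast at h6
  rw [hW] at h6
  linear_combination h6

theorem isPol_coord {ι R : Type*} [CommRing R] {S : Set ι} {x : ι → ℤ} {m : ℤ} {F : ι → R}
    (h : IsPol S x m F) (co : R →ₗ[ℤ] ℤ) : IsPol S x m (fun P => co (F P)) := by
  obtain ⟨Q, hQ⟩ := h
  refine ⟨∑ k ∈ Finset.range (Q.natDegree + 1), C (co (Q.coeff k)) * X ^ k, fun P hP => ?_⟩
  obtain ⟨r, hr⟩ := hQ P hP
  refine ⟨co r, ?_⟩
  have h1 : co (F P) - co (Q.eval ((x P : ℤ) : R)) = m * co r := by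
    rw [← map_sub, hr]
    have : (m : R) * r = m • r := by simp
    rw [this, map_smul, smul_eq_mul]
  have h2 : (∑ k ∈ Finset.range (Q.natDegree + 1), C (co (Q.coeff k)) * X ^ k).eval
      ((x P : ℤ) : ℤ) = co (Q.eval ((x P : ℤ) : R)) := by
    rw [eval_finsetSum, eval_eq_sum_range (p := Q), map_sum]
    refine Finset.sum_congr rfl fun k _ => ?_
    rw [eval_mul, eval_C, eval_pow, eval_X]
    have h3 : Q.coeff k * ((x P : ℤ) : R) ^ k = ((x P) ^ k) • Q.coeff k := by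
      rw [zsmul_eq_mul]
      push_cast
      ring
    rw [h3, map_smul, smul_eq_mul, mul_comm]
  simp only [Int.cast_id] at h2 ⊢
  rw [h2, h1]

/-- a rational root modulo `m`. -/
theorem dvd_eval_of_root (p : ℤ[X]) (u1 u2 m x : ℤ) (h1 : u1 ≠ 0) (hm : IsCoprime m u1)
    (hx : m ∣ u1 * x - u2) (h : (p.map (Int.castRingHom ℂ)).eval ((u2 : ℂ) / u1) = 0) :
    m ∣ p.eval x := by
  have h2 : (p.scaleRoots u1).eval u2 = 0 := by
    have h3 : eval₂ (Int.castRingHom ℂ) (Int.castRingHom ℂ u2) (p.scaleRoots u1) = 0 := by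
      refine scaleRoots_eval₂_eq_zero_of_eval₂_div_eq_zero (Int.castRingHom ℂ).injective_int ?_
        (mem_nonZeroDivisors_of_ne_zero h1)
      rw [← eval_map]
      exact h
    rw [eval₂_hom] at h3
    exact (map_eq_zero_iff _ (Int.castRingHom ℂ).injective_int).mp h3
  have h4 : m ∣ (p.scaleRoots u1).eval (u1 * x) := by
    have h5 : m ∣ (p.scaleRoots u1).eval (u1 * x) - (p.scaleRoots u1).eval u2 :=
      hx.trans (sub_dvd_eval_sub _ _ _)
    rwa [h2, sub_zero] at h5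
  have h6 : (p.scaleRoots u1).eval (u1 * x) = u1 ^ p.natDegree * p.eval x := by
    have h7 := scaleRoots_eval₂_mul (p := p) (f := RingHom.id ℤ) x u1
    simpa [eval₂_id] using h7
  rw [h6] at h4
  exact (hm.pow_right).dvd_of_dvd_mul_left h4

theorem evB_int (Φ : ℤ[X][X]) (N : ℤ) (w : ℂ) :
    evB (N : ℂ) w (toC Φ) = ((Φ.eval (C N)).map (Int.castRingHom ℂ)).eval w := by
  unfold evB toC
  rw [eval₂_map]
  have h1 : ((Φ.eval (C N)).map (Int.castRingHom ℂ)).eval w =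
    ((evalRingHom w).comp (mapRingHom (Int.castRingHom ℂ))) (Φ.eval (C N)) := rfl
  rw [h1, ← eval₂_at_apply]
  have h2 : ((evalRingHom w).comp (mapRingHom (Int.castRingHom ℂ))) (C N) = (N : ℂ) := by
    simp
  rw [h2]
  congr 1

/-- the ring part of `class_param`. -/
theorem class_ring {R : Type} [CommRing R] (t : R) (l ν : ℕ) (hodd : Odd l) (hν : 1 ≤ ν)
    (S : Set ℤ) (c r0 x0 N0 : ℤ) (g1 g2 y0 : Fin 4 → ℤ) (x κ' u1 u2 : ℤ → ℤ)
    (y : ℤ → Fin 4 → ℤ) (φn : ℤ[X]) (P0 : ℤ) (hP0 : P0 ∈ S) (V : R)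
    (hV : (l : R) ∣ V * ((c : R) * ((N0 : R) - t)) - 1)
    (heq : ∀ N ∈ S, (c : R) * ((N : R) - t) =
      el t (y N) ^ 2 * ((u1 N : R) * el t g1 + (u2 N : R) * el t g2))
    (hxx0 : ∀ N ∈ S, (l : ℤ) ∣ x N - x0) (hx : ∀ N ∈ S, (l : ℤ) ^ ν ∣ u1 N * x N - u2 N)
    (hκ : ∀ N ∈ S, (l : ℤ) ^ ν ∣ κ' N ^ 2 * r0 - u1 N)
    (hκ0 : ∀ N ∈ S, ∀ m, (l : ℤ) ∣ κ' N * y N m - y0 m)
    (hN : ∀ N ∈ S, (l : ℤ) ^ ν ∣ N - φn.eval (x N)) (hN0 : (l : ℤ) ∣ P0 - N0) :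
    IsPol S x ((l : ℤ) ^ ν) (fun N => (κ' N : R) * el t (y N)) := by
  have hcast : ∀ {a b k : ℤ}, a = b * k → (a : R) = (b : R) * (k : R) := by
    intro a b k h
    rw [h]
    push_cast
    ring
  have hQ : ∀ Q : ℤ[X], IsPol S x ((l : ℤ) ^ ν) (fun N => ((Q.eval (x N) : ℤ) : R)) := by
    intro Q
    refine ⟨Q.map (algebraMap ℤ R), fun N _ => ?_⟩
    have : ((x N : ℤ) : R) = algebraMap ℤ R (x N) := by simp
    rw [this, eval_map_apply]
    simp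
  have hAF : ∀ N ∈ S, (((l : ℤ) ^ ν : ℤ) : R) ∣ ((r0 : R) * (el t g1 + (x N : R) * el t g2)) *
      ((κ' N : R) * el t (y N)) ^ 2 - (c : R) * ((N : R) - t) := by
    intro N hNS
    obtain ⟨a, ha⟩ := hκ N hNS
    obtain ⟨b, hb⟩ := hx N hNS
    have h1 := heq N hNS
    have ha' := hcast ha
    have hb' := hcast hb
    push_cast at ha' hb'
    refine ⟨(a : R) * (el t g1 + (x N : R) * el t g2) * el t (y N) ^ 2 +
      (b : R) * el t g2 * el t (y N) ^ 2, ?_⟩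
    push_cast
    linear_combination (el t g1 + (x N : R) * el t g2) * el t (y N) ^ 2 * ha' +
      el t g2 * el t (y N) ^ 2 * hb' - h1
  have hA0 : ∀ N ∈ S, (l : R) ∣ ((r0 : R) * (el t g1 + (x N : R) * el t g2)) -
      ((r0 : R) * (el t g1 + (x0 : R) * el t g2)) := by
    intro N hNS
    obtain ⟨a, ha⟩ := hxx0 N hNS
    have ha' := hcast ha
    push_cast at ha'
    exact ⟨(r0 : R) * el t g2 * a, by linear_combination (r0 : R) * el t g2 * ha'⟩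
  have hF0 : ∀ N ∈ S, (l : R) ∣ (κ' N : R) * el t (y N) - el t y0 := by
    intro N hNS
    have h1 : (κ' N : R) * el t (y N) - el t y0 = el t (fun m => κ' N * y N m + (-1) * y0 m) := by
      rw [bc_el_comb]
      push_cast
      ring
    rw [h1]
    refine dvd_el t l _ fun m => ?_
    have h2 := hκ0 N hNS m
    rwa [sub_eq_add_neg, ← neg_one_mul (y0 m)] at h2
  refine isPol_of_sq S x l ν hodd hν (fun N => (r0 : R) * (el t g1 + (x N : R) * el t g2))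
    (fun N => (c : R) * ((N : R) - t)) _ ((r0 : R) * (el t g1 + (x0 : R) * el t g2)) (el t y0)
    (V * el t y0) ?_ ?_ hAF hA0 hF0 ?_
  · refine ⟨C ((r0 : R) * el t g1) + C ((r0 : R) * el t g2) * X, fun N _ => ⟨0, ?_⟩⟩
    simp only [eval_add, eval_mul, eval_C, eval_X]
    ring
  · obtain ⟨Q, hQ'⟩ := hQ φn
    refine ⟨C (c : R) * (Q - C t), fun N hNS => ?_⟩
    obtain ⟨r, hr⟩ := hQ' N hNS
    obtain ⟨a, ha⟩ := hN N hNS
    have ha' := hcast ha
    push_cast at ha' hr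
    refine ⟨(c : R) * (a + r), ?_⟩
    simp only [eval_sub, eval_mul, eval_C]
    push_cast
    linear_combination (c : R) * ha' + (c : R) * hr
  · have h1 : (l : R) ∣ (((l : ℤ) ^ ν : ℤ) : R) := by
      push_cast
      exact dvd_pow_self _ (by omega)
    obtain ⟨a2, h2⟩ := h1.trans (hAF P0 hP0)
    obtain ⟨a3, h3⟩ := hA0 P0 hP0
    obtain ⟨a4, h4⟩ := hF0 P0 hP0
    obtain ⟨a6, h6⟩ := hV
    obtain ⟨a5, h5⟩ := hN0
    have h5' := hcast h5
    push_cast at h5'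
    set A := (r0 : R) * (el t g1 + (x P0 : R) * el t g2) with hA
    set A0 := (r0 : R) * (el t g1 + (x0 : R) * el t g2) with hA0'
    set F := (κ' P0 : R) * el t (y P0) with hF
    refine ⟨V * (a2 + c * a5 - a3 * F ^ 2 - A0 * a4 * (F + el t y0)) + a6, ?_⟩
    linear_combination V * h2 + V * c * h5' - V * F ^ 2 * h3 - V * A0 * (F + el t y0) * h4 + h6

theorem class_param {L : Type} [Field L] [NumberField L] (θ : Fin 4 → 𝓞 L) (G : ℤ[X])
    (hG : Root4 θ G) (Φ : ℤ[X][X]) (l : ℕ) (hl : l.Prime) (hl2 : l ≠ 2) (ν : ℕ) (hν : 1 ≤ ν)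
    (c : ℤ) (hc : ¬ (l : ℤ) ∣ c) (g1 g2 : Fin 4 → ℤ) (S : Set ℤ) (y : ℤ → Fin 4 → ℤ)
    (u1 u2 : ℤ → ℤ) (x0 N0 r0 : ℤ) (y0 : Fin 4 → ℤ) (hr0 : ¬ (l : ℤ) ∣ r0)
    (hGN : ¬ (l : ℤ) ∣ G.eval N0) (hΦ0 : ¬ (l : ℤ) ∣ ev2 (derivative Φ) x0 N0)
    (h : ∀ N ∈ S, ¬ (l : ℤ) ∣ u1 N ∧ (l : ℤ) ∣ u2 N - x0 * u1 N ∧ (l : ℤ) ∣ N - N0 ∧
      (∀ j, (c : 𝓞 L) * ((N : 𝓞 L) - θ j) =
        el (θ j) (y N) ^ 2 * el (θ j) (fun m => u1 N * g1 m + u2 N * g2 m)) ∧
      evB (N : ℂ) ((u2 N : ℂ) / u1 N) (toC Φ) = 0 ∧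
      ∃ κ : ℤ, (l : ℤ) ∣ κ ^ 2 * r0 - u1 N ∧ ∀ m, (l : ℤ) ∣ κ * y N m - y0 m) :
    ∃ (x lam : ℤ → ℤ) (Y : Fin 4 → ℤ[X]), ∀ N ∈ S, (l : ℤ) ∣ x N - x0 ∧
      (l : ℤ) ^ ν ∣ u1 N * x N - u2 N ∧ ¬ (l : ℤ) ∣ lam N ∧
      (l : ℤ) ^ ν ∣ lam N ^ 2 * u1 N - r0 ∧
      ∀ m, (l : ℤ) ^ ν ∣ y N m - lam N * (Y m).eval (x N) := by
  classical
  have hlp : Prime (l : ℤ) := Nat.prime_iff_prime_int.mp hl
  have hodd : Odd l := hl.odd_of_ne_two hl2
  rcases S.eq_empty_or_nonempty with rfl | ⟨P0, hP0⟩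
  · exact ⟨fun _ => 0, fun _ => 0, fun _ => 0, fun N hN => absurd hN (Set.notMem_empty N)⟩
  -- the parameter `x`
  have hx : ∀ N : ℤ, ∃ x : ℤ, N ∈ S → (l : ℤ) ^ ν ∣ u1 N * x - u2 N := by
    intro N
    by_cases hN : N ∈ S
    · have h1 : IsCoprime ((l : ℤ) ^ ν) (u1 N) :=
        ((Prime.coprime_iff_not_dvd hlp).mpr (h N hN).1).pow_left
      obtain ⟨a, b, hab⟩ := h1
      exact ⟨b * u2 N, fun _ => ⟨-(a * u2 N), by linear_combination (u2 N) * hab⟩⟩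
    · exact ⟨0, fun h => absurd h hN⟩
  choose x hx using hx
  have hκ : ∀ N : ℤ, ∃ κ' lam : ℤ, N ∈ S → (l : ℤ) ^ ν ∣ κ' ^ 2 * r0 - u1 N ∧
      (l : ℤ) ^ ν ∣ κ' * lam - 1 ∧ ∀ m, (l : ℤ) ∣ κ' * y N m - y0 m := by
    intro N
    by_cases hN : N ∈ S
    · obtain ⟨h1, _, _, _, _, κ, h5, h6⟩ := h N hN
      obtain ⟨κ', lam, h7, h8, h9⟩ := sqrt_lift l ν hl hl2 hν (u1 N) r0 κ h1 hr0 h5
      refine ⟨κ', lam, fun _ => ⟨h8, h9, fun m => ?_⟩⟩
      have h10 : κ' * y N m - y0 m = (κ' - κ) * y N m + (κ * y N m - y0 m) := by ring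
      rw [h10]
      exact dvd_add (h7.mul_right _) (h6 m)
    · exact ⟨0, 0, fun h => absurd h hN⟩
  choose κ' lam hκ using hκ
  have hlν : (l : ℤ) ∣ (l : ℤ) ^ ν := dvd_pow_self _ (by omega)
  have hxx0 : ∀ N ∈ S, (l : ℤ) ∣ x N - x0 := by
    intro N hN
    have h1 : (l : ℤ) ∣ u1 N * (x N - x0) := by
      have h2 := dvd_add (hlν.trans (hx N hN)) (h N hN).2.1
      have h3 : u1 N * x N - u2 N + (u2 N - x0 * u1 N) = u1 N * (x N - x0) := by ring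
      rwa [h3] at h2
    exact (hlp.dvd_or_dvd h1).resolve_left (h N hN).1
  -- `N` is a polynomial in `x`
  obtain ⟨v, hv⟩ : ∃ v : ℤ, (l : ℤ) ∣ 1 - v * ev2 (derivative Φ) x0 N0 := by
    have h1 : IsCoprime ((l : ℤ)) (ev2 (derivative Φ) x0 N0) :=
      (Prime.coprime_iff_not_dvd hlp).mpr hΦ0
    obtain ⟨a, b, hab⟩ := h1
    exact ⟨b, a, by linear_combination -hab⟩
  obtain ⟨φn, hφn⟩ := hensel_poly' Φ hv (ν - 1)
  rw [Nat.sub_add_cancel hν] at hφn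
  have hN : ∀ N ∈ S, (l : ℤ) ^ ν ∣ N - φn.eval (x N) := by
    intro N hN
    refine hφn (x N) N (hxx0 N hN) (h N hN).2.2.1 ?_
    have h1 := (h N hN).2.2.2.2.1
    have h2 : ((Φ.eval (C N)).map (Int.castRingHom ℂ)).eval ((u2 N : ℂ) / u1 N) = 0 := by
      rw [← h1, evB_int]
    have h3 : u1 N ≠ 0 := fun h0 => (h N hN).1 (by rw [h0]; exact dvd_zero _)
    have h4 := dvd_eval_of_root (Φ.eval (C N)) (u1 N) (u2 N) ((l : ℤ) ^ ν) (x N) h3
      ((Prime.coprime_iff_not_dvd hlp).mpr (h N hN).1).pow_left (hx N hN) h2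
    rwa [ev2_eval, eval_C] at h4
  -- the ring
  obtain ⟨V, hV⟩ := exists_unit_mod G l hl c N0 hc hGN
  have hsq := class_ring (AdjoinRoot.root G) l ν hodd hν S c r0 x0 N0 g1 g2 y0 x κ' u1 u2 y φn P0
    hP0 V hV (fun N hNS => by
      have h1 := eqn_root θ G hG c N (y N) _ (h N hNS).2.2.2.1
      rwa [bc_el_comb] at h1) hxx0 hx (fun N hNS => (hκ N hNS).1) (fun N hNS => (hκ N hNS).2.2) hN
    (h P0 hP0).2.2.1
  obtain ⟨co, hco⟩ := exists_coord G hG.monic hG.deg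
  have hY : ∀ m, ∃ Y : ℤ[X], ∀ N ∈ S, (l : ℤ) ^ ν ∣ κ' N * y N m - Y.eval (x N) := by
    intro m
    obtain ⟨Y, hY⟩ := isPol_coord hsq (co m)
    refine ⟨Y, fun N hNS => ?_⟩
    have h1 := hY N hNS
    have h2 : co m ((κ' N : AdjoinRoot G) * el (AdjoinRoot.root G) (y N)) = κ' N * y N m := by
      have h3 : (κ' N : AdjoinRoot G) * el (AdjoinRoot.root G) (y N) =
        κ' N • el (AdjoinRoot.root G) (y N) := by rw [zsmul_eq_mul]
      rw [h3, map_smul, hco, smul_eq_mul]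
    simp only [Int.cast_id] at h1
    rw [h2] at h1
    exact h1
  choose Y hY using hY
  refine ⟨x, lam, Y, fun N hNS => ⟨hxx0 N hNS, hx N hNS, ?_, ?_, fun m => ?_⟩⟩
  · intro h0
    have h1 : (l : ℤ) ∣ 1 := by
      have h2 := dvd_sub (h0.mul_left (κ' N)) (hlν.trans (hκ N hNS).2.1)
      rwa [sub_sub_cancel] at h2
    exact hlp.not_dvd_one h1
  · obtain ⟨a, ha⟩ := (hκ N hNS).1
    obtain ⟨b, hb⟩ := (hκ N hNS).2.1
    refine ⟨-(lam N ^ 2 * a) + r0 * b * (κ' N * lam N + 1), ?_⟩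
    linear_combination -(lam N ^ 2) * ha + r0 * (κ' N * lam N + 1) * hb
  · obtain ⟨a, ha⟩ := hY m N hNS
    obtain ⟨b, hb⟩ := (hκ N hNS).2.1
    refine ⟨lam N * a - y N m * b, ?_⟩
    linear_combination lam N * ha - y N m * hb

end Vale.Agent.P018.QB
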