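import Mathlib
import Vale.Agent.P018.Q.BDefs

/-! # P018, (B), curve step: an independent family of monomials with prescribed levels.

Everything in a commutative `ℂ`-algebra `A` (it will be the algebra of all complex functions on a
finite set of solutions). -/

namespace Vale.Agent.P018.QB

open Polynomial NumberField Vale.Agent.P018.Q

/-- greedy choice of an independent family. -/
theorem exists_indep {K V ι : Type*} [Nonempty ι] [Field K] [AddCommGroup V] [Module K V]
    (A : ℕ → Set ι)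
    (f : ι → V) (lev : ℕ → ℕ) (n : ℕ)
    (hmono : ∀ j k, j ≤ k → k < n →
      Submodule.span K (f '' A (lev j)) ≤ Submodule.span K (f '' A (lev k)))
    (hr : ∀ k < n, k < Module.finrank K (Submodule.span K (f '' A (lev k)))) :
    ∃ x : ℕ → ι, (∀ k < n, x k ∈ A (lev k)) ∧
      LinearIndependent K (fun k : Fin n => f (x k)) := by
  induction n with
  | zero =>
    exact ⟨fun _ => Classical.arbitrary ι, fun k hk => absurd hk (Nat.not_lt_zero k),
      linearIndependent_empty_type⟩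
  | succ n ih =>
    obtain ⟨x, hx, hli⟩ := ih (fun j k hjk hk => hmono j k hjk (hk.trans n.lt_succ_self))
      (fun k hk => hr k (hk.trans n.lt_succ_self))
    have hn := hr n n.lt_succ_self
    have hex : ∃ a ∈ A (lev n), f a ∉ Submodule.span K (Set.range fun k : Fin n => f (x k)) := by
      by_contra hcon
      push Not at hcon
      have h1 : Submodule.span K (f '' A (lev n)) ≤
          Submodule.span K (Set.range fun k : Fin n => f (x k)) := by
        rw [Submodule.span_le]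
        rintro _ ⟨a, ha, rfl⟩
        exact hcon a ha
      have : Module.Finite K (Submodule.span K (Set.range fun k : Fin n => f (x k))) :=
        FiniteDimensional.span_of_finite K (Set.finite_range _)
      have h2 := Submodule.finrank_mono h1
      have h3 := finrank_range_le_card (R := K) (fun k : Fin n => f (x k))
      rw [Fintype.card_fin, Set.finrank] at h3
      omega
    obtain ⟨a, ha, hna⟩ := hex
    refine ⟨Function.update x n a, fun k hk => ?_, ?_⟩
    · rcases (Nat.lt_succ_iff.1 hk).eq_or_lt with h | h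
      · subst h; simpa using ha
      · rw [Function.update_of_ne h.ne]; exact hx k h
    · rw [linearIndependent_finSucc']
      have e1 : Fin.init (fun k : Fin (n + 1) => f (Function.update x n a k)) =
          fun k : Fin n => f (x k) := by
        funext k
        simp only [Fin.init, Fin.val_castSucc]
        rw [Function.update_of_ne k.2.ne]
      rw [e1]
      refine ⟨hli, ?_⟩
      simpa using hna

variable {A : Type*} [CommRing A] [Algebra ℂ A]

/-- the span of the functions with exponents in `S`. -/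
noncomputable def spA (u1 u2 : A) (y : Fin 4 → A) (S : Set Ix) : Submodule ℂ A :=
  Submodule.span ℂ ((fun x => fv u1 u2 y x) '' S)

omit [Algebra ℂ A] in
theorem fv_add (u1 u2 : A) (y : Fin 4 → A) (x x' : Ix) :
    fv u1 u2 y (x + x') = fv u1 u2 y x * fv u1 u2 y x' := by
  simp only [fv, Prod.fst_add, Prod.snd_add, Pi.add_apply, pow_add, Finset.prod_mul_distrib]
  ring

theorem mem_mons {i l : ℕ} {x : Ix} :
    x ∈ (mons i l : Set Ix) ↔ x.1.1 + x.1.2 = i ∧ ∑ j, x.2 j = l := by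
  simp [mons, Finset.mem_piAntidiag]

theorem add_mem_mons {a l b m : ℕ} {x x' : Ix} (hx : x ∈ (mons a l : Set Ix))
    (hx' : x' ∈ (mons b m : Set Ix)) : x + x' ∈ (mons (a + b) (l + m) : Set Ix) := by
  rw [mem_mons] at *
  simp only [Prod.fst_add, Prod.snd_add, Pi.add_apply, Finset.sum_add_distrib]
  omega

theorem spA_mul (u1 u2 : A) (y : Fin 4 → A) (a l b m : ℕ) {p q : A}
    (hp : p ∈ spA u1 u2 y (mons a l)) (hq : q ∈ spA u1 u2 y (mons b m)) :
    p * q ∈ spA u1 u2 y (mons (a + b) (l + m)) := by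
  have h1 := Submodule.mul_mem_mul hp hq
  unfold spA at h1 ⊢
  rw [Submodule.span_mul_span] at h1
  refine Submodule.span_mono ?_ h1
  rintro _ ⟨_, ⟨x, hx, rfl⟩, _, ⟨x', hx', rfl⟩, rfl⟩
  exact ⟨x + x', add_mem_mons hx hx', fv_add u1 u2 y x x'⟩

/-- the spaces of functions are nested, if `mons 1 2` gives a nonzero constant. -/
theorem spA_mono (u1 u2 : A) (y : Fin 4 → A) (κ : ℂ) (hκ : κ ≠ 0)
    (h : algebraMap ℂ A κ ∈ spA u1 u2 y (mons 1 2)) (i t t' : ℕ) (ht : t ≤ t') :
    spA u1 u2 y (mons (i + t) (2 * t)) ≤ spA u1 u2 y (mons (i + t') (2 * t')) := by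
  induction t', ht using Nat.le_induction with
  | base => exact le_rfl
  | succ s _ ih =>
    refine ih.trans fun p hp => ?_
    have h1 := spA_mul u1 u2 y _ _ _ _ h hp
    have h2 := Submodule.smul_mem _ κ⁻¹ h1
    rw [← Algebra.smul_def, smul_smul, inv_mul_cancel₀ hκ, one_smul] at h2
    have e1 : 1 + (i + s) = i + (s + 1) := by ring
    have e2 : 2 + 2 * s = 2 * (s + 1) := by ring
    rwa [e1, e2] at h2

theorem one_mem_spA (u1 u2 : A) (y : Fin 4 → A) : (1 : A) ∈ spA u1 u2 y (mons 0 0) := by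
  refine Submodule.subset_span ⟨((0, 0), 0), ?_, ?_⟩
  · rw [mem_mons]; simp
  · simp [fv]

theorem u1_mem_spA (u1 u2 : A) (y : Fin 4 → A) : u1 ∈ spA u1 u2 y (mons 1 0) := by
  refine Submodule.subset_span ⟨((1, 0), 0), ?_, ?_⟩
  · rw [mem_mons]; simp
  · simp [fv]

theorem u2_mem_spA (u1 u2 : A) (y : Fin 4 → A) : u2 ∈ spA u1 u2 y (mons 1 0) := by
  refine Submodule.subset_span ⟨((0, 1), 0), ?_, ?_⟩
  · rw [mem_mons]; simp
  · simp [fv]

theorem y_mem_spA (u1 u2 : A) (y : Fin 4 → A) (k : Fin 4) : y k ∈ spA u1 u2 y (mons 0 1) := by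
  classical
  refine Submodule.subset_span ⟨((0, 0), Pi.single k 1), ?_, ?_⟩
  · rw [mem_mons]; simp
  · simp only [fv, pow_zero, one_mul]
    rw [Finset.prod_eq_single k]
    · simp
    · intro j _ hj
      simp [Pi.single_eq_of_ne hj]
    · simp

theorem pow_mem_spA {u1 u2 : A} {y : Fin 4 → A} {a l : ℕ} {p : A}
    (hp : p ∈ spA u1 u2 y (mons a l)) (n : ℕ) : p ^ n ∈ spA u1 u2 y (mons (n * a) (n * l)) := by
  induction n with
  | zero => simpa using one_mem_spA u1 u2 y
  | succ n ih =>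
    rw [pow_succ]
    have := spA_mul u1 u2 y _ _ _ _ ih hp
    rwa [← Nat.succ_mul, ← Nat.succ_mul] at this

theorem prod_mem_spA {ι : Type*} {u1 u2 : A} {y : Fin 4 → A} (s : Finset ι) {a l : ι → ℕ}
    {p : ι → A} (hp : ∀ i ∈ s, p i ∈ spA u1 u2 y (mons (a i) (l i))) :
    ∏ i ∈ s, p i ∈ spA u1 u2 y (mons (∑ i ∈ s, a i) (∑ i ∈ s, l i)) := by
  classical
  induction s using Finset.induction_on with
  | empty => simpa using one_mem_spA u1 u2 y
  | insert i s hi ih =>
    rw [Finset.prod_insert hi, Finset.sum_insert hi, Finset.sum_insert hi]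
    exact spA_mul u1 u2 y _ _ _ _ (hp i (Finset.mem_insert_self i s))
      (ih fun j hj => hp j (Finset.mem_insert_of_mem hj))

theorem lin_mem_spA (u1 u2 : A) (y : Fin 4 → A) (M : Fin 4 → ℂ) :
    ∑ k, M k • y k ∈ spA u1 u2 y (mons 0 1) :=
  Submodule.sum_mem _ fun k _ => Submodule.smul_mem _ _ (y_mem_spA u1 u2 y k)

/-- linear change of variables. -/
theorem spA_change (u1 u2 : A) (y : Fin 4 → A) (M : Fin 4 → Fin 4 → ℂ) (a l : ℕ) :
    spA u1 u2 (fun j => ∑ k, M j k • y k) (mons a l) ≤ spA u1 u2 y (mons a l) := by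
  rw [spA, Submodule.span_le]
  rintro _ ⟨x, hx, rfl⟩
  rw [mem_mons] at hx
  have h1 := pow_mem_spA (u1_mem_spA u1 u2 y) x.1.1
  have h2 := pow_mem_spA (u2_mem_spA u1 u2 y) x.1.2
  have h3 := prod_mem_spA (Finset.univ : Finset (Fin 4))
    (fun j _ => pow_mem_spA (lin_mem_spA u1 u2 y (M j)) (x.2 j))
  have h4 := spA_mul u1 u2 y _ _ _ _ (spA_mul u1 u2 y _ _ _ _ h1 h2) h3
  simp only [mul_one, mul_zero, Finset.sum_const_zero, add_zero, zero_add, hx.1, hx.2] at h4
  exact h4

/-- the nonzero constant: `π_0^2 γ_0 - π_1^2 γ_1 = c (α_1 - α_0)`. -/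
theorem const_mem (α g1 g2 : Fin 4 → ℂ) (c : ℂ) (n u1 u2 : A) (y : Fin 4 → A)
    (h : ∀ j, (∑ k : Fin 4, (α j ^ (k : ℕ)) • y k) ^ 2 * (g1 j • u1 + g2 j • u2) =
      algebraMap ℂ A c * (n - algebraMap ℂ A (α j))) :
    algebraMap ℂ A (c * (α 1 - α 0)) ∈ spA u1 u2 y (mons 1 2) := by
  have h1 : algebraMap ℂ A (c * (α 1 - α 0)) =
      (∑ k : Fin 4, (α 0 ^ (k : ℕ)) • y k) ^ 2 * (g1 0 • u1 + g2 0 • u2) -
      (∑ k : Fin 4, (α 1 ^ (k : ℕ)) • y k) ^ 2 * (g1 1 • u1 + g2 1 • u2) := by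
    rw [h 0, h 1, map_mul, map_sub]; ring
  rw [h1]
  have h2 : ∀ j, (∑ k : Fin 4, (α j ^ (k : ℕ)) • y k) ^ 2 * (g1 j • u1 + g2 j • u2) ∈
      spA u1 u2 y (mons 1 2) := fun j => by
    have h3 := pow_mem_spA (lin_mem_spA u1 u2 y (fun k : Fin 4 => α j ^ (k : ℕ))) 2
    have h4 : g1 j • u1 + g2 j • u2 ∈ spA u1 u2 y (mons 1 0) :=
      Submodule.add_mem _ (Submodule.smul_mem _ _ (u1_mem_spA u1 u2 y))
        (Submodule.smul_mem _ _ (u2_mem_spA u1 u2 y))
    have h5 := spA_mul u1 u2 y _ _ _ _ h3 h4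
    simpa using h5
  exact Submodule.sub_mem _ (h2 0) (h2 1)

/-- the level of the `k`-th function. -/
def levC (i C0 k : ℕ) : ℕ :=
  if k < 2 * i + 5 * C0 then C0 else C0 + (k - (2 * i + 5 * C0)) / 6 + 1

theorem exists_fam (C0 i r : ℕ) (u1 u2 : A) (y : Fin 4 → A) (κ : ℂ) (hκ : κ ≠ 0)
    (h : algebraMap ℂ A κ ∈ spA u1 u2 y (mons 1 2))
    (hrk : ∀ t, C0 ≤ t → t ≤ C0 + r →
      2 * i + 6 * t ≤ C0 + Module.finrank ℂ (spA u1 u2 y (mons (i + t) (2 * t)))) :
    ∃ x : ℕ → Ix, (∀ k < 2 * i + 5 * C0 + 6 * r, x k ∈ mons (i + levC i C0 k) (2 * levC i C0 k)) ∧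
      LinearIndependent ℂ (fun k : Fin (2 * i + 5 * C0 + 6 * r) => fv u1 u2 y (x k)) := by
  refine exists_indep (fun t => (mons (i + t) (2 * t) : Set Ix)) (fun x => fv u1 u2 y x)
    (levC i C0) _ (fun j k hjk _ => ?_) (fun k hk => ?_)
  · refine spA_mono u1 u2 y κ hκ h i _ _ ?_
    unfold levC
    split_ifs <;> omega
  · have h1 := hrk (levC i C0 k) (by unfold levC; split_ifs <;> omega)
      (by unfold levC; split_ifs <;> omega)
    have h2 : k + C0 < 2 * i + 6 * levC i C0 k := by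
      unfold levC; split_ifs <;> omega
    unfold spA at h1
    omega

end Vale.Agent.P018.QB
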