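import Mathlib
import Vale.Agent.P018.Q.BCFam

/-! # P018, (B), curve step: the numerical inequality `num_ineq`. -/

namespace Vale.Agent.P018.QB

open Finset

/-- the levels in the first block. -/
theorem levC_lo (i C0 k : ℕ) (hk : k < 2 * i + 5 * C0) : levC i C0 k = C0 := by
  unfold levC
  rw [if_pos hk]

/-- the levels in the later blocks. -/
theorem levC_hi (i C0 r b : ℕ) (hb : b < 6) :
    levC i C0 (2 * i + 5 * C0 + 6 * r + b) = C0 + r + 1 := by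
  unfold levC
  rw [if_neg (by omega)]
  have : (2 * i + 5 * C0 + 6 * r + b - (2 * i + 5 * C0)) / 6 = r := by omega
  rw [this]

/-- the sum of the levels. -/
theorem sum_levC (i C0 r : ℕ) :
    ∑ k ∈ range (2 * i + 5 * C0 + 6 * r), levC i C0 k =
      C0 * (2 * i + 5 * C0 + 6 * r) + 3 * (r * (r + 1)) := by
  induction r with
  | zero =>
    rw [Finset.sum_congr rfl (fun k hk => levC_lo i C0 k (by simpa using hk))]
    simp [Nat.mul_comm]
  | succ r ih =>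
    have h : 2 * i + 5 * C0 + 6 * (r + 1) = 2 * i + 5 * C0 + 6 * r + 6 := by ring
    have h0 := levC_hi i C0 r 0 (by norm_num)
    rw [Nat.add_zero] at h0
    rw [h, Finset.sum_range_succ, Finset.sum_range_succ, Finset.sum_range_succ,
      Finset.sum_range_succ, Finset.sum_range_succ, Finset.sum_range_succ, ih,
      levC_hi i C0 r 1 (by norm_num), levC_hi i C0 r 2 (by norm_num),
      levC_hi i C0 r 3 (by norm_num), levC_hi i C0 r 4 (by norm_num),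
      levC_hi i C0 r 5 (by norm_num), h0]
    ring

/-- Numerics: with `n = 26 s + 5 C0`, `∑_{k<n} (4 s + levC k) = 131 s^2 + O(s)`,
`∑_{k<n} 2 levC k = 54 s^2 + O(s)`, `n (n - 1) / 2 ≥ 338 s^2` (for `C0 ≥ 1`). -/
theorem num_ineq (C0 C : ℕ) (hC0 : 1 ≤ C0) (ε : ℝ) (hε : 0 < ε) :
    ∃ (s : ℕ) (K : ℝ), 1 ≤ s ∧ C0 ≤ s ∧ 1 ≤ K ∧ ∀ (T U q : ℝ), 1 ≤ T → 1 ≤ U → U ≤ C * T ^ 4 →
      K * (T ^ (27 / 169 + ε) * U ^ (131 / 338 : ℝ)) ≤ q →
      (2 * ((2 * (4 * s) + 5 * C0 + 6 * (3 * s) : ℕ) : ℝ)) ^ (2 * (4 * s) + 5 * C0 + 6 * (3 * s)) *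
        ∏ k ∈ range (2 * (4 * s) + 5 * C0 + 6 * (3 * s)),
          (U ^ (4 * s + levC (4 * s) C0 k) * ((C + 1) * T) ^ (2 * levC (4 * s) C0 k)) ≤
      q ^ ((2 * (4 * s) + 5 * C0 + 6 * (3 * s)) * (2 * (4 * s) + 5 * C0 + 6 * (3 * s) - 1) / 2) := by
  obtain ⟨s0, hs0⟩ := exists_nat_ge ((236 * (C0 : ℝ) + 54 + 30 * (C0 : ℝ) ^ 2) / (338 * ε))
  set s : ℕ := s0 + 1 + C0 with hs
  have hs1 : 1 ≤ s := by omega
  have hsC0 : C0 ≤ s := by omega
  have hsε : (236 * (C0 : ℝ) + 54 + 30 * (C0 : ℝ) ^ 2) ≤ 338 * ε * s := by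
    have h1 : (236 * (C0 : ℝ) + 54 + 30 * (C0 : ℝ) ^ 2) / (338 * ε) ≤ s := by
      have hC00 : (0 : ℝ) ≤ C0 := Nat.cast_nonneg _
      rw [hs]; push_cast; linarith
    rw [div_le_iff₀ (by positivity)] at h1
    linarith
  clear_value s
  set n : ℕ := 2 * (4 * s) + 5 * C0 + 6 * (3 * s) with hn
  set D : ℕ := (46 * C0 + 9) * s + 5 * C0 ^ 2 with hD
  set B : ℕ := 54 * s ^ 2 + ((52 * C0 + 18) * s + 10 * C0 ^ 2) with hB
  have hsumL : ∑ k ∈ range n, levC (4 * s) C0 k = C0 * n + 3 * (3 * s * (3 * s + 1)) := by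
    rw [hn]
    exact sum_levC (4 * s) C0 (3 * s)
  have hsumB : ∑ k ∈ range n, 2 * levC (4 * s) C0 k = B := by
    rw [← Finset.mul_sum, hsumL, hB, hn]
    ring
  have hsumA : ∑ k ∈ range n, (4 * s + levC (4 * s) C0 k) = 131 * s ^ 2 + D := by
    rw [Finset.sum_add_distrib, hsumL, hD]
    simp only [Finset.sum_const, Finset.card_range, smul_eq_mul]
    rw [hn]
    ring
  set N : ℕ := n * (n - 1) / 2 with hN
  have hN1 : 338 * s ^ 2 ≤ N := by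
    rw [hN, Nat.le_div_iff_mul_le (by norm_num)]
    have h1 : 26 * s + 5 ≤ n := by rw [hn]; omega
    have h2 : 26 * s + 4 ≤ n - 1 := by omega
    calc 338 * s ^ 2 * 2 ≤ (26 * s + 5) * (26 * s + 4) := by nlinarith
      _ ≤ n * (n - 1) := Nat.mul_le_mul h1 h2
  have hN0 : N ≠ 0 := by
    have : 0 < s ^ 2 := by positivity
    omega
  have hn1 : 1 ≤ n := by rw [hn]; omega
  have hnR : (1 : ℝ) ≤ 2 * (n : ℝ) := by
    have : (1 : ℝ) ≤ n := by exact_mod_cast hn1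
    linarith
  have hC1 : (1 : ℝ) ≤ (C : ℝ) + 1 := by
    have : (0 : ℝ) ≤ C := Nat.cast_nonneg _
    linarith
  refine ⟨s, (2 * (n : ℝ)) ^ n * ((C : ℝ) + 1) ^ (B + D), hs1, hsC0, ?_, ?_⟩
  · exact one_le_mul_of_one_le_of_one_le (one_le_pow₀ hnR) (one_le_pow₀ hC1)
  intro T U q hT hU hUT hq
  rw [Finset.prod_mul_distrib, Finset.prod_pow_eq_pow_sum, Finset.prod_pow_eq_pow_sum, hsumA,
    hsumB]
  set K : ℝ := (2 * (n : ℝ)) ^ n * ((C : ℝ) + 1) ^ (B + D) with hK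
  have hK1 : 1 ≤ K := one_le_mul_of_one_le_of_one_le (one_le_pow₀ hnR) (one_le_pow₀ hC1)
  have hT0 : 0 < T := by linarith
  have hU0 : 0 < U := by linarith
  have hTp : (1 : ℝ) ≤ T ^ (27 / 169 + ε) := Real.one_le_rpow hT (by positivity)
  have hUp : (1 : ℝ) ≤ U ^ (131 / 338 : ℝ) := Real.one_le_rpow hU (by norm_num)
  have hUb : U ≤ ((C : ℝ) + 1) * T ^ 4 := by
    have : 0 < T ^ 4 := by positivity
    nlinarith
  -- the right side
  have hR1 : K * (T ^ (27 / 169 + ε) * U ^ (131 / 338 : ℝ)) ^ (338 * s ^ 2) ≤ q ^ N := by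
    have hx : (1 : ℝ) ≤ T ^ (27 / 169 + ε) * U ^ (131 / 338 : ℝ) :=
      one_le_mul_of_one_le_of_one_le hTp hUp
    calc K * (T ^ (27 / 169 + ε) * U ^ (131 / 338 : ℝ)) ^ (338 * s ^ 2)
        ≤ K ^ N * (T ^ (27 / 169 + ε) * U ^ (131 / 338 : ℝ)) ^ N := by
          apply mul_le_mul _ _ (by positivity) (by positivity)
          · exact le_self_pow₀ hK1 hN0
          · exact pow_le_pow_right₀ hx hN1
      _ = (K * (T ^ (27 / 169 + ε) * U ^ (131 / 338 : ℝ))) ^ N := (mul_pow K _ N).symm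
      _ ≤ q ^ N := pow_le_pow_left₀ (by positivity) hq N
  have hU2 : (U ^ (131 / 338 : ℝ)) ^ (338 * s ^ 2) = U ^ (131 * s ^ 2) := by
    rw [← Real.rpow_natCast, ← Real.rpow_mul hU0.le, ← Real.rpow_natCast]
    congr 1
    push_cast
    ring
  have hT2 : T ^ (B + 4 * D) ≤ (T ^ (27 / 169 + ε)) ^ (338 * s ^ 2) := by
    rw [← Real.rpow_natCast, ← Real.rpow_natCast, ← Real.rpow_mul hT0.le]
    apply Real.rpow_le_rpow_of_exponent_le hT
    rw [hB, hD]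
    push_cast
    have hs1' : (1 : ℝ) ≤ s := by exact_mod_cast hs1
    have hs0' : (0 : ℝ) ≤ s := by linarith
    have h1 : (236 * (C0 : ℝ) + 54 + 30 * (C0 : ℝ) ^ 2) * s ≤ 338 * ε * s * s :=
      mul_le_mul_of_nonneg_right hsε hs0'
    have h2 : 30 * (C0 : ℝ) ^ 2 ≤ 30 * (C0 : ℝ) ^ 2 * s := by
      have : 0 ≤ 30 * (C0 : ℝ) ^ 2 := by positivity
      nlinarith
    nlinarith
  calc (2 * (n : ℝ)) ^ n * (U ^ (131 * s ^ 2 + D) * (((C : ℝ) + 1) * T) ^ B)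
      = (2 * (n : ℝ)) ^ n * (U ^ (131 * s ^ 2) * U ^ D * (((C : ℝ) + 1) * T) ^ B) := by
        rw [pow_add U (131 * s ^ 2) D]
    _ ≤ (2 * (n : ℝ)) ^ n * (U ^ (131 * s ^ 2) * (((C : ℝ) + 1) * T ^ 4) ^ D *
          (((C : ℝ) + 1) * T) ^ B) := by
        gcongr
    _ = K * (T ^ (B + 4 * D) * U ^ (131 * s ^ 2)) := by
        rw [hK, mul_pow ((C : ℝ) + 1) T B, mul_pow ((C : ℝ) + 1) (T ^ 4) D,
          pow_add ((C : ℝ) + 1) B D, pow_add T B (4 * D), ← pow_mul T 4 D]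
        ring
    _ ≤ K * ((T ^ (27 / 169 + ε)) ^ (338 * s ^ 2) * (U ^ (131 / 338 : ℝ)) ^ (338 * s ^ 2)) := by
        rw [hU2]
        gcongr
    _ = K * (T ^ (27 / 169 + ε) * U ^ (131 / 338 : ℝ)) ^ (338 * s ^ 2) := by
        rw [← mul_pow]
    _ ≤ q ^ N := hR1

end Vale.Agent.P018.QB
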