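import Mathlib
import Vale.Agent.P018.Q.BCFam
import Vale.Agent.P018.Q.Siegel
import Vale.Agent.P018.Q.BCNumI

/-! # P018, (B), curve step: numerics, prime numbers, the pigeonhole step in a class. -/

namespace Vale.Agent.P018.QB

open Polynomial NumberField Vale.Agent.P018.Q Finset

/-- Bertrand. -/
theorem exists_primes (M Q : ℕ) (hQ : 1 ≤ Q) : ∃ ℓ : Fin M → ℕ, Function.Injective ℓ ∧
    ∀ i, (ℓ i).Prime ∧ Q < ℓ i ∧ ℓ i ≤ 2 ^ M * Q := by
  have h := fun n : ℕ => fun hn : n ≠ 0 => Nat.exists_prime_lt_and_le_two_mul n hn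
  choose! p hp using h
  obtain ⟨a, ha0, has⟩ : ∃ a : ℕ → ℕ, a 0 = Q ∧ ∀ i, a (i + 1) = p (a i) :=
    ⟨fun i => p^[i] Q, rfl, fun i => Function.iterate_succ_apply' p i Q⟩
  have hpos : ∀ i, a i ≠ 0 := by
    intro i
    induction i with
    | zero => rw [ha0]; omega
    | succ i ih => rw [has]; exact (hp (a i) ih).1.ne_zero
  have hmono : StrictMono a := by
    refine strictMono_nat_of_lt_succ fun i => ?_
    rw [has]
    exact (hp (a i) (hpos i)).2.1
  have hup : ∀ i, a i ≤ 2 ^ i * Q := by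
    intro i
    induction i with
    | zero => rw [ha0]; simp
    | succ i ih =>
      rw [has]
      have := (hp (a i) (hpos i)).2.2
      calc p (a i) ≤ 2 * a i := this
        _ ≤ 2 * (2 ^ i * Q) := by omega
        _ = 2 ^ (i + 1) * Q := by ring
  refine ⟨fun i => a (i + 1), ?_, fun i => ⟨?_, ?_, ?_⟩⟩
  · intro i j hij
    have := hmono.injective hij
    exact Fin.ext (by omega)
  · change (a (i + 1)).Prime
    rw [has]
    exact (hp (a i) (hpos i)).1
  · have := hmono (show 0 < (i : ℕ) + 1 by omega)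
    rwa [ha0] at this
  · refine (hup (i + 1)).trans (Nat.mul_le_mul_right _ ?_)
    exact Nat.pow_le_pow_right (by norm_num) (by omega)

/-- at least one of many primes does not divide a given integer. -/
theorem exists_good (M Q : ℕ) (hQ : 1 ≤ Q) (ℓ : Fin M → ℕ) (hinj : Function.Injective ℓ)
    (hℓ : ∀ i, (ℓ i).Prime ∧ Q < ℓ i) (b : ℤ) (hb : b ≠ 0) (hbQ : |b| < (Q : ℤ) ^ M) :
    ∃ i, ¬ ((ℓ i : ℤ) ∣ b) := by
  by_contra hcon
  push Not at hcon
  have h1 : ∏ i, (ℓ i : ℤ) ∣ b := by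
    refine Finset.prod_dvd_of_coprime ?_ fun i _ => hcon i
    intro i _ j _ hij
    have h2 : Nat.Coprime (ℓ i) (ℓ j) :=
      (Nat.coprime_primes (hℓ i).1 (hℓ j).1).2 fun h => hij (hinj h)
    exact Nat.isCoprime_iff_coprime.2 h2
  have h2 : ∏ i, (ℓ i : ℤ) ≤ |b| :=
    Int.le_of_dvd (abs_pos.2 hb) ((dvd_abs _ _).2 h1)
  have h3 : (Q : ℤ) ^ M ≤ ∏ i, (ℓ i : ℤ) := by
    have : ∏ _i : Fin M, (Q : ℤ) ≤ ∏ i, (ℓ i : ℤ) := by
      refine Finset.prod_le_prod (fun i _ => by positivity) fun i _ => ?_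
      have := (hℓ i).2
      exact_mod_cast this.le
    simpa using this
  exact absurd hbQ (not_lt.2 (h3.trans h2))

/-- `siegel_class` with `ν = n`, `W k = l^n / (2 n Sz k)`. -/
theorem siegel_wrap {n : ℕ} (hn : 1 ≤ n) (l : ℕ) (hl : l.Prime) (S : Set ℤ) (f : ℕ → ℤ → ℤ)
    (φ : ℕ → ℤ[X]) (u x : ℤ → ℤ) (x0 : ℤ) (Sz : ℕ → ℝ) (h1 : ∀ k < n, 1 ≤ Sz k)
    (hu : ∀ P ∈ S, ¬ (l : ℤ) ∣ u P) (hx : ∀ P ∈ S, (l : ℤ) ∣ x P - x0)
    (hf : ∀ P ∈ S, ∀ k < n, (l : ℤ) ^ n ∣ u P * f k P - (φ k).eval (x P))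
    (hSz : ∀ P ∈ S, ∀ k < n, |(f k P : ℝ)| ≤ Sz k)
    (hnum : (2 * (n : ℝ)) ^ n * ∏ k ∈ range n, Sz k ≤ (l : ℝ) ^ (n * (n - 1) / 2)) :
    ∃ w : ℕ → ℤ, (∃ k < n, w k ≠ 0) ∧ ∀ P ∈ S, ∑ k ∈ range n, w k * f k P = 0 := by
  have hl0 : (0 : ℝ) < l := by exact_mod_cast hl.pos
  have hn0 : (0 : ℝ) < n := by exact_mod_cast hn
  set W : ℕ → ℝ := fun k => if k < n then (l : ℝ) ^ n / (2 * n * Sz k) else 0 with hW
  have hWpos : ∀ k < n, 0 < W k := by
    intro k hk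
    simp only [hW, if_pos hk]
    have : 0 < Sz k := lt_of_lt_of_le one_pos (h1 k hk)
    positivity
  have hWn : ∀ k, 0 ≤ W k := by
    intro k
    by_cases hk : k < n
    · exact (hWpos k hk).le
    · simp only [hW, if_neg hk]
      exact le_rfl
  have hSpos : 0 < ∏ k ∈ range n, Sz k := by
    refine Finset.prod_pos fun k hk => ?_
    exact lt_of_lt_of_le one_pos (h1 k (mem_range.1 hk))
  have hprodW : ∏ k ∈ range n, W k =
      ((l : ℝ) ^ n) ^ n / ((2 * (n : ℝ)) ^ n * ∏ k ∈ range n, Sz k) := by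
    have : ∏ k ∈ range n, W k = ∏ k ∈ range n, ((l : ℝ) ^ n / (2 * n * Sz k)) := by
      refine Finset.prod_congr rfl fun k hk => ?_
      simp only [hW, if_pos (mem_range.1 hk)]
    rw [this, Finset.prod_div_distrib, Finset.prod_mul_distrib]
    simp
  have hexp : n * (n + 1) / 2 + n * (n - 1) / 2 = n * n := by
    obtain ⟨m, rfl⟩ : ∃ m, n = m + 1 := ⟨n - 1, by omega⟩
    rw [Nat.add_sub_cancel]
    have h2 : 2 ∣ (m + 1) * (m + 1 + 1) := (Nat.even_mul_succ_self (m + 1)).two_dvd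
    have h3 : 2 ∣ (m + 1) * m := by
      rw [mul_comm]
      exact (Nat.even_mul_succ_self m).two_dvd
    obtain ⟨c, hc⟩ := h2
    obtain ⟨d, hd⟩ := h3
    rw [hc, hd, Nat.mul_div_cancel_left _ two_pos, Nat.mul_div_cancel_left _ two_pos]
    nlinarith
  have hge : (l : ℝ) ^ (n * (n + 1) / 2) ≤ ∏ k ∈ range n, W k := by
    rw [hprodW, le_div_iff₀ (by positivity), ← pow_mul, ← hexp, pow_add]
    exact mul_le_mul_of_nonneg_left hnum (by positivity)
  have hlt : ∏ k ∈ range n, W k < ∏ k ∈ range n, ((⌊W k⌋₊ : ℝ) + 1) := by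
    refine Finset.prod_lt_prod (fun k hk => hWpos k (mem_range.1 hk))
      (fun k _ => (Nat.lt_floor_add_one (W k)).le) ⟨0, mem_range.2 (by omega), ?_⟩
    exact Nat.lt_floor_add_one (W 0)
  obtain ⟨w, hw0, -, hw⟩ := siegel_class n n (l : ℤ) (by exact_mod_cast hl.two_le) S f φ u x x0
    Sz W hWn (fun P hP => by
      rw [isCoprime_comm]
      exact (Prime.coprime_iff_not_dvd (Nat.prime_iff_prime_int.1 hl)).2 (hu P hP)) hx hf hSz
    (by
      have : ((l : ℤ) : ℝ) = (l : ℝ) := by norm_cast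
      rw [this]
      exact hge.trans_lt hlt)
    (by
      have h2 : ((l : ℤ) : ℝ) = (l : ℝ) := by norm_cast
      rw [h2]
      have h3 : ∑ k ∈ range n, W k * Sz k = ∑ _k ∈ range n, (l : ℝ) ^ n / (2 * n) := by
        refine Finset.sum_congr rfl fun k hk => ?_
        have hk' := mem_range.1 hk
        have : Sz k ≠ 0 := (lt_of_lt_of_le one_pos (h1 k hk')).ne'
        simp only [hW, if_pos hk']
        field_simp
      rw [h3, Finset.sum_const, card_range, nsmul_eq_mul]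
      have h4 : (n : ℝ) * ((l : ℝ) ^ n / (2 * n)) = (l : ℝ) ^ n / 2 := by
        field_simp
      rw [h4]
      have : (0 : ℝ) < (l : ℝ) ^ n := by positivity
      linarith)
  exact ⟨w, hw0, hw⟩

end Vale.Agent.P018.QB
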