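import Mathlib
import Vale.Agent.P018.Q.BDefs

/-! # P018, (B): generic points of the surface and of a curve. -/

namespace Vale.Agent.P018.QB

open Polynomial NumberField Vale.Agent.P018.Q

/-- evaluation at the tautological point is the given ring homomorphism. -/
theorem evB_taut {Ω : Type} [Field Ω] [Algebra ℂ Ω] (i : ℂ[X][X] →+* Ω)
    (hi : ∀ z : ℂ, i (C (C z)) = algebraMap ℂ Ω z) (F : ℂ[X][X]) :
    evB (i X) (i (C X)) F = i F := by
  have h1 : (aeval (i (C X)) : ℂ[X] →ₐ[ℂ] Ω).toRingHom = i.comp C := by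
    refine Polynomial.ringHom_ext (fun z => ?_) ?_
    · show aeval (i (C X)) (C z) = i (C (C z))
      rw [aeval_C, hi]
    · show aeval (i (C X)) X = i (C X)
      rw [aeval_X]
  have h2 : eval₂RingHom (aeval (i (C X)) : ℂ[X] →ₐ[ℂ] Ω).toRingHom (i X) = i := by
    rw [h1]
    refine Polynomial.ringHom_ext (fun z => ?_) ?_
    · simp
    · simp
  exact congrArg (fun f : ℂ[X][X] →+* Ω => f F) h2

theorem gen_lin_ne {α g1 g2 : Fin 4 → ℂ} {c : ℂ} (h : Lat α g1 g2 c) (j : Fin 4) :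
    (C (g1 j) + X * C (g2 j) : ℂ[X]) ≠ 0 := by
  intro h0
  have h1 : g1 j = 0 := by
    have := congrArg (fun p : ℂ[X] => p.coeff 0) h0
    simpa using this
  have h2 : g2 j = 0 := by
    have := congrArg (fun p : ℂ[X] => p.coeff 1) h0
    simpa [coeff_X_mul, coeff_C] using this
  obtain ⟨k, hk⟩ : ∃ k : Fin 4, j ≠ k := by
    refine ⟨j + 1, ?_⟩
    fin_cases j <;> decide
  refine h.ns j k hk ?_
  rw [h1, h2]
  ring

/-- the point attached to a homomorphism to a domain. -/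
theorem gen_aux (α g1 g2 : Fin 4 → ℂ) (c : ℂ) (A : Type) [CommRing A] [IsDomain A]
    (q : ℂ[X][X] →+* A) (hne : ∀ j, q (C (C (g1 j) + X * C (g2 j))) ≠ 0) :
    ∃ (Ω : Type) (_ : Field Ω) (_ : Algebra ℂ Ω) (n w : Ω) (pi : Fin 4 → Ω),
      Mdl α g1 g2 c Ω n w pi ∧ ∀ F, evB n w F = 0 ↔ q F = 0 := by
  let Ω := AlgebraicClosure (FractionRing A)
  let e : A →+* Ω := (algebraMap (FractionRing A) Ω).comp (algebraMap A (FractionRing A))
  have hinj : Function.Injective e :=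
    (algebraMap (FractionRing A) Ω).injective.comp (IsFractionRing.injective A (FractionRing A))
  let i : ℂ[X][X] →+* Ω := e.comp q
  let alg : Algebra ℂ Ω := (i.comp ((C : ℂ[X] →+* ℂ[X][X]).comp (C : ℂ →+* ℂ[X]))).toAlgebra
  have hi : ∀ z : ℂ, i (C (C z)) = algebraMap ℂ Ω z := fun z => rfl
  have hi0 : ∀ F, i F = 0 ↔ q F = 0 := fun F => map_eq_zero_iff e hinj
  have hg : ∀ j, algebraMap ℂ Ω (g1 j) + i (C X) * algebraMap ℂ Ω (g2 j) ≠ 0 := by
    intro j h0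
    apply hne j
    rw [← hi0, C_add, C_mul, map_add, map_mul, hi, hi]
    exact h0
  choose v hv using fun j => IsAlgClosed.exists_pow_nat_eq
    (algebraMap ℂ Ω c * (i X - algebraMap ℂ Ω (α j)) /
      (algebraMap ℂ Ω (g1 j) + i (C X) * algebraMap ℂ Ω (g2 j))) (two_pos)
  refine ⟨Ω, inferInstance, alg, i X, i (C X), v, ⟨hg, fun j => ?_⟩, fun F => ?_⟩
  · rw [hv j, div_mul_cancel₀ _ (hg j)]
  · rw [evB_taut i hi F]
    exact hi0 F

/-- generic point of the surface: algebraic closure of the fraction field of `ℂ[w][n]`. -/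
theorem generic_surf (α g1 g2 : Fin 4 → ℂ) (c : ℂ) (h : Lat α g1 g2 c) :
    ∃ (Ω : Type) (_ : Field Ω) (_ : Algebra ℂ Ω) (n w : Ω) (pi : Fin 4 → Ω),
      Mdl α g1 g2 c Ω n w pi ∧ ∀ F, evB n w F = 0 → F = 0 := by
  obtain ⟨Ω, f, al, n, w, pi, h1, h2⟩ := gen_aux α g1 g2 c ℂ[X][X] (RingHom.id _)
    (fun j h0 => gen_lin_ne h j ((map_eq_zero_iff _ C_injective).1 h0))
  exact ⟨Ω, f, al, n, w, pi, h1, fun F hF => (h2 F).1 hF⟩

/-- generic point of an irreducible curve `Φ(n, w) = 0` which is not a line `w = w0`: algebraic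
closure of the fraction field of `ℂ[w][n]/(Φ)`. -/
theorem generic_curve (α g1 g2 : Fin 4 → ℂ) (c : ℂ) (h : Lat α g1 g2 c)
    (Φ : ℂ[X][X]) (hΦ : Irreducible Φ) (hw : Φ.natDegree ≠ 0) :
    ∃ (Ω : Type) (_ : Field Ω) (_ : Algebra ℂ Ω) (n w : Ω) (pi : Fin 4 → Ω),
      Mdl α g1 g2 c Ω n w pi ∧ ∀ F, evB n w F = 0 ↔ Φ ∣ F := by
  have hprime : (Ideal.span {Φ}).IsPrime :=
    (Ideal.span_singleton_prime hΦ.ne_zero).2 (UniqueFactorizationMonoid.irreducible_iff_prime.1 hΦ)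
  have hdom : IsDomain (ℂ[X][X] ⧸ Ideal.span {Φ}) := Ideal.Quotient.isDomain _
  have hk : ∀ F, Ideal.Quotient.mk (Ideal.span {Φ}) F = 0 ↔ Φ ∣ F := fun F => by
    rw [Ideal.Quotient.eq_zero_iff_mem, Ideal.mem_span_singleton]
  obtain ⟨Ω, f, al, n, w, pi, h1, h2⟩ := gen_aux α g1 g2 c (ℂ[X][X] ⧸ Ideal.span {Φ})
    (Ideal.Quotient.mk (Ideal.span {Φ})) (fun j h0 => by
      have h1 := (hk _).1 h0
      have h2 : (C (C (g1 j) + X * C (g2 j)) : ℂ[X][X]) ≠ 0 := fun h3 =>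
        gen_lin_ne h j ((map_eq_zero_iff _ C_injective).1 h3)
      have h3 := natDegree_le_of_dvd h1 h2
      rw [natDegree_C] at h3
      exact hw (Nat.le_zero.1 h3))
  exact ⟨Ω, f, al, n, w, pi, h1, fun F => (h2 F).trans (hk F)⟩

end Vale.Agent.P018.QB
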