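import Mathlib
import Vale.Agent.P018.Q.BDefs

/-! # P018, (B): from a relation between the functions `fv` to a polynomial in `(n, w)`.

Proof of `poly_of_relation`.  For a sign vector `s ∈ {±1}^4` one has `fv 1 w (s π) x = s^x fv 1 w π x`.
The product `R = ∏_s ∑_x κ_x s^x fv 1 w π x` is, as a polynomial in `π`, invariant under all sign
changes, so it is a polynomial in the `π_j^2` and `w`; replace `π_j^2` by `c (n - α_j)/γ_j(w)` and
multiply by `(∏ γ_j)^k`: this is `H`, and `evB n w H = (∏ γ_j(w))^k ∏_s F_s`, for every point of the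
model.  At a point with `∑ κ_x fv = 0` the factor `s = 1` vanishes.  At the generic point no factor
vanishes, because the family `s^x fv 1 w π x` is again independent. -/

namespace Vale.Agent.P018.QB

open Polynomial NumberField Vale.Agent.P018.Q

section bideg

variable {R : Type*} [CommRing R]

theorem bn_mono {j m j' m' : ℕ} {P : R[X][X]} (h : BiDeg j m P) (h1 : j ≤ j') (h2 : m ≤ m') :
    BiDeg j' m' P := ⟨h.1.trans h1, fun i => (h.2 i).trans h2⟩

theorem bn_sum {ι : Type*} {j m : ℕ} (s : Finset ι) {P : ι → R[X][X]}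
    (h : ∀ i ∈ s, BiDeg j m (P i)) : BiDeg j m (∑ i ∈ s, P i) := by
  refine ⟨natDegree_sum_le_of_forall_le _ _ fun i hi => (h i hi).1, fun i => ?_⟩
  rw [finsetSum_coeff]
  exact natDegree_sum_le_of_forall_le _ _ fun k hk => (h k hk).2 i

theorem bn_mul {j m j' m' : ℕ} {P Q : R[X][X]} (h : BiDeg j m P) (h' : BiDeg j' m' Q) :
    BiDeg (j + j') (m + m') (P * Q) := by
  refine ⟨natDegree_mul_le.trans (add_le_add h.1 h'.1), fun i => ?_⟩
  rw [coeff_mul]
  exact natDegree_sum_le_of_forall_le _ _ fun k _ =>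
    natDegree_mul_le.trans (add_le_add (h.2 _) (h'.2 _))

theorem bn_one : BiDeg 0 0 (1 : R[X][X]) := by
  refine ⟨by simp, fun i => ?_⟩
  rw [coeff_one]
  split_ifs <;> simp

theorem bn_pow {j m : ℕ} {P : R[X][X]} (h : BiDeg j m P) (n : ℕ) :
    BiDeg (n * j) (n * m) (P ^ n) := by
  induction n with
  | zero => simpa using bn_one
  | succ n ih =>
    rw [pow_succ, Nat.succ_mul, Nat.succ_mul]
    exact bn_mul ih h

theorem bn_prod {ι : Type*} (s : Finset ι) {P : ι → R[X][X]} {j m : ι → ℕ}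
    (h : ∀ i ∈ s, BiDeg (j i) (m i) (P i)) :
    BiDeg (∑ i ∈ s, j i) (∑ i ∈ s, m i) (∏ i ∈ s, P i) := by
  classical
  induction s using Finset.induction_on with
  | empty => simpa using bn_one
  | insert a s ha ih =>
    rw [Finset.sum_insert ha, Finset.sum_insert ha, Finset.prod_insert ha]
    exact bn_mul (h a (Finset.mem_insert_self _ _))
      (ih fun i hi => h i (Finset.mem_insert_of_mem hi))

theorem bn_C {m : ℕ} {A : R[X]} (h : A.natDegree ≤ m) : BiDeg 0 m (C A) := by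
  refine ⟨by simp, fun i => ?_⟩
  rw [coeff_C]
  split_ifs
  · exact h
  · simp

theorem bn_lin (a b : R) : BiDeg 1 0 (C (C a) * (X - C (C b)) : R[X][X]) := by
  have h : (C (C a) * (X - C (C b)) : R[X][X]) = C (C a) * X + C (C (-(a * b))) := by
    simp only [C_neg, C_mul]
    ring
  rw [h]
  have hX : BiDeg 1 0 (X : R[X][X]) := by
    refine ⟨natDegree_X_le, fun i => ?_⟩
    rw [coeff_X]
    split_ifs <;> simp
  have h1 : BiDeg 1 0 (C (C a) * X : R[X][X]) := by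
    have := bn_mul (bn_C (natDegree_C a).le) hX
    simpa using this
  have h2 : BiDeg 1 0 (C (C (-(a * b))) : R[X][X]) :=
    bn_mono (bn_C (natDegree_C _).le) (Nat.zero_le _) le_rfl
  refine ⟨natDegree_add_le_of_degree_le h1.1 h2.1, fun i => ?_⟩
  rw [coeff_add]
  exact natDegree_add_le_of_degree_le (h1.2 i) (h2.2 i)

end bideg

section mv

/-- bounded total degree and bounded degree of the coefficients. -/
def BnBd (a b : ℕ) (P : MvPolynomial (Fin 4) ℂ[X]) : Prop :=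
  P.totalDegree ≤ a ∧ ∀ m, (P.coeff m).natDegree ≤ b

theorem BnBd.mono {a b a' b' : ℕ} {P : MvPolynomial (Fin 4) ℂ[X]} (h : BnBd a b P) (h1 : a ≤ a')
    (h2 : b ≤ b') : BnBd a' b' P := ⟨h.1.trans h1, fun i => (h.2 i).trans h2⟩

theorem BnBd.sum {ι : Type*} {a b : ℕ} (s : Finset ι) {P : ι → MvPolynomial (Fin 4) ℂ[X]}
    (h : ∀ i ∈ s, BnBd a b (P i)) : BnBd a b (∑ i ∈ s, P i) := by
  refine ⟨MvPolynomial.totalDegree_finsetSum_le fun i hi => (h i hi).1, fun m => ?_⟩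
  rw [MvPolynomial.coeff_sum]
  exact natDegree_sum_le_of_forall_le _ _ fun k hk => (h k hk).2 m

theorem BnBd.mul {a b a' b' : ℕ} {P Q : MvPolynomial (Fin 4) ℂ[X]} (h : BnBd a b P)
    (h' : BnBd a' b' Q) : BnBd (a + a') (b + b') (P * Q) := by
  refine ⟨(MvPolynomial.totalDegree_mul _ _).trans (add_le_add h.1 h'.1), fun m => ?_⟩
  rw [MvPolynomial.coeff_mul]
  exact natDegree_sum_le_of_forall_le _ _ fun k _ =>
    natDegree_mul_le.trans (add_le_add (h.2 _) (h'.2 _))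

theorem BnBd.const {b : ℕ} {A : ℂ[X]} (h : A.natDegree ≤ b) : BnBd 0 b (MvPolynomial.C A) := by
  refine ⟨by simp, fun m => ?_⟩
  rw [MvPolynomial.coeff_C]
  split_ifs
  · exact h
  · simp

theorem BnBd.one : BnBd 0 0 1 := by
  have := BnBd.const (A := (1 : ℂ[X])) (b := 0) (by simp)
  simpa using this

theorem BnBd.prod {ι : Type*} (s : Finset ι) {P : ι → MvPolynomial (Fin 4) ℂ[X]} {a b : ι → ℕ}
    (h : ∀ i ∈ s, BnBd (a i) (b i) (P i)) :
    BnBd (∑ i ∈ s, a i) (∑ i ∈ s, b i) (∏ i ∈ s, P i) := by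
  classical
  induction s using Finset.induction_on with
  | empty => simpa using BnBd.one
  | insert a s ha ih =>
    rw [Finset.sum_insert ha, Finset.sum_insert ha, Finset.prod_insert ha]
    exact (h a (Finset.mem_insert_self _ _)).mul
      (ih fun i hi => h i (Finset.mem_insert_of_mem hi))

theorem BnBd.pow {a b : ℕ} {P : MvPolynomial (Fin 4) ℂ[X]} (h : BnBd a b P) (n : ℕ) :
    BnBd (n * a) (n * b) (P ^ n) := by
  induction n with
  | zero => simpa using BnBd.one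
  | succ n ih =>
    rw [pow_succ, Nat.succ_mul, Nat.succ_mul]
    exact ih.mul h

theorem BnBd.X (j : Fin 4) : BnBd 1 0 (MvPolynomial.X j) := by
  refine ⟨(MvPolynomial.totalDegree_X j).le, fun m => ?_⟩
  rw [MvPolynomial.coeff_X]
  split_ifs <;> simp

theorem bn_mon {A : Type*} [CommRing A] (t : Fin 4 → A) (u : Fin 4 →₀ ℕ) (a : A) :
    MvPolynomial.aeval (fun j => (MvPolynomial.C (t j) * MvPolynomial.X j : MvPolynomial (Fin 4) A))
        (MvPolynomial.monomial u a) = MvPolynomial.C (∏ j, t j ^ u j) * MvPolynomial.monomial u a := by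
  have h2 : (MvPolynomial.monomial u a : MvPolynomial (Fin 4) A) =
      MvPolynomial.C a * ∏ j, MvPolynomial.X j ^ u j := by
    rw [MvPolynomial.monomial_eq, Finsupp.prod_fintype]
    intro i
    exact pow_zero _
  rw [h2, map_mul, map_prod, map_prod]
  have h3 : ∀ j, MvPolynomial.aeval
      (fun j => (MvPolynomial.C (t j) * MvPolynomial.X j : MvPolynomial (Fin 4) A))
      ((MvPolynomial.X j : MvPolynomial (Fin 4) A) ^ u j) =
      MvPolynomial.C (t j ^ u j) * MvPolynomial.X j ^ u j := by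
    intro j
    rw [map_pow, MvPolynomial.aeval_X, mul_pow, map_pow]
  have h4 : MvPolynomial.aeval
      (fun j => (MvPolynomial.C (t j) * MvPolynomial.X j : MvPolynomial (Fin 4) A))
      (MvPolynomial.C a : MvPolynomial (Fin 4) A) = MvPolynomial.C a := by
    rw [MvPolynomial.aeval_C]
    rfl
  rw [h4, Finset.prod_congr rfl fun j _ => h3 j, Finset.prod_mul_distrib]
  ring

/-- effect of a rescaling of the variables on the coefficients. -/
theorem bn_coeff {A : Type*} [CommRing A] (t : Fin 4 → A) (P : MvPolynomial (Fin 4) A)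
    (m : Fin 4 →₀ ℕ) :
    MvPolynomial.coeff m
      (MvPolynomial.aeval
        (fun j => (MvPolynomial.C (t j) * MvPolynomial.X j : MvPolynomial (Fin 4) A)) P) =
      (∏ j, t j ^ m j) * MvPolynomial.coeff m P := by
  induction P using MvPolynomial.induction_on' with
  | monomial u a =>
    rw [bn_mon, MvPolynomial.coeff_C_mul, MvPolynomial.coeff_monomial]
    split_ifs with h
    · rw [h]
    · simp
  | add p q hp hq =>
    rw [map_add, MvPolynomial.coeff_add, MvPolynomial.coeff_add, hp, hq]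
    ring

/-- the relation, twisted by a sign vector. -/
noncomputable def bnP (B : Finset Ix) (κ : Ix → ℂ) (s : Fin 4 → ℤˣ) :
    MvPolynomial (Fin 4) ℂ[X] :=
  ∑ x ∈ B, MvPolynomial.C (C (κ x) * X ^ x.1.2) *
    ∏ j, (MvPolynomial.C (((s j : ℤ) : ℂ[X])) * MvPolynomial.X j) ^ x.2 j

/-- a bound for the degrees. -/
def bnM (B : Finset Ix) : ℕ := ∑ x ∈ B, (x.1.2 + ∑ j, x.2 j)

theorem bnP_bd (B : Finset Ix) (κ : Ix → ℂ) (s : Fin 4 → ℤˣ) :
    BnBd (bnM B) (bnM B) (bnP B κ s) := by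
  refine BnBd.sum B fun x hx => ?_
  have hM : x.1.2 + ∑ j, x.2 j ≤ bnM B :=
    Finset.single_le_sum (f := fun x : Ix => x.1.2 + ∑ j, x.2 j) (fun _ _ => Nat.zero_le _) hx
  have h1 : BnBd 0 x.1.2 (MvPolynomial.C (C (κ x) * X ^ x.1.2) : MvPolynomial (Fin 4) ℂ[X]) :=
    BnBd.const (natDegree_C_mul_X_pow_le _ _)
  have h2 : BnBd (∑ j, x.2 j * 1) (∑ j, x.2 j * 0)
      (∏ j, (MvPolynomial.C (((s j : ℤ) : ℂ[X])) * MvPolynomial.X j) ^ x.2 j) := by
    refine BnBd.prod _ fun j _ => ?_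
    refine BnBd.pow ?_ _
    have h3 : BnBd 0 0 (MvPolynomial.C (((s j : ℤ) : ℂ[X]))) :=
      BnBd.const (natDegree_intCast _).le
    simpa using h3.mul (BnBd.X j)
  refine (h1.mul h2).mono ?_ ?_
  · simp only [mul_one, zero_add]
    omega
  · simp only [mul_zero, Finset.sum_const_zero, add_zero]
    omega

/-- the norm. -/
noncomputable def bnR (B : Finset Ix) (κ : Ix → ℂ) : MvPolynomial (Fin 4) ℂ[X] :=
  ∏ s : Fin 4 → ℤˣ, bnP B κ s

/-- a bound for the degrees of the norm. -/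
def bnK (B : Finset Ix) : ℕ := Fintype.card (Fin 4 → ℤˣ) * bnM B

theorem bnR_bd (B : Finset Ix) (κ : Ix → ℂ) : BnBd (bnK B) (bnK B) (bnR B κ) := by
  have h := BnBd.prod (Finset.univ : Finset (Fin 4 → ℤˣ)) (P := bnP B κ)
    (a := fun _ => bnM B) (b := fun _ => bnM B) (fun s _ => bnP_bd B κ s)
  rw [Finset.sum_const, smul_eq_mul, Finset.card_univ] at h
  exact h

theorem bnP_aux {A ι : Type*} [CommRing A] (B : Finset ι) (c : ι → A) (e : ι → Fin 4 → ℕ)
    (s t : Fin 4 → A) :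
    MvPolynomial.aeval
      (fun j => (MvPolynomial.C (t j) * MvPolynomial.X j : MvPolynomial (Fin 4) A))
      (∑ x ∈ B, MvPolynomial.C (c x) *
        ∏ j, (MvPolynomial.C (s j) * MvPolynomial.X j) ^ e x j) =
      ∑ x ∈ B, MvPolynomial.C (c x) *
        ∏ j, (MvPolynomial.C (s j * t j) * MvPolynomial.X j) ^ e x j := by
  rw [map_sum]
  refine Finset.sum_congr rfl fun x _ => ?_
  rw [map_mul, map_prod]
  have h4 : ∀ a : A, MvPolynomial.aeval
      (fun j => (MvPolynomial.C (t j) * MvPolynomial.X j : MvPolynomial (Fin 4) A))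
      (MvPolynomial.C a : MvPolynomial (Fin 4) A) = MvPolynomial.C a := by
    intro a
    rw [MvPolynomial.aeval_C]
    rfl
  rw [h4]
  congr 1
  refine Finset.prod_congr rfl fun j _ => ?_
  rw [map_pow, map_mul, MvPolynomial.aeval_X, h4, ← mul_assoc, MvPolynomial.C_mul]

theorem bnP_cast (s t : Fin 4 → ℤˣ) (j : Fin 4) :
    (((s * t) j : ℤ) : ℂ[X]) = ((s j : ℤ) : ℂ[X]) * ((t j : ℤ) : ℂ[X]) := by
  rw [Pi.mul_apply, Units.val_mul, Int.cast_mul]

theorem bnP_aeval (B : Finset Ix) (κ : Ix → ℂ) (s t : Fin 4 → ℤˣ) :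
    MvPolynomial.aeval
      (fun j => (MvPolynomial.C (((t j : ℤ) : ℂ[X])) * MvPolynomial.X j :
        MvPolynomial (Fin 4) ℂ[X]))
      (bnP B κ s) = bnP B κ (s * t) := by
  refine (bnP_aux B (fun x => C (κ x) * X ^ x.1.2) (fun x => x.2)
    (fun j => ((s j : ℤ) : ℂ[X])) (fun j => ((t j : ℤ) : ℂ[X]))).trans ?_
  refine Finset.sum_congr rfl fun x _ => ?_
  refine congrArg (fun z => MvPolynomial.C (C (κ x) * X ^ x.1.2) * z) ?_
  refine Finset.prod_congr rfl fun j _ => ?_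
  refine congrArg (fun z => (MvPolynomial.C z * MvPolynomial.X j) ^ x.2 j) ?_
  exact (bnP_cast s t j).symm

theorem bnR_aeval (B : Finset Ix) (κ : Ix → ℂ) (t : Fin 4 → ℤˣ) :
    MvPolynomial.aeval
      (fun j => (MvPolynomial.C (((t j : ℤ) : ℂ[X])) * MvPolynomial.X j :
        MvPolynomial (Fin 4) ℂ[X]))
      (bnR B κ) = bnR B κ := by
  unfold bnR
  rw [map_prod]
  simp_rw [bnP_aeval]
  exact Fintype.prod_equiv (Equiv.mulRight t) _ _ fun s => rfl

theorem bnR_even (B : Finset Ix) (κ : Ix → ℂ) (m : Fin 4 →₀ ℕ) (hm : m ∈ (bnR B κ).support)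
    (j : Fin 4) : Even (m j) := by
  by_contra hodd
  rw [Nat.not_even_iff_odd] at hodd
  let t : Fin 4 → ℤˣ := Function.update 1 j (-1)
  have h1 := bn_coeff (fun j => (((t j : ℤ) : ℂ[X]))) (bnR B κ) m
  rw [bnR_aeval] at h1
  have h2 : ∏ i, (((t i : ℤ) : ℂ[X])) ^ m i = -1 := by
    rw [Finset.prod_eq_single j]
    · simp [t, hodd.neg_one_pow]
    · intro i _ hij
      simp [t, hij]
    · intro h
      exact absurd (Finset.mem_univ j) h
  rw [h2] at h1
  have h3 : (2 : ℂ[X]) * MvPolynomial.coeff m (bnR B κ) = 0 := by linear_combination h1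
  have h4 := (mul_eq_zero.1 h3).resolve_left two_ne_zero
  exact (MvPolynomial.mem_support_iff.1 hm) h4

/-- the polynomial in `(n, w)`. -/
noncomputable def bnH (α g1 g2 : Fin 4 → ℂ) (c : ℂ) (k : ℕ) (R : MvPolynomial (Fin 4) ℂ[X]) :
    ℂ[X][X] :=
  ∑ m ∈ R.support, C (R.coeff m) * ∏ j, (C (C (g1 j) + X * C (g2 j)) ^ (k - m j / 2) *
    (C (C c) * (X - C (C (α j)))) ^ (m j / 2))

theorem bnH_bd (α g1 g2 : Fin 4 → ℂ) (c : ℂ) (k : ℕ) (R : MvPolynomial (Fin 4) ℂ[X])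
    (hR : BnBd k k R) : BiDeg (5 * k) (5 * k) (bnH α g1 g2 c k R) := by
  refine bn_sum _ fun m hm => ?_
  have hdeg : ∑ j, m j ≤ k := by
    have := (MvPolynomial.le_totalDegree hm).trans hR.1
    rwa [Finsupp.sum_fintype _ _ (fun _ => rfl)] at this
  have h1 : BiDeg 0 k (C (R.coeff m)) := bn_C (hR.2 m)
  have h2 := bn_prod (Finset.univ : Finset (Fin 4))
    (P := fun j => (C (C (g1 j) + X * C (g2 j)) ^ (k - m j / 2) *
      (C (C c) * (X - C (C (α j)))) ^ (m j / 2) : ℂ[X][X]))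
    (j := fun j => (k - m j / 2) * 0 + m j / 2 * 1)
    (m := fun j => (k - m j / 2) * 1 + m j / 2 * 0) (fun j _ => by
      refine bn_mul (bn_pow (bn_C ?_) _) (bn_pow (bn_lin _ _) _)
      refine natDegree_add_le_of_degree_le (by simp) ?_
      refine natDegree_mul_le.trans ?_
      simp)
  refine bn_mono (bn_mul h1 h2) ?_ ?_
  · have : ∑ j, ((k - m j / 2) * 0 + m j / 2 * 1) ≤ ∑ j, m j :=
      Finset.sum_le_sum fun j _ => by omega
    omega
  · have : ∑ j, ((k - m j / 2) * 1 + m j / 2 * 0) ≤ ∑ _j : Fin 4, k :=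
      Finset.sum_le_sum fun j _ => by omega
    rw [Finset.sum_const, Finset.card_univ, Fintype.card_fin, smul_eq_mul] at this
    omega

theorem bnH_ev (α g1 g2 : Fin 4 → ℂ) (c : ℂ) (k : ℕ) (R : MvPolynomial (Fin 4) ℂ[X])
    (hR : BnBd k k R) (hev : ∀ m ∈ R.support, ∀ j, Even (m j)) (Ω : Type) [Field Ω]
    [Algebra ℂ Ω] (n w : Ω) (pi : Fin 4 → Ω) (hM : Mdl α g1 g2 c Ω n w pi) :
    evB n w (bnH α g1 g2 c k R) =
      (∏ j, (algebraMap ℂ Ω (g1 j) + w * algebraMap ℂ Ω (g2 j)) ^ k) *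
        MvPolynomial.eval₂ (aeval w : ℂ[X] →ₐ[ℂ] Ω).toRingHom pi R := by
  have hring : ∀ F : ℂ[X][X], evB n w F =
      eval₂RingHom (aeval w : ℂ[X] →ₐ[ℂ] Ω).toRingHom n F := fun F => rfl
  have hC : ∀ a : ℂ[X], eval₂RingHom (aeval w : ℂ[X] →ₐ[ℂ] Ω).toRingHom n (C a) = aeval w a := by
    intro a
    simp
  rw [hring, bnH, map_sum, MvPolynomial.eval₂_eq', Finset.mul_sum]
  refine Finset.sum_congr rfl fun m hm => ?_
  have hdeg : ∑ j, m j ≤ k := by
    have := (MvPolynomial.le_totalDegree hm).trans hR.1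
    rwa [Finsupp.sum_fintype _ _ (fun _ => rfl)] at this
  rw [map_mul, hC, map_prod]
  have hfac : ∀ j, eval₂RingHom (aeval w : ℂ[X] →ₐ[ℂ] Ω).toRingHom n
      (C (C (g1 j) + X * C (g2 j)) ^ (k - m j / 2) *
        (C (C c) * (X - C (C (α j)))) ^ (m j / 2)) =
      (algebraMap ℂ Ω (g1 j) + w * algebraMap ℂ Ω (g2 j)) ^ k * pi j ^ m j := by
    intro j
    have hjk : m j ≤ k := (Finset.single_le_sum (f := fun j => m j) (fun _ _ => Nat.zero_le _)
      (Finset.mem_univ j)).trans hdeg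
    obtain ⟨f, hf⟩ := hev m hm j
    have hf2 : m j / 2 = f := by omega
    have hf3 : m j = 2 * f := by omega
    have h1 : eval₂RingHom (aeval w : ℂ[X] →ₐ[ℂ] Ω).toRingHom n (C (C (g1 j) + X * C (g2 j))) =
        algebraMap ℂ Ω (g1 j) + w * algebraMap ℂ Ω (g2 j) := by
      rw [hC]
      simp only [map_add, map_mul, aeval_C, aeval_X]
    have h2 : eval₂RingHom (aeval w : ℂ[X] →ₐ[ℂ] Ω).toRingHom n
        (C (C c) * (X - C (C (α j)))) =
        algebraMap ℂ Ω c * (n - algebraMap ℂ Ω (α j)) := by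
      rw [map_mul, map_sub, hC, hC]
      simp
    rw [map_mul, map_pow, map_pow, h1, h2, ← hM.eq j, hf2, mul_pow]
    have hk : k = (k - f) + f := by omega
    rw [show pi j ^ m j = (pi j ^ 2) ^ f by rw [hf3, pow_mul]]
    calc (algebraMap ℂ Ω (g1 j) + w * algebraMap ℂ Ω (g2 j)) ^ (k - f) *
          ((pi j ^ 2) ^ f * (algebraMap ℂ Ω (g1 j) + w * algebraMap ℂ Ω (g2 j)) ^ f)
        = (algebraMap ℂ Ω (g1 j) + w * algebraMap ℂ Ω (g2 j)) ^ ((k - f) + f) * (pi j ^ 2) ^ f := by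
          rw [pow_add]; ring
      _ = _ := by rw [← hk]
  rw [Finset.prod_congr rfl fun j _ => hfac j, Finset.prod_mul_distrib]
  show aeval w (R.coeff m) * _ = _ * (aeval w (R.coeff m) * _)
  ring

theorem bnP_ev (B : Finset Ix) (κ : Ix → ℂ) (s : Fin 4 → ℤˣ) (Ω : Type) [Field Ω]
    [Algebra ℂ Ω] (w : Ω) (pi : Fin 4 → Ω) :
    MvPolynomial.eval₂ (aeval w : ℂ[X] →ₐ[ℂ] Ω).toRingHom pi (bnP B κ s) =
      ∑ x ∈ B, (κ x * ∏ j, ((s j : ℤ) : ℂ) ^ x.2 j) • fv 1 w pi x := by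
  unfold bnP
  rw [← MvPolynomial.coe_eval₂Hom, map_sum]
  refine Finset.sum_congr rfl fun x _ => ?_
  rw [map_mul, map_prod, MvPolynomial.coe_eval₂Hom, MvPolynomial.eval₂_C, Algebra.smul_def]
  have h1 : (aeval w : ℂ[X] →ₐ[ℂ] Ω).toRingHom (C (κ x) * X ^ x.1.2) =
      algebraMap ℂ Ω (κ x) * w ^ x.1.2 := by
    show aeval w (C (κ x) * X ^ x.1.2) = _
    simp
  have h2 : ∀ j, MvPolynomial.eval₂ (aeval w : ℂ[X] →ₐ[ℂ] Ω).toRingHom pi
      ((MvPolynomial.C (((s j : ℤ) : ℂ[X])) * MvPolynomial.X j) ^ x.2 j) =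
      algebraMap ℂ Ω (((s j : ℤ) : ℂ) ^ x.2 j) * pi j ^ x.2 j := by
    intro j
    rw [← MvPolynomial.coe_eval₂Hom, map_pow, map_mul, MvPolynomial.coe_eval₂Hom,
      MvPolynomial.eval₂_C, MvPolynomial.eval₂_X, mul_pow]
    have : (aeval w : ℂ[X] →ₐ[ℂ] Ω).toRingHom (((s j : ℤ) : ℂ[X])) =
        algebraMap ℂ Ω ((s j : ℤ) : ℂ) := by
      rw [map_intCast, map_intCast]
    rw [this, map_pow]
  rw [h1, Finset.prod_congr rfl fun j _ => h2 j, Finset.prod_mul_distrib, map_mul, map_prod]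
  unfold fv
  rw [one_pow, one_mul]
  ring

end mv

theorem poly_of_relation (B : Finset Ix) :
    ∃ D : ℕ, ∀ (α g1 g2 : Fin 4 → ℂ) (c : ℂ), Lat α g1 g2 c → ∀ κ : Ix → ℂ,
      (∃ x ∈ B, κ x ≠ 0) →
      ∃ H : ℂ[X][X], BiDeg D D H ∧
        (∀ (n w : ℂ) (pi : Fin 4 → ℂ), Mdl α g1 g2 c ℂ n w pi →
          ∑ x ∈ B, κ x * fv 1 w pi x = 0 → evB n w H = 0) ∧
        (∀ (Ω : Type) [Field Ω] [Algebra ℂ Ω] (n w : Ω) (pi : Fin 4 → Ω),
          Mdl α g1 g2 c Ω n w pi → (LinearIndependent ℂ fun x : B => fv 1 w pi (x : Ix)) →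
          evB n w H ≠ 0) := by
  refine ⟨5 * bnK B, fun α g1 g2 c _ κ hκ => ⟨bnH α g1 g2 c (bnK B) (bnR B κ),
    bnH_bd _ _ _ _ _ _ (bnR_bd B κ), ?_, ?_⟩⟩
  · intro n w pi hM hrel
    rw [bnH_ev α g1 g2 c _ _ (bnR_bd B κ) (fun m hm j => bnR_even B κ m hm j) ℂ n w pi hM]
    have h0 : MvPolynomial.eval₂ (aeval w : ℂ[X] →ₐ[ℂ] ℂ).toRingHom pi (bnR B κ) = 0 := by
      unfold bnR
      rw [← MvPolynomial.coe_eval₂Hom, map_prod]
      refine Finset.prod_eq_zero (Finset.mem_univ 1) ?_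
      rw [MvPolynomial.coe_eval₂Hom, bnP_ev, ← hrel]
      refine Finset.sum_congr rfl fun x _ => ?_
      simp
    rw [h0, mul_zero]
  · intro Ω _ _ n w pi hM hind
    rw [bnH_ev α g1 g2 c _ _ (bnR_bd B κ) (fun m hm j => bnR_even B κ m hm j) Ω n w pi hM]
    refine mul_ne_zero (Finset.prod_ne_zero_iff.2 fun j _ => pow_ne_zero _ (hM.ne j)) ?_
    unfold bnR
    rw [← MvPolynomial.coe_eval₂Hom, map_prod]
    refine Finset.prod_ne_zero_iff.2 fun s _ => ?_
    rw [MvPolynomial.coe_eval₂Hom, bnP_ev]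
    intro h0
    obtain ⟨x0, hx0, hκ0⟩ := hκ
    rw [← Finset.sum_coe_sort B
      (fun x => (κ x * ∏ j, ((s j : ℤ) : ℂ) ^ x.2 j) • fv 1 w pi x)] at h0
    have h1 := Fintype.linearIndependent_iff.1 hind
      (fun x : B => κ x * ∏ j, ((s j : ℤ) : ℂ) ^ (x : Ix).2 j) h0 ⟨x0, hx0⟩
    have h2 : (∏ j, ((s j : ℤ) : ℂ) ^ x0.2 j) ≠ 0 :=
      Finset.prod_ne_zero_iff.2 fun j _ => pow_ne_zero _ (by
        rcases Int.units_eq_one_or (s j) with h | h <;> rw [h] <;> simp)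
    exact (mul_ne_zero hκ0 h2) h1

/-- homogeneity. -/
theorem fv_scale (W : ℤ) (B : Finset Ix)
    (hW : ∀ x ∈ B, 2 * ((x.1.1 : ℤ) + x.1.2) - ∑ j, (x.2 j : ℤ) = W) (κ : Ix → ℂ)
    (u1 u2 r : ℂ) (hu : u1 ≠ 0) (hr : r ^ 2 = u1) (pi : Fin 4 → ℂ) :
    ∑ x ∈ B, κ x * fv 1 (u2 / u1) (fun k => r * pi k) x =
      r ^ (-W) * ∑ x ∈ B, κ x * fv u1 u2 pi x := by
  have hr0 : r ≠ 0 := by
    intro h
    rw [h] at hr
    exact hu (by rw [← hr]; ring)
  rw [Finset.mul_sum]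
  refine Finset.sum_congr rfl fun x hx => ?_
  have hWx := hW x hx
  unfold fv
  rw [one_pow, one_mul, div_pow]
  simp_rw [mul_pow]
  rw [Finset.prod_mul_distrib, Finset.prod_pow_eq_pow_sum]
  have hs : (∑ j, (x.2 j : ℤ)) = ((∑ j, x.2 j : ℕ) : ℤ) := by push_cast; rfl
  rw [hs] at hWx
  have key : r ^ (∑ j, x.2 j) = r ^ (-W) * u1 ^ x.1.1 * u1 ^ x.1.2 := by
    rw [← hr, ← pow_mul, ← pow_mul, ← zpow_natCast, ← zpow_natCast, ← zpow_natCast,
      ← zpow_add₀ hr0, ← zpow_add₀ hr0]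
    congr 1
    push_cast at hWx ⊢
    linarith
  rw [key]
  have hu2 : u1 ^ x.1.2 ≠ 0 := pow_ne_zero _ hu
  field_simp

/-- the dehomogenised point of a solution. -/
theorem mdl_of_data (α g1 g2 : Fin 4 → ℂ) (c : ℂ) (n u1 u2 r : ℂ) (pi : Fin 4 → ℂ) (hu : u1 ≠ 0)
    (hr : r ^ 2 = u1) (h1 : ∀ j, u1 * g1 j + u2 * g2 j ≠ 0)
    (h2 : ∀ j, pi j ^ 2 * (u1 * g1 j + u2 * g2 j) = c * (n - α j)) :
    Mdl α g1 g2 c ℂ n (u2 / u1) (fun k => r * pi k) := by
  refine ⟨fun j => ?_, fun j => ?_⟩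
  · intro h
    apply h1 j
    simp only [Algebra.algebraMap_self, RingHom.id_apply] at h
    have : u1 * g1 j + u2 * g2 j = u1 * (g1 j + u2 / u1 * g2 j) := by field_simp
    rw [this, h, mul_zero]
  · simp only [Algebra.algebraMap_self, RingHom.id_apply]
    rw [← h2 j, mul_pow, hr]
    field_simp

end Vale.Agent.P018.QB
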