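import Mathlib
import Vale.Agent.P018.Q.BDefs
import Vale.Agent.P018.Q.BBez
import Vale.Agent.P018.Q.BNorm
import Vale.Agent.P018.Q.BGen
import Vale.Agent.P018.Q.BCFam
import Vale.Agent.P018.Q.BCClass
import Vale.Agent.P018.Q.BCNum

/-! # P018, (B), curve step: boundedly many solutions in one class. -/

namespace Vale.Agent.P018.QB

open Polynomial NumberField Vale.Agent.P018.Q

/-- an independent set of monomials with as many elements as the rank. -/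
theorem exists_basis_finset {Ω : Type} [Field Ω] [Algebra ℂ Ω] (w : Ω) (pi : Fin 4 → Ω)
    (M : Finset Ix) :
    ∃ B ⊆ M, B.card = Module.finrank ℂ (spn w pi (M : Set Ix)) ∧
      LinearIndependent ℂ (fun x : B => fv 1 w pi (x : Ix)) := by
  classical
  have hfin : ((fun x => fv 1 w pi x) '' (M : Set Ix)).Finite := M.finite_toSet.image _
  have : Module.Finite ℂ (Submodule.span ℂ ((fun x => fv 1 w pi x) '' (M : Set Ix))) :=
    Module.Finite.span_of_finite ℂ hfin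
  obtain ⟨f, hf, -, hli⟩ := Submodule.exists_fun_fin_finrank_span_eq ℂ
    ((fun x => fv 1 w pi x) '' (M : Set Ix))
  choose x hx hxf using hf
  simp only at hxf
  have hinj : Function.Injective x := by
    intro a b hab
    exact hli.injective (by rw [← hxf a, ← hxf b, hab])
  refine ⟨Finset.univ.image x, ?_, ?_, ?_⟩
  · intro z hz
    obtain ⟨k, -, rfl⟩ := Finset.mem_image.mp hz
    exact hx k
  · rw [Finset.card_image_of_injective _ hinj, Finset.card_univ, Fintype.card_fin]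
    rfl
  · let e : Fin (Module.finrank ℂ (Submodule.span ℂ ((fun x => fv 1 w pi x) '' (M : Set Ix)))) ≃
        (Finset.univ.image x : Finset Ix) :=
      Equiv.ofBijective (fun k => ⟨x k, Finset.mem_image_of_mem _ (Finset.mem_univ k)⟩)
        ⟨fun a b hab => hinj (congrArg Subtype.val hab), fun z => by
          obtain ⟨k, -, hk⟩ := Finset.mem_image.mp z.2
          exact ⟨k, Subtype.ext hk⟩⟩
    rw [← linearIndependent_equiv e]
    have : (fun z : (Finset.univ.image x : Finset Ix) => fv 1 w pi (z : Ix)) ∘ e = f := by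
      funext k
      exact hxf k
    rw [this]
    exact hli

theorem fv_pi {S : Finset ℤ} (U1 U2 : S → ℂ) (Y : Fin 4 → S → ℂ) (x : Ix) (N : S) :
    fv U1 U2 Y x N = fv (U1 N) (U2 N) (fun j => Y j N) x := by
  simp [fv, Finset.prod_apply]

/-- many solutions on a curve: the rank of the functions on the set of solutions is at least the
rank on the curve. -/
theorem rank_restrict (D : ℕ) (W : ℤ) (M : Finset Ix)
    (hW : ∀ x ∈ M, 2 * ((x.1.1 : ℤ) + x.1.2) - ∑ j, (x.2 j : ℤ) = W) :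
    ∃ K : ℕ, ∀ (α g1 g2 : Fin 4 → ℂ) (c : ℂ), Lat α g1 g2 c → ∀ Φ : ℂ[X][X], Irreducible Φ →
      BiDeg D D Φ → ∀ (Ω : Type) [Field Ω] [Algebra ℂ Ω] (n w : Ω) (pi : Fin 4 → Ω),
      Mdl α g1 g2 c Ω n w pi → (∀ F, evB n w F = 0 ↔ Φ ∣ F) →
      ∀ (S : Finset ℤ) (u1 u2 : ℤ → ℂ) (pv : Fin 4 → ℤ → ℂ),
      (∀ N ∈ S, u1 N ≠ 0 ∧ (∀ j, u1 N * g1 j + u2 N * g2 j ≠ 0) ∧
        (∀ j, pv j N ^ 2 * (u1 N * g1 j + u2 N * g2 j) = c * (N - α j)) ∧
        evB (N : ℂ) (u2 N / u1 N) Φ = 0) → K < S.card →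
      Module.finrank ℂ (spn w pi (M : Set Ix)) ≤
        Module.finrank ℂ (spA (A := S → ℂ) (fun N => u1 N) (fun N => u2 N)
          (fun j N => pv j N) (M : Set Ix)) := by
  classical
  choose DB hDB using poly_of_relation
  choose CB hCB using bezC
  refine ⟨∑ B ∈ M.powerset, CB (max D (DB B)), ?_⟩
  intro α g1 g2 c hL Φ hirr hbd Ω _ _ n w pi hM hΦ S u1 u2 pv hS hK
  obtain ⟨B, hBM, hcard, hli⟩ := exists_basis_finset w pi M
  have key : LinearIndependent ℂ (fun x : B => (fv (fun N : S => u1 N) (fun N : S => u2 N)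
      (fun j (N : S) => pv j N) (x : Ix) : S → ℂ)) := by
    rw [Fintype.linearIndependent_iff]
    intro g hg
    by_contra hne
    push Not at hne
    obtain ⟨i0, hi0⟩ := hne
    set κ : Ix → ℂ := fun x => if h : x ∈ B then g ⟨x, h⟩ else 0 with hκ
    have hκ0 : ∃ x ∈ B, κ x ≠ 0 := ⟨i0, i0.2, by simp [hκ, hi0]⟩
    obtain ⟨H, hH1, hH2, hH3⟩ := hDB B α g1 g2 c hL κ hκ0
    have hnd : ¬ Φ ∣ H := by
      rw [← hΦ H]
      exact hH3 Ω n w pi hM hli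
    have hz : ∀ N ∈ S, evB (N : ℂ) (u2 N / u1 N) H = 0 := by
      intro N hN
      obtain ⟨h1, h2, h3, -⟩ := hS N hN
      obtain ⟨r, hr⟩ := IsAlgClosed.exists_pow_nat_eq (u1 N) (n := 2) (by norm_num)
      refine hH2 _ _ _ (mdl_of_data α g1 g2 c N (u1 N) (u2 N) r (fun j => pv j N) h1 hr h2 h3) ?_
      rw [fv_scale W B (fun x hx => hW x (hBM hx)) κ (u1 N) (u2 N) r h1 hr]
      have h4 := congrFun hg ⟨N, hN⟩
      rw [Finset.sum_apply, Pi.zero_apply] at h4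
      have h5 : ∑ x ∈ B, κ x * fv (u1 N) (u2 N) (fun j => pv j N) x = 0 := by
        rw [← h4, ← Finset.sum_coe_sort B]
        refine Finset.sum_congr rfl fun x _ => ?_
        rw [Pi.smul_apply, fv_pi, smul_eq_mul]
        simp [hκ]
      rw [h5, mul_zero]
    have h6 := hCB (max D (DB B)) Φ H hirr hnd
      ⟨hbd.1.trans (le_max_left _ _), fun i => (hbd.2 i).trans (le_max_left _ _)⟩
      ⟨hH1.1.trans (le_max_right _ _), fun i => (hH1.2 i).trans (le_max_right _ _)⟩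
      (S.image fun N : ℤ => ((N : ℂ), u2 N / u1 N)) (by
        intro z hz'
        obtain ⟨N, hN, rfl⟩ := Finset.mem_image.mp hz'
        exact ⟨(hS N hN).2.2.2, hz N hN⟩)
    rw [Finset.card_image_of_injective _ (fun a b hab => by
      have h8 : (a : ℂ) = (b : ℂ) := congrArg Prod.fst hab
      exact_mod_cast h8)] at h6
    have h7 : CB (max D (DB B)) ≤ ∑ B ∈ M.powerset, CB (max D (DB B)) :=
      Finset.single_le_sum (f := fun B => CB (max D (DB B))) (fun _ _ => Nat.zero_le _)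
        (Finset.mem_powerset.mpr hBM)
    omega
  have h1 := finrank_span_eq_card key
  rw [Fintype.card_coe, hcard] at h1
  rw [← h1]
  refine Submodule.finrank_mono (Submodule.span_mono ?_)
  rintro _ ⟨x, rfl⟩
  exact ⟨x, hBM x.2, rfl⟩

/-- the functions of a class are congruent to polynomials in the parameter. -/
theorem fv_class (m u1 u2 x lam r0 : ℤ) (i t : ℕ) (y : Fin 4 → ℤ) (Y : Fin 4 → ℤ[X]) (z : Ix)
    (hz : z ∈ mons (i + t) (2 * t)) (hx : m ∣ u1 * x - u2) (hlam : m ∣ lam ^ 2 * u1 - r0)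
    (hy : ∀ j, m ∣ y j - lam * (Y j).eval x) :
    m ∣ lam ^ (2 * i) * fv u1 u2 y z -
      (C (r0 ^ (i + t)) * X ^ z.1.2 * ∏ j, Y j ^ z.2 j : ℤ[X]).eval x := by
  obtain ⟨h1, h2⟩ := mem_mons.mp (Finset.mem_coe.mpr hz)
  have hx' : u2 ≡ u1 * x [ZMOD m] := (Int.modEq_iff_dvd).mpr hx
  have hlam' : r0 ≡ lam ^ 2 * u1 [ZMOD m] := (Int.modEq_iff_dvd).mpr hlam
  have hy' : ∀ j, lam * (Y j).eval x ≡ y j [ZMOD m] := fun j => (Int.modEq_iff_dvd).mpr (hy j)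
  rw [← Int.modEq_iff_dvd]
  simp only [eval_mul, eval_C, eval_pow, eval_X, eval_prod]
  have e1 : fv u1 u2 y z ≡ u1 ^ z.1.1 * (u1 * x) ^ z.1.2 * ∏ j, (lam * (Y j).eval x) ^ z.2 j
      [ZMOD m] := by
    unfold fv
    refine Int.ModEq.mul (Int.ModEq.mul_left _ (hx'.pow _)) ?_
    refine Int.ModEq.prod fun j _ => ?_
    exact ((hy' j).symm).pow _
  have e2 : lam ^ (2 * i) * (u1 ^ z.1.1 * (u1 * x) ^ z.1.2 *
      ∏ j, (lam * (Y j).eval x) ^ z.2 j) =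
      (lam ^ 2 * u1) ^ (i + t) * x ^ z.1.2 * ∏ j, (Y j).eval x ^ z.2 j := by
    have e3 : ∏ j, (lam * (Y j).eval x) ^ z.2 j = lam ^ (2 * t) * ∏ j, (Y j).eval x ^ z.2 j := by
      rw [← h2, ← Finset.prod_pow_eq_pow_sum, ← Finset.prod_mul_distrib]
      exact Finset.prod_congr rfl fun j _ => mul_pow _ _ _
    rw [e3, mul_pow u1 x, ← h1, mul_pow (lam ^ 2) u1]
    have e4 : i + t = z.1.1 + z.1.2 := h1.symm
    have e5 : lam ^ (2 * i) * lam ^ (2 * t) = (lam ^ 2) ^ (z.1.1 + z.1.2) := by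
      rw [← pow_add, ← mul_add, e4, pow_mul]
    calc lam ^ (2 * i) * (u1 ^ z.1.1 * (u1 ^ z.1.2 * x ^ z.1.2) *
          (lam ^ (2 * t) * ∏ j, (Y j).eval x ^ z.2 j)) =
          (lam ^ (2 * i) * lam ^ (2 * t)) * (u1 ^ z.1.1 * u1 ^ z.1.2) * x ^ z.1.2 *
          ∏ j, (Y j).eval x ^ z.2 j := by ring
      _ = _ := by rw [e5, ← pow_add]
  have e6 := (e1.mul_left (lam ^ (2 * i)))
  rw [e2] at e6
  refine Int.ModEq.trans ?_ e6.symm
  exact Int.ModEq.mul_right _ (Int.ModEq.mul_right _ (hlam'.pow _))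

theorem fv_bound {U T' : ℝ} (hU : 0 ≤ U) (u1 u2 : ℤ) (y : Fin 4 → ℤ)
    (h1 : |(u1 : ℝ)| ≤ U) (h2 : |(u2 : ℝ)| ≤ U) (hy : ∀ j, |(y j : ℝ)| ≤ T') (i l : ℕ) (z : Ix)
    (hz : z ∈ mons i l) : |((fv u1 u2 y z : ℤ) : ℝ)| ≤ U ^ i * T' ^ l := by
  obtain ⟨h3, h4⟩ := mem_mons.mp (Finset.mem_coe.mpr hz)
  unfold fv
  push_cast
  rw [abs_mul, abs_mul, abs_pow, abs_pow, Finset.abs_prod, ← h3, ← h4, pow_add,
    ← Finset.prod_pow_eq_pow_sum]
  refine mul_le_mul (mul_le_mul (pow_le_pow_left₀ (abs_nonneg _) h1 _)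
    (pow_le_pow_left₀ (abs_nonneg _) h2 _) (by positivity) (by positivity))
    (Finset.prod_le_prod (fun j _ => abs_nonneg _) fun j _ => ?_)
    (Finset.prod_nonneg fun j _ => abs_nonneg _) (by positivity)
  rw [abs_pow]
  exact pow_le_pow_left₀ (abs_nonneg _) (hy j) _

theorem cf_psi {L : Type} [Field L] [NumberField L] (θ : Fin 4 → 𝓞 L) (φ : L →+* ℂ)
    (y : Fin 4 → ℤ) (j : Fin 4) :
    cf θ φ y j = (φ.comp (algebraMap (𝓞 L) L)) (el (θ j) y) := rfl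

theorem bc_cf_eq {L : Type} [Field L] [NumberField L] (θ : Fin 4 → 𝓞 L) (φ : L →+* ℂ)
    (y : Fin 4 → ℤ) (j : Fin 4) :
    cf θ φ y j = ∑ k : Fin 4, (φ (θ j)) ^ (k : ℕ) * (y k : ℂ) := by
  rw [cf_psi, el_map]
  simp only [el, K.ell]
  refine Finset.sum_congr rfl fun k _ => ?_
  rw [mul_comm]
  rfl

theorem cf_point {L : Type} [Field L] [NumberField L] (θ : Fin 4 → 𝓞 L) (φ : L →+* ℂ)
    (c N u1 u2 : ℤ) (g1 g2 y : Fin 4 → ℤ) (j : Fin 4)
    (h : (c : 𝓞 L) * ((N : 𝓞 L) - θ j) =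
      el (θ j) y ^ 2 * el (θ j) (fun m => u1 * g1 m + u2 * g2 m)) :
    cf θ φ y j ^ 2 * ((u1 : ℂ) * cf θ φ g1 j + (u2 : ℂ) * cf θ φ g2 j) =
      (c : ℂ) * ((N : ℂ) - φ (θ j)) := by
  rw [bc_el_comb] at h
  have h1 := congrArg (φ.comp (algebraMap (𝓞 L) L)) h
  rw [map_mul, map_sub, map_mul, map_pow, map_add, map_mul, map_mul, map_intCast, map_intCast,
    map_intCast, map_intCast, ← cf_psi, ← cf_psi, ← cf_psi] at h1
  exact h1.symm

theorem lat_of {L : Type} [Field L] [NumberField L] (θ : Fin 4 → 𝓞 L) (hinj : Function.Injective θ)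
    (φ : L →+* ℂ) (c : ℤ) (g1 g2 : Fin 4 → ℤ) (hc : c ≠ 0) (hns : NonSpec θ g1 g2) :
    Lat (fun j => φ (θ j)) (cf θ φ g1) (cf θ φ g2) (c : ℂ) := by
  refine ⟨fun i j hij => ?_, by exact_mod_cast hc, fun j k hjk h => ?_⟩
  · exact hinj (RingOfIntegers.coe_injective (φ.injective hij))
  · refine hns j k hjk ?_
    simp only [cf, ← map_mul] at h
    exact RingOfIntegers.coe_injective (φ.injective h)

theorem biDeg_toC {D : ℕ} {Φ : ℤ[X][X]} (h : BiDeg D D Φ) : BiDeg D D (toC Φ) := by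
  refine ⟨natDegree_map_le.trans h.1, fun i => ?_⟩
  unfold toC
  rw [coeff_map]
  exact natDegree_map_le.trans (h.2 i)

theorem natDegree_toC (Φ : ℤ[X][X]) : (toC Φ).natDegree = Φ.natDegree :=
  natDegree_map_eq_of_injective (map_injective _ (Int.castRingHom ℂ).injective_int) Φ

/-- boundedly many solutions in one class. -/
theorem class_bound (D C C0 s : ℕ) (hC0 : 1 ≤ C0) (hs : C0 ≤ s) : ∃ K : ℕ,
    ∀ {L : Type} [Field L] [NumberField L] (θ : Fin 4 → 𝓞 L) (G : ℤ[X]), Root4 θ G →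
    ∀ (X T U : ℝ), 1 ≤ T → 1 ≤ U → ∀ (φ : L →+* ℂ) (c : ℤ) (g1 g2 : Fin 4 → ℤ), c ≠ 0 →
    NonSpec θ g1 g2 → ∀ Φ : ℤ[X][X], Irreducible (toC Φ) → BiDeg D D Φ → Φ.natDegree ≠ 0 →
    (∀ (Ω : Type) [Field Ω] [Algebra ℂ Ω] (n w : Ω) (pi : Fin 4 → Ω),
      Mdl (fun j => φ (θ j)) (cf θ φ g1) (cf θ φ g2) c Ω n w pi →
      (∀ F, evB n w F = 0 ↔ toC Φ ∣ F) → ∀ i t : ℕ, C0 ≤ i → C0 ≤ t →
      2 * i + 6 * t ≤ C0 + Module.finrank ℂ (spn w pi (mons (i + t) (2 * t) : Set Ix))) →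
    ∀ l : ℕ, l.Prime → l ≠ 2 → ¬ (l : ℤ) ∣ c →
    (2 * ((2 * (4 * s) + 5 * C0 + 6 * (3 * s) : ℕ) : ℝ)) ^ (2 * (4 * s) + 5 * C0 + 6 * (3 * s)) *
      ∏ k ∈ Finset.range (2 * (4 * s) + 5 * C0 + 6 * (3 * s)),
        (U ^ (4 * s + levC (4 * s) C0 k) * ((C + 1) * T) ^ (2 * levC (4 * s) C0 k)) ≤
    (l : ℝ) ^ ((2 * (4 * s) + 5 * C0 + 6 * (3 * s)) *
      (2 * (4 * s) + 5 * C0 + 6 * (3 * s) - 1) / 2) →
    ∀ (x0 N0 r0 : ℤ) (y0 : Fin 4 → ℤ), ¬ (l : ℤ) ∣ r0 → ¬ (l : ℤ) ∣ G.eval N0 →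
    ¬ (l : ℤ) ∣ ev2 (derivative Φ) x0 N0 →
    ∀ (S : Finset ℤ) (p : ℤ → ℕ) (y : ℤ → Fin 4 → ℤ) (u1 u2 : ℤ → ℤ),
    (∀ N ∈ S, BDat θ C X T U c g1 g2 N (p N) (y N) (u1 N) (u2 N)) →
    (∀ N ∈ S, evB (N : ℂ) ((u2 N : ℂ) / u1 N) (toC Φ) = 0 ∧ ¬ (l : ℤ) ∣ u1 N ∧
      (l : ℤ) ∣ u2 N - x0 * u1 N ∧ (l : ℤ) ∣ N - N0 ∧
      ∃ κ : ℤ, (l : ℤ) ∣ κ ^ 2 * r0 - u1 N ∧ ∀ m, (l : ℤ) ∣ κ * y N m - y0 m) →
    S.card ≤ K := by
  classical
  set i : ℕ := 4 * s with hi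
  set n : ℕ := 2 * i + 5 * C0 + 6 * (3 * s) with hn
  have hW : ∀ t : ℕ, ∀ x ∈ mons (i + t) (2 * t),
      2 * ((x.1.1 : ℤ) + x.1.2) - ∑ j, (x.2 j : ℤ) = 2 * i := by
    intro t x hx
    obtain ⟨h1, h2⟩ := mem_mons.mp (Finset.mem_coe.mpr hx)
    have h1' : ((x.1.1 : ℤ) + x.1.2) = i + t := by exact_mod_cast h1
    have h2' : ∑ j, (x.2 j : ℤ) = 2 * t := by exact_mod_cast h2
    rw [h1', h2']
    ring
  choose Kt hKt using fun t : ℕ => rank_restrict D (2 * i) (mons (i + t) (2 * t)) (hW t)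
  refine ⟨∑ t ∈ Finset.range (C0 + 3 * s + 1), Kt t, ?_⟩
  intro L _ _ θ G hG X T U hT hU φ c g1 g2 hc hns Φ hirr hbd hnat hrank l hl hl2 hlc hnum x0 N0 r0
    y0 hr0 hGN hΦ0 S p y u1 u2 hB hcl
  by_contra hK
  push Not at hK
  have hKt' : ∀ t ≤ C0 + 3 * s, Kt t < S.card := by
    intro t ht
    refine lt_of_le_of_lt ?_ hK
    exact Finset.single_le_sum (f := Kt) (fun _ _ => Nat.zero_le _)
      (Finset.mem_range.mpr (by omega))
  have hL := lat_of θ hG.inj φ c g1 g2 hc hns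
  obtain ⟨Ω, _, _, gn, gw, gpi, hM, hgen⟩ := generic_curve _ _ _ _ hL (toC Φ) hirr
    (by rw [natDegree_toC]; exact hnat)
  -- the points
  have heq : ∀ N ∈ S, ∀ j, cf θ φ (y N) j ^ 2 *
      ((u1 N : ℂ) * cf θ φ g1 j + (u2 N : ℂ) * cf θ φ g2 j) = (c : ℂ) * ((N : ℂ) - φ (θ j)) :=
    fun N hN j => cf_point θ φ c N (u1 N) (u2 N) g1 g2 (y N) j ((hB N hN).dat.eqn j)
  have hNθ : ∀ N ∈ S, ∀ j, (N : ℂ) - φ (θ j) ≠ 0 := by
    intro N hN j h0
    have h1 : ((N : 𝓞 L)) = θ j := by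
      refine RingOfIntegers.coe_injective (φ.injective ?_)
      rw [← sub_eq_zero, ← h0]
      simp
    have h2 : ((G.eval N : ℤ) : 𝓞 L) = 0 := by
      have h3 := congrArg (fun F : (𝓞 L)[X] => F.eval (N : 𝓞 L)) hG.roots
      simp only [eval_prod, eval_sub, eval_X, eval_C] at h3
      rw [Finset.prod_eq_zero (Finset.mem_univ j) (by rw [h1, sub_self])] at h3
      rw [← h3]
      have h4 : (N : 𝓞 L) = algebraMap ℤ (𝓞 L) N := by simp
      rw [h4, eval_map_apply]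
      simp
    have h5 : G.eval N = 0 := by exact_mod_cast h2
    refine hGN ?_
    have h6 : (l : ℤ) ∣ G.eval N0 - G.eval N := by
      have h7 : (l : ℤ) ∣ N0 - N := by
        have := (hcl N hN).2.2.2.1
        rwa [← dvd_neg, neg_sub] at this
      exact h7.trans (sub_dvd_eval_sub _ _ _)
    rwa [h5, sub_zero] at h6
  have hne : ∀ N ∈ S, ∀ j, (u1 N : ℂ) * cf θ φ g1 j + (u2 N : ℂ) * cf θ φ g2 j ≠ 0 := by
    intro N hN j h0
    have h1 := heq N hN j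
    rw [h0, mul_zero] at h1
    exact mul_ne_zero (by exact_mod_cast hc) (hNθ N hN j) h1.symm
  -- functions on `S`
  set U1 : S → ℂ := fun N => (u1 N : ℂ) with hU1
  set U2 : S → ℂ := fun N => (u2 N : ℂ) with hU2
  set Y : Fin 4 → S → ℂ := fun j N => (y N j : ℂ) with hY
  have hpi : (fun j (N : S) => cf θ φ (y N) j) =
      fun j => ∑ k, ((φ (θ j)) ^ ((k : Fin 4) : ℕ)) • Y k := by
    funext j N
    rw [bc_cf_eq, Finset.sum_apply]
    refine Finset.sum_congr rfl fun k _ => ?_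
    rw [Pi.smul_apply, smul_eq_mul]
  have hrk : ∀ t, C0 ≤ t → t ≤ C0 + 3 * s →
      2 * i + 6 * t ≤ C0 + Module.finrank ℂ (spA U1 U2 Y (mons (i + t) (2 * t))) := by
    intro t h1 h2
    have h3 := hrank Ω gn gw gpi hM hgen i t (by omega) h1
    have h4 := hKt t _ _ _ _ hL (toC Φ) hirr (biDeg_toC hbd) Ω gn gw gpi hM hgen S
      (fun N => (u1 N : ℂ)) (fun N => (u2 N : ℂ)) (fun j N => cf θ φ (y N) j)
      (fun N hN => ⟨by exact_mod_cast (hB N hN).u10, hne N hN, heq N hN, (hcl N hN).1⟩)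
      (hKt' t h2)
    have h5 : Module.finrank ℂ (spA (A := S → ℂ) (fun N : S => (u1 N : ℂ))
        (fun N : S => (u2 N : ℂ)) (fun j (N : S) => cf θ φ (y N) j)
        (mons (i + t) (2 * t) : Set Ix)) ≤
        Module.finrank ℂ (spA U1 U2 Y (mons (i + t) (2 * t))) := by
      refine Submodule.finrank_mono ?_
      rw [hpi]
      exact spA_change U1 U2 Y (fun j k => (φ (θ j)) ^ (k : ℕ)) (i + t) (2 * t)
    omega
  have hconst : algebraMap ℂ (S → ℂ) ((c : ℂ) * (φ (θ 1) - φ (θ 0))) ∈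
      spA U1 U2 Y (mons 1 2) := by
    refine const_mem (fun j => φ (θ j)) (cf θ φ g1) (cf θ φ g2) (c : ℂ) (fun N : S => (N : ℂ))
      U1 U2 Y fun j => ?_
    have h1 := congrFun hpi j
    rw [← h1]
    funext N
    have h2 := heq N N.2 j
    simp only [Pi.mul_apply, Pi.pow_apply, Pi.add_apply, Pi.smul_apply, Pi.sub_apply,
      Pi.algebraMap_apply, smul_eq_mul, Algebra.algebraMap_self, RingHom.id_apply, hU1, hU2]
    rw [mul_comm (cf θ φ g1 j), mul_comm (cf θ φ g2 j)]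
    exact h2
  have hκ : (c : ℂ) * (φ (θ 1) - φ (θ 0)) ≠ 0 := by
    refine mul_ne_zero (by exact_mod_cast hc) (sub_ne_zero.mpr fun h => ?_)
    exact absurd (hL.inj h) (by decide)
  obtain ⟨x, hx, hli⟩ := exists_fam C0 i (3 * s) U1 U2 Y _ hκ hconst hrk
  -- the class
  have hn1 : 1 ≤ n := by omega
  obtain ⟨xp, lam, Yp, hYp⟩ := class_param θ G hG Φ l hl hl2 n hn1 c hlc g1 g2 (S : Set ℤ) y u1 u2
    x0 N0 r0 y0 hr0 hGN hΦ0 (fun N hN => by
      have hN' : N ∈ S := hN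
      obtain ⟨h1, h2, h3, h4, h5⟩ := hcl N hN'
      exact ⟨h2, h3, h4, (hB N hN').dat.eqn, h1, h5⟩)
  have hT0 : (0 : ℝ) ≤ (C + 1) * T := by positivity
  have hT1 : (1 : ℝ) ≤ (C + 1) * T := by
    have : (0 : ℝ) ≤ C := Nat.cast_nonneg _
    nlinarith
  obtain ⟨w, ⟨k0, hk0, hwk0⟩, hw⟩ := siegel_wrap hn1 l hl (S : Set ℤ)
    (fun k N => fv (u1 N) (u2 N) (y N) (x k))
    (fun k => Polynomial.C (r0 ^ (i + levC i C0 k)) * Polynomial.X ^ (x k).1.2 *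
      ∏ j, Yp j ^ (x k).2 j)
    (fun N => lam N ^ (2 * i)) xp x0
    (fun k => U ^ (i + levC i C0 k) * ((C + 1) * T) ^ (2 * levC i C0 k))
    (fun k _ => one_le_mul_of_one_le_of_one_le (one_le_pow₀ hU) (one_le_pow₀ hT1))
    (fun N hN h => (hYp N hN).2.2.1 ((Nat.prime_iff_prime_int.mp hl).dvd_of_dvd_pow h))
    (fun N hN => (hYp N hN).1)
    (fun N hN k hk => fv_class _ (u1 N) (u2 N) (xp N) (lam N) r0 i (levC i C0 k) (y N) Yp (x k)
      (hx k hk) (hYp N hN).2.1 (hYp N hN).2.2.2.1 (hYp N hN).2.2.2.2)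
    (fun N hN k hk => by
      have hb := hB N hN
      refine fv_bound (by linarith) (u1 N) (u2 N) (y N) hb.hu1 hb.hu2 (fun j => ?_) _ _ _
        (hx k hk)
      exact (hb.dat.hy j).trans (by nlinarith))
    hnum
  rw [Fintype.linearIndependent_iff] at hli
  have h1 := hli (fun k => (w k : ℂ)) (by
    funext N
    have h2 := hw N N.2
    have h3 : ((∑ k ∈ Finset.range n, w k * fv (u1 N) (u2 N) (y N) (x k) : ℤ) : ℂ) = 0 := by
      rw [h2]
      simp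
    rw [Finset.sum_apply, Pi.zero_apply, ← h3, Finset.sum_range]
    push_cast
    refine Finset.sum_congr rfl fun k _ => ?_
    rw [Pi.smul_apply, fv_pi, smul_eq_mul]
    simp only [fv, hU1, hU2, hY]
    push_cast
    rfl) ⟨k0, hk0⟩
  exact hwk0 (by exact_mod_cast h1)

end Vale.Agent.P018.QB
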