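import Mathlib
import Vale.Agent.P018.Q.BDefs

/-! # P018, (B), curve step: at most 32 classes modulo `l` over a given `(n, w)` modulo `l`.

Proof.  `Δ = 2 ∏_{i<j} (θ_i - θ_j)^2` (an integer `≠ 0`).  Let `𝔩` be a maximal ideal of `𝓞 L`
containing `l`, `k = 𝓞 L / 𝔩`.  Fix a base point `P0 ∈ S`.  In `k` write `π_j(P) = el (θ j) (y P)`,
`γ_j(P) = el (θ j) (u1 g1 + u2 g2)`; all these are `≠ 0` because `c^4 G(N) = ∏ c (N - θ_j)` is prime
to `l`, and `u1(P0) γ_j(P) = u1(P) γ_j(P0)` (same `w`).  Hence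
`(π_j(P) π_0(P0))^2 = (π_0(P) π_j(P0))^2` for all `j`, so `π_j(P) π_0(P0) = ε_j(P) π_0(P) π_j(P0)`
with `ε_j(P) = ± 1`.  Key: the quadratic character of `u1(P) u1(P0)` modulo `l`, and the `ε_j(P)`.
If the keys of `P` (= N) and `P'` (= M) are equal then `π_j(P) π_0(P') = π_0(P) π_j(P')` for all `j`,
and `(π_0(P')/π_0(P))^2 = u1(P)/u1(P')` is a square `κ^2` in `F_l`, so `π_j(P') = ± κ π_j(P)` for all
`j` with the same sign; change the sign of `κ`.  Then `el (θ j) (y P' - κ y P) ∈ 𝔩` for all `j`, and by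
Vandermonde (`l ∤ Δ`) all coordinates are in `𝔩 ∩ ℤ = l ℤ`. -/

namespace Vale.Agent.P018.QB

open Polynomial NumberField Vale.Agent.P018.Q

/-- two nonsquares have a square product, in the form needed for the keys. -/
theorem sq_of_key {l : ℕ} [Fact l.Prime] (a b r : ZMod l) (ha : a ≠ 0) (hb : b ≠ 0) (hr : r ≠ 0)
    (h : IsSquare (a * r) ↔ IsSquare (b * r)) : IsSquare (a * b) := by
  have har : a * r ≠ 0 := mul_ne_zero ha hr
  have hbr : b * r ≠ 0 := mul_ne_zero hb hr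
  have h1 : quadraticChar (ZMod l) (a * r) = quadraticChar (ZMod l) (b * r) := by
    by_cases hs : IsSquare (a * r)
    · rw [(quadraticChar_one_iff_isSquare har).2 hs,
        (quadraticChar_one_iff_isSquare hbr).2 (h.1 hs)]
    · rw [quadraticChar_neg_one_iff_not_isSquare.2 hs,
        quadraticChar_neg_one_iff_not_isSquare.2 (fun h' => hs (h.2 h'))]
  have h2 : IsSquare ((a * r) * (b * r)) := by
    rw [← quadraticChar_one_iff_isSquare (mul_ne_zero har hbr), map_mul, h1, ← sq]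
    exact quadraticChar_sq_one hbr
  obtain ⟨s, hs⟩ := h2
  refine ⟨s / r, ?_⟩
  field_simp
  linear_combination hs

/-- the argument in the residue field. -/
theorem keys_field {l : ℕ} [Fact l.Prime] {k : Type} [Field k] [CharP k l] (t : Fin 4 → k)
    (ht : Function.Injective t) (c : ℤ) (g1 g2 : Fin 4 → ℤ) (S : Finset ℤ)
    (y : ℤ → Fin 4 → ℤ) (u1 u2 : ℤ → ℤ)
    (h1 : ∀ N ∈ S, ∀ M ∈ S, (l : ℤ) ∣ u2 N * u1 M - u2 M * u1 N ∧ (l : ℤ) ∣ N - M)
    (h2 : ∀ N ∈ S, ¬ (l : ℤ) ∣ u1 N ∧ ∀ j, (c : k) * ((N : k) - t j) ≠ 0 ∧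
        (c : k) * ((N : k) - t j) =
          el (t j) (y N) ^ 2 * el (t j) (fun m => u1 N * g1 m + u2 N * g2 m)) :
    ∃ key : ℤ → Bool × (Fin 4 → Bool), ∀ N ∈ S, ∀ M ∈ S, key N = key M →
        ∃ κ : ℤ, ¬ (l : ℤ) ∣ κ ∧ (l : ℤ) ∣ κ ^ 2 * u1 M - u1 N ∧
          ∀ m, (l : ℤ) ∣ κ * y N m - y M m := by
  classical
  have dvd_k : ∀ a : ℤ, (l : ℤ) ∣ a ↔ (a : k) = 0 := fun a => (CharP.intCast_eq_zero_iff k l a).symm
  have dvd_z : ∀ a : ℤ, (l : ℤ) ∣ a ↔ (a : ZMod l) = 0 := fun a => (CharP.intCast_eq_zero_iff (ZMod l) l a).symm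
  rcases S.eq_empty_or_nonempty with hS | ⟨P0, hP0⟩
  · exact ⟨fun _ => (true, fun _ => true), fun N hN => by simp [hS] at hN⟩
  -- the values in the residue field
  have hπ : ∀ N ∈ S, ∀ j, el (t j) (y N) ≠ 0 := by
    intro N hN j h0
    obtain ⟨-, hj⟩ := h2 N hN
    obtain ⟨hne, he⟩ := hj j
    rw [h0] at he
    apply hne
    rw [he]; ring
  have hsq : ∀ N ∈ S, ∀ M ∈ S, ∀ j,
      el (t j) (y N) ^ 2 * (u1 N : k) = el (t j) (y M) ^ 2 * (u1 M : k) := by
    intro N hN M hM j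
    obtain ⟨hne, he⟩ := (h2 N hN).2 j
    obtain ⟨hne', he'⟩ := (h2 M hM).2 j
    obtain ⟨hw, hn⟩ := h1 N hN M hM
    have hw' : (u2 N : k) * u1 M - u2 M * u1 N = 0 := by
      have := (dvd_k _).1 hw; push_cast at this; exact this
    have hn' : (N : k) - M = 0 := by
      have := (dvd_k _).1 hn; push_cast at this; exact this
    have hγ : el (t j) (fun m => u1 N * g1 m + u2 N * g2 m) * (u1 M : k) =
        el (t j) (fun m => u1 M * g1 m + u2 M * g2 m) * (u1 N : k) := by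
      simp only [el, K.ell]
      push_cast
      rw [Finset.sum_mul, Finset.sum_mul]
      refine Finset.sum_congr rfl fun m _ => ?_
      linear_combination (g2 m : k) * t j ^ (m : ℕ) * hw'
    have hγ0 : el (t j) (fun m => u1 M * g1 m + u2 M * g2 m) ≠ 0 := by
      intro h0
      rw [h0] at he'
      exact hne' (by rw [he']; ring)
    have key : el (t j) (y N) ^ 2 * el (t j) (fun m => u1 N * g1 m + u2 N * g2 m) =
        el (t j) (y M) ^ 2 * el (t j) (fun m => u1 M * g1 m + u2 M * g2 m) := by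
      rw [← he, ← he']
      linear_combination (c : k) * hn'
    have : el (t j) (fun m => u1 M * g1 m + u2 M * g2 m) *
        (el (t j) (y N) ^ 2 * (u1 N : k) - el (t j) (y M) ^ 2 * (u1 M : k)) = 0 := by
      linear_combination (u1 M : k) * key - el (t j) (y N) ^ 2 * hγ
    rcases mul_eq_zero.1 this with h | h
    · exact absurd h hγ0
    · exact sub_eq_zero.1 h
  refine ⟨fun N => (decide (IsSquare ((u1 N : ZMod l) * (u1 P0 : ZMod l))),
    fun j => decide (el (t j) (y N) * el (t 0) (y P0) = el (t 0) (y N) * el (t j) (y P0))), ?_⟩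
  intro N hN M hM hkey
  rw [Prod.mk.injEq] at hkey
  obtain ⟨hk1, hk2⟩ := hkey
  have hk1' := decide_eq_decide.1 hk1
  have hk2' : ∀ j, (el (t j) (y N) * el (t 0) (y P0) = el (t 0) (y N) * el (t j) (y P0)) ↔
      (el (t j) (y M) * el (t 0) (y P0) = el (t 0) (y M) * el (t j) (y P0)) := fun j =>
    decide_eq_decide.1 (congrFun hk2 j)
  have huk : ∀ N ∈ S, (u1 N : k) ≠ 0 := fun N hN h0 => (h2 N hN).1 ((dvd_k _).2 h0)
  have huz : ∀ N ∈ S, (u1 N : ZMod l) ≠ 0 := fun N hN h0 => (h2 N hN).1 ((dvd_z _).2 h0)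
  -- the sign relation
  have hsgn : ∀ N ∈ S, ∀ j, el (t j) (y N) * el (t 0) (y P0) = el (t 0) (y N) * el (t j) (y P0) ∨
      el (t j) (y N) * el (t 0) (y P0) = -(el (t 0) (y N) * el (t j) (y P0)) := by
    intro N hN j
    rw [← sq_eq_sq_iff_eq_or_eq_neg]
    have e1 := hsq N hN P0 hP0 j
    have e2 := hsq N hN P0 hP0 0
    have : (u1 N : k) * ((el (t j) (y N) * el (t 0) (y P0)) ^ 2 -
        (el (t 0) (y N) * el (t j) (y P0)) ^ 2) = 0 := by
      linear_combination el (t 0) (y P0) ^ 2 * e1 - el (t j) (y P0) ^ 2 * e2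
    rcases mul_eq_zero.1 this with h | h
    · exact absurd h (huk N hN)
    · exact sub_eq_zero.1 h
  have hrat : ∀ j, el (t j) (y N) * el (t 0) (y M) = el (t 0) (y N) * el (t j) (y M) := by
    intro j
    have hp := hπ P0 hP0 0
    have : el (t 0) (y P0) * (el (t j) (y N) * el (t 0) (y M) - el (t 0) (y N) * el (t j) (y M)) =
        0 := by
      by_cases hN' : el (t j) (y N) * el (t 0) (y P0) = el (t 0) (y N) * el (t j) (y P0)
      · have hM' := (hk2' j).1 hN'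
        linear_combination el (t 0) (y M) * hN' - el (t 0) (y N) * hM'
      · have hM' : ¬ (el (t j) (y M) * el (t 0) (y P0) = el (t 0) (y M) * el (t j) (y P0)) :=
          fun h => hN' ((hk2' j).2 h)
        have a1 := (hsgn N hN j).resolve_left hN'
        have a2 := (hsgn M hM j).resolve_left hM'
        linear_combination el (t 0) (y M) * a1 - el (t 0) (y N) * a2
    rcases mul_eq_zero.1 this with h | h
    · exact absurd h hp
    · exact sub_eq_zero.1 h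
  -- the square root
  obtain ⟨s, hs⟩ := sq_of_key (u1 N : ZMod l) (u1 M) (u1 P0) (huz N hN) (huz M hM) (huz P0 hP0) hk1'
  obtain ⟨κ, hκ⟩ : ∃ κ : ℤ, (κ : ZMod l) = s / (u1 M : ZMod l) := ⟨_, ZMod.intCast_zmod_cast _⟩
  have hκ2 : (κ : ZMod l) ^ 2 * (u1 M : ZMod l) = (u1 N : ZMod l) := by
    have := huz M hM
    rw [hκ]
    field_simp
    linear_combination -hs
  have hκd : (l : ℤ) ∣ κ ^ 2 * u1 M - u1 N := by
    rw [dvd_z]; push_cast; rw [hκ2]; ring
  have hκk : (κ : k) ^ 2 * (u1 M : k) = (u1 N : k) := by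
    have := (dvd_k _).1 hκd
    push_cast at this
    exact sub_eq_zero.1 this
  have hκ0 : (κ : k) ≠ 0 := by
    intro h0
    rw [h0] at hκk
    exact huk N hN (by rw [← hκk]; ring)
  have hpm : el (t 0) (y M) = (κ : k) * el (t 0) (y N) ∨
      el (t 0) (y M) = -((κ : k) * el (t 0) (y N)) := by
    rw [← sq_eq_sq_iff_eq_or_eq_neg]
    have e := hsq N hN M hM 0
    have : (u1 M : k) * (el (t 0) (y M) ^ 2 - ((κ : k) * el (t 0) (y N)) ^ 2) = 0 := by
      linear_combination -e - el (t 0) (y N) ^ 2 * hκk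
    rcases mul_eq_zero.1 this with h | h
    · exact absurd h (huk M hM)
    · exact sub_eq_zero.1 h
  -- fix the sign
  obtain ⟨κ', hκ'0, hκ'd, hκ'1⟩ : ∃ κ' : ℤ, (κ' : k) ≠ 0 ∧ (l : ℤ) ∣ κ' ^ 2 * u1 M - u1 N ∧
      el (t 0) (y M) = (κ' : k) * el (t 0) (y N) := by
    rcases hpm with h | h
    · exact ⟨κ, hκ0, hκd, h⟩
    · refine ⟨-κ, by push_cast; exact neg_ne_zero.2 hκ0, ?_, ?_⟩
      · have : (-κ) ^ 2 * u1 M - u1 N = κ ^ 2 * u1 M - u1 N := by ring
        rw [this]; exact hκd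
      · rw [h]; push_cast; ring
  refine ⟨κ', fun h => hκ'0 ((dvd_k _).1 h), hκ'd, ?_⟩
  have hall : ∀ j, ∑ m : Fin 4, ((κ' * y N m - y M m : ℤ) : k) * t j ^ (m : ℕ) = 0 := by
    intro j
    have h0 := hπ N hN 0
    have hj : el (t 0) (y N) * ((κ' : k) * el (t j) (y N) - el (t j) (y M)) = 0 := by
      linear_combination hrat j - el (t j) (y N) * hκ'1
    have hj' : (κ' : k) * el (t j) (y N) - el (t j) (y M) = 0 := by
      rcases mul_eq_zero.1 hj with h | h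
      · exact absurd h h0
      · exact h
    rw [← hj']
    simp only [el, K.ell]
    rw [Finset.mul_sum, ← Finset.sum_sub_distrib]
    refine Finset.sum_congr rfl fun m _ => ?_
    push_cast
    ring
  have hz := Matrix.eq_zero_of_forall_index_sum_mul_pow_eq_zero ht hall
  intro m
  rw [dvd_k]
  exact congrFun hz m

theorem exists_keys {L : Type} [Field L] [NumberField L] (θ : Fin 4 → 𝓞 L) (G : ℤ[X])
    (hG : Root4 θ G) :
    ∃ Δ : ℤ, Δ ≠ 0 ∧ (2 : ℤ) ∣ Δ ∧ ∀ (l : ℕ), l.Prime → ¬ (l : ℤ) ∣ Δ →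
      ∀ (c : ℤ) (g1 g2 : Fin 4 → ℤ) (S : Finset ℤ) (y : ℤ → Fin 4 → ℤ) (u1 u2 : ℤ → ℤ),
      ¬ (l : ℤ) ∣ c →
      (∀ N ∈ S, ∀ M ∈ S, (l : ℤ) ∣ u2 N * u1 M - u2 M * u1 N ∧ (l : ℤ) ∣ N - M) →
      (∀ N ∈ S, ¬ (l : ℤ) ∣ u1 N ∧ ¬ (l : ℤ) ∣ G.eval N ∧
        ∀ j, (c : 𝓞 L) * ((N : 𝓞 L) - θ j) =
          el (θ j) (y N) ^ 2 * el (θ j) (fun m => u1 N * g1 m + u2 N * g2 m)) →
      ∃ key : ℤ → Bool × (Fin 4 → Bool), ∀ N ∈ S, ∀ M ∈ S, key N = key M →
        ∃ κ : ℤ, ¬ (l : ℤ) ∣ κ ∧ (l : ℤ) ∣ κ ^ 2 * u1 M - u1 N ∧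
          ∀ m, (l : ℤ) ∣ κ * y N m - y M m := by
  classical
  set D : 𝓞 L := ∏ i : Fin 4, ∏ j ∈ Finset.univ.erase i, (θ i - θ j) with hD
  have hD0 : D ≠ 0 := by
    rw [hD, Finset.prod_ne_zero_iff]
    intro i _
    rw [Finset.prod_ne_zero_iff]
    intro j hj
    rw [Finset.mem_erase] at hj
    exact sub_ne_zero.2 fun h => hj.1 (hG.inj h).symm
  set m : ℕ := Ideal.absNorm (Ideal.span {D}) with hm
  have hm0 : m ≠ 0 := by
    rw [hm, Ne, Ideal.absNorm_eq_zero_iff, Ideal.span_singleton_eq_bot]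
    exact hD0
  have hDm : D ∣ (m : 𝓞 L) := by
    rw [← Ideal.mem_span_singleton]
    exact Ideal.absNorm_mem _
  refine ⟨2 * m, by positivity, ⟨m, rfl⟩, ?_⟩
  intro l hl hlΔ c g1 g2 S y u1 u2 hc h1 h2
  haveI : Fact l.Prime := ⟨hl⟩
  have hspan : (Ideal.span {(l : ℤ)}).IsMaximal :=
    PrincipalIdealRing.isMaximal_of_irreducible (Nat.prime_iff_prime_int.1 hl).irreducible
  obtain ⟨𝔩, h𝔩, hover⟩ := Ideal.exists_maximal_ideal_liesOver_of_isIntegral (S := 𝓞 L)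
    (Ideal.span {(l : ℤ)})
  have hmem : ∀ a : ℤ, (a : 𝓞 L) ∈ 𝔩 ↔ (l : ℤ) ∣ a := by
    intro a
    rw [← Ideal.mem_span_singleton, hover.over, Ideal.mem_comap]
    simp
  letI : Field (𝓞 L ⧸ 𝔩) := Ideal.Quotient.field 𝔩
  haveI : CharP (𝓞 L ⧸ 𝔩) l := by
    constructor
    intro x
    have := hmem (x : ℤ)
    rw [Int.natCast_dvd_natCast] at this
    rw [← this]
    have e : ((x : ℕ) : 𝓞 L ⧸ 𝔩) = Ideal.Quotient.mk 𝔩 ((x : ℤ) : 𝓞 L) := by simp
    rw [e, Ideal.Quotient.eq_zero_iff_mem]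
  have hq : ∀ a : 𝓞 L, Ideal.Quotient.mk 𝔩 a = 0 ↔ a ∈ 𝔩 := fun a =>
    Ideal.Quotient.eq_zero_iff_mem
  refine keys_field (l := l) (k := 𝓞 L ⧸ 𝔩) (fun j => Ideal.Quotient.mk 𝔩 (θ j)) ?_ c g1 g2 S y u1 u2
    h1 ?_
  · intro i j hij
    by_contra hne
    have hmem' : θ i - θ j ∈ 𝔩 := by
      rw [← hq, map_sub]
      exact sub_eq_zero.2 hij
    have hDl : D ∈ 𝔩 := by
      have d1 : (θ i - θ j) ∣ D := by
        rw [hD]
        exact (Finset.dvd_prod_of_mem (fun j => θ i - θ j)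
          (Finset.mem_erase.2 ⟨fun h => hne h.symm, Finset.mem_univ j⟩)).trans
          (Finset.dvd_prod_of_mem (fun i => ∏ j ∈ Finset.univ.erase i, (θ i - θ j))
            (Finset.mem_univ i))
      exact Ideal.mem_of_dvd _ d1 hmem'
    have hml : ((m : ℤ) : 𝓞 L) ∈ 𝔩 := by
      have := Ideal.mem_of_dvd _ hDm hDl
      simpa using this
    exact hlΔ (Dvd.dvd.mul_left ((hmem m).1 hml) 2)
  · intro N hN
    obtain ⟨hu, hGN, he⟩ := h2 N hN
    refine ⟨hu, fun j => ⟨?_, ?_⟩⟩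
    · have hc' : ((c : ℤ) : 𝓞 L ⧸ 𝔩) ≠ 0 := by
        intro h0
        apply hc
        rw [← hmem, ← hq]
        simpa using h0
      refine mul_ne_zero hc' ?_
      intro h0
      apply hGN
      rw [← hmem, ← hq]
      have hval : ((G.eval N : ℤ) : 𝓞 L) = ∏ i, ((N : 𝓞 L) - θ i) := by
        have := congrArg (Polynomial.eval (N : 𝓞 L)) hG.roots
        rw [Polynomial.eval_prod] at this
        simp only [eval_sub, eval_X, eval_C] at this
        rw [← this, Polynomial.eval_map]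
        have := Polynomial.eval₂_at_intCast (S := 𝓞 L) (algebraMap ℤ (𝓞 L)) N (p := G)
        simpa using this.symm
      rw [hval, map_prod]
      refine Finset.prod_eq_zero (Finset.mem_univ j) ?_
      rw [map_sub, map_intCast]
      exact h0
    · have := congrArg (Ideal.Quotient.mk 𝔩) (he j)
      simp only [map_mul, map_sub, map_intCast, map_pow] at this
      rw [this]
      simp only [el, K.ell, map_sum, map_mul, map_pow, map_intCast]

end Vale.Agent.P018.QB
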