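import Mathlib
import Vale.Agent.P018.Q.BCBound
import Vale.Agent.P018.Q.BCKey

/-! # P018, (B), curve step: counting the classes modulo one prime number. -/

namespace Vale.Agent.P018.QB

open Polynomial NumberField Vale.Agent.P018.Q

/-- the values of `N` modulo `l` over a given value of `w` modulo `l` are the roots of a nonzero
polynomial. -/
theorem card_roots_mod (D : ℕ) (Φ : ℤ[X][X]) (hbd : BiDeg D D Φ) (l : ℕ) [Fact l.Prime] (x0 : ℤ)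
    (S : Finset ℤ) (hne : S.Nonempty) (h1 : ∀ N ∈ S, (l : ℤ) ∣ ev2 Φ x0 N)
    (h2 : ∀ N ∈ S, ¬ (l : ℤ) ∣ ev2 (derivative Φ) x0 N) :
    (S.image fun N : ℤ => (N : ZMod l)).card ≤ D := by
  classical
  set q : (ZMod l)[X] := (Φ.map (evalRingHom x0)).map (Int.castRingHom (ZMod l)) with hq
  have hev : ∀ N : ℤ, q.eval (N : ZMod l) = ((ev2 Φ x0 N : ℤ) : ZMod l) := by
    intro N
    have h3 : (N : ZMod l) = (Int.castRingHom (ZMod l)) N := by simp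
    rw [hq, h3, eval_map_apply]
    rfl
  have hev' : ∀ N : ℤ, (derivative q).eval (N : ZMod l) =
      ((ev2 (derivative Φ) x0 N : ℤ) : ZMod l) := by
    intro N
    have h3 : (N : ZMod l) = (Int.castRingHom (ZMod l)) N := by simp
    rw [hq, derivative_map, derivative_map, h3, eval_map_apply]
    rfl
  have hq0 : q ≠ 0 := by
    intro h0
    obtain ⟨N, hN⟩ := hne
    have h3 := hev' N
    rw [h0, derivative_zero, eval_zero] at h3
    exact h2 N hN ((ZMod.intCast_zmod_eq_zero_iff_dvd _ _).mp h3.symm)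
  have h4 : (S.image fun N : ℤ => (N : ZMod l)) ⊆ q.roots.toFinset := by
    intro z hz
    obtain ⟨N, hN, rfl⟩ := Finset.mem_image.mp hz
    rw [Multiset.mem_toFinset, mem_roots hq0, IsRoot.def, hev]
    exact (ZMod.intCast_zmod_eq_zero_iff_dvd _ _).mpr (h1 N hN)
  calc (S.image fun N : ℤ => (N : ZMod l)).card ≤ q.roots.toFinset.card := Finset.card_le_card h4
    _ ≤ q.roots.card := q.roots.toFinset_card_le
    _ ≤ q.natDegree := card_roots' q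
    _ ≤ D := (natDegree_map_le.trans natDegree_map_le).trans hbd.1

theorem prime_count (D Kc : ℕ) (G : ℤ[X]) (Φ : ℤ[X][X]) (hbd : BiDeg D D Φ) (l : ℕ) (hl : l.Prime)
    (S : Finset ℤ) (y : ℤ → Fin 4 → ℤ) (u1 u2 : ℤ → ℤ)
    (hS : ∀ N ∈ S, evB (N : ℂ) ((u2 N : ℂ) / u1 N) (toC Φ) = 0 ∧ ¬ (l : ℤ) ∣ u1 N ∧
      ¬ (l : ℤ) ∣ G.eval N ∧
      ∀ x, (l : ℤ) ∣ u1 N * x - u2 N → ¬ (l : ℤ) ∣ ev2 (derivative Φ) x N)
    (hkeys : ∀ S' ⊆ S,
      (∀ N ∈ S', ∀ M ∈ S', (l : ℤ) ∣ u2 N * u1 M - u2 M * u1 N ∧ (l : ℤ) ∣ N - M) →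
      ∃ key : ℤ → Bool × (Fin 4 → Bool), ∀ N ∈ S', ∀ M ∈ S', key N = key M →
        ∃ κ : ℤ, (l : ℤ) ∣ κ ^ 2 * u1 M - u1 N ∧ ∀ m, (l : ℤ) ∣ κ * y N m - y M m)
    (hclass : ∀ (x0 N0 r0 : ℤ) (y0 : Fin 4 → ℤ), ¬ (l : ℤ) ∣ r0 → ¬ (l : ℤ) ∣ G.eval N0 →
      ¬ (l : ℤ) ∣ ev2 (derivative Φ) x0 N0 → ∀ S' ⊆ S,
      (∀ N ∈ S', (l : ℤ) ∣ u2 N - x0 * u1 N ∧ (l : ℤ) ∣ N - N0 ∧
        ∃ κ : ℤ, (l : ℤ) ∣ κ ^ 2 * r0 - u1 N ∧ ∀ m, (l : ℤ) ∣ κ * y N m - y0 m) →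
      S'.card ≤ Kc) :
    S.card ≤ Kc * 32 * D * l := by
  classical
  have : Fact l.Prime := ⟨hl⟩
  have hlp : Prime (l : ℤ) := Nat.prime_iff_prime_int.mp hl
  have hcast : ∀ a : ℤ, ((a : ZMod l) = 0 ↔ (l : ℤ) ∣ a) := fun a =>
    ZMod.intCast_zmod_eq_zero_iff_dvd _ _
  have hu1 : ∀ N ∈ S, (u1 N : ZMod l) ≠ 0 := fun N hN h => (hS N hN).2.1 ((hcast _).mp h)
  set f1 : ℤ → ZMod l := fun N => (u2 N : ZMod l) / (u1 N : ZMod l) with hf1
  refine (Finset.card_le_mul_card_image (f := f1) S (Kc * 32 * D) ?_).trans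
    (Nat.mul_le_mul_left _ ?_)
  swap
  · exact (Finset.card_le_univ _).trans (by rw [ZMod.card])
  intro a ha
  set Sa := S.filter (fun N => f1 N = a) with hSa
  have hSaS : Sa ⊆ S := Finset.filter_subset _ _
  obtain ⟨x0, hx0⟩ : ∃ x0 : ℤ, (x0 : ZMod l) = a := ZMod.intCast_surjective a
  have hx : ∀ N ∈ Sa, (l : ℤ) ∣ u1 N * x0 - u2 N := by
    intro N hN
    obtain ⟨hN1, hN2⟩ := Finset.mem_filter.mp hN
    rw [← hcast]
    push_cast
    rw [hx0, ← hN2, hf1]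
    simp only
    field_simp [hu1 N hN1]
    simp
  have hx' : ∀ N ∈ Sa, (l : ℤ) ∣ u2 N - x0 * u1 N := by
    intro N hN
    have := hx N hN
    rwa [← dvd_neg, neg_sub, mul_comm] at this
  rcases Sa.eq_empty_or_nonempty with h0 | hne
  · rw [h0]
    simp
  set f2 : ℤ → ZMod l := fun N => (N : ZMod l) with hf2
  have hroots : (Sa.image f2).card ≤ D := by
    refine card_roots_mod D Φ hbd l x0 Sa hne (fun N hN => ?_) (fun N hN => ?_)
    · have h1 := (hS N (hSaS hN)).1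
      rw [evB_int] at h1
      have h3 : u1 N ≠ 0 := fun h0 => (hS N (hSaS hN)).2.1 (by rw [h0]; exact dvd_zero _)
      have h4 := dvd_eval_of_root (Φ.eval (C N)) (u1 N) (u2 N) (l : ℤ) x0 h3
        ((Prime.coprime_iff_not_dvd hlp).mpr (hS N (hSaS hN)).2.1) (hx N hN) h1
      rwa [ev2_eval, eval_C] at h4
    · exact (hS N (hSaS hN)).2.2.2 x0 (hx N hN)
  refine (Finset.card_le_mul_card_image (f := f2) Sa (Kc * 32) ?_).trans
    (Nat.mul_le_mul_left _ hroots)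
  intro b hb
  set Sb := Sa.filter (fun N => f2 N = b) with hSb
  have hSbS : Sb ⊆ Sa := Finset.filter_subset _ _
  have hNM : ∀ N ∈ Sb, ∀ M ∈ Sb, (l : ℤ) ∣ N - M := by
    intro N hN M hM
    rw [← hcast]
    push_cast
    have h1 := (Finset.mem_filter.mp hN).2
    have h2 := (Finset.mem_filter.mp hM).2
    simp only [hf2] at h1 h2
    rw [h1, h2, sub_self]
  have hww : ∀ N ∈ Sb, ∀ M ∈ Sb, (l : ℤ) ∣ u2 N * u1 M - u2 M * u1 N := by
    intro N hN M hM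
    obtain ⟨a1, h1⟩ := hx' N (hSbS hN)
    obtain ⟨a2, h2⟩ := hx' M (hSbS hM)
    exact ⟨a1 * u1 M - a2 * u1 N, by linear_combination u1 M * h1 - u1 N * h2⟩
  obtain ⟨key, hkey⟩ := hkeys Sb (hSbS.trans hSaS)
    (fun N hN M hM => ⟨hww N hN M hM, hNM N hN M hM⟩)
  refine (Finset.card_le_mul_card_image (f := key) Sb Kc ?_).trans (Nat.mul_le_mul_left _ ?_)
  swap
  · exact (Finset.card_le_univ _).trans (by simp)
  intro k hk
  set Sk := Sb.filter (fun N => key N = k) with hSk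
  rcases Sk.eq_empty_or_nonempty with h0 | ⟨M, hM⟩
  · rw [h0]
    simp
  have hMb : M ∈ Sb := (Finset.mem_filter.mp hM).1
  have hMS : M ∈ S := hSaS (hSbS hMb)
  refine hclass x0 M (u1 M) (y M) (hS M hMS).2.1 (hS M hMS).2.2.1
    ((hS M hMS).2.2.2 x0 (hx M (hSbS hMb))) Sk
    ((Finset.filter_subset _ _).trans (hSbS.trans hSaS)) (fun N hN => ?_)
  have hNb : N ∈ Sb := (Finset.mem_filter.mp hN).1
  exact ⟨hx' N (hSbS hNb), hNM N hNb M hMb, hkey N hNb M hMb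
    ((Finset.mem_filter.mp hN).2.trans (Finset.mem_filter.mp hM).2.symm)⟩

end Vale.Agent.P018.QB
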