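import Mathlib
import Vale.Agent.P018.Q.BCPrime

/-! # P018, (B): the `l`-adic curve step. -/

namespace Vale.Agent.P018.QB

open Polynomial NumberField Vale.Agent.P018.Q

theorem abs_scaleRoots_le (p : ℤ[X]) (d : ℕ) (hd : p.natDegree ≤ d) {A B : ℝ} (hA0 : 0 ≤ A)
    (hA : ∀ i, |(p.coeff i : ℝ)| ≤ A) (hB : 1 ≤ B) (u1 u2 : ℤ) (h1 : |(u1 : ℝ)| ≤ B)
    (h2 : |(u2 : ℝ)| ≤ B) :
    |(((p.scaleRoots u1).eval u2 : ℤ) : ℝ)| ≤ (d + 1) * A * B ^ d := by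
  have hB0 : 0 ≤ B := by linarith
  rw [eval_eq_sum_range, natDegree_scaleRoots]
  push_cast
  refine (Finset.abs_sum_le_sum_abs _ _).trans ?_
  have h3 : ∀ i ∈ Finset.range (p.natDegree + 1),
      |(((p.scaleRoots u1).coeff i : ℤ) : ℝ) * (u2 : ℝ) ^ i| ≤ A * B ^ d := by
    intro i hi
    have hi' : i ≤ p.natDegree := Nat.lt_succ_iff.mp (Finset.mem_range.mp hi)
    rw [coeff_scaleRoots]
    push_cast
    rw [abs_mul, abs_mul, abs_pow, abs_pow]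
    calc |(p.coeff i : ℝ)| * |(u1 : ℝ)| ^ (p.natDegree - i) * |(u2 : ℝ)| ^ i
        ≤ A * B ^ (p.natDegree - i) * B ^ i := by
          refine mul_le_mul (mul_le_mul (hA i) (pow_le_pow_left₀ (abs_nonneg _) h1 _)
            (by positivity) hA0) (pow_le_pow_left₀ (abs_nonneg _) h2 _) (by positivity)
            (by positivity)
      _ = A * B ^ p.natDegree := by
          rw [mul_assoc, ← pow_add, Nat.sub_add_cancel hi']
      _ ≤ A * B ^ d := mul_le_mul_of_nonneg_left (pow_le_pow_right₀ hB hd) hA0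
  refine (Finset.sum_le_sum h3).trans ?_
  rw [Finset.sum_const, Finset.card_range, nsmul_eq_mul, mul_assoc]
  refine mul_le_mul_of_nonneg_right ?_ (by positivity)
  exact_mod_cast Nat.succ_le_succ hd

theorem abs_eval_le (p : ℤ[X]) (d : ℕ) (hd : p.natDegree ≤ d) {A B : ℝ} (hA0 : 0 ≤ A)
    (hA : ∀ i, |(p.coeff i : ℝ)| ≤ A) (hB : 1 ≤ B) (x : ℤ) (h1 : |(x : ℝ)| ≤ B) :
    |((p.eval x : ℤ) : ℝ)| ≤ (d + 1) * A * B ^ d := by
  have h := abs_scaleRoots_le p d hd hA0 hA hB 1 x (by simpa using hB) h1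
  rwa [scaleRoots_one] at h

/-- the homogenised derivative at a point. -/
noncomputable def dH (Φ : ℤ[X][X]) (N u1 u2 : ℤ) : ℤ :=
  (((derivative Φ).eval (C N)).scaleRoots u1).eval u2

theorem natDegree_eval_C_le {D : ℕ} {Φ : ℤ[X][X]} (h : ∀ i, (Φ.coeff i).natDegree ≤ D) (N : ℤ) :
    (Φ.eval (C N)).natDegree ≤ D := by
  rw [eval_eq_sum_range]
  refine natDegree_sum_le_of_forall_le _ _ fun i _ => ?_
  rw [← C_pow, mul_comm]
  exact (natDegree_C_mul_le _ _).trans (h i)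

theorem natDegree_derivative_coeff_le {D : ℕ} {Φ : ℤ[X][X]} (h : ∀ i, (Φ.coeff i).natDegree ≤ D)
    (i : ℕ) : ((derivative Φ).coeff i).natDegree ≤ D := by
  rw [coeff_derivative]
  have : ((i : ℤ[X]) + 1) = C ((i : ℤ) + 1) := by simp
  rw [this, mul_comm]
  exact (natDegree_C_mul_le _ _).trans (h (i + 1))

theorem abs_dH_le {D : ℕ} {Φ : ℤ[X][X]} (hbd : BiDeg D D Φ) {A B : ℝ} (hA0 : 0 ≤ A)
    (hA : ∀ i j, |(((Φ.coeff i).coeff j : ℤ) : ℝ)| ≤ A) (hB : 1 ≤ B) (N u1 u2 : ℤ)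
    (hN : |(N : ℝ)| ≤ B) (h1 : |(u1 : ℝ)| ≤ B) (h2 : |(u2 : ℝ)| ≤ B) :
    |((dH Φ N u1 u2 : ℤ) : ℝ)| ≤ (D + 1) * ((D + 1) * ((D + 1) * A) * B ^ D) * B ^ D := by
  have hB0 : 0 ≤ B := by linarith
  refine abs_scaleRoots_le _ D (natDegree_eval_C_le (natDegree_derivative_coeff_le hbd.2) N)
    (by positivity) (fun j => ?_) hB u1 u2 h1 h2
  have hd : (derivative Φ).natDegree ≤ D := (natDegree_derivative_le Φ).trans
    ((Nat.sub_le _ _).trans hbd.1)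
  rw [eval_eq_sum_range, finsetSum_coeff]
  push_cast
  refine (Finset.abs_sum_le_sum_abs _ _).trans ?_
  have h3 : ∀ i ∈ Finset.range ((derivative Φ).natDegree + 1),
      |((((derivative Φ).coeff i * C N ^ i).coeff j : ℤ) : ℝ)| ≤ (D + 1) * A * B ^ D := by
    intro i hi
    have hi' : i ≤ (derivative Φ).natDegree := Nat.lt_succ_iff.mp (Finset.mem_range.mp hi)
    have hiD : i ≤ D := hi'.trans hd
    rw [← C_pow, coeff_mul_C, coeff_derivative]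
    have h4 : ((i : ℤ[X]) + 1) = C ((i : ℤ) + 1) := by simp
    rw [h4, coeff_mul_C]
    push_cast
    rw [abs_mul, abs_mul, abs_pow]
    have h5 : |(i : ℝ) + 1| ≤ D + 1 := by
      rw [abs_of_nonneg (by positivity)]
      have : (i : ℝ) ≤ D := by exact_mod_cast hiD
      linarith
    calc |(((Φ.coeff (i + 1)).coeff j : ℤ) : ℝ)| * |(i : ℝ) + 1| * |(N : ℝ)| ^ i
        ≤ A * (D + 1) * B ^ D := by
          refine mul_le_mul (mul_le_mul (hA _ _) h5 (abs_nonneg _) hA0)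
            ((pow_le_pow_left₀ (abs_nonneg _) hN _).trans (pow_le_pow_right₀ hB hiD))
            (by positivity) (by positivity)
      _ = (D + 1) * A * B ^ D := by ring
  refine (Finset.sum_le_sum h3).trans ?_
  rw [Finset.sum_const, Finset.card_range, nsmul_eq_mul]
  have h6 : (((derivative Φ).natDegree + 1 : ℕ) : ℝ) ≤ D + 1 := by exact_mod_cast Nat.succ_le_succ hd
  have h7 : 0 ≤ (D + 1) * A * B ^ D := by positivity
  calc (((derivative Φ).natDegree + 1 : ℕ) : ℝ) * ((D + 1) * A * B ^ D)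
      ≤ (D + 1) * ((D + 1) * A * B ^ D) := mul_le_mul_of_nonneg_right h6 h7
    _ = (D + 1) * ((D + 1) * A) * B ^ D := by ring

theorem dvd_dH (Φ : ℤ[X][X]) (l N u1 u2 x : ℤ) (hx : l ∣ u1 * x - u2)
    (h : l ∣ ev2 (derivative Φ) x N) : l ∣ dH Φ N u1 u2 := by
  set q := (derivative Φ).eval (C N) with hq
  have h1 : q.eval x = ev2 (derivative Φ) x N := by
    rw [hq, ev2_eval, eval_C]
  have h2 : l ∣ (q.scaleRoots u1).eval (u1 * x) := by
    have h3 : (q.scaleRoots u1).eval (u1 * x) = u1 ^ q.natDegree * q.eval x := by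
      have h7 := scaleRoots_eval₂_mul (p := q) (f := RingHom.id ℤ) x u1
      simpa [eval₂_id] using h7
    rw [h3, h1]
    exact h.mul_left _
  have h4 : l ∣ (q.scaleRoots u1).eval (u1 * x) - (q.scaleRoots u1).eval u2 :=
    hx.trans (sub_dvd_eval_sub _ _ _)
  have h5 := dvd_sub h2 h4
  rwa [sub_sub_cancel] at h5

theorem evB_of_dH (Φ : ℤ[X][X]) (N u1 u2 : ℤ) (h1 : u1 ≠ 0) (h : dH Φ N u1 u2 = 0) :
    evB (N : ℂ) ((u2 : ℂ) / u1) (derivative (toC Φ)) = 0 := by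
  have h2 : derivative (toC Φ) = toC (derivative Φ) := by
    unfold toC
    rw [derivative_map]
  rw [h2, evB_int]
  set q := (derivative Φ).eval (C N) with hq
  have hu : (u1 : ℂ) ≠ 0 := by exact_mod_cast h1
  have h3 := scaleRoots_eval₂_mul (p := q) (f := Int.castRingHom ℂ) ((u2 : ℂ) / u1) u1
  have h4 : (Int.castRingHom ℂ) u1 * ((u2 : ℂ) / u1) = (Int.castRingHom ℂ) u2 := by
    simp only [eq_intCast]
    field_simp
  rw [h4, eval₂_hom] at h3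
  have h5 : (q.scaleRoots u1).eval u2 = 0 := h
  rw [h5, map_zero] at h3
  have h6 := (mul_eq_zero.mp h3.symm).resolve_left (pow_ne_zero _ (by simpa using h1))
  rwa [← eval_map] at h6

/-- few singular points. -/
theorem sing_le (D : ℕ) : ∃ K : ℕ, ∀ Φ : ℤ[X][X], Irreducible (toC Φ) → BiDeg D D Φ →
    Φ.natDegree ≠ 0 → ∀ (S : Finset ℤ) (u1 u2 : ℤ → ℤ), (∀ N ∈ S, u1 N ≠ 0 ∧
      evB (N : ℂ) ((u2 N : ℂ) / u1 N) (toC Φ) = 0 ∧ dH Φ N (u1 N) (u2 N) = 0) → S.card ≤ K := by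
  classical
  obtain ⟨K, hK⟩ := bezC D
  refine ⟨K, fun Φ hirr hbd hnat S u1 u2 hS => ?_⟩
  have hnd : ¬ toC Φ ∣ derivative (toC Φ) := by
    intro h
    have h1 : (derivative (toC Φ)).natDegree < (toC Φ).natDegree :=
      natDegree_derivative_lt (by rw [natDegree_toC]; exact hnat)
    have h2 := eq_zero_of_dvd_of_natDegree_lt h h1
    have h3 := derivative_eq_zero.mp h2
    rw [natDegree_toC] at h3
    exact hnat h3
  have hbd' : BiDeg D D (derivative (toC Φ)) := by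
    have h2 : derivative (toC Φ) = toC (derivative Φ) := by
      unfold toC
      rw [derivative_map]
    rw [h2]
    exact biDeg_toC ⟨(natDegree_derivative_le Φ).trans ((Nat.sub_le _ _).trans hbd.1),
      natDegree_derivative_coeff_le hbd.2⟩
  have h6 := hK (toC Φ) (derivative (toC Φ)) hirr hnd (biDeg_toC hbd) hbd'
    (S.image fun N : ℤ => ((N : ℂ), (u2 N : ℂ) / u1 N)) (by
      intro z hz'
      obtain ⟨N, hN, rfl⟩ := Finset.mem_image.mp hz'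
      exact ⟨(hS N hN).2.1, evB_of_dH Φ N _ _ (hS N hN).1 (hS N hN).2.2⟩)
  rwa [Finset.card_image_of_injective _ (fun a b hab => by
    have h8 : (a : ℂ) = (b : ℂ) := congrArg Prod.fst hab
    exact_mod_cast h8)] at h6

theorem eval_ne_zero_of_root4 {L : Type} [Field L] [NumberField L] {θ : Fin 4 → 𝓞 L} {G : ℤ[X]}
    (hG : Root4 θ G) (N : ℤ) : G.eval N ≠ 0 := by
  intro h
  have h1 : IsRoot (G.map (Int.castRingHom ℚ)) (N : ℚ) := by
    rw [IsRoot.def]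
    have h2 : (N : ℚ) = Int.castRingHom ℚ N := by simp
    rw [h2, eval_map_apply, h, map_zero]
  have h3 := degree_eq_one_of_irreducible_of_root hG.irr h1
  have h4 : (G.map (Int.castRingHom ℚ)).natDegree = 4 := by
    rw [natDegree_map_eq_of_injective (Int.castRingHom ℚ).injective_int, hG.deg]
  have h5 : (G.map (Int.castRingHom ℚ)).natDegree = 1 := natDegree_eq_of_degree_eq_some h3
  omega

/-- the size of the integer which has to be prime to `l`. -/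
theorem bad_le {D C1 : ℕ} {Φ : ℤ[X][X]} (hbd : BiDeg D D Φ) {G : ℤ[X]} (hG : G.natDegree = 4)
    {T B0 AG Cr : ℝ} (hT : 1 ≤ T) (hB0 : 1 ≤ B0) (hAG0 : 0 ≤ AG) (hCr : 0 ≤ Cr)
    (hAG : ∀ i, |((G.coeff i : ℤ) : ℝ)| ≤ AG)
    (hht : ∀ i j, |(((Φ.coeff i).coeff j : ℤ) : ℝ)| ≤ C1 * T ^ C1) (Δ c N u1 u2 : ℤ)
    (hc : |(c : ℝ)| ≤ Cr) (hN : |(N : ℝ)| ≤ B0 * T ^ 4) (hu1 : |(u1 : ℝ)| ≤ B0 * T ^ 4)
    (hu2 : |(u2 : ℝ)| ≤ B0 * T ^ 4) :
    |((Δ * c * u1 * G.eval N * dH Φ N u1 u2 : ℤ) : ℝ)| ≤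
      (|(Δ : ℝ)| * Cr * B0 * ((4 + 1) * AG * B0 ^ 4) *
        ((D + 1) * ((D + 1) * ((D + 1) * C1) * B0 ^ D) * B0 ^ D)) *
      T ^ (4 + 4 * 4 + (C1 + 4 * D + 4 * D)) := by
  have hT4 : 1 ≤ T ^ 4 := one_le_pow₀ hT
  have hBT : 1 ≤ B0 * T ^ 4 := one_le_mul_of_one_le_of_one_le hB0 hT4
  have h1 := abs_eval_le G 4 hG.le hAG0 hAG hBT N hN
  have h2 := abs_dH_le hbd (A := C1 * T ^ C1) (by positivity) hht hBT N u1 u2 hN hu1 hu2
  push_cast at h1 ⊢
  rw [abs_mul, abs_mul, abs_mul, abs_mul]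
  have h3 : |(Δ : ℝ)| * |(c : ℝ)| ≤ |(Δ : ℝ)| * Cr := mul_le_mul_of_nonneg_left hc (abs_nonneg _)
  have h4 : |(Δ : ℝ)| * |(c : ℝ)| * |(u1 : ℝ)| ≤ |(Δ : ℝ)| * Cr * (B0 * T ^ 4) :=
    mul_le_mul h3 hu1 (abs_nonneg _) (by positivity)
  have h5 : |(Δ : ℝ)| * |(c : ℝ)| * |(u1 : ℝ)| * |((G.eval N : ℤ) : ℝ)| ≤
      |(Δ : ℝ)| * Cr * (B0 * T ^ 4) * ((4 + 1) * AG * (B0 * T ^ 4) ^ 4) :=
    mul_le_mul h4 h1 (abs_nonneg _) (by positivity)
  have h6 := mul_le_mul h5 h2 (abs_nonneg _) (by positivity)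
  refine h6.trans (le_of_eq ?_)
  rw [mul_pow, mul_pow, ← pow_mul, ← pow_mul, pow_add, pow_add, pow_add]
  ring

/-- the `l`-adic curve step: large rank implies few solutions. -/
theorem count_of_rank {L : Type} [Field L] [NumberField L] (θ : Fin 4 → 𝓞 L) (G : ℤ[X])
    (hG : Root4 θ G) (C D C0 C1 : ℕ) (ε : ℝ) (hε : 0 < ε) :
    ∃ K : ℝ, 0 < K ∧ ∀ (X T U : ℝ), 1 ≤ T → 1 ≤ X → T ^ 2 ≤ C * X → X ≤ C * T ^ 4 → 1 ≤ U →
      U ≤ C * T ^ 4 → ∀ (φ : L →+* ℂ) (c : ℤ) (g1 g2 : Fin 4 → ℤ), NonSpec θ g1 g2 →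
      (∀ j, |(g1 j : ℝ)| ≤ C * T ^ 4) → (∀ j, |(g2 j : ℝ)| ≤ C * T ^ 4) →
      ∀ Φ : ℤ[X][X], Irreducible (toC Φ) → BiDeg D D Φ →
      (∀ i j, |(((Φ.coeff i).coeff j : ℤ) : ℝ)| ≤ C1 * T ^ C1) → Φ.natDegree ≠ 0 →
      (∀ (Ω : Type) [Field Ω] [Algebra ℂ Ω] (n w : Ω) (pi : Fin 4 → Ω),
        Mdl (fun j => φ (θ j)) (cf θ φ g1) (cf θ φ g2) c Ω n w pi →
        (∀ F, evB n w F = 0 ↔ toC Φ ∣ F) → ∀ i t : ℕ, C0 ≤ i → C0 ≤ t →
        2 * i + 6 * t ≤ C0 + Module.finrank ℂ (spn w pi (mons (i + t) (2 * t) : Set Ix))) →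
      ∀ (S : Finset ℤ) (p : ℤ → ℕ) (y : ℤ → Fin 4 → ℤ) (u1 u2 : ℤ → ℤ),
        (∀ N ∈ S, BDat θ C X T U c g1 g2 N (p N) (y N) (u1 N) (u2 N)) →
        (∀ N ∈ S, evB (N : ℂ) ((u2 N : ℂ) / u1 N) (toC Φ) = 0) →
        (S.card : ℝ) ≤ K * (T ^ (27 / 169 + ε) * U ^ (131 / 338 : ℝ)) := by
  classical
  obtain ⟨s, K1, hs1, hsC0, hK1, hnum⟩ := num_ineq (C0 + 1) C (by omega) ε hε
  obtain ⟨Kc, hKc⟩ := class_bound D C (C0 + 1) s (by omega) hsC0
  obtain ⟨Ks, hKs⟩ := sing_le D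
  obtain ⟨Δ, hΔ0, h2Δ, hkeys⟩ := exists_keys θ G hG
  -- the constants
  obtain ⟨AG, hAG0, hAG⟩ : ∃ A : ℝ, 0 ≤ A ∧ ∀ i, |((G.coeff i : ℤ) : ℝ)| ≤ A := by
    refine ⟨∑ i ∈ G.support, |((G.coeff i : ℤ) : ℝ)|, Finset.sum_nonneg fun _ _ => abs_nonneg _,
      fun i => ?_⟩
    by_cases hi : i ∈ G.support
    · exact Finset.single_le_sum (f := fun i => |((G.coeff i : ℤ) : ℝ)|)
        (fun _ _ => abs_nonneg _) hi
    · rw [notMem_support_iff.mp hi]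
      simp only [Int.cast_zero, abs_zero]
      exact Finset.sum_nonneg fun _ _ => abs_nonneg _
  set B0 : ℝ := (C : ℝ) ^ 2 + C + 1 with hB0
  have hC0 : (0 : ℝ) ≤ C := Nat.cast_nonneg _
  have hB01 : 1 ≤ B0 := by rw [hB0]; nlinarith
  have hCB : (C : ℝ) ≤ B0 := by rw [hB0]; nlinarith
  have hCCB : (C : ℝ) * C ≤ B0 := by rw [hB0]; nlinarith
  clear_value B0
  set e : ℕ := 4 + 4 * 4 + (C1 + 4 * D + 4 * D) with he
  set K2 : ℝ := |(Δ : ℝ)| * C * B0 * ((4 + 1) * AG * B0 ^ 4) *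
    ((D + 1) * ((D + 1) * ((D + 1) * C1) * B0 ^ D) * B0 ^ D) with hK2
  have hK20 : 0 ≤ K2 := by positivity
  set K3 : ℝ := K1 + K2 + 1 with hK3
  have hK31 : 1 ≤ K3 := by linarith
  set M : ℕ := 7 * e + 7 with hM
  refine ⟨Ks + M * (Kc * 32 * D * (2 ^ M * (2 * K3))) + 1, by positivity, ?_⟩
  intro X T U hT hX hTX hXT hU hUT φ c g1 g2 hns hg1 hg2 Φ hirr hbd hht hnat hrank S p y u1 u2 hB hev
  have hT0 : 0 < T := by linarith
  have hT4 : 1 ≤ T ^ 4 := one_le_pow₀ hT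
  set P : ℝ := T ^ (27 / 169 + ε) * U ^ (131 / 338 : ℝ) with hPdef
  have hU1 : 1 ≤ U ^ (131 / 338 : ℝ) := Real.one_le_rpow hU (by norm_num)
  have hP : 1 ≤ P := one_le_mul_of_one_le_of_one_le (Real.one_le_rpow hT (by positivity)) hU1
  have hP0 : 0 < P := by linarith
  rcases S.eq_empty_or_nonempty with h0 | ⟨P0, hP0S⟩
  · rw [h0]
    simp only [Finset.card_empty, Nat.cast_zero]
    positivity
  have hc0 : c ≠ 0 := (hB P0 hP0S).dat.c0
  have hcC : |(c : ℝ)| ≤ C := by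
    have := (hB P0 hP0S).dat.cC
    exact_mod_cast this
  set Q : ℕ := ⌈K3 * P⌉₊ with hQ
  have hQ1 : 1 ≤ Q := Nat.one_le_ceil_iff.mpr (by positivity)
  have hQlo : K3 * P ≤ Q := Nat.le_ceil _
  have hQhi : (Q : ℝ) ≤ 2 * K3 * P := by
    have h1 := (Nat.ceil_lt_add_one (a := K3 * P) (by positivity)).le
    have h2 : 1 ≤ K3 * P := one_le_mul_of_one_le_of_one_le hK31 hP
    linarith
  obtain ⟨ℓ, hinj, hℓ⟩ := exists_primes M Q hQ1
  -- the integer which has to be prime to `l`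
  set b : ℤ → ℤ := fun N => Δ * c * u1 N * G.eval N * dH Φ N (u1 N) (u2 N) with hb
  have hbb : ∀ N ∈ S, |((b N : ℤ) : ℝ)| ≤ K2 * T ^ e := by
    intro N hN
    have hd := hB N hN
    have hT40 : 0 ≤ T ^ 4 := by positivity
    have hCT : (C : ℝ) * T ^ 4 ≤ B0 * T ^ 4 := mul_le_mul_of_nonneg_right hCB hT40
    have hu1 : |(u1 N : ℝ)| ≤ B0 * T ^ 4 := hd.hu1.trans (hUT.trans hCT)
    have hu2 : |(u2 N : ℝ)| ≤ B0 * T ^ 4 := hd.hu2.trans (hUT.trans hCT)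
    have hN' : |(N : ℝ)| ≤ B0 * T ^ 4 := by
      refine hd.dat.hN.trans ?_
      have h1 : (C : ℝ) * X ≤ C * (C * T ^ 4) := mul_le_mul_of_nonneg_left hXT hC0
      have h2 : (C : ℝ) * (C * T ^ 4) = (C * C) * T ^ 4 := by ring
      exact h1.trans (h2.le.trans (mul_le_mul_of_nonneg_right hCCB hT40))
    exact bad_le hbd hG.deg hT hB01 hAG0 hC0 hAG hht Δ c N (u1 N) (u2 N) hcC hN' hu1 hu2
  clear_value K2 e
  have hbQ : ∀ N ∈ S, |b N| < (Q : ℤ) ^ M := by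
    intro N hN
    have h1 : K2 * T ^ e < (Q : ℝ) ^ M := by
      have h2 : T ^ e ≤ (T ^ (27 / 169 : ℝ)) ^ M := by
        rw [← Real.rpow_natCast, ← Real.rpow_natCast, ← Real.rpow_mul hT0.le]
        refine Real.rpow_le_rpow_of_exponent_le hT ?_
        rw [hM]
        push_cast
        have : (0 : ℝ) ≤ e := Nat.cast_nonneg _
        linarith
      have h3 : T ^ (27 / 169 : ℝ) ≤ P := by
        rw [hPdef]
        have h4 : T ^ (27 / 169 : ℝ) ≤ T ^ (27 / 169 + ε) :=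
          Real.rpow_le_rpow_of_exponent_le hT (by linarith)
        have h5 : 0 < T ^ (27 / 169 + ε) := Real.rpow_pos_of_pos hT0 _
        exact h4.trans (le_mul_of_one_le_right h5.le hU1)
      have h4 : K3 * T ^ e ≤ (Q : ℝ) ^ M := by
        calc K3 * T ^ e ≤ K3 ^ M * (T ^ (27 / 169 : ℝ)) ^ M :=
              mul_le_mul (le_self_pow₀ hK31 (by omega)) h2 (by positivity) (by positivity)
          _ = (K3 * T ^ (27 / 169 : ℝ)) ^ M := (mul_pow _ _ _).symm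
          _ ≤ (Q : ℝ) ^ M := by
              refine pow_le_pow_left₀ (by positivity) ?_ M
              exact (mul_le_mul_of_nonneg_left h3 (by linarith)).trans hQlo
      have h5 : K2 * T ^ e < K3 * T ^ e := by
        refine mul_lt_mul_of_pos_right ?_ (by positivity)
        linarith
      linarith
    have h2 := (hbb N hN).trans_lt h1
    exact_mod_cast h2
  -- the exceptional set
  set Ssing := S.filter (fun N => dH Φ N (u1 N) (u2 N) = 0) with hSsing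
  have hsing : Ssing.card ≤ Ks := by
    refine hKs Φ hirr hbd hnat Ssing u1 u2 fun N hN => ?_
    obtain ⟨h1, h2⟩ := Finset.mem_filter.mp hN
    exact ⟨(hB N h1).u10, hev N h1, h2⟩
  set Sl : Fin M → Finset ℤ := fun i => S.filter (fun N => ¬ ((ℓ i : ℤ)) ∣ b N) with hSl
  have hcover : S ⊆ Ssing ∪ Finset.univ.biUnion Sl := by
    intro N hN
    rw [Finset.mem_union]
    by_cases h0 : dH Φ N (u1 N) (u2 N) = 0
    · exact Or.inl (Finset.mem_filter.mpr ⟨hN, h0⟩)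
    · refine Or.inr ?_
      have hb0 : b N ≠ 0 := by
        simp only [hb]
        exact mul_ne_zero (mul_ne_zero (mul_ne_zero (mul_ne_zero hΔ0 hc0) (hB N hN).u10)
          (eval_ne_zero_of_root4 hG N)) h0
      obtain ⟨i, hi⟩ := exists_good M Q hQ1 ℓ hinj (fun i => ⟨(hℓ i).1, (hℓ i).2.1⟩) (b N) hb0
        (hbQ N hN)
      exact Finset.mem_biUnion.mpr ⟨i, Finset.mem_univ i, Finset.mem_filter.mpr ⟨hN, hi⟩⟩
  have hone : ∀ i, (Sl i).card ≤ Kc * 32 * D * ℓ i := by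
    intro i
    rcases (Sl i).eq_empty_or_nonempty with h0 | ⟨N1, hN1⟩
    · rw [h0]
      simp
    have hlpr := (hℓ i).1
    have hmem : ∀ N ∈ Sl i, N ∈ S ∧ ¬ (ℓ i : ℤ) ∣ b N := fun N hN => Finset.mem_filter.mp hN
    have hbN1 := (hmem N1 hN1).2
    have hlΔ : ¬ (ℓ i : ℤ) ∣ Δ := fun h => hbN1
      ((((h.mul_right _).mul_right _).mul_right _).mul_right _)
    have hlc : ¬ (ℓ i : ℤ) ∣ c := fun h => hbN1
      ((((h.mul_left _).mul_right _).mul_right _).mul_right _)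
    have hl2 : ℓ i ≠ 2 := by
      intro h
      rw [h] at hlΔ
      exact hlΔ h2Δ
    have hnum' := hnum T U (ℓ i) hT hU hUT (by
      have h1 : (Q : ℝ) ≤ ℓ i := by exact_mod_cast (hℓ i).2.1.le
      have h2 : K1 * P ≤ K3 * P := mul_le_mul_of_nonneg_right (by linarith) hP0.le
      linarith)
    refine prime_count D Kc G Φ hbd (ℓ i) hlpr (Sl i) y u1 u2 (fun N hN => ?_)
      (fun S' hS' hww => ?_) (fun x0 N0 r0 y0 hr0 hGN hΦ0 S' hS' hcl => ?_)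
    · obtain ⟨hNS, hbN⟩ := hmem N hN
      refine ⟨hev N hNS, fun h => hbN (((h.mul_left _).mul_right _).mul_right _),
        fun h => hbN ((h.mul_left _).mul_right _), fun x hx h => hbN ?_⟩
      exact (dvd_dH Φ _ N (u1 N) (u2 N) x hx h).mul_left _
    · obtain ⟨key, hkey⟩ := hkeys (ℓ i) hlpr hlΔ c g1 g2 S' y u1 u2 hlc hww (fun N hN => by
        obtain ⟨hNS, hbN⟩ := hmem N (hS' hN)
        exact ⟨fun h => hbN (((h.mul_left _).mul_right _).mul_right _),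
          fun h => hbN ((h.mul_left _).mul_right _), (hB N hNS).dat.eqn⟩)
      refine ⟨key, fun N hN M' hM' hk => ?_⟩
      obtain ⟨κ, -, h1, h2⟩ := hkey N hN M' hM' hk
      exact ⟨κ, h1, h2⟩
    · refine hKc θ G hG X T U hT hU φ c g1 g2 hc0 hns Φ hirr hbd hnat
        (fun Ω _ _ n w pi hM' hgen i t hi ht => ?_) (ℓ i) hlpr hl2 hlc hnum' x0 N0 r0 y0 hr0 hGN hΦ0
        S' p y u1 u2 (fun N hN => hB N (hmem N (hS' hN)).1) (fun N hN => ?_)
      · have := hrank Ω n w pi hM' hgen i t (by omega) (by omega)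
        omega
      · obtain ⟨hNS, hbN⟩ := hmem N (hS' hN)
        obtain ⟨h1, h2, h3⟩ := hcl N hN
        exact ⟨hev N hNS, fun h => hbN (((h.mul_left _).mul_right _).mul_right _), h1, h2, h3⟩
  have hcard : S.card ≤ Ks + ∑ i : Fin M, Kc * 32 * D * ℓ i := by
    calc S.card ≤ (Ssing ∪ Finset.univ.biUnion Sl).card := Finset.card_le_card hcover
      _ ≤ Ssing.card + (Finset.univ.biUnion Sl).card := Finset.card_union_le _ _
      _ ≤ Ks + ∑ i : Fin M, Kc * 32 * D * ℓ i := by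
          refine add_le_add hsing (Finset.card_biUnion_le.trans (Finset.sum_le_sum fun i _ => ?_))
          exact hone i
  have hcardR : (S.card : ℝ) ≤ Ks + M * (Kc * 32 * D * (2 ^ M * Q)) := by
    have h1 : ∑ i : Fin M, Kc * 32 * D * ℓ i ≤ ∑ _i : Fin M, Kc * 32 * D * (2 ^ M * Q) :=
      Finset.sum_le_sum fun i _ => Nat.mul_le_mul_left _ (hℓ i).2.2
    rw [Finset.sum_const, Finset.card_univ, Fintype.card_fin, smul_eq_mul] at h1
    have h2 := hcard.trans (Nat.add_le_add_left h1 _)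
    exact_mod_cast h2
  have h5 : (M : ℝ) * (Kc * 32 * D * (2 ^ M * Q)) ≤
      M * (Kc * 32 * D * (2 ^ M * (2 * K3))) * P := by
    have h6 : (M : ℝ) * (Kc * 32 * D * (2 ^ M * (2 * K3))) * P =
      M * (Kc * 32 * D * (2 ^ M * (2 * K3 * P))) := by ring
    rw [h6]
    gcongr
  have h7 : (Ks : ℝ) ≤ Ks * P := le_mul_of_one_le_right (Nat.cast_nonneg _) hP
  have h8 : (Ks + M * (Kc * 32 * D * (2 ^ M * (2 * K3))) + 1) * P =
    Ks * P + M * (Kc * 32 * D * (2 ^ M * (2 * K3))) * P + P := by ring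
  rw [h8]
  linarith

end Vale.Agent.P018.QB
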