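import Mathlib

/-! # Kummer independence for square roots. -/

namespace Vale.Agent.P018.QB

open Polynomial IntermediateField

/-- nonzero elements `w i` of an extension `Ω / F` with `w i ^ 2 ∈ F` and `w i * w j ∉ F` for
`i ≠ j` are linearly independent over `F` (characteristic `≠ 2`).  Proof: `F(w)` is Galois over `F`,
every automorphism multiplies `w i` by a sign `χ_i`, and `χ_i ≠ χ_j` because `w i * w j ∉ F`; now use
the independence of the characters `χ_i`. -/
theorem kummer_indep {F Ω : Type*} [Field F] [Field Ω] [Algebra F Ω] [CharZero F] {ι : Type*}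
    [Finite ι] (w : ι → Ω) (h0 : ∀ i, w i ≠ 0) (h2 : ∀ i, w i ^ 2 ∈ (algebraMap F Ω).range)
    (hij : ∀ i j, i ≠ j → w i * w j ∉ (algebraMap F Ω).range) : LinearIndependent F w := by
  classical
  cases nonempty_fintype ι
  choose c hc using h2
  set p : F[X] := ∏ i, (X ^ 2 - C (c i)) with hp
  have hf : ∀ i, (X ^ 2 - C (c i) : F[X]).map (algebraMap F Ω) = (X - C (w i)) * (X + C (w i)) := by
    intro i
    rw [Polynomial.map_sub, Polynomial.map_pow, map_X, map_C, hc, C_pow]
    ring
  have hp0 : p ≠ 0 := Finset.prod_ne_zero_iff.mpr fun i _ => X_pow_sub_C_ne_zero (by norm_num) _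
  have hs : (p.map (algebraMap F Ω)).Splits := by
    rw [hp, Polynomial.map_prod]
    refine Polynomial.Splits.prod fun i _ => ?_
    rw [hf]
    exact (Splits.X_sub_C _).mul (Splits.X_add_C _)
  let K : IntermediateField F Ω := adjoin F (p.rootSet Ω)
  have h1 : p.IsSplittingField F K := adjoin_rootSet_isSplittingField hs
  have : Normal F K := Normal.of_isSplittingField p
  have : FiniteDimensional F K := Polynomial.IsSplittingField.finiteDimensional K p
  have : IsGalois F K := ⟨⟩
  have hw : ∀ i, w i ∈ K := by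
    intro i
    refine subset_adjoin _ _ ?_
    rw [mem_rootSet]
    refine ⟨hp0, ?_⟩
    rw [hp, map_prod]
    refine Finset.prod_eq_zero (Finset.mem_univ i) ?_
    rw [aeval_def, ← eval_map, hf]
    simp
  let v : ι → K := fun i => ⟨w i, hw i⟩
  have hv0 : ∀ i, v i ≠ 0 := fun i h => h0 i (congrArg Subtype.val h)
  have hv2 : ∀ i, v i ^ 2 = algebraMap F K (c i) := by
    intro i
    apply Subtype.ext
    change w i ^ 2 = algebraMap F Ω (c i)
    exact (hc i).symm
  have hσ2 : ∀ (σ : K ≃ₐ[F] K) i, (σ (v i) / v i) ^ 2 = 1 := by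
    intro σ i
    rw [div_pow, ← map_pow, hv2, AlgEquiv.commutes]
    refine div_self ?_
    rw [← hv2]
    exact pow_ne_zero _ (hv0 i)
  have hσ1 : ∀ (σ : K ≃ₐ[F] K) i, σ (v i) / v i = 1 ∨ σ (v i) / v i = -1 := fun σ i =>
    sq_eq_one_iff.mp (hσ2 σ i)
  have hfix : ∀ (σ τ : K ≃ₐ[F] K) i, σ (τ (v i) / v i) = τ (v i) / v i := by
    intro σ τ i
    rcases hσ1 τ i with h | h <;> simp [h]
  let χ : ι → (K ≃ₐ[F] K) →* K := fun i =>
    { toFun := fun σ => σ (v i) / v i
      map_one' := div_self (hv0 i)
      map_mul' := fun σ τ => by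
        have h3 : τ (v i) = τ (v i) / v i * v i := (div_mul_cancel₀ _ (hv0 i)).symm
        have h4 : (σ * τ) (v i) = τ (v i) / v i * σ (v i) := by
          rw [AlgEquiv.mul_apply]
          conv_lhs => rw [h3, map_mul, hfix]
        change (σ * τ) (v i) / v i = σ (v i) / v i * (τ (v i) / v i)
        rw [h4]
        ring }
  have hχ : Function.Injective χ := by
    intro i j h
    by_contra hne
    refine hij i j hne ?_
    have h5 : v i * v j ∈ Set.range (algebraMap F K) := by
      rw [IsGalois.mem_range_algebraMap_iff_fixed]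
      intro σ
      have h6 : σ (v i) / v i = σ (v j) / v j := DFunLike.congr_fun h σ
      have h7 : σ (v i) = σ (v i) / v i * v i := (div_mul_cancel₀ _ (hv0 i)).symm
      have h8 : σ (v j) = σ (v i) / v i * v j := by rw [h6, div_mul_cancel₀ _ (hv0 j)]
      have h11 := hσ2 σ i
      generalize σ (v i) / v i = e at h7 h8 h11
      rw [map_mul, h8, h7, mul_mul_mul_comm, ← sq, h11, one_mul]
    obtain ⟨x, hx⟩ := h5
    exact ⟨x, congrArg Subtype.val hx⟩
  have hli : LinearIndependent K fun i => (χ i : (K ≃ₐ[F] K) → K) :=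
    (linearIndependent_monoidHom (K ≃ₐ[F] K) K).comp χ hχ
  rw [Fintype.linearIndependent_iff] at hli ⊢
  intro a ha i
  have ha' : ∑ i, a i • v i = 0 := by
    apply Subtype.ext
    rw [AddSubmonoidClass.coe_finsetSum]
    exact ha
  have h9 := hli (fun i => a i • v i) (by
    funext σ
    rw [Finset.sum_apply]
    have h10 := congrArg σ ha'
    rw [map_sum, map_zero] at h10
    rw [Pi.zero_apply, ← h10]
    refine Finset.sum_congr rfl fun i _ => ?_
    change a i • v i * (σ (v i) / v i) = _
    rw [Algebra.smul_def, map_mul, AlgEquiv.commutes, mul_assoc, mul_div_cancel₀ _ (hv0 i)]) i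
  rcases smul_eq_zero.mp h9 with h | h
  · exact h
  · exact absurd h (hv0 i)

end Vale.Agent.P018.QB
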