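import Mathlib

/-! # P018, quartics: the spanning lemma (partial fractions).

For pairwise coprime linear polynomials `ϖ_0, …, ϖ_r` over a field and `κ ≤ l + 1`, the products
`∏ ϖ_j^(κ (i - m_j)) u^μ` with `∑ m_j = i`, `μ ≤ l` span all polynomials of degree
`≤ κ i r + l`. -/

namespace Vale.Agent.P018.Q

open Polynomial

variable {k : Type*} [Field k]

/-- the set of products `∏ ϖ_j^(κ (i - m_j)) u^μ`, `∑ m_j = i`, `μ ≤ l`. -/
def prodSet {r : ℕ} (κ i l : ℕ) (ϖ : Fin r → k[X]) : Set k[X] :=
  {Q | ∃ (m : Fin r → ℕ) (μ : ℕ), ∑ j, m j = i ∧ μ ≤ l ∧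
    Q = (∏ j, ϖ j ^ (κ * (i - m j))) * X ^ μ}

theorem prodSet_mul_poly {r : ℕ} (κ i l : ℕ) (ϖ : Fin r → k[X]) (m : Fin r → ℕ)
    (hm : ∑ j, m j = i) (G : k[X]) (hG : G.natDegree ≤ l) :
    (∏ j, ϖ j ^ (κ * (i - m j))) * G ∈ Submodule.span k (prodSet κ i l ϖ) := by
  rw [G.as_sum_range' (l + 1) (by omega), Finset.mul_sum]
  refine Submodule.sum_mem _ fun μ hμ => ?_
  rw [← C_mul_X_pow_eq_monomial, mul_left_comm, ← smul_eq_C_mul]
  refine Submodule.smul_mem _ _ (Submodule.subset_span ⟨m, μ, hm, ?_, rfl⟩)
  rw [Finset.mem_range] at hμ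
  omega

theorem prodSet_natDegree_le {r : ℕ} (κ i l : ℕ) (ϖ : Fin (r + 1) → k[X])
    (hdeg : ∀ j, (ϖ j).natDegree = 1) {Q : k[X]} (hQ : Q ∈ Submodule.span k (prodSet κ i l ϖ)) :
    Q.natDegree ≤ κ * i * r + l := by
  have h : Submodule.span k (prodSet κ i l ϖ) ≤ degreeLE k ((κ * i * r + l : ℕ) : WithBot ℕ) := by
    rw [Submodule.span_le]
    rintro _ ⟨m, μ, hm, hμ, rfl⟩
    rw [SetLike.mem_coe, mem_degreeLE]
    refine degree_le_of_natDegree_le ?_
    refine natDegree_mul_le.trans ?_
    rw [natDegree_X_pow]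
    refine Nat.add_le_add ?_ hμ
    refine (natDegree_prod_le _ _).trans ?_
    have h1 : ∀ j ∈ Finset.univ, (ϖ j ^ (κ * (i - m j))).natDegree ≤ κ * (i - m j) := by
      intro j _
      refine natDegree_pow_le.trans ?_
      rw [hdeg j, mul_one]
    refine (Finset.sum_le_sum h1).trans ?_
    rw [← Finset.mul_sum]
    have h2 : ∑ j : Fin (r + 1), (i - m j) + i = (r + 1) * i := by
      conv_lhs => rw [← hm]
      rw [hm, ← hm, ← Finset.sum_add_distrib]
      have h3 : ∀ j ∈ Finset.univ, (∑ j, m j - m j) + m j = i := by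
        intro j _
        have := Finset.single_le_sum (f := m) (fun _ _ => Nat.zero_le _) (Finset.mem_univ j)
        omega
      rw [Finset.sum_congr rfl h3]
      simp [hm]
    have h4 : ∑ j : Fin (r + 1), (i - m j) = i * r := by
      have : (r + 1) * i = i * r + i := by ring
      omega
    rw [h4, mul_assoc]
  have := h hQ
  rw [mem_degreeLE] at this
  exact natDegree_le_of_degree_le this

theorem span_prodSet (κ i l : ℕ) (hl : κ ≤ l + 1) (r : ℕ) :
    ∀ (ϖ : Fin (r + 1) → k[X]), (∀ j, (ϖ j).natDegree = 1) →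
      (∀ i j, i ≠ j → IsCoprime (ϖ i) (ϖ j)) → ∀ P : k[X], P.natDegree ≤ κ * i * r + l →
      P ∈ Submodule.span k (prodSet κ i l ϖ) := by
  induction r with
  | zero =>
    intro ϖ _ _ P hP
    have h := prodSet_mul_poly κ i l ϖ (fun _ => i) (by simp) P (by simpa using hP)
    simpa using h
  | succ r ih =>
    intro ϖ hdeg hcop P hP
    set w : k[X] := ϖ (Fin.last (r + 1)) with hw
    have hw1 : w.natDegree = 1 := hdeg _
    have hw0 : w ≠ 0 := by
      intro h
      rw [h] at hw1
      simp at hw1
    -- the root of `w`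
    obtain ⟨x0, hx0⟩ : ∃ x0, w.eval x0 = 0 := by
      refine ⟨-(w.coeff 0) / w.coeff 1, ?_⟩
      have h1 : w.coeff 1 ≠ 0 := by
        have := leadingCoeff_ne_zero.mpr hw0
        rwa [leadingCoeff, hw1] at this
      rw [eval_eq_sum_range, hw1, Finset.sum_range_succ, Finset.sum_range_one]
      field_simp
      ring
    have hwdvd : ∀ Q : k[X], Q.eval x0 = 0 → w ∣ Q := by
      intro Q hQ
      have h1 : (X - C x0) ∣ Q := dvd_iff_isRoot.mpr hQ
      have h2 : (X - C x0) ∣ w := dvd_iff_isRoot.mpr hx0
      obtain ⟨e, he⟩ := h2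
      have h3 : e.natDegree = 0 := by
        have h4 := congrArg natDegree he
        rw [hw1] at h4
        have he0 : e ≠ 0 := by
          rintro rfl
          rw [mul_zero] at he
          exact hw0 he
        rw [natDegree_mul (X_sub_C_ne_zero x0) he0, natDegree_X_sub_C] at h4
        omega
      have h5 : IsUnit e := by
        rw [natDegree_eq_zero] at h3
        obtain ⟨c, rfl⟩ := h3
        rw [isUnit_C, isUnit_iff_ne_zero]
        rintro rfl
        rw [C_0, mul_zero] at he
        exact hw0 he
      rw [he]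
      exact (h5.mul_right_dvd).mpr h1
    have hne : ∀ j : Fin (r + 1), (ϖ j.castSucc).eval x0 ≠ 0 := by
      intro j h0
      obtain ⟨a, b, hab⟩ := hcop j.castSucc (Fin.last _) (Fin.castSucc_lt_last j).ne
      have := congrArg (eval x0) hab
      rw [eval_add, eval_mul, eval_mul, h0, ← hw, hx0] at this
      simp at this
    -- elimination at the root of `w`
    have key : ∀ j, j ≤ κ * i → ∃ Q ∈ Submodule.span k (prodSet κ i l ϖ), w ^ j ∣ P - Q := by
      intro j
      induction j with
      | zero => exact fun _ => ⟨0, Submodule.zero_mem _, by simp⟩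
      | succ j ihj =>
        intro hj
        obtain ⟨Q, hQ, P', hP'⟩ := ihj (by omega)
        have hκ : 0 < κ := by
          rcases Nat.eq_zero_or_pos κ with h | h
          · subst h
            simp at hj
          · exact h
        have hji : j / κ < i := by
          rw [Nat.div_lt_iff_lt_mul hκ, mul_comm]
          omega
        have hmod : κ * (j / κ) + j % κ = j := Nat.div_add_mod j κ
        set q := j / κ with hq
        set m : Fin (r + 2) → ℕ := Fin.snoc (Fin.cons q (fun _ => 0) : Fin (r + 1) → ℕ) (i - q)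
          with hm
        have hmsum : ∑ j, m j = i := by
          rw [Fin.sum_univ_castSucc]
          simp only [hm, Fin.snoc_castSucc, Fin.snoc_last]
          rw [Fin.sum_univ_succ]
          simp only [Fin.cons_zero, Fin.cons_succ, Finset.sum_const_zero]
          omega
        set e : k[X] := (∏ j, ϖ j ^ (κ * (i - m j))) * w ^ (j % κ) with he
        have heS : e ∈ Submodule.span k (prodSet κ i l ϖ) := by
          refine prodSet_mul_poly κ i l ϖ m hmsum _ ?_
          refine natDegree_pow_le.trans ?_
          rw [hw1]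
          have := Nat.mod_lt j hκ
          omega
        set e' : k[X] := ∏ j : Fin (r + 1), ϖ j.castSucc ^ (κ * (i - m j.castSucc)) with he'
        have hee : e = w ^ j * e' := by
          rw [he, Fin.prod_univ_castSucc, ← he', ← hw]
          have h1 : m (Fin.last (r + 1)) = i - q := by simp [hm]
          rw [h1]
          have h2 : κ * (i - (i - q)) = κ * q := by
            rw [Nat.sub_sub_self hji.le]
          rw [h2]
          conv_rhs => rw [← hmod, pow_add]
          ring
        have he0 : e'.eval x0 ≠ 0 := by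
          rw [he', eval_prod, Finset.prod_ne_zero_iff]
          intro j _
          rw [eval_pow]
          exact pow_ne_zero _ (hne j)
        refine ⟨Q + (P'.eval x0 / e'.eval x0) • e,
          Submodule.add_mem _ hQ (Submodule.smul_mem _ _ heS), ?_⟩
        have h6 : P - (Q + (P'.eval x0 / e'.eval x0) • e) =
            w ^ j * (P' - C (P'.eval x0 / e'.eval x0) * e') := by
          rw [← sub_sub, hP', smul_eq_C_mul, hee]
          ring
        rw [h6, pow_succ]
        refine mul_dvd_mul_left _ (hwdvd _ ?_)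
        rw [eval_sub, eval_mul, eval_C, div_mul_cancel₀ _ he0, sub_self]
    obtain ⟨Q, hQ, P', hP'⟩ := key (κ * i) le_rfl
    have hQd := prodSet_natDegree_le κ i l ϖ hdeg hQ
    have hP'd : P'.natDegree ≤ κ * i * r + l := by
      by_cases h0 : P' = 0
      · simp [h0]
      have h1 : (P - Q).natDegree ≤ κ * i * (r + 1) + l :=
        (natDegree_sub_le _ _).trans (max_le hP hQd)
      rw [hP', natDegree_mul (pow_ne_zero _ hw0) h0, natDegree_pow, hw1] at h1
      have : κ * i * (r + 1) = κ * i * r + κ * i := by ring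
      omega
    have h7 := ih (fun j => ϖ j.castSucc) (fun j => hdeg _)
      (fun a b hab => hcop _ _ (fun h => hab (Fin.castSucc_injective _ h))) P' hP'd
    have h8 : (w ^ (κ * i) * P') ∈ Submodule.span k (prodSet κ i l ϖ) := by
      have h9 : Submodule.map (LinearMap.mulLeft k (w ^ (κ * i)))
          (Submodule.span k (prodSet κ i l (fun j : Fin (r + 1) => ϖ j.castSucc))) ≤
          Submodule.span k (prodSet κ i l ϖ) := by
        rw [Submodule.map_span, Submodule.span_le]
        rintro _ ⟨_, ⟨m, μ, hm, hμ, rfl⟩, rfl⟩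
        refine Submodule.subset_span ⟨Fin.snoc m 0, μ, ?_, hμ, ?_⟩
        · rw [Fin.sum_univ_castSucc]
          simp [hm]
        · rw [LinearMap.mulLeft_apply, Fin.prod_univ_castSucc (n := r + 1)]
          simp only [Fin.snoc_castSucc, Fin.snoc_last, Nat.sub_zero]
          rw [← hw]
          ring
      exact h9 ⟨P', h7, rfl⟩
    have h10 : P = Q + w ^ (κ * i) * P' := by
      rw [← hP']
      ring
    rw [h10]
    exact Submodule.add_mem _ hQ h8

end Vale.Agent.P018.Q
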