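import Mathlib
import Vale.Agent.P018.Q.Span

/-! # P018, quartics, family (B): definitions for the ranks of functions on curves.

`n` is the outer variable, `ξ` (`= w = u2 / u1`) the inner one; `ϖ_j(ξ)` is the linear polynomial
`γ_j / u1`. Everything is over a field `k` (here `ℂ`). -/

namespace Vale.Agent.P018.Q

open Polynomial

variable {k : Type*} [Field k]

/-- `n - θ`. -/
noncomputable def lin (θ : k) : k[X][X] := X - C (C θ)

/-- the degree in the inner variable. -/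
noncomputable def dIn (g : k[X][X]) : ℕ := (Bivariate.swap g).natDegree

/-- the substitution `n = θ + ϖ Y`. -/
noncomputable def tw (θ : k) (ϖ : k[X]) (g : k[X][X]) : k[X][X] := g.comp (C (C θ) + C ϖ * X)

/-- `g` has order exactly `w` at the point `(n, ξ) = (θ, root of ϖ)`. -/
def OrdAt (θ : k) (ϖ : k[X]) (w : ℕ) (g : k[X][X]) : Prop :=
  C ϖ ^ w ∣ tw θ ϖ g ∧ ¬ C ϖ ^ (w + 1) ∣ tw θ ϖ g

/-- the function `∏_j (n - θ_j)^(m_j) ϖ_j^(M - m_j) ξ^a`. -/
noncomputable def fB (θ : Fin 4 → k) (ϖ : Fin 4 → k[X]) (M : ℕ) (m : Fin 4 → ℕ) (a : ℕ) : k[X][X] :=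
  (∏ j, lin (θ j) ^ m j * C (ϖ j ^ (M - m j))) * C (X ^ a)

/-- the space spanned by the functions `fB` with `∑ m_j = M`, `a ≤ I`. -/
noncomputable def MB (θ : Fin 4 → k) (ϖ : Fin 4 → k[X]) (M I : ℕ) : Submodule k k[X][X] :=
  Submodule.span k {F | ∃ (m : Fin 4 → ℕ) (a : ℕ), ∑ j, m j = M ∧ a ≤ I ∧ F = fB θ ϖ M m a}

/-- the rank of a space of functions modulo `g`. -/
noncomputable def rk (g : k[X][X]) (W : Submodule k k[X][X]) : ℕ :=
  Module.finrank k (W.map (Submodule.mkQ ((Ideal.span {g}).restrictScalars k)))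

/-- four distinct points and four pairwise coprime linear polynomials. -/
structure Conf (θ : Fin 4 → k) (ϖ : Fin 4 → k[X]) : Prop where
  inj : Function.Injective θ
  deg : ∀ j, (ϖ j).natDegree = 1
  cop : ∀ i j, i ≠ j → IsCoprime (ϖ i) (ϖ j)

/-- `x_i x_j ~ (n - θ_i)(n - θ_j) ϖ_i ϖ_j` is not a square on the curve `g = 0`. -/
def NSq (θ : Fin 4 → k) (ϖ : Fin 4 → k[X]) (g : k[X][X]) (i j : Fin 4) : Prop :=
  ∀ f h : k[X][X], g ∣ f ^ 2 - lin (θ i) * lin (θ j) * C (ϖ i * ϖ j) * h ^ 2 → g ∣ h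

end Vale.Agent.P018.Q
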