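import Mathlib
import Vale.Agent.P018.Q.RDefs

/-! # P018, quartics, family (B): classification of the curves. -/

namespace Vale.Agent.P018.Q

open Polynomial

variable {k : Type*} [Field k]

namespace RClass

theorem coeff_coeff_swap (p : k[X][X]) (m r : ℕ) :
    ((Bivariate.swap p).coeff r).coeff m = (p.coeff m).coeff r := by
  induction p using Polynomial.induction_on' with
  | add p q hp hq => simp only [map_add, coeff_add, hp, hq]
  | monomial n f =>
    induction f using Polynomial.induction_on' with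
    | add f h hf hh => simp only [map_add, coeff_add, hf, hh]
    | monomial l c =>
      rw [Bivariate.swap_monomial_monomial]
      simp only [coeff_monomial]
      split_ifs <;> simp_all [coeff_monomial]

theorem natDegree_coeff_le (p : k[X][X]) (a : ℕ) : (p.coeff a).natDegree ≤ dIn p := by
  rw [natDegree_le_iff_coeff_eq_zero]
  intro N hN
  rw [← coeff_coeff_swap, coeff_eq_zero_of_natDegree_lt hN, coeff_zero]

/-- homogenisation. -/
noncomputable def hom (g : k[X][X]) (A B : k[X]) : k[X] :=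
  ∑ a ∈ Finset.range (g.natDegree + 1), g.coeff a * B ^ a * A ^ (g.natDegree - a)

theorem natDegree_hom_le (g : k[X][X]) {A B : k[X]} (hA : A.natDegree ≤ 2)
    (hB : B.natDegree ≤ 2) : (hom g A B).natDegree ≤ dIn g + 2 * g.natDegree := by
  unfold hom
  refine natDegree_sum_le_of_forall_le _ _ fun a ha => ?_
  have ha' : a ≤ g.natDegree := Nat.lt_succ_iff.1 (Finset.mem_range.1 ha)
  have h1 : (B ^ a).natDegree ≤ a * 2 := natDegree_pow_le.trans (Nat.mul_le_mul_left a hB)
  have h2 : (A ^ (g.natDegree - a)).natDegree ≤ (g.natDegree - a) * 2 :=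
    natDegree_pow_le.trans (Nat.mul_le_mul_left _ hA)
  have h3 := natDegree_coeff_le g a
  have h4 : (g.coeff a * B ^ a * A ^ (g.natDegree - a)).natDegree ≤
      (g.coeff a).natDegree + (B ^ a).natDegree + (A ^ (g.natDegree - a)).natDegree :=
    natDegree_mul_le.trans (Nat.add_le_add_right natDegree_mul_le _)
  omega

theorem eval_hom (g : k[X][X]) {A B : k[X]} {n0 ξ0 : k} (h : B.eval ξ0 = n0 * A.eval ξ0) :
    (hom g A B).eval ξ0 = (A.eval ξ0) ^ g.natDegree * (g.map (evalRingHom ξ0)).eval n0 := by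
  unfold hom
  rw [eval_finsetSum, eval_eq_sum_range' (n := g.natDegree + 1)
    (Nat.lt_succ_iff.2 natDegree_map_le), Finset.mul_sum]
  refine Finset.sum_congr rfl fun a ha => ?_
  have ha' : a ≤ g.natDegree := Nat.lt_succ_iff.1 (Finset.mem_range.1 ha)
  rw [eval_mul, eval_mul, eval_pow, eval_pow, h, coeff_map, coe_evalRingHom, mul_pow]
  have : (eval ξ0 A) ^ g.natDegree = (eval ξ0 A) ^ a * (eval ξ0 A) ^ (g.natDegree - a) := by
    rw [← pow_add]; congr 1; omega
  rw [this]; ring

theorem hom_eq (g : k[X][X]) {A B : k[X]} (hA : A ≠ 0) :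
    algebraMap k[X] (FractionRing k[X]) (hom g A B) =
      (algebraMap k[X] (FractionRing k[X]) A) ^ g.natDegree *
        (g.map (algebraMap k[X] (FractionRing k[X]))).eval
          (algebraMap k[X] (FractionRing k[X]) B / algebraMap k[X] (FractionRing k[X]) A) := by
  have hA' : algebraMap k[X] (FractionRing k[X]) A ≠ 0 := by
    simpa using hA
  unfold hom
  rw [map_sum, eval_eq_sum_range' (n := g.natDegree + 1)
    (Nat.lt_succ_iff.2 natDegree_map_le), Finset.mul_sum]
  refine Finset.sum_congr rfl fun a ha => ?_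
  have ha' : a ≤ g.natDegree := Nat.lt_succ_iff.1 (Finset.mem_range.1 ha)
  rw [map_mul, map_mul, map_pow, map_pow, coeff_map, div_pow]
  have : (algebraMap k[X] (FractionRing k[X]) A) ^ g.natDegree =
      (algebraMap k[X] (FractionRing k[X]) A) ^ a *
      (algebraMap k[X] (FractionRing k[X]) A) ^ (g.natDegree - a) := by
    rw [← pow_add]; congr 1; omega
  rw [this]
  field_simp

theorem natDegree_tw_le (θ : k) {ϖ : k[X]} (g : k[X][X]) :
    (tw θ ϖ g).natDegree ≤ g.natDegree := by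
  unfold tw
  refine natDegree_comp_le.trans ?_
  have : (C (C θ) + C ϖ * X : k[X][X]).natDegree ≤ 1 := by
    refine (natDegree_add_le _ _).trans ?_
    rw [natDegree_C]
    exact max_le (Nat.zero_le _) ((natDegree_C_mul_le _ _).trans natDegree_X_le)
  exact (Nat.mul_le_mul_left _ this).trans (by rw [mul_one])

theorem dvd_hom (θ : k) {ϖ A B D : k[X]} {g : k[X][X]} {w : ℕ} (hA : A ≠ 0)
    (hB : B = C θ * A + ϖ * D) (hw : C ϖ ^ w ∣ tw θ ϖ g) : ϖ ^ w ∣ hom g A B := by
  have hA' : algebraMap k[X] (FractionRing k[X]) A ≠ 0 := by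
    simpa using hA
  have key : hom g A B = ∑ a ∈ Finset.range (g.natDegree + 1),
      (tw θ ϖ g).coeff a * D ^ a * A ^ (g.natDegree - a) := by
    apply IsFractionRing.injective k[X] (FractionRing k[X])
    rw [hom_eq g hA]
    have h1 : (g.map (algebraMap k[X] (FractionRing k[X]))).eval
          (algebraMap k[X] (FractionRing k[X]) B / algebraMap k[X] (FractionRing k[X]) A) =
        ((tw θ ϖ g).map (algebraMap k[X] (FractionRing k[X]))).eval
          (algebraMap k[X] (FractionRing k[X]) D / algebraMap k[X] (FractionRing k[X]) A) := by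
      unfold tw
      rw [map_comp, eval_comp]
      congr 1
      rw [Polynomial.map_add, Polynomial.map_mul, map_C, map_C, map_X, eval_add, eval_mul,
        eval_C, eval_C, eval_X, hB, map_add, map_mul, map_mul]
      field_simp
    rw [h1, map_sum, eval_eq_sum_range' (n := g.natDegree + 1)
      (Nat.lt_succ_iff.2 (natDegree_map_le.trans (natDegree_tw_le θ g))), Finset.mul_sum]
    refine Finset.sum_congr rfl fun a ha => ?_
    have ha' : a ≤ g.natDegree := Nat.lt_succ_iff.1 (Finset.mem_range.1 ha)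
    rw [map_mul, map_mul, map_pow, map_pow, coeff_map, div_pow]
    have : (algebraMap k[X] (FractionRing k[X]) A) ^ g.natDegree =
        (algebraMap k[X] (FractionRing k[X]) A) ^ a *
        (algebraMap k[X] (FractionRing k[X]) A) ^ (g.natDegree - a) := by
      rw [← pow_add]; congr 1; omega
    rw [this]
    field_simp
  rw [key]
  refine Finset.dvd_sum fun a _ => ?_
  rw [← C_pow, C_dvd_iff_dvd_coeff] at hw
  exact Dvd.dvd.mul_right (Dvd.dvd.mul_right (hw a) _) _

theorem hom_ne_zero {g : k[X][X]} (hg : Irreducible g) (hE : 2 ≤ g.natDegree) {A B : k[X]}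
    (hA : A ≠ 0) : hom g A B ≠ 0 := by
  intro h
  have hA' : algebraMap k[X] (FractionRing k[X]) A ≠ 0 := by
    simpa using hA
  have h1 := hom_eq g (B := B) hA
  rw [h, map_zero] at h1
  have h2 : (g.map (algebraMap k[X] (FractionRing k[X]))).eval
          (algebraMap k[X] (FractionRing k[X]) B / algebraMap k[X] (FractionRing k[X]) A) = 0 := by
    rcases mul_eq_zero.1 h1.symm with h3 | h3
    · exact absurd (eq_zero_of_pow_eq_zero h3) hA'
    · exact h3
  have hirr : Irreducible (g.map (algebraMap k[X] (FractionRing k[X]))) :=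
    (IsPrimitive.irreducible_iff_irreducible_map_fraction_map
      (hg.isPrimitive (by omega))).1 hg
  refine hirr.not_isRoot_of_natDegree_ne_one ?_ h2
  rw [natDegree_map_eq_of_injective (IsFractionRing.injective k[X] (FractionRing k[X]))]
  omega

/-- a polynomial of degree `≤ 2` divisible by four pairwise coprime linear ones is `0`. -/
theorem eq_zero_of_dvd {ϖ : Fin 4 → k[X]} (hd : ∀ j, (ϖ j).natDegree = 1)
    (hc : ∀ i j, i ≠ j → IsCoprime (ϖ i) (ϖ j)) {B : k[X]} (hB : B.natDegree ≤ 2)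
    (h : ∀ j, ϖ j ∣ B) : B = 0 := by
  by_contra hne
  have h1 : (∏ j, ϖ j) ∣ B :=
    Finset.prod_dvd_of_coprime (fun i _ j _ hij => hc i j hij) (fun j _ => h j)
  have h2 := natDegree_le_of_dvd h1 hne
  rw [natDegree_prod _ _ (fun j _ => by
    intro h0; have := hd j; rw [h0, natDegree_zero] at this; omega)] at h2
  simp only [hd, Finset.sum_const, Finset.card_univ, Fintype.card_fin, smul_eq_mul] at h2
  omega

/-- existence of the pencil element. -/
theorem exists_pair (θ : Fin 4 → k) (ρ : Fin 4 → k) (n0 ξ0 : k) :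
    ∃ A B : k[X], A.natDegree ≤ 2 ∧ B.natDegree ≤ 2 ∧ (A ≠ 0 ∨ B ≠ 0) ∧
      (∀ j, (B - C (θ j) * A).eval (ρ j) = 0) ∧ B.eval ξ0 = n0 * A.eval ξ0 := by
  classical
  let P : (Fin 3 → k) →ₗ[k] k[X] :=
    (degreeLT k 3).subtype ∘ₗ (degreeLTEquiv k 3).symm.toLinearMap
  have hPinj : Function.Injective P := by
    intro u v huv
    apply (degreeLTEquiv k 3).symm.injective
    exact Subtype.ext huv
  have hPdeg : ∀ v, (P v).natDegree ≤ 2 := by
    intro v
    have h1 : P v ∈ degreeLT k 3 := ((degreeLTEquiv k 3).symm v).2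
    rw [mem_degreeLT] at h1
    refine natDegree_le_iff_coeff_eq_zero.2 fun N hN => ?_
    refine coeff_eq_zero_of_degree_lt (h1.trans_le ?_)
    exact_mod_cast hN
  let L : ((Fin 3 → k) × (Fin 3 → k)) →ₗ[k] ((Fin 4 → k) × k) :=
    LinearMap.prod
      (LinearMap.pi fun j => (leval (ρ j)) ∘ₗ
        (P ∘ₗ LinearMap.snd k _ _ - (θ j) • (P ∘ₗ LinearMap.fst k _ _)))
      ((leval ξ0) ∘ₗ (P ∘ₗ LinearMap.snd k _ _ - n0 • (P ∘ₗ LinearMap.fst k _ _)))
  have hker : LinearMap.ker L ≠ ⊥ := by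
    refine LinearMap.ker_ne_bot_of_finrank_lt ?_
    rw [Module.finrank_prod, Module.finrank_prod, Module.finrank_fin_fun, Module.finrank_fin_fun,
      Module.finrank_self]
    norm_num
  obtain ⟨v, hv, hv0⟩ := (Submodule.ne_bot_iff _).1 hker
  rw [LinearMap.mem_ker] at hv
  refine ⟨P v.1, P v.2, hPdeg _, hPdeg _, ?_, fun j => ?_, ?_⟩
  · by_contra hcon
    push Not at hcon
    apply hv0
    have h1 : v.1 = 0 := hPinj (by rw [hcon.1, map_zero])
    have h2 : v.2 = 0 := hPinj (by rw [hcon.2, map_zero])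
    exact Prod.ext h1 h2
  · have h1 := congrFun (congrArg Prod.fst hv) j
    have h2 : eval (ρ j) (P v.2) - θ j * eval (ρ j) (P v.1) = 0 := by
      simpa [L, leval_apply, smul_eq_C_mul] using h1
    rw [eval_sub, eval_mul, eval_C]
    exact h2
  · have h1 := congrArg Prod.snd hv
    have h2 : eval ξ0 (P v.2) - n0 * eval ξ0 (P v.1) = 0 := by
      simpa [L, leval_apply, smul_eq_C_mul] using h1
    exact sub_eq_zero.1 h2

end RClass

open RClass in
/-- a curve of degree `≥ 2` in `n` which has a point outside `∏ ϖ_j = 0`. -/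
theorem class_d {θ : Fin 4 → k} {ϖ : Fin 4 → k[X]} (hc : Conf θ ϖ) {g : k[X][X]}
    (hg : Irreducible g) (hE : 2 ≤ g.natDegree) {w : Fin 4 → ℕ}
    (hw : ∀ j, C (ϖ j) ^ w j ∣ tw (θ j) (ϖ j) g) {n0 ξ0 : k}
    (h0 : (g.map (evalRingHom ξ0)).eval n0 = 0) (hξ : ∀ j, (ϖ j).eval ξ0 ≠ 0) :
    ∑ j, w j + 1 ≤ dIn g + 2 * g.natDegree := by
  classical
  have hne : ∀ j, ϖ j ≠ 0 := by
    intro j h
    have := hc.deg j
    rw [h, natDegree_zero] at this
    omega
  -- the roots
  have hroot : ∀ j, ∃ ρ : k, ∃ c : k, c ≠ 0 ∧ ϖ j = C c * (X - C ρ) := by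
    intro j
    have h1 := hc.deg j
    have h2 : (ϖ j).coeff 1 ≠ 0 := by
      have := leadingCoeff_ne_zero.2 (hne j)
      rwa [leadingCoeff, h1] at this
    refine ⟨-(ϖ j).coeff 0 / (ϖ j).coeff 1, (ϖ j).coeff 1, h2, ?_⟩
    conv_lhs => rw [eq_X_add_C_of_natDegree_le_one h1.le]
    rw [mul_sub, ← C_mul]
    have : (ϖ j).coeff 1 * (-(ϖ j).coeff 0 / (ϖ j).coeff 1) = -(ϖ j).coeff 0 := by
      field_simp
    rw [this, C_neg, sub_neg_eq_add]
  choose ρ c hc0 hϖ using hroot
  obtain ⟨A, B, hA2, hB2, hAB, hj, hB0⟩ := exists_pair θ ρ n0 ξ0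
  have hdvd : ∀ j, ϖ j ∣ B - C (θ j) * A := by
    intro j
    have h1 : (X - C (ρ j)) ∣ B - C (θ j) * A := dvd_iff_isRoot.2 (hj j)
    rw [hϖ j]
    obtain ⟨q, hq⟩ := h1
    refine ⟨C (c j)⁻¹ * q, ?_⟩
    rw [hq]
    have : (C (c j) : k[X]) * C (c j)⁻¹ = 1 := by rw [← C_mul, mul_inv_cancel₀ (hc0 j), C_1]
    linear_combination (-(X - C (ρ j)) * q) * this
  have hA : A ≠ 0 := by
    rintro rfl
    have hB : B = 0 := by
      refine eq_zero_of_dvd hc.deg hc.cop hB2 fun j => ?_
      simpa using hdvd j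
    rcases hAB with h | h
    · exact h rfl
    · exact h hB
  have hr0 := hom_ne_zero hg hE (B := B) hA
  have hrdeg := natDegree_hom_le g hA2 hB2
  have hr1 : ∀ j, ϖ j ^ w j ∣ hom g A B := by
    intro j
    obtain ⟨D, hD⟩ := hdvd j
    exact dvd_hom (θ j) (D := D) hA (by rw [← hD]; ring) (hw j)
  have hr2 : (X - C ξ0) ∣ hom g A B := by
    rw [dvd_iff_isRoot, IsRoot, eval_hom g hB0, h0, mul_zero]
  have hcop1 : IsCoprime (X - C ξ0) (∏ j, ϖ j ^ w j) := by
    refine IsCoprime.prod_right fun j _ => IsCoprime.pow_right ?_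
    refine (irreducible_X_sub_C ξ0).coprime_iff_not_dvd.2 fun h => hξ j ?_
    exact dvd_iff_isRoot.1 h
  have h3 : (X - C ξ0) * (∏ j, ϖ j ^ w j) ∣ hom g A B := by
    refine hcop1.mul_dvd hr2 ?_
    exact Finset.prod_dvd_of_coprime (fun i _ j _ hij => (hc.cop i j hij).pow) (fun j _ => hr1 j)
  have h4 := natDegree_le_of_dvd h3 hr0
  have h5 : (∏ j, ϖ j ^ w j) ≠ 0 := Finset.prod_ne_zero_iff.2 fun j _ => pow_ne_zero _ (hne j)
  rw [natDegree_mul (X_sub_C_ne_zero ξ0) h5, natDegree_X_sub_C,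
    natDegree_prod _ _ (fun j _ => pow_ne_zero _ (hne j))] at h4
  simp only [natDegree_pow, hc.deg, mul_one] at h4
  omega

end Vale.Agent.P018.Q
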