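import Mathlib
import Vale.Agent.P018.Q.BDefs
import Vale.Agent.P018.Q.BKum
import Vale.Agent.P018.Q.RDefs

/-! # P018, (B): from ranks modulo the curve to the dimension of the span at a generic point. -/

namespace Vale.Agent.P018.QB

open Polynomial Vale.Agent.P018.Q

variable {Ω : Type} [Field Ω] [Algebra ℂ Ω]

/-- evaluation as an algebra homomorphism. -/
noncomputable def evh (n w : Ω) : ℂ[X][X] →ₐ[ℂ] Ω :=
  { eval₂RingHom (aeval w : ℂ[X] →ₐ[ℂ] Ω).toRingHom n with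
    commutes' := fun r => by
      change eval₂ (aeval w : ℂ[X] →ₐ[ℂ] Ω).toRingHom n (C (C r)) = _
      rw [eval₂_C]
      simp }

theorem evh_apply (n w : Ω) (F : ℂ[X][X]) : evh n w F = evB n w F := rfl

@[simp] theorem evh_X (n w : Ω) : evh n w X = n := by
  rw [evh_apply, evB, eval₂_X]

theorem evh_C (n w : Ω) (P : ℂ[X]) : evh n w (C P) = aeval w P := by
  rw [evh_apply, evB, eval₂_C]; rfl

/-- the field `ℂ(n, w)` inside `Ω`. -/
def KF (n w : Ω) : Subfield Ω where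
  carrier := {z | ∃ P Q : ℂ[X][X], evh n w Q ≠ 0 ∧ z * evh n w Q = evh n w P}
  mul_mem' := by
    rintro a b ⟨P, Q, hQ, h⟩ ⟨P', Q', hQ', h'⟩
    refine ⟨P * P', Q * Q', ?_, ?_⟩
    · rw [map_mul]; exact mul_ne_zero hQ hQ'
    · rw [map_mul, map_mul, ← h, ← h']; ring
  one_mem' := ⟨1, 1, by simp, by simp⟩
  add_mem' := by
    rintro a b ⟨P, Q, hQ, h⟩ ⟨P', Q', hQ', h'⟩
    refine ⟨P * Q' + P' * Q, Q * Q', ?_, ?_⟩
    · rw [map_mul]; exact mul_ne_zero hQ hQ'
    · rw [map_add, map_mul, map_mul, map_mul, ← h, ← h']; ring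
  zero_mem' := ⟨0, 1, by simp, by simp⟩
  neg_mem' := by
    rintro a ⟨P, Q, hQ, h⟩
    exact ⟨-P, Q, hQ, by rw [map_neg, ← h]; ring⟩
  inv_mem' := by
    rintro a ⟨P, Q, hQ, h⟩
    by_cases ha : a = 0
    · subst ha
      exact ⟨0, 1, by simp, by simp⟩
    · refine ⟨Q, P, ?_, ?_⟩
      · rw [← h]; exact mul_ne_zero ha hQ
      · rw [← h]; field_simp

theorem mem_KF {n w z : Ω} :
    z ∈ KF n w ↔ ∃ P Q : ℂ[X][X], evh n w Q ≠ 0 ∧ z * evh n w Q = evh n w P := Iff.rfl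

theorem evh_mem_KF (n w : Ω) (P : ℂ[X][X]) : evh n w P ∈ KF n w :=
  ⟨P, 1, by simp, by simp⟩

/-- the linear polynomials `γ_j`. -/
noncomputable def gm (g1 g2 : Fin 4 → ℂ) (j : Fin 4) : ℂ[X] := C (g1 j) + C (g2 j) * X

theorem aeval_gm (g1 g2 : Fin 4 → ℂ) (j : Fin 4) (w : Ω) :
    aeval w (gm g1 g2 j) = algebraMap ℂ Ω (g1 j) + w * algebraMap ℂ Ω (g2 j) := by
  rw [gm, map_add, map_mul, aeval_C, aeval_C, aeval_X, mul_comm w]

/-- (T1) a non square gives `π_i π_j ∉ ℂ(n, w)`. -/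
theorem nsq_not_mem {α g1 g2 : Fin 4 → ℂ} {c : ℂ} {n w : Ω} {pi : Fin 4 → Ω} {g : ℂ[X][X]}
    (hM : Mdl α g1 g2 c Ω n w pi) (hg : ∀ F, evB n w F = 0 ↔ g ∣ F) (hc : c ≠ 0) {i j : Fin 4}
    (hN : NSq α (gm g1 g2) g i j) : pi i * pi j ∉ KF n w := by
  rintro ⟨P, Q, hQ, h⟩
  set a := pi i with ha
  set b := pi j with hb
  have h1 := hM.eq i
  have h2 := hM.eq j
  rw [← ha, ← aeval_gm, ← evh_C n w] at h1
  rw [← hb, ← aeval_gm, ← evh_C n w] at h2
  have h3 := hN (P * C (gm g1 g2 i) * C (gm g1 g2 j)) (C (C c) * Q) (by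
    rw [← hg, ← evh_apply]
    simp only [map_sub, map_mul, map_pow, Vale.Agent.P018.Q.lin, evh_X]
    have hcc : evh n w (C (C c)) = algebraMap ℂ Ω c := by rw [evh_C]; simp
    have hai : evh n w (C (C (α i))) = algebraMap ℂ Ω (α i) := by rw [evh_C]; simp
    have haj : evh n w (C (C (α j))) = algebraMap ℂ Ω (α j) := by rw [evh_C]; simp
    rw [hcc, hai, haj, ← h]
    set u := evh n w (C (gm g1 g2 i))
    set v := evh n w (C (gm g1 g2 j))
    have e : (a * b * evh n w Q * u * v) ^ 2 - (n - algebraMap ℂ Ω (α i)) *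
        (n - algebraMap ℂ Ω (α j)) * (u * v) * (algebraMap ℂ Ω c * evh n w Q) ^ 2 =
        (evh n w Q) ^ 2 * u * v * ((a ^ 2 * u) * (b ^ 2 * v) -
          (algebraMap ℂ Ω c * (n - algebraMap ℂ Ω (α i))) *
          (algebraMap ℂ Ω c * (n - algebraMap ℂ Ω (α j)))) := by ring
    rw [e, h1, h2]
    ring)
  rw [← hg, ← evh_apply, map_mul, evh_C, aeval_C] at h3
  rcases mul_eq_zero.1 h3 with h4 | h4
  · exact hc (by simpa using h4)
  · exact hQ h4

/-- (T2) the classes are independent. -/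
theorem sum_finrank_le (F : Subfield Ω) {ι : Type} [Fintype ι] (ω : ι → Ω)
    (hω : LinearIndependent F ω) (E : ι → Submodule ℂ Ω) [∀ i, FiniteDimensional ℂ (E i)]
    (hE : ∀ i, ∀ z ∈ E i, z ∈ F) (V : Submodule ℂ Ω) [FiniteDimensional ℂ V]
    (hV : ∀ i, ∀ z ∈ E i, ω i * z ∈ V) :
    ∑ i, Module.finrank ℂ (E i) ≤ Module.finrank ℂ V := by
  classical
  rw [← Module.finrank_pi_fintype]
  let L : (∀ i, E i) →ₗ[ℂ] V :=
    { toFun := fun z => ⟨∑ i, ω i * (z i : Ω), Submodule.sum_mem _ fun i _ => hV i _ (z i).2⟩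
      map_add' := fun z z' => by
        ext
        simp [mul_add, Finset.sum_add_distrib]
      map_smul' := fun r z => by
        ext
        simp [Finset.smul_sum] }
  refine LinearMap.finrank_le_finrank_of_injective (f := L) ?_
  rw [← LinearMap.ker_eq_bot, LinearMap.ker_eq_bot']
  intro z hz
  have h1 : ∑ i, ω i * (z i : Ω) = 0 := congrArg Subtype.val hz
  have h2 := Fintype.linearIndependent_iff.1 hω (fun i => (⟨z i, hE i _ (z i).2⟩ : F)) (by
    rw [← h1]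
    refine Finset.sum_congr rfl fun i _ => ?_
    rw [Subfield.smul_def, smul_eq_mul, mul_comm])
  funext i
  ext
  exact congrArg (fun t : F => (t : Ω)) (h2 i)

/-- the image of a subspace at the generic point has dimension `rk`. -/
theorem finrank_map_evh {n w : Ω} {g : ℂ[X][X]} (hg : ∀ F, evB n w F = 0 ↔ g ∣ F)
    (W : Submodule ℂ ℂ[X][X]) :
    Module.finrank ℂ (W.map (evh n w).toLinearMap) = rk g W := by
  unfold rk
  set I : Submodule ℂ ℂ[X][X] := (Ideal.span {g}).restrictScalars ℂ with hI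
  have hker : I = LinearMap.ker (evh n w).toLinearMap := by
    ext F
    rw [hI, Submodule.restrictScalars_mem, Ideal.mem_span_singleton, LinearMap.mem_ker, ← hg]
    rfl
  let T : (ℂ[X][X] ⧸ I) →ₗ[ℂ] Ω := I.liftQ (evh n w).toLinearMap hker.le
  have hT : Function.Injective T := by
    rw [← LinearMap.ker_eq_bot]
    exact Submodule.ker_liftQ_eq_bot _ _ _ hker.ge
  have h1 : W.map (evh n w).toLinearMap = (W.map (Submodule.mkQ I)).map T := by
    rw [← Submodule.map_comp, Submodule.liftQ_mkQ]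
  rw [h1]
  exact (LinearEquiv.finrank_eq (Submodule.equivMapOfInjective T hT _)).symm

/-- the functions `fB` at the generic point. -/
theorem evh_fB {α g1 g2 : Fin 4 → ℂ} {c : ℂ} {n w : Ω} {pi : Fin 4 → Ω}
    (hM : Mdl α g1 g2 c Ω n w pi) (M : ℕ) (m : Fin 4 → ℕ) (hm : ∑ j, m j = M) (a : ℕ) :
    (algebraMap ℂ Ω c) ^ M * evh n w (fB α (gm g1 g2) M m a) =
      (∏ j, (algebraMap ℂ Ω (g1 j) + w * algebraMap ℂ Ω (g2 j))) ^ M * (w ^ a * ∏ j, pi j ^ (2 * m j)) := by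
  have hle : ∀ j, m j ≤ M := fun j => by
    rw [← hm]; exact Finset.single_le_sum (fun _ _ => Nat.zero_le _) (Finset.mem_univ j)
  have h1 : evh n w (fB α (gm g1 g2) M m a) = (∏ j, (n - algebraMap ℂ Ω (α j)) ^ m j *
      (algebraMap ℂ Ω (g1 j) + w * algebraMap ℂ Ω (g2 j)) ^ (M - m j)) * w ^ a := by
    unfold fB
    rw [map_mul, map_prod, evh_C, map_pow, aeval_X]
    congr 1
    refine Finset.prod_congr rfl fun j _ => ?_
    rw [map_mul, map_pow, evh_C, map_pow, aeval_gm, Vale.Agent.P018.Q.lin, map_sub, evh_X, evh_C,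
      aeval_C]
  have h2 : (algebraMap ℂ Ω c) ^ M = ∏ j, (algebraMap ℂ Ω c) ^ m j := by
    rw [Finset.prod_pow_eq_pow_sum, hm]
  rw [h1, h2, ← mul_assoc, ← Finset.prod_mul_distrib, ← Finset.prod_pow, mul_comm (w ^ a),
    ← mul_assoc, ← Finset.prod_mul_distrib]
  congr 1
  refine Finset.prod_congr rfl fun j _ => ?_
  rw [← mul_assoc, ← mul_pow, ← hM.eq j, mul_pow, pow_mul]
  have h3 : (algebraMap ℂ Ω (g1 j) + w * algebraMap ℂ Ω (g2 j)) ^ M =
      (algebraMap ℂ Ω (g1 j) + w * algebraMap ℂ Ω (g2 j)) ^ m j *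
      (algebraMap ℂ Ω (g1 j) + w * algebraMap ℂ Ω (g2 j)) ^ (M - m j) := by
    rw [← pow_add, Nat.add_sub_cancel' (hle j)]
  rw [h3]
  ring

/-- (T2) several classes: `ω_χ = ∏ π_j^(δ_χ j)`. -/
theorem sum_rk_le {α g1 g2 : Fin 4 → ℂ} {c : ℂ} {n w : Ω} {pi : Fin 4 → Ω} {g : ℂ[X][X]}
    (hM : Mdl α g1 g2 c Ω n w pi) (hg : ∀ F, evB n w F = 0 ↔ g ∣ F) (hc : c ≠ 0)
    {ι : Type} [Fintype ι] (δ : ι → Fin 4 → ℕ) (s : ι → ℕ) (hδ : ∀ χ, ∑ j, δ χ j = 2 * s χ)
    (hω : LinearIndependent (KF n w) fun χ => ∏ j, pi j ^ δ χ j) (I t : ℕ)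
    (hs : ∀ χ, s χ ≤ t) :
    ∑ χ, rk g (MB α (gm g1 g2) (t - s χ) I) ≤
      Module.finrank ℂ (spn w pi (mons I (2 * t) : Set Ix)) := by
  classical
  have hcΩ : algebraMap ℂ Ω c ≠ 0 := by
    rw [Ne, map_eq_zero_iff _ (algebraMap ℂ Ω).injective]; exact hc
  set G : Ω := ∏ j, (algebraMap ℂ Ω (g1 j) + w * algebraMap ℂ Ω (g2 j)) with hG
  have hG0 : G ≠ 0 := Finset.prod_ne_zero_iff.2 fun j _ => hM.ne j
  have hGmem : G ∈ KF n w := by
    rw [hG]
    refine prod_mem fun j _ => ?_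
    rw [← aeval_gm, ← evh_C n w]
    exact evh_mem_KF _ _ _
  have hcmem : algebraMap ℂ Ω c ∈ KF n w := by
    have := evh_mem_KF n w (C (C c))
    rwa [evh_C, aeval_C] at this
  let lam : ι → Ω := fun χ => (algebraMap ℂ Ω c) ^ (t - s χ) * (G ^ (t - s χ))⁻¹
  have hlam0 : ∀ χ, lam χ ≠ 0 := fun χ => mul_ne_zero (pow_ne_zero _ hcΩ)
    (inv_ne_zero (pow_ne_zero _ hG0))
  have hfinMB : ∀ M I : ℕ, FiniteDimensional ℂ (MB α (gm g1 g2) M I) := by
    intro M I
    refine FiniteDimensional.span_of_finite ℂ ?_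
    refine (((Finset.piAntidiag Finset.univ M) ×ˢ (Finset.range (I + 1)) :
      Finset ((Fin 4 → ℕ) × ℕ)).finite_toSet.image
      (fun x => fB α (gm g1 g2) M x.1 x.2)).subset ?_
    rintro F ⟨m, a, hm, ha, rfl⟩
    refine ⟨(m, a), ?_, rfl⟩
    simp only [Finset.coe_product, Set.mem_prod, Finset.mem_coe, Finset.mem_piAntidiag,
      Finset.mem_range]
    exact ⟨⟨hm, fun _ _ => Finset.mem_univ _⟩, by omega⟩
  let E : ι → Submodule ℂ Ω := fun χ =>
    ((MB α (gm g1 g2) (t - s χ) I).map (evh n w).toLinearMap).map (LinearMap.mulLeft ℂ (lam χ))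
  have hEfin : ∀ χ, FiniteDimensional ℂ (E χ) := by
    intro χ
    have := hfinMB (t - s χ) I
    infer_instance
  have hErk : ∀ χ, Module.finrank ℂ (E χ) = rk g (MB α (gm g1 g2) (t - s χ) I) := by
    intro χ
    rw [← finrank_map_evh hg]
    refine (LinearEquiv.finrank_eq (Submodule.equivMapOfInjective (LinearMap.mulLeft ℂ (lam χ)) ?_
      _)).symm
    intro a b hab
    exact mul_left_cancel₀ (hlam0 χ) hab
  have hEF : ∀ χ, ∀ z ∈ E χ, z ∈ KF n w := by
    rintro χ z ⟨z', ⟨F, _, rfl⟩, rfl⟩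
    exact mul_mem (mul_mem (pow_mem hcmem _) (inv_mem (pow_mem hGmem _))) (evh_mem_KF _ _ F)
  have hVfin : FiniteDimensional ℂ (spn w pi (mons I (2 * t) : Set Ix)) := by
    refine FiniteDimensional.span_of_finite ℂ ?_
    exact (Finset.finite_toSet _).image _
  have hEV : ∀ χ, ∀ z ∈ E χ, (∏ j, pi j ^ δ χ j) * z ∈ spn w pi (mons I (2 * t) : Set Ix) := by
    intro χ
    have h1 : (((MB α (gm g1 g2) (t - s χ) I).map (evh n w).toLinearMap).map
        (LinearMap.mulLeft ℂ (lam χ))).map (LinearMap.mulLeft ℂ (∏ j, pi j ^ δ χ j)) ≤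
        spn w pi (mons I (2 * t) : Set Ix) := by
      unfold MB
      rw [Submodule.map_span, Submodule.map_span, Submodule.map_span, Submodule.span_le]
      rintro _ ⟨_, ⟨_, ⟨_, ⟨m, a, hm, ha, rfl⟩, rfl⟩, rfl⟩, rfl⟩
      have h2 := evh_fB hM (t - s χ) m hm a
      rw [← hG] at h2
      have h3 : lam χ * evh n w (fB α (gm g1 g2) (t - s χ) m a) = w ^ a * ∏ j, pi j ^ (2 * m j) := by
        simp only [lam]
        rw [mul_right_comm, h2]
        field_simp
      rw [SetLike.mem_coe]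
      refine Submodule.subset_span ⟨((I - a, a), fun j => 2 * m j + δ χ j), ?_, ?_⟩
      · rw [SetLike.mem_coe, mons, Finset.mem_product, Finset.HasAntidiagonal.mem_antidiagonal,
          Finset.mem_piAntidiag]
        refine ⟨by simp only; omega, ?_, fun _ _ => Finset.mem_univ _⟩
        rw [Finset.sum_add_distrib, ← Finset.mul_sum, hm, hδ]
        have := hs χ
        omega
      · simp only [LinearMap.mulLeft_apply, AlgHom.toLinearMap_apply]
        rw [h3]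
        unfold fv
        simp only [one_pow, one_mul, pow_add, Finset.prod_mul_distrib]
        ring
    intro z hz
    exact h1 ⟨z, hz, rfl⟩
  calc ∑ χ, rk g (MB α (gm g1 g2) (t - s χ) I) = ∑ χ, Module.finrank ℂ (E χ) :=
        Finset.sum_congr rfl fun χ _ => (hErk χ).symm
    _ ≤ _ := sum_finrank_le (KF n w) _ hω E hEF _ hEV

theorem pi_sq_mem_KF {α g1 g2 : Fin 4 → ℂ} {c : ℂ} {n w : Ω} {pi : Fin 4 → Ω}
    (hM : Mdl α g1 g2 c Ω n w pi) (j : Fin 4) : pi j ^ 2 ∈ KF n w := by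
  refine ⟨C (C c) * (X - C (C (α j))), C (gm g1 g2 j), ?_, ?_⟩
  · rw [evh_C, aeval_gm]; exact hM.ne j
  · rw [evh_C, aeval_gm, hM.eq j, map_mul, map_sub, evh_X, evh_C, evh_C, aeval_C, aeval_C]

theorem mem_range_KF {n w z : Ω} : z ∈ (algebraMap (KF n w) Ω).range ↔ z ∈ KF n w := by
  constructor
  · rintro ⟨x, rfl⟩
    exact x.2
  · intro h
    exact ⟨⟨z, h⟩, rfl⟩

theorem one_class {n w : Ω} {pi : Fin 4 → Ω} :
    LinearIndependent (KF n w) fun χ : Fin 1 => ∏ j, pi j ^ (![(0 : Fin 4 → ℕ)] χ) j := by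
  refine LinearIndependent.of_subsingleton (0 : Fin 1) ?_
  simp

theorem prod_pow_single (pi : Fin 4 → Ω) (a : Fin 4) :
    ∏ j, pi j ^ (Pi.single a 1 : Fin 4 → ℕ) j = pi a := by
  rw [Finset.prod_eq_single a]
  · simp
  · intro b _ hb
    rw [Pi.single_eq_of_ne hb, pow_zero]
  · simp

theorem prod_pow_pair (pi : Fin 4 → Ω) (a b : Fin 4) :
    ∏ j, pi j ^ (Pi.single a 1 + Pi.single b 1 : Fin 4 → ℕ) j = pi a * pi b := by
  simp only [Pi.add_apply, pow_add, Finset.prod_mul_distrib, prod_pow_single]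

theorem charZero_KF (n w : Ω) : CharZero (KF n w) := by
  have h : CharZero Ω := charZero_of_injective_algebraMap (algebraMap ℂ Ω).injective
  refine ⟨fun a b hab => ?_⟩
  have h1 := congrArg (fun t : KF n w => (t : Ω)) hab
  exact Nat.cast_injective (R := Ω) (by simpa using h1)

theorem two_classes {α g1 g2 : Fin 4 → ℂ} {c : ℂ} {n w : Ω} {pi : Fin 4 → Ω}
    (hM : Mdl α g1 g2 c Ω n w pi) {a b : Fin 4} (h : pi a * pi b ∉ KF n w) :
    LinearIndependent (KF n w) fun χ : Fin 2 =>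
      ∏ j, pi j ^ (![(0 : Fin 4 → ℕ), Pi.single a 1 + Pi.single b 1] χ) j := by
  have := charZero_KF n w
  have e1 : ∏ j, pi j ^ (![(0 : Fin 4 → ℕ), Pi.single a 1 + Pi.single b 1] 0) j = 1 := by simp
  have e2 : ∏ j, pi j ^ (![(0 : Fin 4 → ℕ), Pi.single a 1 + Pi.single b 1] 1) j = pi a * pi b :=
    prod_pow_pair pi a b
  have hne : pi a * pi b ≠ 0 := fun h0 => h (h0 ▸ zero_mem _)
  refine kummer_indep _ ?_ ?_ ?_
  · intro χ
    fin_cases χ
    · simp only [Fin.zero_eta, e1]; exact one_ne_zero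
    · simp only [Fin.mk_one, e2]; exact hne
  · intro χ
    rw [mem_range_KF]
    fin_cases χ
    · simp only [Fin.zero_eta, e1]; simpa using one_mem _
    · simp only [Fin.mk_one, e2, mul_pow]
      exact mul_mem (pi_sq_mem_KF hM a) (pi_sq_mem_KF hM b)
  · intro χ ψ hne
    rw [mem_range_KF]
    fin_cases χ <;> fin_cases ψ <;> simp only [Fin.zero_eta, Fin.mk_one, e1, e2, one_mul,
      mul_one] at * <;> first | exact h | exact absurd rfl hne

theorem four_classes {α g1 g2 : Fin 4 → ℂ} {c : ℂ} {n w : Ω} {pi : Fin 4 → Ω}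
    (hM : Mdl α g1 g2 c Ω n w pi) (h : ∀ a b, a ≠ b → pi a * pi b ∉ KF n w) :
    LinearIndependent (KF n w) fun χ : Fin 4 =>
      ∏ j, pi j ^ (![(0 : Fin 4 → ℕ), Pi.single 0 1 + Pi.single 1 1,
        Pi.single 0 1 + Pi.single 2 1, Pi.single 1 1 + Pi.single 2 1] χ) j := by
  have := charZero_KF n w
  have hne : ∀ a b, a ≠ b → pi a * pi b ≠ 0 := fun a b hab h0 => h a b hab (h0 ▸ zero_mem _)
  have hpi : ∀ a, pi a ≠ 0 := by
    intro a h0
    obtain ⟨b, hb⟩ : ∃ b : Fin 4, a ≠ b := ⟨a + 1, by fin_cases a <;> decide⟩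
    exact hne a b hb (by rw [h0, zero_mul])
  have key : ∀ a b d, b ≠ d → pi a ^ 2 * (pi b * pi d) ∉ KF n w := by
    intro a b d hbd hmem
    apply h b d hbd
    have h1 := mul_mem (inv_mem (pi_sq_mem_KF hM a)) hmem
    rwa [← mul_assoc, inv_mul_cancel₀ (pow_ne_zero 2 (hpi a)), one_mul] at h1
  set W : Fin 4 → Ω := ![1, pi 0 * pi 1, pi 0 * pi 2, pi 1 * pi 2] with hW
  have e : (fun χ : Fin 4 =>
      ∏ j, pi j ^ (![(0 : Fin 4 → ℕ), Pi.single 0 1 + Pi.single 1 1,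
        Pi.single 0 1 + Pi.single 2 1, Pi.single 1 1 + Pi.single 2 1] χ) j) = W := by
    funext χ
    fin_cases χ
    · simp [hW]
    · exact prod_pow_pair pi 0 1
    · exact prod_pow_pair pi 0 2
    · exact prod_pow_pair pi 1 2
  rw [e]
  refine kummer_indep _ ?_ ?_ ?_
  · intro χ
    fin_cases χ
    · exact one_ne_zero
    · exact hne 0 1 (by decide)
    · exact hne 0 2 (by decide)
    · exact hne 1 2 (by decide)
  · intro χ
    rw [mem_range_KF]
    fin_cases χ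
    · change (1 : Ω) ^ 2 ∈ KF n w
      simpa using one_mem _
    · change (pi 0 * pi 1) ^ 2 ∈ KF n w
      rw [mul_pow]; exact mul_mem (pi_sq_mem_KF hM _) (pi_sq_mem_KF hM _)
    · change (pi 0 * pi 2) ^ 2 ∈ KF n w
      rw [mul_pow]; exact mul_mem (pi_sq_mem_KF hM _) (pi_sq_mem_KF hM _)
    · change (pi 1 * pi 2) ^ 2 ∈ KF n w
      rw [mul_pow]; exact mul_mem (pi_sq_mem_KF hM _) (pi_sq_mem_KF hM _)
  · intro χ ψ hχ
    rw [mem_range_KF]
    have h01 := h 0 1 (by decide)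
    have h02 := h 0 2 (by decide)
    have h12 := h 1 2 (by decide)
    have k1 := key 0 1 2 (by decide)
    have k2 := key 1 0 2 (by decide)
    have k3 := key 2 0 1 (by decide)
    fin_cases χ <;> fin_cases ψ
    · exact absurd rfl hχ
    · change (1 : Ω) * (pi 0 * pi 1) ∉ KF n w; rwa [one_mul]
    · change (1 : Ω) * (pi 0 * pi 2) ∉ KF n w; rwa [one_mul]
    · change (1 : Ω) * (pi 1 * pi 2) ∉ KF n w; rwa [one_mul]
    · change (pi 0 * pi 1) * (1 : Ω) ∉ KF n w; rwa [mul_one]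
    · exact absurd rfl hχ
    · change (pi 0 * pi 1) * (pi 0 * pi 2) ∉ KF n w
      convert k1 using 2; ring
    · change (pi 0 * pi 1) * (pi 1 * pi 2) ∉ KF n w
      convert k2 using 2; ring
    · change (pi 0 * pi 2) * (1 : Ω) ∉ KF n w; rwa [mul_one]
    · change (pi 0 * pi 2) * (pi 0 * pi 1) ∉ KF n w
      convert k1 using 2; ring
    · exact absurd rfl hχ
    · change (pi 0 * pi 2) * (pi 1 * pi 2) ∉ KF n w
      convert k3 using 2; ring
    · change (pi 1 * pi 2) * (1 : Ω) ∉ KF n w; rwa [mul_one]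
    · change (pi 1 * pi 2) * (pi 0 * pi 1) ∉ KF n w
      convert k2 using 2; ring
    · change (pi 1 * pi 2) * (pi 0 * pi 2) ∉ KF n w
      convert k3 using 2; ring
    · exact absurd rfl hχ

end Vale.Agent.P018.QB
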