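import Mathlib
import Vale.Agent.P018.Q.RGenA

/-! # P018, (B): the configuration of a non special lattice; equality of the four orders. -/

namespace Vale.Agent.P018.QB

open Polynomial NumberField Vale.Agent.P018.Q

/-- the polynomial `∑ y_k X^k`. -/
noncomputable def yp (y : Fin 4 → ℤ) : ℚ[X] := ∑ k : Fin 4, C (y k : ℚ) * X ^ (k : ℕ)

theorem yp_coeff (y : Fin 4 → ℤ) (k : Fin 4) : (yp y).coeff k = y k := by
  unfold yp
  rw [finsetSum_coeff, Finset.sum_eq_single k]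
  · simp
  · intro b _ hb
    rw [coeff_C_mul, coeff_X_pow, if_neg, mul_zero]
    intro h
    exact hb (Fin.ext h.symm)
  · simp

theorem yp_degree (y : Fin 4 → ℤ) : (yp y).natDegree ≤ 3 := by
  unfold yp
  refine natDegree_sum_le_of_forall_le _ _ fun k _ => ?_
  refine (natDegree_C_mul_X_pow_le _ _).trans ?_
  omega

theorem yp_ne_zero {y : Fin 4 → ℤ} (hy : y ≠ 0) : yp y ≠ 0 := by
  intro h
  apply hy
  funext k
  have h1 := yp_coeff y k
  rw [h, coeff_zero] at h1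
  exact_mod_cast h1.symm

variable {L : Type} [Field L] [NumberField L]

theorem cf_eq (θ : Fin 4 → 𝓞 L) (φ : L →+* ℂ) (y : Fin 4 → ℤ) (j : Fin 4) :
    cf θ φ y j = (yp y).eval₂ (algebraMap ℚ ℂ) (φ (θ j)) := by
  unfold cf el K.ell yp
  rw [eval₂_finsetSum]
  have h1 : ((∑ k : Fin 4, (y k : 𝓞 L) * θ j ^ (k : ℕ) : 𝓞 L) : L) =
      ∑ k : Fin 4, (y k : L) * (θ j : L) ^ (k : ℕ) := by
    push_cast
    rfl
  rw [h1, map_sum]
  refine Finset.sum_congr rfl fun k _ => ?_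
  rw [map_mul, map_pow, map_intCast, eval₂_mul, eval₂_C, eval₂_pow, eval₂_X]
  simp

theorem root_eval (θ : Fin 4 → 𝓞 L) (G : ℤ[X]) (hG : Root4 θ G) (φ : L →+* ℂ) (j : Fin 4) :
    (G.map (Int.castRingHom ℚ)).eval₂ (algebraMap ℚ ℂ) (φ (θ j)) = 0 := by
  rw [eval₂_map]
  have h1 : (G.map (algebraMap ℤ (𝓞 L))).eval (θ j) = 0 := by
    rw [hG.roots, eval_prod]
    exact Finset.prod_eq_zero (Finset.mem_univ j) (by simp)
  have h2 := congrArg (fun t : 𝓞 L => φ (t : L)) h1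
  rw [eval_map] at h2
  have h3 : φ ((eval₂ (algebraMap ℤ (𝓞 L)) (θ j) G : 𝓞 L) : L) =
      (φ.comp (algebraMap (𝓞 L) L)) (eval₂ (algebraMap ℤ (𝓞 L)) (θ j) G) := rfl
  rw [h3, hom_eval₂] at h2
  rw [show ((algebraMap ℚ ℂ).comp (Int.castRingHom ℚ)) =
    ((φ.comp (algebraMap (𝓞 L) L)).comp (algebraMap ℤ (𝓞 L))) from RingHom.ext_int _ _]
  simpa using h2

/-- the embedding of `ℚ[X]/(G)`. -/
noncomputable def emb (θ : Fin 4 → 𝓞 L) (G : ℤ[X]) (hG : Root4 θ G) (φ : L →+* ℂ) (j : Fin 4) :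
    AdjoinRoot (G.map (Int.castRingHom ℚ)) →+* ℂ :=
  AdjoinRoot.lift (algebraMap ℚ ℂ) (φ (θ j)) (root_eval θ G hG φ j)

theorem emb_mk (θ : Fin 4 → 𝓞 L) (G : ℤ[X]) (hG : Root4 θ G) (φ : L →+* ℂ) (j : Fin 4) (P : ℚ[X]) :
    emb θ G hG φ j (AdjoinRoot.mk _ P) = P.eval₂ (algebraMap ℚ ℂ) (φ (θ j)) :=
  AdjoinRoot.lift_mk _ _

theorem cf_ne_zero (θ : Fin 4 → 𝓞 L) (G : ℤ[X]) (hG : Root4 θ G) (φ : L →+* ℂ)
    {y : Fin 4 → ℤ} (hy : y ≠ 0) (j : Fin 4) : cf θ φ y j ≠ 0 := by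
  have hI : Fact (Irreducible (G.map (Int.castRingHom ℚ))) := ⟨hG.irr⟩
  rw [cf_eq, ← emb_mk θ G hG φ j, Ne, map_eq_zero_iff _ (RingHom.injective _),
    AdjoinRoot.mk_eq_zero]
  intro h
  have h1 := natDegree_le_of_dvd h (yp_ne_zero hy)
  rw [natDegree_map_eq_of_injective (RingHom.injective_int _), hG.deg] at h1
  have := yp_degree y
  omega

theorem gm_natDegree {g1 g2 : Fin 4 → ℂ} {j : Fin 4} (h : g2 j ≠ 0) : (gm g1 g2 j).natDegree = 1 := by
  unfold gm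
  rw [add_comm]
  exact natDegree_linear h

theorem nonSpec_ne {θ : Fin 4 → 𝓞 L} {g1 g2 : Fin 4 → ℤ} (h : NonSpec θ g1 g2) : g2 ≠ 0 := by
  rintro rfl
  apply h 0 1 (by decide)
  simp [el, K.ell]

/-- the configuration of a non special lattice. -/
theorem conf_of (θ : Fin 4 → 𝓞 L) (G : ℤ[X]) (hG : Root4 θ G) (φ : L →+* ℂ)
    {g1 g2 : Fin 4 → ℤ} (h : NonSpec θ g1 g2) :
    Conf (fun j => φ (θ j)) (gm (cf θ φ g1) (cf θ φ g2)) where
  inj := by
    intro i j hij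
    exact hG.inj (RingOfIntegers.ext (φ.injective hij))
  deg := fun j => gm_natDegree (cf_ne_zero θ G hG φ (nonSpec_ne h) j)
  cop := by
    intro i j hij
    have h1 : cf θ φ g1 i * cf θ φ g2 j - cf θ φ g1 j * cf θ φ g2 i ≠ 0 := by
      intro h0
      apply h i j hij
      have h2 : φ ((el (θ i) g1 * el (θ j) g2 : 𝓞 L) : L) =
          φ ((el (θ j) g1 * el (θ i) g2 : 𝓞 L) : L) := by
        have := sub_eq_zero.1 h0
        unfold cf at this
        push_cast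
        rw [map_mul, map_mul]
        exact this
      exact RingOfIntegers.ext (φ.injective h2)
    refine ⟨C (cf θ φ g2 j / (cf θ φ g1 i * cf θ φ g2 j - cf θ φ g1 j * cf θ φ g2 i)),
      - C (cf θ φ g2 i / (cf θ φ g1 i * cf θ φ g2 j - cf θ φ g1 j * cf θ φ g2 i)), ?_⟩
    unfold gm
    set a := cf θ φ g1 i
    set b := cf θ φ g2 i
    set a' := cf θ φ g1 j
    set b' := cf θ φ g2 j
    set Δ := a * b' - a' * b with hΔ
    have e : C (b' / Δ) * (C a + C b * X) + -C (b / Δ) * (C a' + C b' * X) =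
        C ((b' * a - b * a') / Δ) := by
      have h3 : C (b' / Δ) * (C a + C b * X) + -C (b / Δ) * (C a' + C b' * X) =
        C (b' / Δ * a - b / Δ * a') + C (b' / Δ * b - b / Δ * b') * X := by
        simp only [map_sub, map_mul]; ring
      rw [h3, show b' / Δ * b - b / Δ * b' = 0 by ring, C_0, zero_mul, add_zero]
      congr 1
      ring
    rw [e, show (b' * a - b * a') / Δ = 1 by rw [hΔ, div_eq_one_iff_eq h1]; ring, C_1]

/-- the order exists. -/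
theorem exists_ord {k : Type*} [Field k] {ϖ : k[X]} (hϖ : ϖ.natDegree = 1) {F : k[X][X]}
    (hF : F ≠ 0) : ∃ w : ℕ, C ϖ ^ w ∣ F ∧ ¬ C ϖ ^ (w + 1) ∣ F := by
  classical
  obtain ⟨i, hi⟩ : ∃ i, F.coeff i ≠ 0 := by
    by_contra h
    push Not at h
    exact hF (Polynomial.ext fun n => by rw [h n, coeff_zero])
  have hex : ∃ w : ℕ, ¬ C ϖ ^ (w + 1) ∣ F := by
    refine ⟨(F.coeff i).natDegree, fun h => ?_⟩
    rw [← C_pow, C_dvd_iff_dvd_coeff] at h
    have h1 := natDegree_le_of_dvd (h i) hi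
    rw [natDegree_pow, hϖ] at h1
    omega
  refine ⟨Nat.find hex, ?_, Nat.find_spec hex⟩
  rcases Nat.eq_zero_or_pos (Nat.find hex) with h0 | h0
  · rw [h0, pow_zero]; exact one_dvd _
  · have h1 := Nat.find_min hex (m := Nat.find hex - 1) (by omega)
    rw [not_not, Nat.sub_add_cancel h0] at h1
    exact h1

theorem tw_ne_zero {k : Type*} [Field k] {θ : k} {ϖ : k[X]} (hϖ : ϖ.natDegree = 1) {F : k[X][X]}
    (hF : F ≠ 0) : tw θ ϖ F ≠ 0 := by
  have h0 : ϖ ≠ 0 := by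
    rintro rfl
    simp at hϖ
  unfold tw
  intro h
  rcases comp_eq_zero_iff.1 h with h1 | h1
  · exact hF h1
  · have h2 := congrArg (fun t => t.coeff 1) h1.2
    simp only [coeff_add, coeff_C_succ, zero_add, coeff_C_mul, coeff_X_one, mul_one] at h2
    exact h0 h2

theorem map_tw {k k' : Type*} [Field k] [Field k'] (f : k →+* k') (θ : k) (ϖ : k[X]) (F : k[X][X]) :
    (tw θ ϖ F).map (mapRingHom f) = tw (f θ) (ϖ.map f) (F.map (mapRingHom f)) := by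
  unfold tw
  rw [map_comp]
  simp

/-- equality of the orders. -/
theorem ord_equal (θ : Fin 4 → 𝓞 L) (G : ℤ[X]) (hG : Root4 θ G) (φ : L →+* ℂ)
    {g1 g2 : Fin 4 → ℤ} (hns : NonSpec θ g1 g2) (Φ : ℤ[X][X]) (hΦ : toC Φ ≠ 0) :
    ∃ w : ℕ, ∀ j, OrdAt (φ (θ j)) (gm (cf θ φ g1) (cf θ φ g2) j) w (toC Φ) := by
  have hI : Fact (Irreducible (G.map (Int.castRingHom ℚ))) := ⟨hG.irr⟩
  set K0 := AdjoinRoot (G.map (Int.castRingHom ℚ)) with hK0
  set r : K0 := AdjoinRoot.root _ with hr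
  set ϖ : K0[X] := C (AdjoinRoot.mk _ (yp g1)) + C (AdjoinRoot.mk _ (yp g2)) * X with hϖ
  set F : K0[X][X] := Φ.map (mapRingHom (Int.castRingHom K0)) with hF
  have hFC : ∀ j, F.map (mapRingHom (emb θ G hG φ j)) = toC Φ := by
    intro j
    rw [hF, map_map, toC]
    congr 1
    ext x
    · simp
    · simp
  have hϖC : ∀ j, ϖ.map (emb θ G hG φ j) = gm (cf θ φ g1) (cf θ φ g2) j := by
    intro j
    rw [hϖ, gm, Polynomial.map_add, Polynomial.map_mul, map_C, map_C, map_X, emb_mk, emb_mk,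
      ← cf_eq, ← cf_eq]
  have hrC : ∀ j, emb θ G hG φ j r = φ (θ j) := fun j => AdjoinRoot.lift_root _
  have hF0 : F ≠ 0 := by
    intro h
    apply hΦ
    rw [← hFC 0, h, Polynomial.map_zero]
  have hϖd : ϖ.natDegree = 1 := by
    have h1 := gm_natDegree (g1 := cf θ φ g1) (cf_ne_zero θ G hG φ (nonSpec_ne hns) 0)
    rw [← hϖC 0, natDegree_map_eq_of_injective (RingHom.injective _)] at h1
    exact h1
  obtain ⟨w, hw1, hw2⟩ := exists_ord hϖd (tw_ne_zero (θ := r) hϖd hF0)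
  have key : ∀ (j : Fin 4) (v : ℕ), C (gm (cf θ φ g1) (cf θ φ g2) j) ^ v ∣
      tw (φ (θ j)) (gm (cf θ φ g1) (cf θ φ g2) j) (toC Φ) ↔ C ϖ ^ v ∣ tw r ϖ F := by
    intro j v
    rw [← hϖC j, ← hFC j, ← hrC j, ← map_tw, ← C_pow, ← C_pow, C_dvd_iff_dvd_coeff,
      C_dvd_iff_dvd_coeff, ← Polynomial.map_pow]
    refine forall_congr' fun i => ?_
    rw [coeff_map, coe_mapRingHom, map_dvd_map']
  exact ⟨w, fun j => ⟨(key j w).2 hw1, fun h => hw2 ((key j (w + 1)).1 h)⟩⟩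

end Vale.Agent.P018.QB
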