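import Mathlib
import Vale.Agent.P018.Q.RDefs

/-! # P018, quartics, family (B): linear algebra for ranks modulo a subspace. -/

namespace Vale.Agent.P018.Q

open Polynomial Module

section lin

variable {k V U Q : Type*} [Field k] [AddCommGroup V] [Module k V] [AddCommGroup U] [Module k U]
  [AddCommGroup Q] [Module k Q]

theorem finrank_map_add_inf (f : V →ₗ[k] U) (A : Submodule k V) [FiniteDimensional k A] :
    finrank k (A.map f) + finrank k (A ⊓ LinearMap.ker f : Submodule k V) = finrank k A := by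
  have h := (f.domRestrict A).finrank_range_add_finrank_ker
  have h1 : LinearMap.range (f.domRestrict A) = A.map f := by
    rw [LinearMap.domRestrict, LinearMap.range_comp, Submodule.range_subtype]
  have h2 : finrank k (LinearMap.ker (f.domRestrict A)) =
      finrank k (A ⊓ LinearMap.ker f : Submodule k V) := by
    rw [LinearMap.domRestrict, LinearMap.ker_comp]
    rw [← Submodule.map_comap_subtype]
    exact (LinearEquiv.finrank_eq (Submodule.equivMapOfInjective A.subtype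
      (Submodule.injective_subtype A) _))
  rw [h1, h2] at h
  exact h

/-- growth of the rank modulo `ker q`. -/
theorem growth (q : V →ₗ[k] Q) (φ : V →ₗ[k] U) (A' A : Submodule k V) [FiniteDimensional k A]
    (hA : A' ≤ A) (hφ : A' ≤ LinearMap.ker φ) :
    finrank k (A'.map q) + finrank k (A.map φ) ≤
      finrank k (A.map q) + finrank k ((A ⊓ LinearMap.ker q).map φ) := by
  set I := LinearMap.ker q with hI
  have : FiniteDimensional k (A ⊓ I : Submodule k V) :=
    Submodule.finiteDimensional_of_le inf_le_left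
  have : FiniteDimensional k (A ⊓ LinearMap.ker φ : Submodule k V) :=
    Submodule.finiteDimensional_of_le inf_le_left
  have ha := finrank_map_add_inf q A
  have hb := finrank_map_add_inf φ A
  have hc := finrank_map_add_inf φ (A ⊓ I)
  have hd := finrank_map_add_inf q (A ⊓ LinearMap.ker φ)
  have he : finrank k (A'.map q) ≤ finrank k ((A ⊓ LinearMap.ker φ).map q) :=
    Submodule.finrank_mono (Submodule.map_mono (le_inf hA hφ))
  have hf : (A ⊓ LinearMap.ker φ ⊓ LinearMap.ker q : Submodule k V) = A ⊓ I ⊓ LinearMap.ker φ := by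
    rw [← hI, inf_assoc, inf_assoc, inf_comm I]
  rw [hf] at hd
  rw [← hI] at ha
  omega

end lin

variable {k : Type*} [Field k] {θ : Fin 4 → k} {ϖ : Fin 4 → k[X]}

theorem lin_natDegree (θ : k) : (lin θ).natDegree = 1 := natDegree_X_sub_C _

theorem lin_monic (θ : k) : (lin θ).Monic := monic_X_sub_C _

theorem Conf.ne (hc : Conf θ ϖ) (j : Fin 4) : ϖ j ≠ 0 := by
  intro h
  have := hc.deg j
  rw [h] at this
  simp at this

theorem Conf.irr (hc : Conf θ ϖ) (j : Fin 4) : Irreducible (ϖ j) :=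
  irreducible_of_degree_eq_one (by rw [degree_eq_natDegree (hc.ne j), hc.deg j]; rfl)

theorem Conf.prime (hc : Conf θ ϖ) (j : Fin 4) : Prime (C (ϖ j)) :=
  prime_C_iff.mpr (hc.irr j).prime

theorem dIn_mul {f g : k[X][X]} (hf : f ≠ 0) (hg : g ≠ 0) : dIn (f * g) = dIn f + dIn g := by
  unfold dIn
  rw [map_mul, natDegree_mul]
  · simpa using hf
  · simpa using hg

theorem dIn_C (f : k[X]) : dIn (C f) = f.natDegree := by
  unfold dIn
  rw [Bivariate.swap_C, natDegree_map_eq_of_injective C_injective]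

theorem dIn_lin (θ : k) : dIn (lin θ) = 0 := by
  unfold dIn lin
  rw [map_sub, Bivariate.swap_C_C, Bivariate.swap_Y]
  rw [← C_sub, natDegree_C]

theorem swap_coeff_coeff (f : k[X][X]) (a b : ℕ) :
    ((Bivariate.swap f).coeff a).coeff b = (f.coeff b).coeff a := by
  induction f using Polynomial.induction_on' with
  | add p q hp hq => simp only [map_add, coeff_add, hp, hq]
  | monomial n p =>
    rw [Bivariate.swap_monomial, mul_comm, coeff_C_mul, coeff_map, coeff_monomial, mul_comm,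
      coeff_C_mul_X_pow]
    split_ifs with h1 h2 h2
    · rfl
    · exact absurd h1.symm h2
    · exact absurd h2.symm h1
    · simp

theorem natDegree_coeff_le (f : k[X][X]) (b : ℕ) : (f.coeff b).natDegree ≤ dIn f := by
  rw [natDegree_le_iff_coeff_eq_zero]
  intro a ha
  rw [← swap_coeff_coeff, coeff_eq_zero_of_natDegree_lt ha, coeff_zero]

theorem dIn_le {f : k[X][X]} {d : ℕ} (h : ∀ b, (f.coeff b).natDegree ≤ d) : dIn f ≤ d := by
  unfold dIn
  rw [natDegree_le_iff_coeff_eq_zero]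
  intro a ha
  ext b
  rw [swap_coeff_coeff, coeff_eq_zero_of_natDegree_lt (lt_of_le_of_lt (h b) ha), coeff_zero]

theorem natDegree_swap_coeff_le (f : k[X][X]) (a : ℕ) :
    ((Bivariate.swap f).coeff a).natDegree ≤ f.natDegree := by
  rw [natDegree_le_iff_coeff_eq_zero]
  intro b hb
  rw [swap_coeff_coeff, coeff_eq_zero_of_natDegree_lt hb, coeff_zero]

/-- natDegree of `fB`. -/
theorem fB_natDegree {M : ℕ} {m : Fin 4 → ℕ} (hm : ∑ j, m j = M) (a : ℕ) :
    (fB θ ϖ M m a).natDegree ≤ M := by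
  unfold fB
  refine (natDegree_mul_C_le _ _).trans ?_
  refine (natDegree_prod_le _ _).trans ?_
  rw [← hm]
  refine Finset.sum_le_sum fun j _ => ?_
  refine (natDegree_mul_C_le _ _).trans ?_
  refine natDegree_pow_le.trans ?_
  rw [lin_natDegree, mul_one]

theorem sum_sub_eq {M : ℕ} {m : Fin 4 → ℕ} (hm : ∑ j, m j = M) : ∑ j, (M - m j) = 3 * M := by
  rw [Fin.sum_univ_four] at hm ⊢
  omega

theorem fB_ne (hc : Conf θ ϖ) (M : ℕ) (m : Fin 4 → ℕ) (a : ℕ) : fB θ ϖ M m a ≠ 0 := by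
  unfold fB
  refine mul_ne_zero (Finset.prod_ne_zero_iff.mpr fun j _ => mul_ne_zero
    (pow_ne_zero _ (lin_monic _).ne_zero) ?_) ?_
  · rw [Ne, C_eq_zero]
    exact pow_ne_zero _ (hc.ne j)
  · rw [Ne, C_eq_zero]
    exact pow_ne_zero _ X_ne_zero

theorem fB_eq (θ : Fin 4 → k) (ϖ : Fin 4 → k[X]) (M : ℕ) (m : Fin 4 → ℕ) (a : ℕ) :
    fB θ ϖ M m a = C ((∏ j, ϖ j ^ (M - m j)) * X ^ a) *
      (∏ j, (X - C (θ j)) ^ m j : k[X]).map C := by
  have h : ∀ j, ((X - C (θ j) : k[X]) ^ m j).map (C : k →+* k[X]) = lin (θ j) ^ m j := by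
    intro j
    rw [Polynomial.map_pow, Polynomial.map_sub, map_X, map_C, lin]
  unfold fB
  rw [Finset.prod_mul_distrib, Polynomial.map_prod, C_mul, map_prod]
  simp only [h]
  ring

theorem fB_dIn (hc : Conf θ ϖ) {M : ℕ} {m : Fin 4 → ℕ} (hm : ∑ j, m j = M) (a : ℕ) :
    dIn (fB θ ϖ M m a) ≤ 3 * M + a := by
  refine dIn_le fun b => ?_
  rw [fB_eq, coeff_C_mul, coeff_map]
  refine (natDegree_mul_C_le _ _).trans ?_
  refine natDegree_mul_le.trans ?_
  rw [natDegree_X_pow]
  refine Nat.add_le_add_right ?_ _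
  refine (natDegree_prod_le _ _).trans ?_
  rw [← sum_sub_eq hm]
  refine Finset.sum_le_sum fun j _ => ?_
  refine natDegree_pow_le.trans ?_
  rw [hc.deg j, mul_one]

/-- order of `fB` at the special points. -/
theorem fB_tw {M : ℕ} {m : Fin 4 → ℕ} (hm : ∑ j, m j = M) (a : ℕ) (j : Fin 4) :
    C (ϖ j) ^ M ∣ tw (θ j) (ϖ j) (fB θ ϖ M m a) := by
  have h1 : (lin (θ j) ^ m j * C (ϖ j ^ (M - m j))) ∣ fB θ ϖ M m a := by
    unfold fB
    exact Dvd.dvd.mul_right (Finset.dvd_prod_of_mem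
      (fun j => lin (θ j) ^ m j * C (ϖ j ^ (M - m j))) (Finset.mem_univ j)) _
  obtain ⟨q, hq⟩ := h1
  rw [hq, tw, mul_comp, mul_comp, pow_comp]
  have h2 : (lin (θ j)).comp (C (C (θ j)) + C (ϖ j) * X) = C (ϖ j) * X := by
    simp [lin]
  have hmj : m j ≤ M := by
    rw [← hm]
    exact Finset.single_le_sum (f := m) (fun _ _ => Nat.zero_le _) (Finset.mem_univ j)
  rw [h2, C_comp, mul_pow, C_pow]
  refine Dvd.dvd.mul_right ?_ _
  refine ⟨X ^ m j, ?_⟩
  have : C (ϖ j) ^ M = C (ϖ j) ^ m j * C (ϖ j) ^ (M - m j) := by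
    rw [← pow_add]
    congr 1
    omega
  rw [this]
  ring

theorem tw_add (θ : k) (ϖ : k[X]) (f g : k[X][X]) : tw θ ϖ (f + g) = tw θ ϖ f + tw θ ϖ g :=
  add_comp

theorem tw_mul (θ : k) (ϖ : k[X]) (f g : k[X][X]) : tw θ ϖ (f * g) = tw θ ϖ f * tw θ ϖ g :=
  mul_comp _ _ _

theorem smul_eq_CC (c : k) (f : k[X][X]) : c • f = C (C c) * f := by
  rw [algebra_compatible_smul k[X] c f, smul_eq_C_mul]
  rfl

theorem tw_smul (θ : k) (ϖ : k[X]) (c : k) (f : k[X][X]) : tw θ ϖ (c • f) = c • tw θ ϖ f := by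
  unfold tw
  rw [smul_eq_CC, smul_eq_CC, mul_comp, C_comp]

/-- `tw` as a linear map. -/
noncomputable def twL (θ : k) (ϖ : k[X]) : k[X][X] →ₗ[k] k[X][X] where
  toFun := tw θ ϖ
  map_add' := tw_add θ ϖ
  map_smul' := tw_smul θ ϖ

theorem MB_natDegree {M I : ℕ} {F : k[X][X]} (hF : F ∈ MB θ ϖ M I) : F.natDegree ≤ M := by
  unfold MB at hF
  induction hF using Submodule.span_induction with
  | mem x hx =>
    obtain ⟨m, a, hm, _, rfl⟩ := hx
    exact fB_natDegree hm a
  | zero => simp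
  | add x y _ _ hx hy => exact (natDegree_add_le _ _).trans (max_le hx hy)
  | smul c x _ hx =>
    rw [smul_eq_CC]
    exact (natDegree_C_mul_le _ _).trans hx

theorem MB_dIn (hc : Conf θ ϖ) {M I : ℕ} {F : k[X][X]} (hF : F ∈ MB θ ϖ M I) :
    dIn F ≤ 3 * M + I := by
  unfold MB at hF
  induction hF using Submodule.span_induction with
  | mem x hx =>
    obtain ⟨m, a, hm, ha, rfl⟩ := hx
    exact (fB_dIn hc hm a).trans (by omega)
  | zero => simp [dIn]
  | add x y _ _ hx hy =>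
    refine dIn_le fun b => ?_
    rw [coeff_add]
    exact (natDegree_add_le _ _).trans (max_le ((natDegree_coeff_le _ _).trans hx)
      ((natDegree_coeff_le _ _).trans hy))
  | smul c x _ hx =>
    refine dIn_le fun b => ?_
    rw [smul_eq_CC, coeff_C_mul]
    exact (natDegree_C_mul_le _ _).trans ((natDegree_coeff_le _ _).trans hx)

theorem MB_tw {M I : ℕ} {F : k[X][X]} (hF : F ∈ MB θ ϖ M I) (j : Fin 4) :
    C (ϖ j) ^ M ∣ tw (θ j) (ϖ j) F := by
  unfold MB at hF
  induction hF using Submodule.span_induction with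
  | mem x hx =>
    obtain ⟨m, a, hm, _, rfl⟩ := hx
    exact fB_tw hm a j
  | zero => simp [tw]
  | add x y _ _ hx hy =>
    rw [tw_add]
    exact dvd_add hx hy
  | smul c x _ hx =>
    rw [tw_smul, smul_eq_CC]
    exact Dvd.dvd.mul_left hx _

instance MB_finite (M I : ℕ) : FiniteDimensional k (MB θ ϖ M I) := by
  unfold MB
  refine FiniteDimensional.span_of_finite k ?_
  refine Set.Finite.subset (((Set.finite_Iic (fun _ : Fin 4 => M)).prod
    (Set.finite_Iic I)).image (fun x => fB θ ϖ M x.1 x.2)) ?_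
  rintro _ ⟨m, a, hm, ha, rfl⟩
  refine ⟨(m, a), ⟨?_, ha⟩, rfl⟩
  intro j
  rw [← hm]
  exact Finset.single_le_sum (f := m) (fun _ _ => Nat.zero_le _) (Finset.mem_univ j)

theorem MB_mono {M I I' : ℕ} (h : I ≤ I') : MB θ ϖ M I ≤ MB θ ϖ M I' := by
  refine Submodule.span_mono ?_
  rintro _ ⟨m, a, hm, ha, rfl⟩
  exact ⟨m, a, hm, ha.trans h, rfl⟩

/-- the product of the `ϖ_j`, as a constant polynomial in `n`. -/
noncomputable def PP (ϖ : Fin 4 → k[X]) : k[X][X] := C (∏ j, ϖ j)

theorem fB_mul_poly {M I : ℕ} {m : Fin 4 → ℕ} (hm : ∑ j, m j = M) {G : k[X]}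
    (hG : G.natDegree ≤ I) : fB θ ϖ M m 0 * C G ∈ MB θ ϖ M I := by
  rw [G.as_sum_range' (I + 1) (by omega), map_sum, Finset.mul_sum]
  refine Submodule.sum_mem _ fun a ha => ?_
  rw [Finset.mem_range] at ha
  rw [← C_mul_X_pow_eq_monomial, C_mul, mul_left_comm, ← smul_eq_CC]
  refine Submodule.smul_mem _ _ (Submodule.subset_span ⟨m, a, hm, by omega, ?_⟩)
  unfold fB
  rw [pow_zero, C_1, mul_one]

/-- `(n - θ_i) ∏ ϖ · fB = ϖ_i · fB'`. -/
theorem lin_mul_fB {M : ℕ} {m : Fin 4 → ℕ} (hm : ∑ j, m j = M) (a : ℕ) (i : Fin 4) :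
    lin (θ i) * PP ϖ * fB θ ϖ M m a =
      fB θ ϖ (M + 1) (fun j => m j + if j = i then 1 else 0) a * C (ϖ i) := by
  have hle : ∀ j, m j ≤ M := fun j => by
    rw [← hm]
    exact Finset.single_le_sum (f := m) (fun _ _ => Nat.zero_le _) (Finset.mem_univ j)
  have h1 : lin (θ i) = ∏ j, lin (θ j) ^ (if j = i then 1 else 0) := by
    simp [Finset.prod_ite_eq', pow_ite]
  have h2 : (C (ϖ i) : k[X][X]) = ∏ j, C (ϖ j) ^ (if j = i then 1 else 0) := by
    simp [Finset.prod_ite_eq', pow_ite]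
  unfold PP fB
  rw [h1]
  conv_rhs => rw [h2]
  rw [map_prod]
  have h3 : ∀ j, lin (θ j) ^ (if j = i then 1 else 0) * C (ϖ j) *
      (lin (θ j) ^ m j * C (ϖ j ^ (M - m j))) =
      lin (θ j) ^ (m j + if j = i then 1 else 0) *
        C (ϖ j ^ (M + 1 - (m j + if j = i then 1 else 0))) * C (ϖ j) ^ (if j = i then 1 else 0) := by
    intro j
    have := hle j
    split_ifs with h
    · have e : M + 1 - (m j + 1) = M - m j := by omega
      rw [e, pow_add]
      ring
    · have e : M + 1 - (m j + 0) = M - m j + 1 := by omega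
      rw [e]
      simp only [pow_zero, C_pow, add_zero, pow_succ, C_mul]
      ring
  have h5 : (∏ j, lin (θ j) ^ (if j = i then 1 else 0)) * (∏ j, C (ϖ j)) *
      (∏ j, (lin (θ j) ^ m j * C (ϖ j ^ (M - m j)))) =
      (∏ j, (lin (θ j) ^ (m j + if j = i then 1 else 0) *
        C (ϖ j ^ (M + 1 - (m j + if j = i then 1 else 0))))) *
        ∏ j, C (ϖ j) ^ (if j = i then 1 else 0) := by
    rw [← Finset.prod_mul_distrib, ← Finset.prod_mul_distrib, ← Finset.prod_mul_distrib]
    exact Finset.prod_congr rfl (fun j _ => h3 j)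
  linear_combination (C (X ^ a)) * h5

/-- `∏ ϖ · MB(M, I) ⊆ MB(M + 1, I + 1)`. -/
theorem PP_mul_mem (hc : Conf θ ϖ) {M I : ℕ} {F : k[X][X]} (hF : F ∈ MB θ ϖ M I) :
    PP ϖ * F ∈ MB θ ϖ (M + 1) (I + 1) := by
  unfold MB at hF
  induction hF using Submodule.span_induction with
  | mem x hx =>
    obtain ⟨m, a, hm, ha, rfl⟩ := hx
    have key : ∀ i, lin (θ i) * PP ϖ * fB θ ϖ M m a ∈ MB θ ϖ (M + 1) (I + 1) := by
      intro i
      rw [lin_mul_fB hm]
      have h1 : fB θ ϖ (M + 1) (fun j => m j + if j = i then 1 else 0) a * C (ϖ i) =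
          fB θ ϖ (M + 1) (fun j => m j + if j = i then 1 else 0) 0 * C (X ^ a * ϖ i) := by
        unfold fB
        rw [pow_zero, C_1, C_mul]
        ring
      rw [h1]
      refine fB_mul_poly ?_ ?_
      · rw [Finset.sum_add_distrib, hm]
        simp
      · refine natDegree_mul_le.trans ?_
        rw [natDegree_X_pow, hc.deg i]
        omega
    have h01 : θ 1 - θ 0 ≠ 0 := sub_ne_zero.mpr (fun h => by simpa using hc.inj h)
    have h2 : PP ϖ * fB θ ϖ M m a = (θ 1 - θ 0)⁻¹ •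
        (lin (θ 0) * PP ϖ * fB θ ϖ M m a - lin (θ 1) * PP ϖ * fB θ ϖ M m a) := by
      have h3 : (lin (θ 0) - lin (θ 1) : k[X][X]) = C (C (θ 1 - θ 0)) := by
        unfold lin
        rw [C_sub, C_sub]
        ring
      rw [← sub_mul, ← sub_mul, h3, smul_eq_CC, ← mul_assoc, ← mul_assoc, ← C_mul, ← C_mul,
        inv_mul_cancel₀ h01, C_1, C_1, one_mul]
    rw [h2]
    exact Submodule.smul_mem _ _ (Submodule.sub_mem _ (key 0) (key 1))
  | zero => simp
  | add x y _ _ hx hy =>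
    rw [mul_add]
    exact Submodule.add_mem _ hx hy
  | smul c x _ hx =>
    rw [mul_smul_comm]
    exact Submodule.smul_mem _ _ hx

end Vale.Agent.P018.Q
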