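import Mathlib
import Vale.Agent.P018.Q.RGrow

/-! # P018, quartics, family (B): growth of the ranks. -/

namespace Vale.Agent.P018.Q

open Polynomial Module

variable {k : Type*} [Field k] {θ : Fin 4 → k} {ϖ : Fin 4 → k[X]}

theorem prime_pow_dvd {R : Type*} [CommRing R] [IsDomain R] {p : R} (hp : Prime p) (w : ℕ) :
    ∀ {a b : R} {M : ℕ}, ¬ p ^ (w + 1) ∣ a → p ^ M ∣ a * b → p ^ (M - w) ∣ b := by
  induction w with
  | zero =>
    intro a b M ha hab
    rw [zero_add, pow_one] at ha
    simpa using hp.pow_dvd_of_dvd_mul_left M ha hab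
  | succ w ih =>
    intro a b M ha hab
    by_cases h : p ∣ a
    · obtain ⟨a', rfl⟩ := h
      rcases Nat.eq_zero_or_pos M with rfl | hM
      · simp
      have h1 : ¬ p ^ (w + 1) ∣ a' := by
        rintro ⟨c, rfl⟩
        exact ha ⟨c, by ring⟩
      have h2 : p ^ (M - 1) ∣ a' * b := by
        have h3 : p ^ M = p * p ^ (M - 1) := by
          rw [← pow_succ']
          congr 1
          omega
        rw [h3, mul_assoc] at hab
        exact (mul_dvd_mul_iff_left hp.ne_zero).mp hab
      have h4 := ih h1 h2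
      have h5 : M - 1 - w = M - (w + 1) := by omega
      rwa [h5] at h4
    · exact (pow_dvd_pow _ (by omega)).trans (hp.pow_dvd_of_dvd_mul_left M h hab)

theorem coeff_tw {θ : k} {ϖ : k[X]} {Θ : k[X][X]} {e : ℕ} (h : Θ.natDegree ≤ e) :
    (tw θ ϖ Θ).coeff e = Θ.coeff e * ϖ ^ e := by
  have hq : (C (C θ) + C ϖ * X : k[X][X]).natDegree ≤ 1 := by
    refine (natDegree_add_le _ _).trans (max_le ?_ ?_)
    · rw [natDegree_C]
      omega
    · exact (natDegree_C_mul_le _ _).trans natDegree_X_le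
  unfold tw
  rw [comp, eval₂_eq_sum_range' C (Nat.lt_succ_of_le h), finsetSum_coeff, Finset.sum_range_succ,
    Finset.sum_eq_zero, zero_add, coeff_C_mul]
  · congr 1
    have := coeff_pow_of_natDegree_le (m := e) hq
    rw [mul_one] at this
    rw [this]
    simp
  · intro i hi
    rw [Finset.mem_range] at hi
    have h1 : ((C (C θ) + C ϖ * X : k[X][X]) ^ i).coeff e = 0 := by
      refine coeff_eq_zero_of_natDegree_lt (lt_of_le_of_lt natDegree_pow_le ?_)
      calc i * (C (C θ) + C ϖ * X : k[X][X]).natDegree ≤ i * 1 := Nat.mul_le_mul_left _ hq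
        _ < e := by omega
    rw [coeff_C_mul, h1, mul_zero]

/-- the top coefficient of the cofactor of a multiple of `g` in `MB M I`. -/
theorem cofactor_top (hc : Conf θ ϖ) {g : k[X][X]} (hg : g ≠ 0) {w : Fin 4 → ℕ}
    (hw : ∀ j, ¬ C (ϖ j) ^ (w j + 1) ∣ tw (θ j) (ϖ j) g) {M I : ℕ} {Θ : k[X][X]} (hΘ : Θ ≠ 0)
    (hF : g * Θ ∈ MB θ ϖ M I) :
    g.natDegree ≤ M ∧ Θ.natDegree ≤ M - g.natDegree ∧ dIn g + dIn Θ ≤ 3 * M + I ∧
      ∀ j, ϖ j ^ (g.natDegree - w j) ∣ Θ.coeff (M - g.natDegree) := by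
  have h1 := MB_natDegree hF
  rw [natDegree_mul hg hΘ] at h1
  have h2 := MB_dIn hc hF
  rw [dIn_mul hg hΘ] at h2
  refine ⟨by omega, by omega, h2, fun j => ?_⟩
  rcases Nat.lt_or_ge (w j) g.natDegree with h3 | h3
  swap
  · rw [Nat.sub_eq_zero_of_le h3, pow_zero]
    exact one_dvd _
  have h4 := MB_tw hF j
  rw [tw_mul] at h4
  have h5 := prime_pow_dvd (hc.prime j) (w j) (hw j) h4
  rw [← C_pow, C_dvd_iff_dvd_coeff] at h5
  have h6 := h5 (M - g.natDegree)
  rw [coeff_tw (by omega)] at h6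
  have h7 : M - w j = g.natDegree - w j + (M - g.natDegree) := by omega
  rw [h7, pow_add] at h6
  exact (mul_dvd_mul_iff_right (pow_ne_zero _ (hc.ne j))).mp h6

theorem finrank_degreeLT (n : ℕ) : finrank k (degreeLT k n) = n := by
  rw [(degreeLTEquiv k n).finrank_eq, finrank_fin_fun]

instance (n : ℕ) : FiniteDimensional k (degreeLT k n) :=
  (degreeLTEquiv k n).symm.finiteDimensional

/-- growth of the rank when both `M` and `I` increase by one. -/
theorem rank_succ_both (hc : Conf θ ϖ) {g : k[X][X]} (hg : g ≠ 0) {w : Fin 4 → ℕ}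
    (hw : ∀ j, ¬ C (ϖ j) ^ (w j + 1) ∣ tw (θ j) (ϖ j) g)
    {Q : Type*} [AddCommGroup Q] [Module k Q] (q : k[X][X] →ₗ[k] Q)
    (hq : ∀ F, q F = 0 ↔ g ∣ F) (hP : ∀ F, g ∣ PP ϖ * F → g ∣ F) (M I v : ℕ)
    (hv : v + ∑ j, w j ≤ 4 * g.natDegree + dIn g) (hv2 : v ≤ 3 * M + I + 5) :
    finrank k ((MB θ ϖ M I).map q) + v ≤ finrank k ((MB θ ϖ (M + 1) (I + 1)).map q) := by
  set A := MB θ ϖ (M + 1) (I + 1) with hA
  set φ : k[X][X] →ₗ[k] k[X] := (lcoeff k[X] (M + 1)).restrictScalars k with hφ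
  have hφa : ∀ F, φ F = F.coeff (M + 1) := fun F => rfl
  set A' : Submodule k k[X][X] := (MB θ ϖ M I).map (LinearMap.mulLeft k (PP ϖ)) with hA'
  have h1 : A' ≤ A := by
    rintro _ ⟨F, hF, rfl⟩
    exact PP_mul_mem hc hF
  have h2 : A' ≤ LinearMap.ker φ := by
    rintro _ ⟨F, hF, rfl⟩
    rw [LinearMap.mem_ker, hφa, LinearMap.mulLeft_apply, PP, coeff_C_mul,
      coeff_eq_zero_of_natDegree_lt (lt_of_le_of_lt (MB_natDegree hF) (Nat.lt_succ_self M)),
      mul_zero]
  have h3 := growth q φ A' A h1 h2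
  -- the rank of `A'`
  have h4 : finrank k (A'.map q) = finrank k ((MB θ ϖ M I).map q) := by
    have e1 := finrank_map_add_inf q (MB θ ϖ M I)
    have e2 := finrank_map_add_inf (q ∘ₗ LinearMap.mulLeft k (PP ϖ)) (MB θ ϖ M I)
    have e3 : LinearMap.ker (q ∘ₗ LinearMap.mulLeft k (PP ϖ)) = LinearMap.ker q := by
      ext F
      rw [LinearMap.mem_ker, LinearMap.mem_ker, LinearMap.comp_apply, LinearMap.mulLeft_apply,
        hq, hq]
      exact ⟨hP F, fun h => Dvd.dvd.mul_left h _⟩
    rw [e3, Submodule.map_comp, ← hA'] at e2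
    omega
  -- the top coefficients
  have h5 : 3 * M + I + 5 ≤ finrank k (A.map φ) := by
    have e1 : degreeLT k (3 * M + I + 5) ≤ A.map φ := by
      intro P hP'
      rw [mem_degreeLT] at hP'
      have e2 : P.natDegree ≤ 1 * (M + 1) * 3 + (I + 1) := by
        by_cases h0 : P = 0
        · simp [h0]
        rw [degree_eq_natDegree h0] at hP'
        have : P.natDegree < 3 * M + I + 5 := by exact_mod_cast hP'
        omega
      have e3 := span_prodSet 1 (M + 1) (I + 1) (by omega) 3 ϖ hc.deg hc.cop P e2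
      refine (Submodule.span_le.mpr ?_) e3
      rintro _ ⟨m, μ, hm, hμ, rfl⟩
      refine ⟨fB θ ϖ (M + 1) m μ, Submodule.subset_span ⟨m, μ, hm, hμ, rfl⟩, ?_⟩
      rw [hφa, fB_eq, coeff_C_mul, coeff_map]
      have e4 : (∏ j, (X - C (θ j)) ^ m j : k[X]).coeff (M + 1) = 1 := by
        have e5 : (∏ j, (X - C (θ j)) ^ m j : k[X]).Monic :=
          monic_prod_of_monic _ _ fun j _ => (monic_X_sub_C _).pow _
        have e6 : (∏ j, (X - C (θ j)) ^ m j : k[X]).natDegree = M + 1 := by
          rw [natDegree_prod_of_monic _ _ fun j _ => (monic_X_sub_C _).pow _, ← hm]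
          refine Finset.sum_congr rfl fun j _ => ?_
          rw [natDegree_pow, natDegree_X_sub_C, mul_one]
        rw [← e6]
        exact e5.coeff_natDegree
      rw [e4, C_1, mul_one]
      simp only [one_mul]
    have e2 := Submodule.finrank_mono e1
    rwa [finrank_degreeLT] at e2
  -- the multiples of `g`
  have h6 : finrank k ((A ⊓ LinearMap.ker q).map φ) + v ≤ 3 * M + I + 5 := by
    set N' := 3 * (M + 1) + (I + 1) - dIn g + 1 - ∑ j, (g.natDegree - w j) with hN'
    set c0 : k[X] := g.coeff g.natDegree * ∏ j, ϖ j ^ (g.natDegree - w j) with hc0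
    by_cases hz : (A ⊓ LinearMap.ker q).map φ = ⊥
    · rw [hz, finrank_bot]
      omega
    -- there is a nonzero multiple
    have hex : ∃ Θ : k[X][X], Θ ≠ 0 ∧ g * Θ ∈ A := by
      by_contra hcon
      push Not at hcon
      apply hz
      rw [eq_bot_iff]
      rintro _ ⟨F, ⟨hFA, hFq⟩, rfl⟩
      obtain ⟨Θ, rfl⟩ := (hq F).mp hFq
      by_cases h0 : Θ = 0
      · rw [h0, mul_zero, map_zero]
        exact Submodule.zero_mem _
      · exact absurd hFA (hcon Θ h0)
    obtain ⟨Θ0, hΘ0, hΘ0A⟩ := hex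
    obtain ⟨b1, -, b3, -⟩ := cofactor_top hc hg hw hΘ0 hΘ0A
    have e1 : (A ⊓ LinearMap.ker q).map φ ≤ (degreeLT k N').map (LinearMap.mulLeft k c0) := by
      rintro _ ⟨F, ⟨hFA, hFq⟩, rfl⟩
      obtain ⟨Θ, rfl⟩ := (hq F).mp hFq
      by_cases h0 : Θ = 0
      · rw [h0, mul_zero, map_zero]
        exact Submodule.zero_mem _
      obtain ⟨a1, a2, a3, a4⟩ := cofactor_top hc hg hw h0 hFA
      have e2 : φ (g * Θ) = g.coeff g.natDegree * Θ.coeff (M + 1 - g.natDegree) := by
        rw [hφa]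
        have := coeff_mul_add_eq_of_natDegree_le (f := g) (g := Θ) le_rfl a2
        rwa [Nat.add_sub_cancel' a1] at this
      have e3 : (∏ j, ϖ j ^ (g.natDegree - w j)) ∣ Θ.coeff (M + 1 - g.natDegree) := by
        refine Finset.prod_dvd_of_coprime ?_ fun j _ => a4 j
        intro i _ j _ hij
        exact (hc.cop i j hij).pow
      obtain ⟨S, hS⟩ := e3
      refine ⟨S, ?_, ?_⟩
      · rw [SetLike.mem_coe, mem_degreeLT]
        by_cases hS0 : S = 0
        · rw [hS0, degree_zero]
          exact WithBot.bot_lt_coe _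
        rw [degree_eq_natDegree hS0]
        have e4 := natDegree_coeff_le Θ (M + 1 - g.natDegree)
        rw [hS, natDegree_mul (Finset.prod_ne_zero_iff.mpr fun j _ => pow_ne_zero _ (hc.ne j)) hS0,
          natDegree_prod _ _ (fun j _ => pow_ne_zero _ (hc.ne j))] at e4
        have e5 : ∑ j, (ϖ j ^ (g.natDegree - w j)).natDegree = ∑ j, (g.natDegree - w j) :=
          Finset.sum_congr rfl fun j _ => by rw [natDegree_pow, hc.deg j, mul_one]
        rw [e5] at e4
        have : S.natDegree < N' := by omega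
        exact_mod_cast this
      · rw [LinearMap.mulLeft_apply, e2, hS, hc0]
        ring
    have e6 : finrank k ((A ⊓ LinearMap.ker q).map φ) ≤ N' :=
      (Submodule.finrank_mono e1).trans ((Submodule.finrank_map_le _ _).trans
        (finrank_degreeLT N').le)
    have e7 : 4 * g.natDegree ≤ ∑ j, (g.natDegree - w j) + ∑ j, w j := by
      rw [Fin.sum_univ_four, Fin.sum_univ_four]
      omega
    omega
  rw [h4] at h3
  omega

theorem swap_eq_C_mul (f : k[X]) (P : k[X]) :
    Bivariate.swap (C f * P.map C) = C P * f.map C := by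
  rw [map_mul, Bivariate.swap_C, Bivariate.swap_map_C, mul_comm]

/-- growth of the rank when `I` increases by one. -/
theorem rank_succ_right (hc : Conf θ ϖ) {g : k[X][X]} (hg : g ≠ 0)
    {Q : Type*} [AddCommGroup Q] [Module k Q] (q : k[X][X] →ₗ[k] Q)
    (hq : ∀ F, q F = 0 ↔ g ∣ F) (M I v : ℕ) (hv : v ≤ g.natDegree) (hv2 : v ≤ M + 1) :
    finrank k ((MB θ ϖ M I).map q) + v ≤ finrank k ((MB θ ϖ M (I + 1)).map q) := by
  set A := MB θ ϖ M (I + 1) with hA
  set φ : k[X][X] →ₗ[k] k[X] := ((lcoeff k[X] (3 * M + I + 1)).restrictScalars k) ∘ₗ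
    (Bivariate.swap (R := k)).toLinearMap with hφ
  have hφa : ∀ F, φ F = (Bivariate.swap F).coeff (3 * M + I + 1) := fun F => rfl
  have h1 : MB θ ϖ M I ≤ A := MB_mono (Nat.le_succ I)
  have h2 : MB θ ϖ M I ≤ LinearMap.ker φ := by
    intro F hF
    rw [LinearMap.mem_ker, hφa]
    exact coeff_eq_zero_of_natDegree_lt (lt_of_le_of_lt (MB_dIn hc hF) (Nat.lt_succ_self _))
  have h3 := growth q φ _ A h1 h2
  -- the top coefficients
  have h5 : M + 1 ≤ finrank k (A.map φ) := by
    have e1 : degreeLT k (M + 1) ≤ A.map φ := by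
      intro P hP'
      rw [mem_degreeLT] at hP'
      have e2 : P.natDegree ≤ 1 * M * 1 + 0 := by
        by_cases h0 : P = 0
        · simp [h0]
        rw [degree_eq_natDegree h0] at hP'
        have : P.natDegree < M + 1 := by exact_mod_cast hP'
        omega
      have h01 : (θ 0 : k) ≠ θ 1 := fun h => by simpa using hc.inj h
      have e3 := span_prodSet (k := k) 1 M 0 (by omega) 1 ![X - C (θ 0), X - C (θ 1)]
        (by intro j; fin_cases j <;> exact natDegree_X_sub_C _)
        (by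
          intro i j hij
          fin_cases i <;> fin_cases j
          · exact absurd rfl hij
          · exact isCoprime_X_sub_C_of_isUnit_sub (sub_ne_zero.mpr h01).isUnit
          · exact isCoprime_X_sub_C_of_isUnit_sub (sub_ne_zero.mpr h01.symm).isUnit
          · exact absurd rfl hij) P e2
      refine (Submodule.span_le.mpr ?_) e3
      rintro _ ⟨m, μ, hm, hμ, rfl⟩
      have hμ0 : μ = 0 := by omega
      subst hμ0
      rw [Fin.sum_univ_two] at hm
      set m' : Fin 4 → ℕ := ![M - m 0, M - m 1, 0, 0] with hm'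
      have hm's : ∑ j, m' j = M := by
        rw [Fin.sum_univ_four]
        simp only [hm', Matrix.cons_val]
        omega
      set cc : k := ∏ j, (ϖ j).leadingCoeff ^ (M - m' j) with hcc
      have hcc0 : cc ≠ 0 := Finset.prod_ne_zero_iff.mpr fun j _ =>
        pow_ne_zero _ (leadingCoeff_ne_zero.mpr (hc.ne j))
      refine ⟨cc⁻¹ • fB θ ϖ M m' (I + 1), Submodule.smul_mem _ _
        (Submodule.subset_span ⟨m', I + 1, hm's, le_rfl, rfl⟩), ?_⟩
      rw [map_smul, hφa, fB_eq, swap_eq_C_mul, coeff_C_mul, coeff_map]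
      have e4 : ((∏ j, ϖ j ^ (M - m' j)) * X ^ (I + 1) : k[X]).coeff (3 * M + I + 1) = cc := by
        have e5 : 3 * M + I + 1 = 3 * M + (I + 1) := by ring
        have e6 : (∏ j, ϖ j ^ (M - m' j) : k[X]).natDegree = 3 * M := by
          rw [natDegree_prod _ _ (fun j _ => pow_ne_zero _ (hc.ne j)), ← sum_sub_eq hm's]
          exact Finset.sum_congr rfl fun j _ => by rw [natDegree_pow, hc.deg j, mul_one]
        rw [e5, coeff_mul_X_pow, ← e6, coeff_natDegree, leadingCoeff_prod, hcc]
        exact Finset.prod_congr rfl fun j _ => leadingCoeff_pow _ _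
      rw [e4, mul_comm, ← smul_eq_C_mul, smul_smul, inv_mul_cancel₀ hcc0, one_smul]
      rw [Fin.prod_univ_four, Fin.prod_univ_two]
      simp [hm']
    have e2 := Submodule.finrank_mono e1
    rwa [finrank_degreeLT] at e2
  -- the multiples of `g`
  have h6 : finrank k ((A ⊓ LinearMap.ker q).map φ) + v ≤ M + 1 := by
    by_cases hz : (A ⊓ LinearMap.ker q).map φ = ⊥
    · rw [hz, finrank_bot]
      omega
    have hex : ∃ Θ : k[X][X], Θ ≠ 0 ∧ g * Θ ∈ A := by
      by_contra hcon
      push Not at hcon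
      apply hz
      rw [eq_bot_iff]
      rintro _ ⟨F, ⟨hFA, hFq⟩, rfl⟩
      obtain ⟨Θ, rfl⟩ := (hq F).mp hFq
      by_cases h0 : Θ = 0
      · rw [h0, mul_zero, map_zero]
        exact Submodule.zero_mem _
      · exact absurd hFA (hcon Θ h0)
    obtain ⟨Θ0, hΘ0, hΘ0A⟩ := hex
    have b1 := MB_natDegree hΘ0A
    rw [natDegree_mul hg hΘ0] at b1
    have e1 : (A ⊓ LinearMap.ker q).map φ ≤ (degreeLT k (M - g.natDegree + 1)).map
        (LinearMap.mulLeft k ((Bivariate.swap g).coeff (dIn g))) := by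
      rintro _ ⟨F, ⟨hFA, hFq⟩, rfl⟩
      obtain ⟨Θ, rfl⟩ := (hq F).mp hFq
      by_cases h0 : Θ = 0
      · rw [h0, mul_zero, map_zero]
        exact Submodule.zero_mem _
      have a1 := MB_natDegree hFA
      rw [natDegree_mul hg h0] at a1
      have a2 := MB_dIn hc hFA
      rw [dIn_mul hg h0] at a2
      refine ⟨(Bivariate.swap Θ).coeff (3 * M + I + 1 - dIn g), ?_, ?_⟩
      · rw [SetLike.mem_coe, mem_degreeLT]
        refine lt_of_le_of_lt degree_le_natDegree ?_
        have := natDegree_swap_coeff_le Θ (3 * M + I + 1 - dIn g)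
        have : ((Bivariate.swap Θ).coeff (3 * M + I + 1 - dIn g)).natDegree <
          M - g.natDegree + 1 := by omega
        exact_mod_cast this
      · rw [LinearMap.mulLeft_apply, hφa, map_mul]
        have h7 : (Bivariate.swap Θ).natDegree ≤ 3 * M + I + 1 - dIn g := by
          have : (Bivariate.swap Θ).natDegree = dIn Θ := rfl
          omega
        have := coeff_mul_add_eq_of_natDegree_le (f := Bivariate.swap g)
          (g := Bivariate.swap Θ) (df := dIn g) le_rfl h7
        rw [← this]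
        congr 1
        omega
    have e6 : finrank k ((A ⊓ LinearMap.ker q).map φ) ≤ M - g.natDegree + 1 :=
      (Submodule.finrank_mono e1).trans ((Submodule.finrank_map_le _ _).trans
        (finrank_degreeLT _).le)
    omega
  omega

end Vale.Agent.P018.Q
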