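import Mathlib
import Vale.Agent.P018.Q.RTop

/-! # P018, quartics, family (B): lower bounds for the ranks of the even classes. -/

namespace Vale.Agent.P018.Q

open Polynomial Module

variable {k : Type*} [Field k] {θ : Fin 4 → k} {ϖ : Fin 4 → k[X]}

theorem mkQ_eq_zero_iff (g F : k[X][X]) :
    Submodule.mkQ ((Ideal.span {g}).restrictScalars k) F = 0 ↔ g ∣ F := by
  rw [Submodule.mkQ_apply, Submodule.Quotient.mk_eq_zero, Submodule.restrictScalars_mem,
    Ideal.mem_span_singleton]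

theorem PP_ne (hc : Conf θ ϖ) : PP ϖ ≠ 0 := by
  unfold PP
  rw [Ne, C_eq_zero]
  exact Finset.prod_ne_zero_iff.mpr fun j _ => hc.ne j

theorem dvd_of_dvd_PP_mul (hc : Conf θ ϖ) {g : k[X][X]} (hg : Irreducible g)
    (hE : 1 ≤ g.natDegree) {F : k[X][X]} (h : g ∣ PP ϖ * F) : g ∣ F := by
  rcases hg.prime.dvd_or_dvd h with h1 | h1
  · exfalso
    have h2 := natDegree_le_of_dvd h1 (PP_ne hc)
    unfold PP at h2
    rw [natDegree_C] at h2
    omega
  · exact h1

/-- the rank of the even class, for any linear map with kernel `(g)`. -/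
theorem rank_MB (hc : Conf θ ϖ) {g : k[X][X]} (hg : Irreducible g) (hE : 1 ≤ g.natDegree)
    {w : Fin 4 → ℕ} (hw : ∀ j, ¬ C (ϖ j) ^ (w j + 1) ∣ tw (θ j) (ϖ j) g)
    {Q : Type*} [AddCommGroup Q] [Module k Q] (q : k[X][X] →ₗ[k] Q)
    (hq : ∀ F, q F = 0 ↔ g ∣ F) (v0 v : ℕ) (h0 : 1 ≤ v0) (hv0 : v0 ≤ g.natDegree)
    (hv : v + ∑ j, w j ≤ 4 * g.natDegree + dIn g) (i t : ℕ) (hi : v ≤ i + 5) (ht : v0 ≤ t + 1) :
    v0 * i + v * (t + 1 - v0) ≤ finrank k ((MB θ ϖ t (i + t)).map q) := by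
  have hbase : ∀ I, v0 * I ≤ finrank k ((MB θ ϖ (v0 - 1) I).map q) := by
    intro I
    induction I with
    | zero => simp
    | succ I ih =>
      have := rank_succ_right hc hg.ne_zero q hq (v0 - 1) I v0 hv0 (by omega)
      rw [mul_add, mul_one]
      omega
  have hlev : ∀ s, v0 * i + v * s ≤
      finrank k ((MB θ ϖ (v0 - 1 + s) (i + (v0 - 1) + s)).map q) := by
    intro s
    induction s with
    | zero =>
      have h1 := hbase (i + (v0 - 1))
      have h2 : v0 * i ≤ v0 * (i + (v0 - 1)) := Nat.mul_le_mul_left _ (Nat.le_add_right _ _)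
      simpa using h2.trans h1
    | succ s ih =>
      have := rank_succ_both hc hg.ne_zero hw q hq
        (fun F h => dvd_of_dvd_PP_mul hc hg hE h) (v0 - 1 + s) (i + (v0 - 1) + s) v hv (by omega)
      rw [mul_add, mul_one]
      have e1 : v0 - 1 + (s + 1) = v0 - 1 + s + 1 := by ring
      have e2 : i + (v0 - 1) + (s + 1) = i + (v0 - 1) + s + 1 := by ring
      rw [e1, e2]
      omega
  have h1 := hlev (t + 1 - v0)
  have e1 : v0 - 1 + (t + 1 - v0) = t := by omega
  have e2 : i + (v0 - 1) + (t + 1 - v0) = i + t := by omega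
  rw [e1, e2] at h1
  exact h1

theorem not_C_dvd (hc : Conf θ ϖ) {g : k[X][X]} (hg : Irreducible g) (hE : 1 ≤ g.natDegree)
    (j : Fin 4) : ¬ C (ϖ j) ∣ g := by
  intro h
  obtain ⟨h', hh'⟩ := h
  rcases hg.isUnit_or_isUnit hh' with h1 | h1
  · exact (hc.prime j).not_isUnit h1
  · have h2 := natDegree_eq_zero_of_isUnit h1
    have h3 := congrArg natDegree hh'
    have h4 : h' ≠ 0 := h1.ne_zero
    rw [natDegree_mul (hc.prime j).ne_zero h4, natDegree_C, h2] at h3
    omega

theorem ord_le (hc : Conf θ ϖ) {g : k[X][X]} (hg : Irreducible g) (hE : 1 ≤ g.natDegree)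
    {w : ℕ} {j : Fin 4} (hw : C (ϖ j) ^ w ∣ tw (θ j) (ϖ j) g) : w ≤ g.natDegree := by
  by_contra hlt
  push Not at hlt
  apply not_C_dvd hc hg hE j
  set f := g.comp (X + C (C (θ j))) with hf
  have h1 : tw (θ j) (ϖ j) g = f.comp (C (ϖ j) * X) := by
    rw [tw, hf, comp_assoc]
    congr 1
    simp [add_comm]
  have h2 : C (ϖ j) ∣ f := by
    rw [C_dvd_iff_dvd_coeff]
    intro a
    rcases Nat.lt_or_ge g.natDegree a with ha | ha
    · have : f.coeff a = 0 := by
        refine coeff_eq_zero_of_natDegree_lt ?_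
        rw [hf, natDegree_comp, natDegree_X_add_C, mul_one]
        exact ha
      rw [this]
      exact dvd_zero _
    · rw [h1, ← C_pow, C_dvd_iff_dvd_coeff] at hw
      have h3 := hw a
      rw [comp_C_mul_X_coeff] at h3
      have h4 : w = (w - a) + a := by omega
      rw [h4, pow_add] at h3
      have h5 := (mul_dvd_mul_iff_right (pow_ne_zero a (hc.ne j))).mp h3
      refine (dvd_pow_self _ ?_).trans h5
      omega
  have h3 : g = f.comp (X - C (C (θ j))) := by
    rw [hf, comp_assoc]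
    simp
  rw [h3]
  obtain ⟨q, hq⟩ := h2
  rw [hq, mul_comp, C_comp]
  exact dvd_mul_right _ _

/-- the form with a common order `w`. -/
theorem rk_MB (hc : Conf θ ϖ) {g : k[X][X]} (hg : Irreducible g) (hE : 1 ≤ g.natDegree) {w : ℕ}
    (hw : ∀ j, OrdAt (θ j) (ϖ j) w g) (i t : ℕ) (ht : g.natDegree ≤ t + 1)
    (hi : dIn g + 4 * (g.natDegree - w) ≤ i) :
    g.natDegree * i + (dIn g + 4 * (g.natDegree - w)) * (t + 1 - g.natDegree) ≤
      rk g (MB θ ϖ t (i + t)) := by
  refine rank_MB hc hg hE (w := fun _ => w) (fun j => (hw j).2)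
    (Submodule.mkQ ((Ideal.span {g}).restrictScalars k)) (mkQ_eq_zero_iff g) g.natDegree _ hE
    le_rfl ?_ i t (by omega) ht
  have := ord_le hc hg hE (hw 0).1
  simp only [Finset.sum_const, Finset.card_univ, Fintype.card_fin, smul_eq_mul]
  omega

end Vale.Agent.P018.Q
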