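import Mathlib
import Vale.Agent.P018.Q.RGenB
import Vale.Agent.P018.Q.RStep

/-! # P018, (B): large rank from one, two or four parity classes. -/

namespace Vale.Agent.P018.QB

open Polynomial NumberField Vale.Agent.P018.Q

theorem rank_from {α : Fin 4 → ℂ} {ϖ : Fin 4 → ℂ[X]} (hc : Conf α ϖ) {g : ℂ[X][X]}
    (hg : Irreducible g) (hE : 1 ≤ g.natDegree) {w : ℕ} (hw : ∀ j, OrdAt (α j) (ϖ j) w g) {D : ℕ}
    (hED : g.natDegree ≤ D) (hdI : dIn g ≤ D) {i t s : ℕ} (hs : s ≤ 1) (hi : 5 * D ≤ i)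
    (ht : D + 1 ≤ t) :
    g.natDegree * i + (dIn g + 4 * (g.natDegree - w)) * (t - g.natDegree) ≤
      rk g (MB α ϖ (t - s) (i + t)) := by
  have h1 := rk_MB hc hg hE hw (i + s) (t - s) (by omega) (by omega)
  rw [show i + s + (t - s) = i + t by omega] at h1
  refine le_trans (Nat.add_le_add ?_ ?_) h1
  · exact Nat.mul_le_mul_left _ (by omega)
  · exact Nat.mul_le_mul_left _ (by omega)

section

variable {α g1 g2 : Fin 4 → ℂ} {c : ℂ} {g : ℂ[X][X]} {w D : ℕ}

/-- the conclusion: large rank. -/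
def Large (α g1 g2 : Fin 4 → ℂ) (c : ℂ) (g : ℂ[X][X]) (C0 : ℕ) : Prop :=
  ∀ (Ω : Type) [Field Ω] [Algebra ℂ Ω] (n w : Ω) (pi : Fin 4 → Ω),
    Mdl α g1 g2 c Ω n w pi → (∀ F, evB n w F = 0 ↔ g ∣ F) → ∀ i t : ℕ, C0 ≤ i → C0 ≤ t →
    2 * i + 6 * t ≤ C0 + Module.finrank ℂ (spn w pi (mons (i + t) (2 * t) : Set Ix))

theorem arith_large {κ E V i t R D : ℕ} (hκE : 2 ≤ κ * E) (hκV : 6 ≤ κ * V) (hED : E ≤ D)
    (ht : D + 1 ≤ t) (hR : κ * (E * i + V * (t - E)) ≤ R) : 2 * i + 6 * t ≤ 6 * D + 10 + R := by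
  have h1 : 2 * i ≤ κ * E * i := Nat.mul_le_mul_right _ hκE
  have h2 : 6 * (t - E) ≤ κ * V * (t - E) := Nat.mul_le_mul_right _ hκV
  have h3 : κ * (E * i + V * (t - E)) = κ * E * i + κ * V * (t - E) := by ring
  omega

theorem large_one (hc : Conf α (gm g1 g2)) (hc0 : c ≠ 0) (hg : Irreducible g)
    (hw : ∀ j, OrdAt (α j) (gm g1 g2 j) w g) (hED : g.natDegree ≤ D) (hdI : dIn g ≤ D)
    (hE : 2 ≤ g.natDegree) (hV : 6 ≤ dIn g + 4 * (g.natDegree - w)) :
    Large α g1 g2 c g (6 * D + 10) := by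
  intro Ω _ _ n ww pi hM hgen i t hi ht
  have h1 := sum_rk_le (I := i + t) (t := t) hM hgen hc0 ![(0 : Fin 4 → ℕ)] ![0] (by
    intro χ; fin_cases χ; simp) one_class (by intro χ; fin_cases χ; simp)
  refine arith_large (κ := 1) (E := g.natDegree) (V := dIn g + 4 * (g.natDegree - w)) (by omega)
    (by omega) hED (by omega) (le_trans ?_ h1)
  rw [Fin.sum_univ_one, one_mul]
  exact rank_from hc hg (by omega) hw hED hdI (s := 0) (by omega) (by omega) (by omega)

theorem large_two (hc : Conf α (gm g1 g2)) (hc0 : c ≠ 0) (hg : Irreducible g)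
    (hw : ∀ j, OrdAt (α j) (gm g1 g2 j) w g) (hED : g.natDegree ≤ D) (hdI : dIn g ≤ D)
    (hE : 1 ≤ g.natDegree) (hV : 3 ≤ dIn g + 4 * (g.natDegree - w)) {a b : Fin 4}
    (hN : NSq α (gm g1 g2) g a b) : Large α g1 g2 c g (6 * D + 10) := by
  intro Ω _ _ n ww pi hM hgen i t hi ht
  have h0 := nsq_not_mem hM hgen hc0 hN
  have h1 := sum_rk_le (I := i + t) (t := t) hM hgen hc0
    ![(0 : Fin 4 → ℕ), Pi.single a 1 + Pi.single b 1] ![0, 1] (by
      intro χ
      fin_cases χ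
      · simp
      · simp [Finset.sum_add_distrib]) (two_classes hM h0) (by
      intro χ
      fin_cases χ
      · simp
      · simp only [Fin.mk_one, Matrix.cons_val_one, Matrix.cons_val_fin_one]; omega)
  refine arith_large (κ := 2) (E := g.natDegree) (V := dIn g + 4 * (g.natDegree - w)) (by omega)
    (by omega) hED (by omega) (le_trans ?_ h1)
  rw [Fin.sum_univ_two, two_mul]
  exact Nat.add_le_add
    (rank_from hc hg (by omega) hw hED hdI (s := 0) (by omega) (by omega) (by omega))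
    (rank_from hc hg (by omega) hw hED hdI (s := 1) (by omega) (by omega) (by omega))

theorem large_four (hc : Conf α (gm g1 g2)) (hc0 : c ≠ 0) (hg : Irreducible g)
    (hw : ∀ j, OrdAt (α j) (gm g1 g2 j) w g) (hED : g.natDegree ≤ D) (hdI : dIn g ≤ D)
    (hE : 1 ≤ g.natDegree) (hV : 2 ≤ dIn g + 4 * (g.natDegree - w))
    (hN : ∀ a b, a ≠ b → NSq α (gm g1 g2) g a b) : Large α g1 g2 c g (6 * D + 10) := by
  intro Ω _ _ n ww pi hM hgen i t hi ht
  have h0 : ∀ a b, a ≠ b → pi a * pi b ∉ KF n ww := fun a b hab =>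
    nsq_not_mem hM hgen hc0 (hN a b hab)
  have h1 := sum_rk_le (I := i + t) (t := t) hM hgen hc0
    ![(0 : Fin 4 → ℕ), Pi.single 0 1 + Pi.single 1 1, Pi.single 0 1 + Pi.single 2 1,
      Pi.single 1 1 + Pi.single 2 1] ![0, 1, 1, 1] (by
      intro χ
      fin_cases χ
      · simp
      · change ∑ j, (Pi.single 0 1 + Pi.single 1 1 : Fin 4 → ℕ) j = 2 * 1
        simp [Finset.sum_add_distrib]
      · change ∑ j, (Pi.single 0 1 + Pi.single 2 1 : Fin 4 → ℕ) j = 2 * 1
        simp [Finset.sum_add_distrib]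
      · change ∑ j, (Pi.single 1 1 + Pi.single 2 1 : Fin 4 → ℕ) j = 2 * 1
        simp [Finset.sum_add_distrib]) (four_classes hM h0) (by
      intro χ
      fin_cases χ
      · change 0 ≤ t; omega
      · change 1 ≤ t; omega
      · change 1 ≤ t; omega
      · change 1 ≤ t; omega)
  refine arith_large (κ := 4) (E := g.natDegree) (V := dIn g + 4 * (g.natDegree - w)) (by omega)
    (by omega) hED (by omega) (le_trans ?_ h1)
  rw [Fin.sum_univ_four]
  have k0 := rank_from hc hg (by omega) hw hED hdI (i := i) (t := t) (s := 0) (by omega) (by omega)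
    (by omega)
  have k1 := rank_from hc hg (by omega) hw hED hdI (i := i) (t := t) (s := 1) (by omega) (by omega)
    (by omega)
  have e : 4 * (g.natDegree * i + (dIn g + 4 * (g.natDegree - w)) * (t - g.natDegree)) =
      (g.natDegree * i + (dIn g + 4 * (g.natDegree - w)) * (t - g.natDegree)) +
      (g.natDegree * i + (dIn g + 4 * (g.natDegree - w)) * (t - g.natDegree)) +
      (g.natDegree * i + (dIn g + 4 * (g.natDegree - w)) * (t - g.natDegree)) +
      (g.natDegree * i + (dIn g + 4 * (g.natDegree - w)) * (t - g.natDegree)) := by ring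
  rw [e]
  exact Nat.add_le_add (Nat.add_le_add (Nat.add_le_add k0 k1) k1) k1

end

end Vale.Agent.P018.QB
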