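import Mathlib
import Vale.Agent.P018.Q.RDefs

/-! # P018, quartics, family (B): the curves `A n = B`. -/

namespace Vale.Agent.P018.Q

open Polynomial

variable {k : Type*} [Field k]

/-- a constant divisible by `A n - B`, `A ≠ 0`, is zero. -/
theorem lin_dvd_C {A B r : k[X]} (hA : A ≠ 0) (h : (C A * X - C B : k[X][X]) ∣ C r) : r = 0 := by
  by_contra hr
  have hd : (C A * X - C B : k[X][X]).natDegree = 1 := by
    have h1 : (C A * X - C B : k[X][X]) = C A * X + C (-B) := by rw [C_neg]; ring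
    rw [h1, natDegree_linear hA]
  have h2 := natDegree_le_of_dvd h (by rwa [Ne, C_eq_zero])
  rw [hd, natDegree_C] at h2
  omega

theorem lin_dvd_cancel {A B : k[X]} (hA : A ≠ 0) (hAB : IsCoprime A B) {h : k[X][X]}
    (hd : (C A * X - C B : k[X][X]) ∣ C A * h) : (C A * X - C B : k[X][X]) ∣ h := by
  obtain ⟨q, hq⟩ := hd
  have hc : IsCoprime (C A : k[X][X]) (C B) := by
    have := hAB.map (C : k[X] →+* k[X][X])
    exact this
  have h1 : (C A : k[X][X]) ∣ C B * q := ⟨X * q - h, by linear_combination hq⟩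
  obtain ⟨q', hq'⟩ := hc.dvd_of_dvd_mul_left h1
  refine ⟨q', ?_⟩
  have hCA : (C A : k[X][X]) ≠ 0 := by rwa [Ne, C_eq_zero]
  apply mul_left_cancel₀ hCA
  rw [hq, hq']
  ring

theorem lin_dvd_cancel_pow {A B : k[X]} (hA : A ≠ 0) (hAB : IsCoprime A B) {h : k[X][X]} (N : ℕ)
    (hd : (C A * X - C B : k[X][X]) ∣ C A ^ N * h) : (C A * X - C B : k[X][X]) ∣ h := by
  induction N with
  | zero => simpa using hd
  | succ N ih =>
    apply ih
    apply lin_dvd_cancel hA hAB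
    have : (C A : k[X][X]) * (C A ^ N * h) = C A ^ (N + 1) * h := by ring
    rwa [this]

theorem lin_exists_const (A B : k[X]) (h : k[X][X]) :
    ∃ (N : ℕ) (r : k[X]), (C A * X - C B : k[X][X]) ∣ C A ^ N * h - C r := by
  induction h using Polynomial.induction_on' with
  | add p q hp hq =>
    obtain ⟨N₁, r₁, h₁⟩ := hp
    obtain ⟨N₂, r₂, h₂⟩ := hq
    refine ⟨N₁ + N₂, A ^ N₂ * r₁ + A ^ N₁ * r₂, ?_⟩
    have : (C A : k[X][X]) ^ (N₁ + N₂) * (p + q) - C (A ^ N₂ * r₁ + A ^ N₁ * r₂)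
        = C A ^ N₂ * (C A ^ N₁ * p - C r₁) + C A ^ N₁ * (C A ^ N₂ * q - C r₂) := by
      rw [C_add, C_mul, C_mul, C_pow, C_pow]; ring
    rw [this]
    exact dvd_add (Dvd.dvd.mul_left h₁ _) (Dvd.dvd.mul_left h₂ _)
  | monomial n a =>
    refine ⟨n, B ^ n * a, ?_⟩
    have : (C A : k[X][X]) ^ n * monomial n a - C (B ^ n * a)
        = C a * ((C A * X) ^ n - (C B) ^ n) := by
      rw [← C_mul_X_pow_eq_monomial, C_mul, C_pow]; ring
    rw [this]
    exact Dvd.dvd.mul_left (sub_dvd_pow_sub_pow _ _ n) _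

/-- criterion: if `f_i f_j ϖ_i ϖ_j` is not a square in the fraction field, then `NSq`. -/
theorem lin_nsq_crit {θ : Fin 4 → k} {ϖ : Fin 4 → k[X]} {A B : k[X]} (hA : A ≠ 0)
    (hAB : IsCoprime A B) (i j : Fin 4)
    (hns : ∀ r s : k[X], r ^ 2 = (B - C (θ i) * A) * (B - C (θ j) * A) * (ϖ i * ϖ j) * s ^ 2 →
      s = 0) : NSq θ ϖ (C A * X - C B) i j := by
  intro f h hfh
  obtain ⟨N₁, r, h₁⟩ := lin_exists_const A B f
  obtain ⟨N₂, s, h₂⟩ := lin_exists_const A B h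
  set g : k[X][X] := C A * X - C B with hg
  -- work modulo `g`
  have hC : g ∣ C ((A ^ (1 + N₂) * r) ^ 2 - (B - C (θ i) * A) * (B - C (θ j) * A) * (ϖ i * ϖ j)
      * (A ^ N₁ * s) ^ 2) := by
    obtain ⟨e, he⟩ := hfh
    obtain ⟨e₁, he₁⟩ := h₁
    obtain ⟨e₂, he₂⟩ := h₂
    have hr : (C r : k[X][X]) = C A ^ N₁ * f - g * e₁ := by rw [← he₁]; ring
    have hs : (C s : k[X][X]) = C A ^ N₂ * h - g * e₂ := by rw [← he₂]; ring
    have hfi : ∀ l : Fin 4, (C (B - C (θ l) * A) : k[X][X]) = C A * lin (θ l) - g := by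
      intro l
      rw [hg, lin, C_sub, C_mul]; ring
    have hf2 : f ^ 2 = lin (θ i) * lin (θ j) * C (ϖ i * ϖ j) * h ^ 2 + g * e := by
      rw [← he]; ring
    have hexp : (C ((A ^ (1 + N₂) * r) ^ 2 - (B - C (θ i) * A) * (B - C (θ j) * A) * (ϖ i * ϖ j)
        * (A ^ N₁ * s) ^ 2) : k[X][X]) = (C A ^ (1 + N₂) * C r) ^ 2
        - C (B - C (θ i) * A) * C (B - C (θ j) * A) * C (ϖ i * ϖ j) * (C A ^ N₁ * C s) ^ 2 := by
      simp only [C_sub, C_mul, C_pow]
    rw [hexp, hfi i, hfi j, hr, hs]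
    have hkey : ∀ a l₁ l₂ w F H x y E : k[X][X], F ^ 2 = l₁ * l₂ * w * H ^ 2 + g * E →
        g ∣ (a ^ (1 + N₂) * (a ^ N₁ * F - g * x)) ^ 2
          - (a * l₁ - g) * (a * l₂ - g) * w * (a ^ N₁ * (a ^ N₂ * H - g * y)) ^ 2 := by
      intro a l₁ l₂ w F H x y E hF
      refine ⟨a ^ (2 + 2 * N₂ + 2 * N₁) * E
        + a ^ (2 + 2 * N₂) * (- 2 * a ^ N₁ * F * x + g * x ^ 2)
        - (a * l₁ - g) * (a * l₂ - g) * w * a ^ (2 * N₁) * (- 2 * a ^ N₂ * H * y + g * y ^ 2)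
        - (- a * l₁ - a * l₂ + g) * w * a ^ (2 * N₁ + 2 * N₂) * H ^ 2, ?_⟩
      linear_combination (a ^ (2 + 2 * N₂ + 2 * N₁)) * hF
    exact hkey _ _ _ _ _ _ _ _ _ hf2
  have h0 := lin_dvd_C hA hC
  have hs0 : A ^ N₁ * s = 0 := hns _ _ (sub_eq_zero.mp h0)
  have hs : s = 0 := by
    rcases mul_eq_zero.mp hs0 with h3 | h3
    · exact absurd h3 (pow_ne_zero _ hA)
    · exact h3
  apply lin_dvd_cancel_pow hA hAB N₂
  rw [hs, C_0, sub_zero] at h₂
  exact h₂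

theorem lin_cop {a b : k} (hab : a ≠ b) {A B : k[X]} (hAB : IsCoprime A B) :
    IsCoprime (B - C a * A) (B - C b * A) := by
  obtain ⟨u, v, huv⟩ := hAB
  have hne : b - a ≠ 0 := sub_ne_zero.mpr (Ne.symm hab)
  refine ⟨C (b - a)⁻¹ * (u + v * C b), C (b - a)⁻¹ * (- u - v * C a), ?_⟩
  have h1 : (C (b - a)⁻¹ : k[X]) * C (b - a) = 1 := by
    rw [← C_mul, inv_mul_cancel₀ hne, C_1]
  have h2 : (C (b - a) : k[X]) = C b - C a := C_sub
  rw [h2] at h1
  linear_combination (C (b - a)⁻¹ * (C b - C a)) * huv + h1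

/-- the common algebra: from a relation `r² = f_i f_j ϖ_i ϖ_j s²` we get a polynomial square. -/
theorem lin_square {F w r s : k[X]} (hs : s ≠ 0) (h : r ^ 2 = F * w * s ^ 2) :
    ∃ t, t ^ 2 = F * w := by
  have h1 : s ^ 2 ∣ r ^ 2 := ⟨F * w, by rw [h]; ring⟩
  have h2 : s ∣ r := (UniqueFactorizationMonoid.pow_dvd_pow_iff_dvd two_ne_zero).mp h1
  obtain ⟨t, rfl⟩ := h2
  refine ⟨t, ?_⟩
  apply mul_left_cancel₀ (pow_ne_zero 2 hs)
  linear_combination h

theorem lin_ne_zero {w : k[X]} (hw : w.natDegree = 1) : w ≠ 0 := by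
  rintro rfl
  simp at hw

theorem lin_prime {w : k[X]} (hw : w.natDegree = 1) : Prime w := by
  have : w.degree = 1 := by
    rw [degree_eq_natDegree (lin_ne_zero hw), hw]; rfl
  exact (irreducible_of_degree_eq_one this).prime

theorem lin_assoc {w w' h h' t : k[X]} (hw : w ≠ 0) (hw' : w' ≠ 0) (hh : IsCoprime h h')
    (ht : t ^ 2 = (w * h) * (w' * h') * (w * w')) :
    ∃ (c : k) (K : k[X]), c ≠ 0 ∧ h = C c * K ^ 2 := by
  have h1 : (w * w') ^ 2 ∣ t ^ 2 := ⟨h * h', by rw [ht]; ring⟩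
  have h2 : w * w' ∣ t := (UniqueFactorizationMonoid.pow_dvd_pow_iff_dvd two_ne_zero).mp h1
  obtain ⟨u, rfl⟩ := h2
  have h3 : h * h' = u ^ 2 := by
    apply mul_left_cancel₀ (pow_ne_zero 2 (mul_ne_zero hw hw'))
    linear_combination -ht
  obtain ⟨d, hd⟩ := exists_associated_pow_of_mul_eq_pow' hh h3
  obtain ⟨v, hv⟩ := hd
  obtain ⟨c, hc, hcv⟩ := Polynomial.isUnit_iff.mp v.isUnit
  refine ⟨c, d, hc.ne_zero, ?_⟩
  rw [← hv, ← hcv]; ring

/-- the curve `A n = B`: either some `x_i x_j` is not a square, or all `B - θ_j A` are, up to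
constants, `ϖ_j` times a square. -/
theorem lin_dichotomy {θ : Fin 4 → k} {ϖ : Fin 4 → k[X]} (hc : Conf θ ϖ)
    {A B : k[X]} (hA : A ≠ 0) (hAB : IsCoprime A B) :
    (∃ i j, i ≠ j ∧ NSq θ ϖ (C A * X - C B) i j) ∨
      ∀ j, ∃ (c : k) (K : k[X]), c ≠ 0 ∧ B - C (θ j) * A = C c * ϖ j * K ^ 2 := by
  by_cases hex : ∃ i j, i ≠ j ∧ NSq θ ϖ (C A * X - C B) i j
  · exact Or.inl hex
  right
  push Not at hex
  have hsq : ∀ i j, i ≠ j →
      ∃ t : k[X], t ^ 2 = (B - C (θ i) * A) * (B - C (θ j) * A) * (ϖ i * ϖ j) := by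
    intro i j hij
    by_contra hno
    apply hex i j hij
    apply lin_nsq_crit hA hAB
    intro r s hrs
    by_contra hs
    exact hno (lin_square hs hrs)
  have hpr : ∀ i, Prime (ϖ i) := fun i => lin_prime (hc.deg i)
  have hcop : ∀ i j, i ≠ j → IsCoprime (B - C (θ i) * A) (B - C (θ j) * A) :=
    fun i j hij => lin_cop (fun h => hij (hc.inj h)) hAB
  have hnd : ∀ i j, i ≠ j → ¬ ϖ i ∣ ϖ j := by
    intro i j hij h
    have := (hc.cop i j hij).isUnit_of_dvd' dvd_rfl h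
    exact (hpr i).not_isUnit this
  have hdv0 : ∀ i j, i ≠ j → ¬ ϖ i ∣ B - C (θ j) * A → ϖ i ∣ B - C (θ i) * A := by
    intro i j hij hn
    obtain ⟨t, ht⟩ := hsq i j hij
    have h1 : ϖ i ∣ t := by
      apply (hpr i).dvd_of_dvd_pow (n := 2)
      rw [ht]
      exact Dvd.dvd.mul_left (dvd_mul_right _ _) _
    obtain ⟨u, rfl⟩ := h1
    have h2 : ϖ i ∣ (B - C (θ i) * A) * (B - C (θ j) * A) * ϖ j := by
      refine ⟨u ^ 2, ?_⟩
      apply mul_left_cancel₀ (hpr i).ne_zero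
      linear_combination -ht
    rcases (hpr i).dvd_or_dvd h2 with h3 | h3
    · rcases (hpr i).dvd_or_dvd h3 with h4 | h4
      · exact h4
      · exact absurd h4 hn
    · exact absurd h3 (hnd i j hij)
  have hdv : ∀ i, ϖ i ∣ B - C (θ i) * A := by
    intro i
    obtain ⟨j, j', hj, hj', hjj'⟩ : ∃ j j' : Fin 4, i ≠ j ∧ i ≠ j' ∧ j ≠ j' := by
      fin_cases i
      · exact ⟨1, 2, by decide, by decide, by decide⟩
      · exact ⟨0, 2, by decide, by decide, by decide⟩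
      · exact ⟨0, 1, by decide, by decide, by decide⟩
      · exact ⟨0, 1, by decide, by decide, by decide⟩
    by_cases h : ϖ i ∣ B - C (θ j) * A
    · apply hdv0 i j' hj'
      intro h'
      exact (hpr i).not_isUnit ((hcop j j' hjj').isUnit_of_dvd' h h')
    · exact hdv0 i j hj h
  intro i
  obtain ⟨j, hij⟩ : ∃ j : Fin 4, i ≠ j := by
    fin_cases i
    · exact ⟨1, by decide⟩
    · exact ⟨0, by decide⟩
    · exact ⟨0, by decide⟩
    · exact ⟨0, by decide⟩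
  obtain ⟨hi, ei⟩ := hdv i
  obtain ⟨hj, ej⟩ := hdv j
  obtain ⟨t, ht⟩ := hsq i j hij
  have hch : IsCoprime hi hj := by
    have h1 := hcop i j hij
    rw [ei, ej] at h1
    exact h1.of_mul_left_right.of_mul_right_right
  rw [ei, ej] at ht
  obtain ⟨c, K, hc0, hK⟩ := lin_assoc (hpr i).ne_zero (hpr j).ne_zero hch ht
  refine ⟨c, K, hc0, ?_⟩
  rw [ei, hK]; ring

/-- the orders on the curve `A n = B` are `≤ 1`. -/
theorem lin_ord {θ : Fin 4 → k} {ϖ : Fin 4 → k[X]} (hc : Conf θ ϖ)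
    {A B : k[X]} (hA : A ≠ 0) (hAB : IsCoprime A B) {w : ℕ} (j : Fin 4)
    (hw : C (ϖ j) ^ w ∣ tw (θ j) (ϖ j) (C A * X - C B)) :
    w ≤ 1 ∧ (w = 1 → ϖ j ∣ B - C (θ j) * A) := by
  have htw : tw (θ j) (ϖ j) (C A * X - C B) = C (A * C (θ j) - B) + C (A * ϖ j) * X := by
    rw [tw, sub_comp, mul_comp, C_comp, X_comp, C_comp, C_sub, C_mul, C_mul]; ring
  rw [htw, ← C_pow, C_dvd_iff_dvd_coeff] at hw
  have h0 : ϖ j ^ w ∣ A * C (θ j) - B := by simpa using hw 0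
  have h1 : ϖ j ^ w ∣ A * ϖ j := by
    have := hw 1
    simpa [coeff_C] using this
  have hpr : Prime (ϖ j) := lin_prime (hc.deg j)
  constructor
  · by_contra hw2
    push Not at hw2
    have h2 : ϖ j ^ 2 ∣ A * ϖ j := (pow_dvd_pow _ hw2).trans h1
    have h3 : ϖ j ∣ A := by
      obtain ⟨q, hq⟩ := h2
      refine ⟨q, ?_⟩
      apply mul_right_cancel₀ hpr.ne_zero
      rw [hq]; ring
    have h4 : ϖ j ∣ A * C (θ j) - B := (dvd_pow_self _ (by omega)).trans h0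
    have h5 : ϖ j ∣ B := by
      have : B = A * C (θ j) - (A * C (θ j) - B) := by ring
      rw [this]
      exact dvd_sub (Dvd.dvd.mul_right h3 _) h4
    exact hpr.not_isUnit (hAB.isUnit_of_dvd' h3 h5)
  · intro hw1
    rw [hw1, pow_one] at h0
    have : B - C (θ j) * A = - (A * C (θ j) - B) := by ring
    rw [this, dvd_neg]
    exact h0

/-- in the case `deg ≤ 2`, all orders `1`, all `x_i x_j`, `i ≠ j`, are non squares. -/
theorem lin_nsq_all {θ : Fin 4 → k} {ϖ : Fin 4 → k[X]} (hc : Conf θ ϖ)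
    {A B : k[X]} (hA : A ≠ 0) (hAB : IsCoprime A B) (hdA : A.natDegree ≤ 2)
    (hdB : B.natDegree ≤ 2) (h2 : A.natDegree = 2 ∨ B.natDegree = 2)
    (hw : ∀ j, ϖ j ∣ B - C (θ j) * A) : ∀ i j, i ≠ j → NSq θ ϖ (C A * X - C B) i j := by
  intro i j hij
  apply lin_nsq_crit hA hAB
  intro r s hrs
  by_contra hs
  obtain ⟨t, ht⟩ := lin_square hs hrs
  have hcop : IsCoprime (B - C (θ i) * A) (B - C (θ j) * A) :=
    lin_cop (fun h => hij (hc.inj h)) hAB
  have hpr : ∀ i, Prime (ϖ i) := fun i => lin_prime (hc.deg i)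
  obtain ⟨a, ea⟩ := hw i
  obtain ⟨b, eb⟩ := hw j
  have hch : IsCoprime a b := by
    have h1 := hcop
    rw [ea, eb] at h1
    exact h1.of_mul_left_right.of_mul_right_right
  have hdeg : ∀ l : Fin 4, (B - C (θ l) * A).natDegree ≤ 2 := by
    intro l
    apply (natDegree_sub_le _ _).trans
    refine max_le hdB ((natDegree_C_mul_le _ _).trans hdA)
  -- a factor which is a constant times a square has degree zero
  have hsmall : ∀ (l : Fin 4) (p : k[X]), B - C (θ l) * A = ϖ l * p →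
      (∃ (c : k) (K : k[X]), c ≠ 0 ∧ p = C c * K ^ 2) → (B - C (θ l) * A).natDegree ≤ 1 := by
    rintro l p hp ⟨c, K, hc0, hK⟩
    by_cases hK0 : K = 0
    · rw [hp, hK, hK0]; simp
    have hp0 : p ≠ 0 := by
      rw [hK]
      exact mul_ne_zero (by rwa [Ne, C_eq_zero]) (pow_ne_zero _ hK0)
    have h1 := hdeg l
    have h3 : p.natDegree = 2 * K.natDegree := by
      rw [hK, natDegree_C_mul hc0, natDegree_pow]
    rw [hp, natDegree_mul (hpr l).ne_zero hp0, hc.deg l, h3] at h1 ⊢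
    omega
  have hdi : (B - C (θ i) * A).natDegree ≤ 1 := by
    apply hsmall i a ea
    rw [ea, eb] at ht
    exact lin_assoc (hpr i).ne_zero (hpr j).ne_zero hch ht
  have hdj : (B - C (θ j) * A).natDegree ≤ 1 := by
    apply hsmall j b eb
    rw [ea, eb] at ht
    refine lin_assoc (hpr j).ne_zero (hpr i).ne_zero hch.symm (t := t) ?_
    rw [ht]; ring
  have hne : θ j - θ i ≠ 0 := sub_ne_zero.mpr (fun h => hij (hc.inj h).symm)
  have hA1 : A.natDegree ≤ 1 := by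
    have h1 : C (θ j - θ i) * A = (B - C (θ i) * A) - (B - C (θ j) * A) := by
      rw [C_sub]; ring
    have h3 : (C (θ j - θ i) * A).natDegree ≤ 1 := by
      rw [h1]
      exact (natDegree_sub_le _ _).trans (max_le hdi hdj)
    rwa [natDegree_C_mul hne] at h3
  have hB1 : B.natDegree ≤ 1 := by
    have h1 : B = (B - C (θ i) * A) + C (θ i) * A := by ring
    rw [h1]
    exact (natDegree_add_le _ _).trans (max_le hdi ((natDegree_C_mul_le _ _).trans hA1))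
  omega

end Vale.Agent.P018.Q
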