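import Mathlib
import Vale.Agent.P018.Q.RDefs

/-! # P018, quartics, family (B): a non square on curves of degree two in `n`. -/

namespace Vale.Agent.P018.Q.NonSq

open Polynomial

variable {k : Type*} [Field k]

/-- if the product of two values is a square in the field of fractions, it is a square -/
lemma isSquare_of_frac {p : k[X]} {z : FractionRing k[X]}
    (hz : algebraMap k[X] (FractionRing k[X]) p = z ^ 2) : ∃ y : k[X], p = y ^ 2 := by
  have hint : IsIntegral k[X] z := by
    refine ⟨X ^ 2 - C p, ?_, ?_⟩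
    · exact monic_X_pow_sub_C p two_ne_zero
    · simp [hz]
  obtain ⟨y, hy⟩ := IsIntegrallyClosed.isIntegral_iff.1 hint
  refine ⟨y, ?_⟩
  apply IsFractionRing.injective k[X] (FractionRing k[X])
  rw [hz, ← hy, map_pow]

/-- the value of the product of the conjugates is in the base field -/
lemma conj_prod {F Ω : Type*} [Field F] [Field Ω] [Algebra F Ω] (a b c : F)
    (n1 n2 : Ω)
    (h1 : n1 + n2 = algebraMap F Ω (-b / a)) (h2 : n1 * n2 = algebraMap F Ω (c / a))
    (f : F[X]) : ∃ y : F, aeval n1 f * aeval n2 f = algebraMap F Ω y := by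
  have hb : algebraMap F Ω (b / a) = -(n1 + n2) := by
    rw [h1, ← map_neg]; congr 1; ring
  have e1 : aeval n1 (X ^ 2 + C (b / a) * X + C (c / a) : F[X]) = 0 := by
    simp only [map_add, map_mul, map_pow, aeval_X, aeval_C]
    rw [hb, ← h2]; ring
  have e2 : aeval n2 (X ^ 2 + C (b / a) * X + C (c / a) : F[X]) = 0 := by
    simp only [map_add, map_mul, map_pow, aeval_X, aeval_C]
    rw [hb, ← h2]; ring
  set q : F[X] := X ^ 2 + C (b / a) * X + C (c / a) with hq
  have hqm : q.Monic := by
    rw [hq]; monicity!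
  have hqd : q.natDegree = 2 := by
    rw [hq]; compute_degree!
  obtain ⟨x, y, hxy⟩ : ∃ x y : F, f %ₘ q = C x * X + C y := by
    refine ⟨(f %ₘ q).coeff 1, (f %ₘ q).coeff 0, ?_⟩
    apply Polynomial.eq_X_add_C_of_natDegree_le_one
    have := natDegree_modByMonic_lt f hqm (by
      intro h; rw [h, natDegree_one] at hqd; omega)
    omega
  have hf : ∀ n : Ω, aeval n q = 0 → aeval n f = algebraMap F Ω x * n + algebraMap F Ω y := by
    intro n hn
    conv_lhs => rw [← modByMonic_add_div f q, hxy]
    simp [hn]
  refine ⟨x ^ 2 * (c / a) + x * y * (-b / a) + y ^ 2, ?_⟩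
  rw [hf n1 e1, hf n2 e2]
  simp only [map_add, map_mul, map_pow]
  rw [← h1, ← h2]
  ring

/-- divisibility by an irreducible polynomial of positive degree, read off at a root -/
lemma dvd_of_root {g f : k[X][X]} (hg : Irreducible g) (hd : g.natDegree ≠ 0) {Ω : Type*}
    [Field Ω] [Algebra (FractionRing k[X]) Ω] (n : Ω)
    (hn : aeval n (g.map (algebraMap k[X] (FractionRing k[X]))) = 0)
    (hf : aeval n (f.map (algebraMap k[X] (FractionRing k[X]))) = 0) : g ∣ f := by
  have hp : g.IsPrimitive := hg.isPrimitive hd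
  have hgi : Irreducible (g.map (algebraMap k[X] (FractionRing k[X]))) :=
    hp.irreducible_iff_irreducible_map_fraction_map.1 hg
  by_contra hcon
  have hnd : ¬ g.map (algebraMap k[X] (FractionRing k[X])) ∣
      f.map (algebraMap k[X] (FractionRing k[X])) := fun h =>
    hcon ((hp.dvd_iff_fraction_map_dvd_fraction_map (FractionRing k[X])).2 h)
  have hcop : IsCoprime (g.map (algebraMap k[X] (FractionRing k[X])))
      (f.map (algebraMap k[X] (FractionRing k[X]))) :=
    (hgi.coprime_iff_not_dvd).2 hnd
  obtain ⟨u, v, huv⟩ := hcop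
  have := congrArg (aeval n) huv
  simp [hn, hf] at this

/-- the norm argument in a quadratic extension -/
lemma norm_arg {F Ω : Type*} [Field F] [Field Ω] [Algebra F Ω] (G f h : F[X]) (a b c s t W : F)
    (ha0 : a ≠ 0) (hGe : G = C a * X ^ 2 + C b * X + C c) (n1 : Ω) (hn1 : aeval n1 G = 0)
    (hW : W ≠ 0) (hh : ∀ n : Ω, aeval n G = 0 → aeval n h ≠ 0)
    (hdv : G ∣ f ^ 2 - (X - C s) * (X - C t) * C W * h ^ 2) :
    ∃ z : F, G.eval s * G.eval t = z ^ 2 := by
  obtain ⟨n2, hn2⟩ : ∃ n2 : Ω, n2 = algebraMap F Ω (-b / a) - n1 := ⟨_, rfl⟩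
  have h1 : n1 + n2 = algebraMap F Ω (-b / a) := by rw [hn2]; ring
  have ha' : algebraMap F Ω a ≠ 0 := by
    rw [Ne, map_eq_zero]; exact ha0
  have hn1' : algebraMap F Ω a * n1 ^ 2 + algebraMap F Ω b * n1 + algebraMap F Ω c = 0 := by
    have := hn1
    rw [hGe] at this
    simpa using this
  have h2 : n1 * n2 = algebraMap F Ω (c / a) := by
    rw [hn2, map_div₀, map_div₀, map_neg]
    field_simp
    linear_combination -hn1'
  have hn2' : aeval n2 G = 0 := by
    rw [hGe]
    simp only [map_add, map_mul, map_pow, aeval_X, aeval_C]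
    have e1 : n2 = - algebraMap F Ω b / algebraMap F Ω a - n1 := by
      rw [hn2, map_div₀, map_neg]
    rw [e1]
    field_simp
    linear_combination (algebraMap F Ω a) * hn1'
  -- factorisation of the values
  have hval : ∀ t : F, (algebraMap F Ω t - n1) * (algebraMap F Ω t - n2) *
      algebraMap F Ω a = algebraMap F Ω (G.eval t) := by
    intro t
    rw [hGe]
    simp only [eval_add, eval_mul, eval_C, eval_pow, eval_X, map_add, map_mul, map_pow]
    have e2 : (algebraMap F Ω t - n1) * (algebraMap F Ω t - n2) =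
      algebraMap F Ω t ^ 2 - (n1 + n2) * algebraMap F Ω t + n1 * n2 := by ring
    rw [e2, h1, h2, map_div₀, map_div₀, map_neg]
    field_simp
    ring
  obtain ⟨q, hq⟩ := hdv
  have hrel : ∀ n : Ω, aeval n G = 0 →
      (aeval n f) ^ 2 = (n - algebraMap F Ω s) * (n - algebraMap F Ω t) *
        algebraMap F Ω W * (aeval n h) ^ 2 := by
    intro n hn
    have e1 := congrArg (fun p => aeval n p) hq
    simp only [map_sub, map_mul, map_pow, aeval_X, aeval_C, hn, zero_mul] at e1
    linear_combination e1
  obtain ⟨y1, hy1⟩ := conj_prod a b c n1 n2 h1 h2 f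
  obtain ⟨y2, hy2⟩ := conj_prod a b c n1 n2 h1 h2 h
  have hh1 : aeval n1 h ≠ 0 := hh n1 hn1
  have hh2 : aeval n2 h ≠ 0 := hh n2 hn2'
  have hy20 : y2 ≠ 0 := by
    intro h0
    rw [h0, map_zero] at hy2
    exact (mul_ne_zero hh1 hh2) hy2
  have hmain : algebraMap F Ω (a * y1) ^ 2 =
      algebraMap F Ω (G.eval s * G.eval t) * algebraMap F Ω (W * y2) ^ 2 := by
    have r1 := hrel n1 hn1
    have r2 := hrel n2 hn2'
    have hs := hval s
    have ht := hval t
    rw [map_mul, map_mul, map_mul, ← hs, ← ht, ← hy1, ← hy2]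
    linear_combination (algebraMap F Ω a) ^ 2 * (aeval n2 f) ^ 2 * r1 +
      (algebraMap F Ω a) ^ 2 * (n1 - algebraMap F Ω s) * (n1 - algebraMap F Ω t) *
        algebraMap F Ω W * (aeval n1 h) ^ 2 * r2
  refine ⟨a * y1 / (W * y2), ?_⟩
  have e1 : (a * y1) ^ 2 = (G.eval s * G.eval t) * (W * y2) ^ 2 := by
    apply (algebraMap F Ω).injective
    rw [map_mul (algebraMap F Ω) (G.eval s * G.eval t), map_pow, map_pow]
    exact hmain
  rw [div_pow, e1]
  field_simp

/-- the norm argument: the product of two values of a quadratic polynomial is a square -/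
lemma values_square {g : k[X][X]} (hg : Irreducible g) (hd : g.natDegree = 2) (s t : k)
    {W : k[X]} (hW : W ≠ 0) {f h : k[X][X]} (hh : ¬ g ∣ h)
    (hdv : g ∣ f ^ 2 - (X - C (C s)) * (X - C (C t)) * C W * h ^ 2) :
    ∃ y : k[X], g.eval (C s) * g.eval (C t) = y ^ 2 := by
  classical
  have hφi : Function.Injective (algebraMap k[X] (FractionRing k[X])) :=
    IsFractionRing.injective k[X] (FractionRing k[X])
  have hGd : (g.map (algebraMap k[X] (FractionRing k[X]))).natDegree = 2 := by
    rw [natDegree_map_eq_of_injective hφi, hd]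
  have hG0 : g.map (algebraMap k[X] (FractionRing k[X])) ≠ 0 := by
    intro h; rw [h, natDegree_zero] at hGd; omega
  obtain ⟨n1, hn1⟩ := IsAlgClosed.exists_aeval_eq_zero (AlgebraicClosure (FractionRing k[X]))
    (g.map (algebraMap k[X] (FractionRing k[X]))) (by
      rw [Polynomial.degree_eq_natDegree hG0, hGd]; norm_num)
  obtain ⟨z, hz⟩ := norm_arg (g.map (algebraMap k[X] (FractionRing k[X])))
    (f.map (algebraMap k[X] (FractionRing k[X]))) (h.map (algebraMap k[X] (FractionRing k[X])))
    ((g.map (algebraMap k[X] (FractionRing k[X]))).coeff 2)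
    ((g.map (algebraMap k[X] (FractionRing k[X]))).coeff 1)
    ((g.map (algebraMap k[X] (FractionRing k[X]))).coeff 0)
    (algebraMap k[X] (FractionRing k[X]) (C s)) (algebraMap k[X] (FractionRing k[X]) (C t))
    (algebraMap k[X] (FractionRing k[X]) W)
    (by
      have : (g.map (algebraMap k[X] (FractionRing k[X]))).leadingCoeff =
        (g.map (algebraMap k[X] (FractionRing k[X]))).coeff 2 := by rw [leadingCoeff, hGd]
      rw [← this]; exact leadingCoeff_ne_zero.2 hG0)
    (by
      have := (g.map (algebraMap k[X] (FractionRing k[X]))).as_sum_range_C_mul_X_pow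
      rw [hGd] at this
      conv_lhs => rw [this]
      simp only [Finset.sum_range_succ, Finset.sum_range_zero]
      ring)
    n1 hn1
    (by rw [Ne, map_eq_zero_iff _ hφi]; exact hW)
    (fun n hn h0 => hh (dvd_of_root hg (by omega) n hn h0))
    (by
      have := Polynomial.map_dvd (algebraMap k[X] (FractionRing k[X])) hdv
      simpa only [Polynomial.map_sub, Polynomial.map_mul, Polynomial.map_pow, Polynomial.map_X,
        Polynomial.map_C] using this)
  rw [eval_map, eval_map, eval₂_hom, eval₂_hom, ← map_mul] at hz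
  exact isSquare_of_frac hz


open Classical in
/-- a polynomial of odd degree has an irreducible factor of odd multiplicity -/
lemma exists_odd_count {G : k[X]} (hG : Odd G.natDegree) :
    ∃ r : k[X], Irreducible r ∧ Odd ((UniqueFactorizationMonoid.normalizedFactors G).count r) := by
  have hG0 : G ≠ 0 := by
    intro h; rw [h] at hG; simp at hG
  by_contra hcon
  push Not at hcon
  have h1 : G.natDegree =
      ((UniqueFactorizationMonoid.normalizedFactors G).map natDegree).sum := by
    have ha := UniqueFactorizationMonoid.prod_normalizedFactors hG0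
    have h2 : (UniqueFactorizationMonoid.normalizedFactors G).prod.natDegree = G.natDegree :=
      natDegree_eq_of_degree_eq (degree_eq_degree_of_associated ha)
    rw [← h2, natDegree_multiset_prod]
    exact UniqueFactorizationMonoid.zero_notMem_normalizedFactors G
  have h3 : Even G.natDegree := by
    rw [h1, Finset.sum_multiset_map_count]
    refine Finset.even_sum _ fun r hr => ?_
    have hr' : r ∈ UniqueFactorizationMonoid.normalizedFactors G := Multiset.mem_toFinset.1 hr
    have hirr := UniqueFactorizationMonoid.irreducible_of_normalized_factor r hr'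
    have := hcon r hirr
    rw [Nat.not_odd_iff_even] at this
    rw [smul_eq_mul]
    exact this.mul_right _
  exact (Nat.not_even_iff_odd.2 hG) h3

/-- the abstract form of the theorem -/
theorem main {θ : Fin 4 → k} (hθ : Function.Injective θ) {w : Fin 4 → k[X]}
    (hw : ∀ j, w j ≠ 0) {g : k[X][X]} (hg : Irreducible g) (hd : g.natDegree = 2) {D : ℕ}
    (hD : Odd D) (hD1 : ∀ a, (g.coeff a).natDegree ≤ D) (hD2 : ∃ a, (g.coeff a).natDegree = D)
    (hsq : ∀ i j, i ≠ j → ∃ f h : k[X][X], ¬ g ∣ h ∧
      g ∣ f ^ 2 - (X - C (C (θ i))) * (X - C (C (θ j))) * C (w i * w j) * h ^ 2) : False := by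
  classical
  have hval : ∀ i j, i ≠ j → ∃ y : k[X], g.eval (C (θ i)) * g.eval (C (θ j)) = y ^ 2 := by
    intro i j hij
    obtain ⟨f, h, hh, hdv⟩ := hsq i j hij
    exact values_square hg hd (θ i) (θ j) (mul_ne_zero (hw i) (hw j)) hh hdv
  -- the coefficients of the value
  have hev : ∀ t : k, g.eval (C t) = g.coeff 0 + g.coeff 1 * C t + g.coeff 2 * C t ^ 2 := by
    intro t
    rw [eval_eq_sum_range, hd]
    simp [Finset.sum_range_succ]
  have hco : ∀ t : k, (g.eval (C t)).coeff D =
      (g.coeff 0).coeff D + (g.coeff 1).coeff D * t + (g.coeff 2).coeff D * t ^ 2 := by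
    intro t
    rw [hev, ← C_pow, coeff_add, coeff_add, coeff_mul_C, coeff_mul_C]
  have hdeg : ∀ t : k, (g.eval (C t)).natDegree ≤ D := by
    intro t
    rw [hev, ← C_pow]
    refine (natDegree_add_le _ _).trans (max_le ((natDegree_add_le _ _).trans (max_le (hD1 0) ?_)) ?_)
    · exact (natDegree_mul_C_le _ _).trans (hD1 1)
    · exact (natDegree_mul_C_le _ _).trans (hD1 2)
  -- the polynomial of the top coefficients
  set q : k[X] := C ((g.coeff 0).coeff D) + C ((g.coeff 1).coeff D) * X +
    C ((g.coeff 2).coeff D) * X ^ 2 with hq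
  have hq0 : q ≠ 0 := by
    obtain ⟨a, ha⟩ := hD2
    have hDpos : 0 < D := hD.pos
    have hga : g.coeff a ≠ 0 := by
      intro h0; rw [h0, natDegree_zero] at ha; omega
    have hlc : (g.coeff a).coeff D ≠ 0 := by
      rw [← ha]; exact leadingCoeff_ne_zero.2 hga
    have ha2 : a ≤ 2 := by
      rw [← hd]; exact le_natDegree_of_ne_zero hga
    intro h0
    apply hlc
    have := congrArg (fun p => p.coeff a) h0
    simp only [hq, coeff_add, coeff_C_mul, coeff_X_pow, coeff_zero, coeff_C, coeff_X] at this
    interval_cases a <;> simpa using this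
  have hqd : q.natDegree ≤ 2 := by
    rw [hq]; compute_degree
  have hqe : ∀ t, q.eval t = (g.eval (C t)).coeff D := by
    intro t
    rw [hco, hq]
    simp
  obtain ⟨j, hj⟩ : ∃ j, q.eval (θ j) ≠ 0 := by
    by_contra hcon
    push Not at hcon
    apply hq0
    apply Polynomial.eq_zero_of_natDegree_lt_card_of_eval_eq_zero q hθ hcon
    rw [Fintype.card_fin]; omega
  rw [hqe] at hj
  have hjd : (g.eval (C (θ j))).natDegree = D :=
    le_antisymm (hdeg _) (le_natDegree_of_ne_zero hj)
  have hj0 : g.eval (C (θ j)) ≠ 0 := by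
    intro h0; rw [h0, coeff_zero] at hj; exact hj rfl
  obtain ⟨r, hr, hrc⟩ := exists_odd_count (G := g.eval (C (θ j))) (by rw [hjd]; exact hD)
  have hrj : r ∈ UniqueFactorizationMonoid.normalizedFactors (g.eval (C (θ j))) :=
    Multiset.count_pos.1 hrc.pos
  have hrdvd : ∀ i, r ∣ g.eval (C (θ i)) := by
    intro i
    by_cases hij : i = j
    · rw [hij]; exact UniqueFactorizationMonoid.dvd_of_mem_normalizedFactors hrj
    by_cases hi0 : g.eval (C (θ i)) = 0
    · rw [hi0]; exact dvd_zero _
    obtain ⟨y, hy⟩ := hval i j hij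
    have hc := congrArg (fun p => (UniqueFactorizationMonoid.normalizedFactors p).count r) hy
    beta_reduce at hc
    rw [UniqueFactorizationMonoid.normalizedFactors_mul hi0 hj0,
      UniqueFactorizationMonoid.normalizedFactors_pow, Multiset.count_add,
      Multiset.count_nsmul] at hc
    have hpos : 0 < (UniqueFactorizationMonoid.normalizedFactors (g.eval (C (θ i)))).count r := by
      rcases hrc with ⟨m, hm⟩
      omega
    exact UniqueFactorizationMonoid.dvd_of_mem_normalizedFactors (Multiset.count_pos.1 hpos)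
  -- reduction modulo `r`
  have hrC : C r ∣ g := by
    have : Fact (Irreducible r) := ⟨hr⟩
    have hmap : g.map (AdjoinRoot.mk r) = 0 := by
      have hinj : Function.Injective fun i => AdjoinRoot.mk r (C (θ i)) := by
        intro i i' hii
        apply hθ
        have : Function.Injective (AdjoinRoot.of r) := (AdjoinRoot.of r).injective
        exact this hii
      apply Polynomial.eq_zero_of_natDegree_lt_card_of_eval_eq_zero
        (g.map (AdjoinRoot.mk r)) hinj
      · intro i
        rw [eval_map, eval₂_hom, AdjoinRoot.mk_eq_zero]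
        exact hrdvd i
      · rw [Fintype.card_fin]
        have := natDegree_map_le (f := AdjoinRoot.mk r) (p := g)
        omega
    rw [C_dvd_iff_dvd_coeff]
    intro a
    rw [← AdjoinRoot.mk_eq_zero, ← coeff_map, hmap, coeff_zero]
  obtain ⟨s, hs⟩ := hrC
  rcases hg.isUnit_or_isUnit hs with h1 | h1
  · exact hr.not_isUnit (isUnit_C.1 h1)
  · have h2 : s.natDegree = 0 := natDegree_eq_zero_of_isUnit h1
    have h3 : g.natDegree = 0 := by
      rw [hs, natDegree_C_mul hr.ne_zero, h2]
    omega

/-- the coefficients of `swap g` -/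
lemma coeff_swap' (p : k[X][X]) (m r : ℕ) :
    ((Bivariate.swap p).coeff r).coeff m = (p.coeff m).coeff r := by
  induction p using Polynomial.induction_on' with
  | add p q hp hq => simp [hp, hq]
  | monomial n a =>
    induction a using Polynomial.induction_on' with
    | add p q hp hq => simp only [map_add, coeff_add, hp, hq]
    | monomial l x =>
      rw [Bivariate.swap_monomial_monomial]
      simp only [coeff_monomial]
      split_ifs <;> simp_all [coeff_monomial]

end Vale.Agent.P018.Q.NonSq

namespace Vale.Agent.P018.Q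

open Polynomial

variable {k : Type*} [Field k]

/-- on a curve of degree `2` in `n` and odd degree in `ξ` some `x_i x_j` is not a square. -/
theorem exists_nsq_two [CharZero k] {θ : Fin 4 → k} {ϖ : Fin 4 → k[X]} (hc : Conf θ ϖ)
    {g : k[X][X]} (hg : Irreducible g) (hE : g.natDegree = 2) (hD : Odd (dIn g)) :
    ∃ i j, i ≠ j ∧ NSq θ ϖ g i j := by
  by_contra hcon
  push Not at hcon
  have hw : ∀ j, ϖ j ≠ 0 := by
    intro j h0
    have := hc.deg j
    rw [h0, natDegree_zero] at this
    omega
  refine NonSq.main hc.inj hw hg hE (D := dIn g) hD ?_ ?_ ?_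
  · intro a
    by_cases ha : g.coeff a = 0
    · rw [ha, natDegree_zero]; exact Nat.zero_le _
    · apply le_natDegree_of_ne_zero
      intro h0
      have h1 := NonSq.coeff_swap' g a (g.coeff a).natDegree
      rw [h0, coeff_zero] at h1
      exact (leadingCoeff_ne_zero.2 ha) h1.symm
  · have hg0 : Bivariate.swap g ≠ 0 := by
      rw [Ne, map_eq_zero_iff _ (Bivariate.swap (R := k)).injective]
      exact hg.ne_zero
    have hl : (Bivariate.swap g).coeff (dIn g) ≠ 0 := leadingCoeff_ne_zero.2 hg0
    obtain ⟨a, ha⟩ : ∃ a, ((Bivariate.swap g).coeff (dIn g)).coeff a ≠ 0 := by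
      by_contra h
      push Not at h
      exact hl (Polynomial.ext fun a => by rw [h a, coeff_zero])
    refine ⟨a, le_antisymm ?_ ?_⟩
    · by_cases ha' : g.coeff a = 0
      · rw [ha', natDegree_zero]; exact Nat.zero_le _
      · apply le_natDegree_of_ne_zero
        intro h0
        have h1 := NonSq.coeff_swap' g a (g.coeff a).natDegree
        rw [h0, coeff_zero] at h1
        exact (leadingCoeff_ne_zero.2 ha') h1.symm
    · apply le_natDegree_of_ne_zero
      rwa [← NonSq.coeff_swap']
  · intro i j hij
    have := hcon i j hij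
    unfold NSq at this
    push Not at this
    obtain ⟨f, h, h1, h2⟩ := this
    exact ⟨f, h, h2, h1⟩

end Vale.Agent.P018.Q
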