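import Mathlib
import Vale.Agent.P018.Q.BDefs
import Vale.Agent.P018.Q.BKum
import Vale.Agent.P018.Q.RGenC
import Vale.Agent.P018.Q.RClass
import Vale.Agent.P018.Q.RNonSq
import Vale.Agent.P018.Q.RLin

/-! # P018, (B): ranks on curves (item (6) of note 8286, note 8572). -/

namespace Vale.Agent.P018.QB

open Polynomial NumberField Vale.Agent.P018.Q

theorem toC_natDegree (Φ : ℤ[X][X]) : (toC Φ).natDegree = Φ.natDegree :=
  natDegree_map_eq_of_injective (map_injective _ Int.cast_injective) Φ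

theorem toC_coeff (Φ : ℤ[X][X]) (b : ℕ) :
    (toC Φ).coeff b = (Φ.coeff b).map (Int.castRingHom ℂ) := by
  unfold toC
  rw [coeff_map]; rfl

theorem toC_dIn {D : ℕ} {Φ : ℤ[X][X]} (h : BiDeg D D Φ) : dIn (toC Φ) ≤ D := by
  refine dIn_le fun b => ?_
  rw [toC_coeff]
  exact natDegree_map_le.trans (h.2 b)

/-- a point of the curve outside finitely many lines. -/
theorem exists_point {g : ℂ[X][X]} (hE : 1 ≤ g.natDegree) {ϖ : Fin 4 → ℂ[X]}
    (hϖ : ∀ j, ϖ j ≠ 0) : ∃ n0 ξ0 : ℂ, (g.map (evalRingHom ξ0)).eval n0 = 0 ∧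
      ∀ j, (ϖ j).eval ξ0 ≠ 0 := by
  have hg0 : g ≠ 0 := by
    rintro rfl
    simp at hE
  have hlc : g.leadingCoeff ≠ 0 := leadingCoeff_ne_zero.2 hg0
  set P : ℂ[X] := g.leadingCoeff * ∏ j, ϖ j with hP
  have hP0 : P ≠ 0 := mul_ne_zero hlc (Finset.prod_ne_zero_iff.2 fun j _ => hϖ j)
  obtain ⟨ξ0, hξ0⟩ : ∃ ξ0, P.eval ξ0 ≠ 0 := by
    by_contra h
    push Not at h
    exact hP0 (Polynomial.funext fun x => by rw [h x, eval_zero])
  rw [hP, eval_mul, eval_prod] at hξ0
  have h1 := left_ne_zero_of_mul hξ0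
  have h2 := Finset.prod_ne_zero_iff.1 (right_ne_zero_of_mul hξ0)
  have h3 : (g.map (evalRingHom ξ0)).natDegree = g.natDegree :=
    natDegree_map_of_leadingCoeff_ne_zero _ (by simpa using h1)
  have h4 : (g.map (evalRingHom ξ0)).degree ≠ 0 := by
    intro h
    have h5 : (g.map (evalRingHom ξ0)).natDegree = 0 := natDegree_eq_of_degree_eq_some (n := 0) h
    omega
  obtain ⟨n0, hn0⟩ := IsAlgClosed.exists_root _ h4
  exact ⟨n0, ξ0, hn0, fun j => h2 j (Finset.mem_univ j)⟩

/-- the case `E ≥ 2`. -/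
theorem large_ge_two {α g1 g2 : Fin 4 → ℂ} {c : ℂ} {g : ℂ[X][X]} {w D : ℕ}
    (hc : Conf α (gm g1 g2)) (hc0 : c ≠ 0) (hg : Irreducible g)
    (hw : ∀ j, OrdAt (α j) (gm g1 g2 j) w g) (hED : g.natDegree ≤ D) (hdI : dIn g ≤ D)
    (hE : 2 ≤ g.natDegree) : Large α g1 g2 c g (6 * D + 10) := by
  obtain ⟨n0, ξ0, h0, hξ⟩ := exists_point (g := g) (by omega) (fun j => hc.ne j)
  have h1 := class_d hc hg hE (w := fun _ => w) (fun j => (hw j).1) h0 hξ
  simp only [Finset.sum_const, Finset.card_univ, Fintype.card_fin, smul_eq_mul] at h1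
  have hwE : w ≤ g.natDegree := ord_le hc hg (by omega) (hw 0).1
  by_cases h6 : 6 ≤ dIn g + 4 * (g.natDegree - w)
  · exact large_one hc hc0 hg hw hED hdI hE h6
  · have hE2 : g.natDegree = 2 := by omega
    have hodd : Odd (dIn g) := by
      have : dIn g = 4 * w - 3 := by omega
      rw [this]
      refine ⟨2 * w - 2, ?_⟩
      omega
    obtain ⟨a, b, -, hN⟩ := exists_nsq_two hc hg hE2 hodd
    exact large_two hc hc0 hg hw hED hdI (by omega) (by omega) hN

/-- the case `E = 1`. -/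
theorem case_one {α g1 g2 : Fin 4 → ℂ} {c : ℂ} {g : ℂ[X][X]} {w D : ℕ}
    (hconf : Conf α (gm g1 g2)) (hc0 : c ≠ 0) (hirr : Irreducible g)
    (hw : ∀ j, OrdAt (α j) (gm g1 g2 j) w g) (hED : g.natDegree ≤ D) (hdI : dIn g ≤ D)
    (A B : ℂ[X]) (hgAB : g = C A * X - C B) (hA0 : A ≠ 0) (hcop : IsCoprime A B)
    (hE : g.natDegree = 1) (hA : A = g.coeff 1) (hB : B = -g.coeff 0) :
    Large α g1 g2 c g (6 * D + 10) ∨
    (∃ r : Fin 4 → ℂ, (∀ j, r j ≠ 0) ∧ ∀ j, B - C (α j) * A = gm g1 g2 j * C (r j)) ∨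
    (∀ j, ∃ (r : ℂ) (K : ℂ[X]), r ≠ 0 ∧ B - C (α j) * A = C r * gm g1 g2 j * K ^ 2) := by
  have hE1 : 1 ≤ g.natDegree := hE.ge
  have hdIAB : ∀ d, A.natDegree ≤ d → B.natDegree ≤ d → dIn g ≤ d := by
    intro d h1 h2
    refine dIn_le fun b => ?_
    match b with
    | 0 => rw [← natDegree_neg, ← hB]; exact h2
    | 1 => rw [← hA]; exact h1
    | (b + 2) =>
      rw [coeff_eq_zero_of_natDegree_lt (by omega)]
      simp
  have hAle : A.natDegree ≤ dIn g := by rw [hA]; exact natDegree_coeff_le _ _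
  have hBle : B.natDegree ≤ dIn g := by
    rw [hB, natDegree_neg]; exact natDegree_coeff_le _ _
  have hord := fun j => lin_ord hconf hA0 hcop (w := w) j (by
    rw [← hgAB]; exact (hw j).1)
  have hw1 : w ≤ 1 := (hord 0).1
  rcases Nat.lt_or_ge w 1 with hw0 | hw0
  · -- `w = 0`
    have hw00 : w = 0 := by omega
    rcases lin_dichotomy hconf hA0 hcop with ⟨a, b, -, hN⟩ | hK
    · rw [← hgAB] at hN
      exact Or.inl (large_two hconf hc0 hirr hw hED hdI hE1 (by omega) hN)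
    · exact Or.inr (Or.inr hK)
  · have hw11 : w = 1 := by omega
    have hdvd : ∀ j, gm g1 g2 j ∣ B - C (α j) * A := fun j => (hord j).2 hw11
    by_cases hd1 : dIn g ≤ 1
    · -- constant direction
      have hr : ∀ j, ∃ r : ℂ, r ≠ 0 ∧ B - C (α j) * A = gm g1 g2 j * C r := by
        intro j
        obtain ⟨q, hq⟩ := hdvd j
        have hne : B - C (α j) * A ≠ 0 := by
          intro h0
          have hBA : B = C (α j) * A := sub_eq_zero.1 h0
          have hAu : IsUnit A := by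
            rw [hBA] at hcop
            obtain ⟨u, v, huv⟩ := hcop
            exact IsUnit.of_mul_eq_one (u + v * C (α j)) (by rw [← huv]; ring)
          have hA1 := natDegree_eq_zero_of_isUnit hAu
          obtain ⟨j', hj'⟩ : ∃ j' : Fin 4, j' ≠ j := ⟨j + 1, by fin_cases j <;> decide⟩
          have h5 := hdvd j'
          have h6 : B - C (α j') * A = C (α j - α j') * A := by
            rw [hBA, C_sub]; ring
          rw [h6] at h5
          have h70 : α j - α j' ≠ 0 := by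
            rw [sub_ne_zero]
            exact fun h => hj' (hconf.inj h).symm
          have h7 : C (α j - α j') * A ≠ 0 := mul_ne_zero (C_ne_zero.2 h70) hA0
          have h8 := natDegree_le_of_dvd h5 h7
          rw [hconf.deg j', natDegree_C_mul h70, hA1] at h8
          omega
        have hq0 : q ≠ 0 := by
          rintro rfl
          rw [mul_zero] at hq
          exact hne hq
        have hdq : q.natDegree = 0 := by
          have h9 : (B - C (α j) * A).natDegree ≤ 1 := by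
            refine (natDegree_sub_le _ _).trans (max_le (hBle.trans hd1) ?_)
            exact (natDegree_C_mul_le _ _).trans (hAle.trans hd1)
          rw [hq, natDegree_mul (hconf.ne j) hq0, hconf.deg j] at h9
          omega
        obtain ⟨r, rfl⟩ := natDegree_eq_zero.1 hdq
        exact ⟨r, fun h => hq0 (by rw [h, C_0]), hq⟩
      choose r hr0 hr1 using hr
      exact Or.inr (Or.inl ⟨r, hr0, hr1⟩)
    · by_cases hd2 : dIn g ≤ 2
      · -- four classes
        have hN := lin_nsq_all hconf hA0 hcop (hAle.trans hd2) (hBle.trans hd2) (by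
          by_contra h
          push Not at h
          have h1 : A.natDegree ≤ 1 := by have := hAle.trans hd2; omega
          have h2 : B.natDegree ≤ 1 := by have := hBle.trans hd2; omega
          exact hd1 (hdIAB 1 h1 h2)) hdvd
        rw [← hgAB] at hN
        exact Or.inl (large_four hconf hc0 hirr hw hED hdI hE1 (by omega) hN)
      · rcases lin_dichotomy hconf hA0 hcop with ⟨a, b, -, hN⟩ | hK
        · rw [← hgAB] at hN
          exact Or.inl (large_two hconf hc0 hirr hw hED hdI hE1 (by omega) hN)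
        · exact Or.inr (Or.inr hK)

theorem coprime_of_irreducible {g : ℂ[X][X]} (hirr : Irreducible g) (hE : g.natDegree = 1)
    {A B : ℂ[X]} (hgAB : g = C A * X - C B) (hA0 : A ≠ 0) : IsCoprime A B := by
  rw [← isRelPrime_iff_isCoprime]
  intro d hdA hdB
  have h1 : C d ∣ g := by
    rw [hgAB]
    exact dvd_sub (Dvd.dvd.mul_right (_root_.map_dvd C hdA) _) (_root_.map_dvd C hdB)
  obtain ⟨q, hq⟩ := h1
  rcases hirr.isUnit_or_isUnit hq with h | h
  · exact isUnit_C.1 h
  · exfalso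
    have h2 := natDegree_eq_zero_of_isUnit h
    have hd0 : d ≠ 0 := by
      rintro rfl
      exact hA0 (zero_dvd_iff.1 hdA)
    rw [hq, natDegree_C_mul hd0, h2] at hE
    exact absurd hE (by norm_num)

theorem ev_lin {g : ℂ[X][X]} {A B : ℂ[X]} (hgAB : g = C A * X - C B) (n w : ℂ) :
    evB n w g = 0 ↔ n * A.eval w = B.eval w := by
  have h1 : evB n w g = A.eval w * n - B.eval w := by
    rw [hgAB, ← evh_apply, map_sub, map_mul, evh_C, evh_C, evh_X, coe_aeval_eq_eval]
  rw [h1, sub_eq_zero, mul_comm]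

theorem const_dir {α g1 g2 : Fin 4 → ℂ} {g : ℂ[X][X]} {A B : ℂ[X]} (hgAB : g = C A * X - C B)
    (hcop : IsCoprime A B) {r : Fin 4 → ℂ} (hr : ∀ j, B - C (α j) * A = gm g1 g2 j * C (r j))
    (n w : ℂ) (h : evB n w g = 0) (j k : Fin 4) :
    r k * ((n - α j) * (g1 k + w * g2 k)) = r j * ((n - α k) * (g1 j + w * g2 j)) := by
  rw [ev_lin hgAB] at h
  have hAw : A.eval w ≠ 0 := by
    intro h0
    obtain ⟨u, v, huv⟩ := hcop
    have h1 := congrArg (eval w) huv
    rw [eval_add, eval_mul, eval_mul, h0, ← h, h0] at h1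
    simp at h1
  have e : ∀ j, A.eval w * (n - α j) = (g1 j + w * g2 j) * r j := by
    intro j
    have h1 := congrArg (eval w) (hr j)
    rw [eval_sub, eval_mul, eval_mul, eval_C, eval_C, ← h, gm, eval_add, eval_mul, eval_C,
      eval_C, eval_X] at h1
    linear_combination h1
  apply mul_left_cancel₀ hAw
  calc A.eval w * (r k * ((n - α j) * (g1 k + w * g2 k))) =
      r k * (A.eval w * (n - α j)) * (g1 k + w * g2 k) := by ring
    _ = r j * (A.eval w * (n - α k)) * (g1 j + w * g2 j) := by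
        rw [e j, e k]; ring
    _ = _ := by ring

/-- the four cases for an irreducible rational curve `Φ(n, w) = 0` on a non special lattice. -/
theorem curve_rank (D : ℕ) : ∃ C0 : ℕ, ∀ {L : Type} [Field L] [NumberField L] (θ : Fin 4 → 𝓞 L)
    (G : ℤ[X]), Root4 θ G → ∀ (φ : L →+* ℂ) (c : ℤ) (g1 g2 : Fin 4 → ℤ), c ≠ 0 →
    NonSpec θ g1 g2 → ∀ (Φ : ℤ[X][X]), Irreducible (toC Φ) → BiDeg D D Φ →
    -- large rank
    (∀ (Ω : Type) [Field Ω] [Algebra ℂ Ω] (n w : Ω) (pi : Fin 4 → Ω),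
      Mdl (fun j => φ (θ j)) (cf θ φ g1) (cf θ φ g2) c Ω n w pi →
      (∀ F, evB n w F = 0 ↔ toC Φ ∣ F) → ∀ i t : ℕ, C0 ≤ i → C0 ≤ t →
      2 * i + 6 * t ≤ C0 + Module.finrank ℂ (spn w pi (mons (i + t) (2 * t) : Set Ix)))
    -- fibre `w = const`
    ∨ Φ.natDegree = 0
    -- constant direction of `π`
    ∨ (∃ r : Fin 4 → ℂ, (∀ j, r j ≠ 0) ∧ ∀ (n w : ℂ), evB n w (toC Φ) = 0 →
        ∀ j k, r k * ((n - φ (θ j)) * (cf θ φ g1 k + w * cf θ φ g2 k)) =
          r j * ((n - φ (θ k)) * (cf θ φ g1 j + w * cf θ φ g2 j)))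
    -- gap: `n = B(w)/A(w)`, all `x_j` squares
    ∨ (∃ A B : ℤ[X], A.natDegree ≤ D ∧ B.natDegree ≤ D ∧
        IsCoprime (A.map (Int.castRingHom ℚ)) (B.map (Int.castRingHom ℚ)) ∧
        (∀ n w : ℂ, evB n w (toC Φ) = 0 ↔
          n * (A.map (Int.castRingHom ℂ)).eval w = (B.map (Int.castRingHom ℂ)).eval w) ∧
        ∀ j, ∃ h : ℂ[X], B.map (Int.castRingHom ℂ) - Polynomial.C (φ (θ j)) *
          A.map (Int.castRingHom ℂ) = (Polynomial.C (cf θ φ g1 j) +
            Polynomial.C (cf θ φ g2 j) * X) * h ^ 2) := by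
  refine ⟨6 * D + 10, ?_⟩
  intro L _ _ θ G hG φ c g1 g2 hc0 hns Φ hirr hdeg
  by_cases hE0 : Φ.natDegree = 0
  · exact Or.inr (Or.inl hE0)
  have hcC : (c : ℂ) ≠ 0 := by exact_mod_cast hc0
  have hconf := conf_of θ G hG φ hns
  obtain ⟨w, hw⟩ := ord_equal θ G hG φ hns Φ hirr.ne_zero
  have hED : (toC Φ).natDegree ≤ D := by rw [toC_natDegree]; exact hdeg.1
  have hE1 : 1 ≤ (toC Φ).natDegree := by rw [toC_natDegree]; omega
  have hdI := toC_dIn hdeg
  by_cases hE2 : 2 ≤ (toC Φ).natDegree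
  · exact Or.inl (large_ge_two hconf hcC hirr hw hED hdI hE2)
  have hE : (toC Φ).natDegree = 1 := by omega
  have hgAB : toC Φ = C ((toC Φ).coeff 1) * X - C (-(toC Φ).coeff 0) := by
    conv_lhs => rw [eq_X_add_C_of_natDegree_le_one hE.le]
    rw [C_neg, sub_neg_eq_add]
  have hA0 : (toC Φ).coeff 1 ≠ 0 := by
    have := leadingCoeff_ne_zero.2 hirr.ne_zero
    rwa [leadingCoeff, hE] at this
  have hcop := coprime_of_irreducible hirr hE hgAB hA0
  rcases case_one hconf hcC hirr hw hED hdI _ _ hgAB hA0 hcop hE rfl rfl with h | ⟨r, hr0, hr⟩ | hK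
  · exact Or.inl h
  · exact Or.inr (Or.inr (Or.inl ⟨r, hr0, fun n w' h j k => const_dir hgAB hcop hr n w' h j k⟩))
  · refine Or.inr (Or.inr (Or.inr ?_))
    have eA : (Φ.coeff 1).map (Int.castRingHom ℂ) = (toC Φ).coeff 1 := by rw [toC_coeff]
    have eB : (-Φ.coeff 0).map (Int.castRingHom ℂ) = -(toC Φ).coeff 0 := by
      rw [toC_coeff, Polynomial.map_neg]
    refine ⟨Φ.coeff 1, -Φ.coeff 0, hdeg.2 1, ?_, ?_, ?_, ?_⟩
    · rw [natDegree_neg]; exact hdeg.2 0
    · rw [← isCoprime_map (algebraMap ℚ ℂ), Polynomial.map_map, Polynomial.map_map,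
        show (algebraMap ℚ ℂ).comp (Int.castRingHom ℚ) = Int.castRingHom ℂ from
          RingHom.ext_int _ _, eA, eB]
      exact hcop
    · intro n w
      rw [eA, eB]
      exact ev_lin hgAB n w
    · intro j
      obtain ⟨r, K, hr, hrK⟩ := hK j
      obtain ⟨s, hs⟩ := IsAlgClosed.exists_pow_nat_eq r (n := 2) (by norm_num)
      refine ⟨C s * K, ?_⟩
      rw [eA, eB, hrK, ← hs, mul_pow, C_pow]
      change C s ^ 2 * (C (cf θ φ g1 j) + C (cf θ φ g2 j) * X) * K ^ 2 = _
      ring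

end Vale.Agent.P018.QB
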