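import Mathlib
import Vale.Agent.P018.Q.BDefs
import Vale.Agent.P018.Q.RelDiv

/-! # P018, (B): few solutions with given `y`. -/

namespace Vale.Agent.P018.QB

open Polynomial NumberField Vale.Agent.P018.Q

/-- an integer divisible by all differences of the conjugates. -/
theorem fy_disc {L : Type*} [Field L] [NumberField L] (θ : Fin 4 → 𝓞 L)
    (hθ : Function.Injective θ) :
    ∃ Δ : ℤ, Δ ≠ 0 ∧ ∀ i j, i ≠ j → θ i - θ j ∣ (Δ : 𝓞 L) := by
  classical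
  set d : 𝓞 L := ∏ q ∈ (Finset.univ : Finset (Fin 4 × Fin 4)) with q.1 ≠ q.2,
    (θ q.1 - θ q.2) with hd
  have hd0 : d ≠ 0 := by
    rw [hd, Finset.prod_ne_zero_iff]
    intro q hq
    rw [Finset.mem_filter] at hq
    exact sub_ne_zero.2 fun h => hq.2 (hθ h)
  have hdΔ : d ∣ ((Ideal.absNorm (Ideal.span {d}) : ℤ) : 𝓞 L) := by
    rw [← Ideal.mem_span_singleton]
    exact_mod_cast Ideal.absNorm_mem (Ideal.span {d})
  have hΔ0 : (Ideal.absNorm (Ideal.span {d}) : ℤ) ≠ 0 := by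
    rw [Nat.cast_ne_zero, Ne, Ideal.absNorm_eq_zero_iff, Ideal.span_singleton_eq_bot]
    exact hd0
  refine ⟨Ideal.absNorm (Ideal.span {d}), hΔ0, fun i j hij => dvd_trans ?_ hdΔ⟩
  rw [hd]
  exact Finset.dvd_prod_of_mem (fun q : Fin 4 × Fin 4 => θ q.1 - θ q.2)
    (Finset.mem_filter.2 ⟨Finset.mem_univ (i, j), hij⟩)

/-- a finite set of integers in an interval. -/
theorem fy_card (S : Finset ℤ) (B : ℕ) (h : ∀ N ∈ S, |N| ≤ B) : S.card ≤ 2 * B + 1 := by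
  have h1 : S ⊆ Finset.Icc (-(B : ℤ)) B := fun N hN => Finset.mem_Icc.2 (abs_le.1 (h N hN))
  have h2 := Finset.card_le_card h1
  rw [Int.card_Icc] at h2
  omega

/-- two solutions with the same `y` are congruent modulo `p ^ 2`. -/
theorem fy_dvd {L : Type*} [Field L] [NumberField L] {θ : Fin 4 → 𝓞 L} {Δ : ℤ}
    (hΔ0 : Δ ≠ 0) (hΔ : ∀ i j, i ≠ j → θ i - θ j ∣ (Δ : 𝓞 L))
    (π γ γ' : Fin 4 → 𝓞 L) (N N' c c' : ℤ) (p : ℕ) (hp : p.Prime) (hc : c ≠ 0) (hcp : |c| < p)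
    (hΔp : |Δ| < p) (heq : ∀ i, (c : 𝓞 L) * ((N : 𝓞 L) - θ i) = π i ^ 2 * γ i)
    (heq' : ∀ i, (c : 𝓞 L) * ((N' : 𝓞 L) - θ i) = π i ^ 2 * γ' i)
    (hprod : ∏ i, π i = (((p : ℤ) * c' : ℤ) : 𝓞 L)) : (p : ℤ) ^ 2 ∣ N - N' := by
  have hk : ∀ i j, i ≠ j → (((c * Δ : ℤ)) : 𝓞 L) ∈ Ideal.span {π i, π j} := by
    intro i j hij
    obtain ⟨w, hw⟩ := hΔ i j hij
    have h2 : (c : 𝓞 L) * (θ i - θ j) = π j ^ 2 * γ j - π i ^ 2 * γ i := by
      rw [← heq i, ← heq j]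
      ring
    rw [Int.cast_mul, hw, ← mul_assoc, h2]
    exact Ideal.mem_span_pair.2 ⟨-(π i * γ i * w), π j * γ j * w, by ring⟩
  have hk' : ∀ i j, i ≠ j → (((c * Δ : ℤ)) : 𝓞 L) ^ (2 * 2) ∈ Ideal.span {π i ^ 2, π j ^ 2} :=
    fun i j hij => rd_pow (hk i j hij) 2
  have hx : ∀ j, π j ^ 2 ∣ (((c * (N - N') : ℤ)) : 𝓞 L) := by
    intro j
    refine ⟨γ j - γ' j, ?_⟩
    push_cast
    linear_combination heq j - heq' j
  have h4 := rd_four (A := fun j => π j ^ 2) hk' hx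
  rw [Finset.prod_pow, hprod] at h4
  have h5 : (((p : ℤ) ^ 2 : ℤ) : 𝓞 L) ∣
      (((c * Δ) ^ (2 * 2)) ^ 6 * (c * (N - N')) : ℤ) := by
    refine dvd_trans ?_ (show ((((p : ℤ) * c' : ℤ) : 𝓞 L)) ^ 2 ∣ _ by
      push_cast at h4 ⊢
      exact h4)
    push_cast
    rw [mul_pow]
    exact dvd_mul_right _ _
  have h6 := rd_int L h5
  have hc1 : IsCoprime ((p : ℤ) ^ 2) (((c * Δ) ^ (2 * 2)) ^ 6 * c) := by
    have a1 := rd_cop hp hc hcp
    have a2 := rd_cop hp hΔ0 hΔp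
    exact IsCoprime.pow_left (IsCoprime.mul_right
      (IsCoprime.pow_right (IsCoprime.pow_right (a1.mul_right a2))) a1)
  rw [← mul_assoc] at h6
  exact hc1.dvd_of_dvd_mul_left h6

/-- few solutions with given `y`. -/
theorem few_y {L : Type} [Field L] [NumberField L] (θ : Fin 4 → 𝓞 L) (G : ℤ[X])
    (hG : Root4 θ G) (C : ℕ) : ∃ K : ℕ, ∀ (X T : ℝ), 1 ≤ T → 1 ≤ X → T ^ 2 ≤ C * X → X ≤ C * T ^ 4 →
      ∀ (c : ℤ) (y : Fin 4 → ℤ) (S : Finset ℤ) (p : ℤ → ℕ) (z : ℤ → Fin 4 → ℤ),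
      (∀ N ∈ S, X ≤ C * |(N : ℝ)| ∧ Dat θ C X T N (p N) c y (z N)) → S.card ≤ K := by
  obtain ⟨Δ, hΔ0, hΔ⟩ := fy_disc θ hG.inj
  set M : ℕ := C + Δ.natAbs + 2 * C ^ 2 + 1 with hM
  refine ⟨2 * (C * (C * M)) + 1, fun X T hT hX hTX hXT c y S p z hS => ?_⟩
  have hC0 : (0 : ℝ) ≤ C := Nat.cast_nonneg _
  by_cases hTM : T ^ 4 ≤ M
  · refine fy_card S _ fun N hN => ?_
    obtain ⟨-, hd⟩ := hS N hN
    have h1 : |(N : ℝ)| ≤ C * (C * M) := by
      refine hd.hN.trans ?_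
      refine mul_le_mul_of_nonneg_left (hXT.trans ?_) hC0
      exact mul_le_mul_of_nonneg_left hTM hC0
    have h2 : ((|N| : ℤ) : ℝ) ≤ ((C * (C * M) : ℕ) : ℝ) := by
      push_cast
      exact h1
    exact_mod_cast h2
  · push Not at hTM
    have hone : S.card ≤ 1 := by
      rw [Finset.card_le_one]
      intro N hN N' hN'
      obtain ⟨-, hd⟩ := hS N hN
      obtain ⟨-, hd'⟩ := hS N' hN'
      obtain ⟨c', -, -, hprod⟩ := hd.nrm
      have hp1 : (M : ℝ) < p N := hTM.trans_le hd.lo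
      have hp2 : M < p N := by exact_mod_cast hp1
      have h1 := fy_dvd hΔ0 hΔ (fun j => K.ell (θ j) y) (fun j => K.ell (θ j) (z N))
        (fun j => K.ell (θ j) (z N')) N N' c c' (p N) hd.prime hd.c0 (by
          have := hd.cC
          omega) (by
          have := Int.abs_eq_natAbs Δ
          omega) hd.eqn hd'.eqn hprod
      have h2 : |N - N'| < (p N : ℤ) ^ 2 := by
        have e1 : |((N - N' : ℤ) : ℝ)| ≤ 2 * (C * (C * T ^ 4)) := by
          push_cast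
          have e2 := hd.hN
          have e3 := hd'.hN
          have e4 : (C : ℝ) * X ≤ C * (C * T ^ 4) := mul_le_mul_of_nonneg_left hXT hC0
          calc |(N : ℝ) - N'| ≤ |(N : ℝ)| + |(N' : ℝ)| := abs_sub _ _
            _ ≤ 2 * (C * (C * T ^ 4)) := by linarith
        have e5 : |((N - N' : ℤ) : ℝ)| < (p N : ℝ) ^ 2 := by
          have e6 : (2 * (C : ℝ) ^ 2) < p N := by
            have : ((2 * C ^ 2 : ℕ) : ℝ) ≤ M := by exact_mod_cast (by omega)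
            push_cast at this
            linarith
          have e7 : (0 : ℝ) < p N := by
            have : (0 : ℝ) ≤ M := Nat.cast_nonneg _
            linarith
          have e8 := hd.lo
          have e9 : (0 : ℝ) ≤ T ^ 4 := by positivity
          calc |((N - N' : ℤ) : ℝ)| ≤ 2 * (C * (C * T ^ 4)) := e1
            _ = (2 * (C : ℝ) ^ 2) * T ^ 4 := by ring
            _ ≤ (2 * (C : ℝ) ^ 2) * p N := mul_le_mul_of_nonneg_left e8 (by positivity)
            _ < p N * p N := mul_lt_mul_of_pos_right e6 e7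
            _ = (p N : ℝ) ^ 2 := by ring
        have e10 : ((|N - N'| : ℤ) : ℝ) < (((p N : ℤ) ^ 2 : ℤ) : ℝ) := by
          rw [Int.cast_abs]
          push_cast at e5 ⊢
          exact e5
        exact_mod_cast e10
      have h3 := Int.eq_zero_of_abs_lt_dvd h1 h2
      omega
    omega

end Vale.Agent.P018.QB
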