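import Mathlib

/-! # P018, (B): determinants of square roots. -/

namespace Vale.Agent.P018.QB

open Matrix

/-- the divided differences of `t ↦ √(1 - a t)` in terms of the values. -/
noncomputable def fzd (a : ℂ) (g : Fin 4 → ℂ) : Fin 4 → ℂ :=
  ![g 0, -a / (g 0 + g 1), -a ^ 2 / ((g 0 + g 1) * (g 1 + g 2) * (g 0 + g 2)),
    -a ^ 3 * (g 0 + g 1 + g 2 + g 3) /
      ((g 0 + g 1) * (g 0 + g 2) * (g 0 + g 3) * (g 1 + g 2) * (g 1 + g 3) * (g 2 + g 3))]

/-- the Newton basis. -/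
def fzU (t : Fin 4 → ℂ) : Matrix (Fin 4) (Fin 4) ℂ :=
  !![1, 1, 1, 1;
    0, t 1 - t 0, t 2 - t 0, t 3 - t 0;
    0, 0, (t 2 - t 0) * (t 2 - t 1), (t 3 - t 0) * (t 3 - t 1);
    0, 0, 0, (t 3 - t 0) * (t 3 - t 1) * (t 3 - t 2)]

theorem fz_detU (t : Fin 4 → ℂ) : (fzU t).det =
    (t 1 - t 0) * (t 2 - t 0) * (t 3 - t 0) * (t 2 - t 1) * (t 3 - t 1) * (t 3 - t 2) := by
  unfold fzU
  rw [Matrix.det_succ_column_zero]
  simp [Fin.sum_univ_succ, Matrix.det_fin_three, Matrix.submatrix]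
  ring

/-- Newton interpolation. -/
theorem fz_newton (a : ℂ) (g t : Fin 4 → ℂ) (hg : ∀ k, g k ^ 2 = 1 - a * t k)
    (h : ∀ k l, g k + g l ≠ 0) (k : Fin 4) :
    ∑ i, fzd a g i * fzU t i k = g k := by
  have e : ∀ k l, a * (t l - t k) = g k ^ 2 - g l ^ 2 := by
    intro k l
    rw [hg, hg]
    ring
  have h01 := h 0 1
  have h02 := h 0 2
  have h03 := h 0 3
  have h12 := h 1 2
  have h13 := h 1 3
  have h23 := h 2 3
  rw [Fin.sum_univ_four]
  fin_cases k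
  · simp [fzd, fzU]
  · simp only [fzd, fzU, Fin.isValue, Matrix.cons_val_zero, Matrix.cons_val_one, Matrix.cons_val,
      Matrix.of_apply, Fin.mk_one]
    have e1 : -a / (g 0 + g 1) * (t 1 - t 0) = -(g 0 ^ 2 - g 1 ^ 2) / (g 0 + g 1) := by
      rw [← e 0 1]
      ring
    rw [e1, mul_zero, mul_zero, add_zero, add_zero]
    field_simp
    ring
  · simp only [fzd, fzU, Fin.isValue, Matrix.cons_val_zero, Matrix.cons_val_one, Matrix.cons_val,
      Matrix.of_apply, Fin.reduceFinMk]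
    have e1 : -a / (g 0 + g 1) * (t 2 - t 0) = -(g 0 ^ 2 - g 2 ^ 2) / (g 0 + g 1) := by
      rw [← e 0 2]
      ring
    have e2 : -a ^ 2 / ((g 0 + g 1) * (g 1 + g 2) * (g 0 + g 2)) *
        ((t 2 - t 0) * (t 2 - t 1)) = -((g 0 ^ 2 - g 2 ^ 2) * (g 1 ^ 2 - g 2 ^ 2)) /
          ((g 0 + g 1) * (g 1 + g 2) * (g 0 + g 2)) := by
      rw [← e 0 2, ← e 1 2]
      ring
    rw [e1, e2]
    field_simp
    ring
  · simp only [fzd, fzU, Fin.isValue, Matrix.cons_val_zero, Matrix.cons_val_one, Matrix.cons_val,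
      Matrix.of_apply, Fin.reduceFinMk]
    have e1 : -a / (g 0 + g 1) * (t 3 - t 0) = -(g 0 ^ 2 - g 3 ^ 2) / (g 0 + g 1) := by
      rw [← e 0 3]
      ring
    have e2 : -a ^ 2 / ((g 0 + g 1) * (g 1 + g 2) * (g 0 + g 2)) *
        ((t 3 - t 0) * (t 3 - t 1)) = -((g 0 ^ 2 - g 3 ^ 2) * (g 1 ^ 2 - g 3 ^ 2)) /
          ((g 0 + g 1) * (g 1 + g 2) * (g 0 + g 2)) := by
      rw [← e 0 3, ← e 1 3]
      ring
    have e3 : -a ^ 3 * (g 0 + g 1 + g 2 + g 3) /
        ((g 0 + g 1) * (g 0 + g 2) * (g 0 + g 3) * (g 1 + g 2) * (g 1 + g 3) * (g 2 + g 3)) *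
        ((t 3 - t 0) * (t 3 - t 1) * (t 3 - t 2)) =
        -((g 0 ^ 2 - g 3 ^ 2) * (g 1 ^ 2 - g 3 ^ 2) * (g 2 ^ 2 - g 3 ^ 2)) *
          (g 0 + g 1 + g 2 + g 3) /
        ((g 0 + g 1) * (g 0 + g 2) * (g 0 + g 3) * (g 1 + g 2) * (g 1 + g 3) * (g 2 + g 3)) := by
      rw [← e 0 3, ← e 1 3, ← e 2 3]
      ring
    rw [e1, e2, e3]
    field_simp
    ring

/-- the determinant of the values. -/
theorem fz_det (α : Fin 4 → ℂ) (f : Fin 4 → Fin 4 → ℂ) (t : Fin 4 → ℂ)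
    (hf : ∀ j k, f j k ^ 2 = 1 - α j * t k) (h : ∀ j k l, f j k + f j l ≠ 0) :
    (Matrix.of f).det = (Matrix.of fun j i => fzd (α j) (f j) i).det *
      ((t 1 - t 0) * (t 2 - t 0) * (t 3 - t 0) * (t 2 - t 1) * (t 3 - t 1) * (t 3 - t 2)) := by
  rw [← fz_detU, ← Matrix.det_mul]
  congr 1
  ext j k
  rw [Matrix.mul_apply]
  exact (fz_newton (α j) (f j) t (hf j) (h j) k).symm

/-- the determinant of the divided differences near `1`. -/
theorem fz_near (α : Fin 4 → ℂ) (hα : Function.Injective α) :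
    ∃ (δ B : ℝ), 0 < δ ∧ 0 < B ∧ ∀ f : Fin 4 → Fin 4 → ℂ, (∀ j k, ‖f j k - 1‖ < δ) →
      (Matrix.of fun j i => fzd (α j) (f j) i).det ≠ 0 ∧
      ‖(Matrix.of fun j i => fzd (α j) (f j) i).det‖ ≤ B := by
  set Dt : (Fin 4 → Fin 4 → ℂ) → ℂ := fun f => (Matrix.of fun j i => fzd (α j) (f j) i).det
    with hDt
  have hcont : ContinuousAt Dt (fun _ _ => 1) := by
    have h1 : ContinuousAt (fun f : Fin 4 → Fin 4 → ℂ =>
        (Matrix.of fun j i => fzd (α j) (f j) i : Matrix (Fin 4) (Fin 4) ℂ)) (fun _ _ => 1) := by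
      refine continuousAt_pi.2 fun j => continuousAt_pi.2 fun i => ?_
      have hc : ∀ k, ContinuousAt (fun f : Fin 4 → Fin 4 → ℂ => f j k) (fun _ _ => 1) :=
        fun k => ((continuous_apply k).comp (continuous_apply j)).continuousAt
      have c0 := hc 0
      have c1 := hc 1
      have c2 := hc 2
      have c3 := hc 3
      fin_cases i
      · exact c0
      · change ContinuousAt (fun f : Fin 4 → Fin 4 → ℂ => -α j / (f j 0 + f j 1)) _
        refine ContinuousAt.div continuousAt_const (c0.add c1) (by norm_num)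
      · change ContinuousAt (fun f : Fin 4 → Fin 4 → ℂ => -α j ^ 2 /
          ((f j 0 + f j 1) * (f j 1 + f j 2) * (f j 0 + f j 2))) _
        refine ContinuousAt.div continuousAt_const
          (((c0.add c1).mul (c1.add c2)).mul (c0.add c2)) (by norm_num)
      · change ContinuousAt (fun f : Fin 4 → Fin 4 → ℂ => -α j ^ 3 *
          (f j 0 + f j 1 + f j 2 + f j 3) /
          ((f j 0 + f j 1) * (f j 0 + f j 2) * (f j 0 + f j 3) * (f j 1 + f j 2) *
            (f j 1 + f j 3) * (f j 2 + f j 3))) _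
        refine ContinuousAt.div (continuousAt_const.mul (((c0.add c1).add c2).add c3))
          ((((((c0.add c1).mul (c0.add c2)).mul (c0.add c3)).mul (c1.add c2)).mul
            (c1.add c3)).mul (c2.add c3)) (by norm_num)
    exact ContinuousAt.comp (g := fun A : Matrix (Fin 4) (Fin 4) ℂ => A.det)
      (Continuous.matrix_det continuous_id).continuousAt h1
  have hval : Dt (fun _ _ => 1) ≠ 0 := by
    have h1 : (Matrix.of fun j i => fzd (α j) (fun _ => 1) i : Matrix (Fin 4) (Fin 4) ℂ) =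
        Matrix.vandermonde α * Matrix.diagonal ![1, -1 / 2, -1 / 8, -1 / 16] := by
      ext j i
      rw [Matrix.mul_diagonal, Matrix.vandermonde_apply]
      fin_cases i
      · simp [fzd]
      · simp [fzd]
        ring
      · simp [fzd]
        ring
      · simp [fzd]
        ring
    change (Matrix.of fun j i => fzd (α j) (fun _ => 1) i : Matrix (Fin 4) (Fin 4) ℂ).det ≠ 0
    rw [h1, Matrix.det_mul, Matrix.det_diagonal]
    refine mul_ne_zero (Matrix.det_vandermonde_ne_zero_iff.2 hα) ?_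
    rw [Fin.prod_univ_four]
    simp
  have hε : 0 < ‖Dt (fun _ _ => 1)‖ := norm_pos_iff.2 hval
  obtain ⟨δ, hδ, hball⟩ := Metric.continuousAt_iff.1 hcont ‖Dt (fun _ _ => 1)‖ hε
  refine ⟨δ, 2 * ‖Dt (fun _ _ => 1)‖, hδ, by linarith, fun f hf => ?_⟩
  have h1 : dist f (fun _ _ => (1 : ℂ)) < δ := by
    rw [dist_pi_lt_iff hδ]
    intro j
    rw [dist_pi_lt_iff hδ]
    intro k
    rw [dist_eq_norm]
    exact hf j k
  have h2 := hball h1
  rw [dist_eq_norm] at h2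
  constructor
  · intro h3
    have h4 : Dt f = 0 := h3
    rw [h4, zero_sub, norm_neg] at h2
    exact lt_irrefl _ h2
  · have h5 : ‖Dt f‖ ≤ ‖Dt f - Dt (fun _ _ => 1)‖ + ‖Dt (fun _ _ => 1)‖ := by
      simpa using norm_add_le (Dt f - Dt (fun _ _ => 1)) (Dt (fun _ _ => 1))
    change ‖Dt f‖ ≤ _
    linarith

/-- a square root near `1`. -/
theorem fz_sqrt (z : ℂ) : ∃ w : ℂ, w ^ 2 = 1 - z ∧ ‖w - 1‖ ≤ ‖z‖ := by
  obtain ⟨w, hw⟩ := IsAlgClosed.exists_pow_nat_eq (1 - z) (n := 2) (by norm_num)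
  have key : ∀ w : ℂ, w ^ 2 = 1 - z → 0 ≤ w.re → ‖w - 1‖ ≤ ‖z‖ := by
    intro w hw hre
    have h1 : (w - 1) * (w + 1) = -z := by linear_combination hw
    have h2 : ‖w - 1‖ * ‖w + 1‖ = ‖z‖ := by rw [← norm_mul, h1, norm_neg]
    have h3 : 1 ≤ ‖w + 1‖ := by
      have h4 : (w + 1).re ≤ ‖w + 1‖ := Complex.re_le_norm _
      rw [Complex.add_re, Complex.one_re] at h4
      linarith
    nlinarith [norm_nonneg (w - 1)]
  rcases le_total 0 w.re with h | h
  · exact ⟨w, hw, key w hw h⟩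
  · refine ⟨-w, by rw [neg_sq, hw], key (-w) (by rw [neg_sq, hw]) ?_⟩
    rw [Complex.neg_re]
    linarith

end Vale.Agent.P018.QB
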