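import Mathlib
import Vale.Agent.P018.Q.BDefs
import Vale.Agent.P018.Q.BFewA
import Vale.Agent.P018.Q.BFewY

/-! # P018, (B): few solutions with given `z`. -/

namespace Vale.Agent.P018.QB

open Polynomial NumberField Vale.Agent.P018.Q

section

variable {L : Type} [Field L]

/-- the values at the conjugates as a product of matrices. -/
theorem fz_mat (φ : L →+* ℂ) (θ : Fin 4 → 𝓞 L) (y : Fin 4 → Fin 4 → ℤ) :
    (Matrix.of fun j k => φ ((K.ell (θ j) (y k) : 𝓞 L) : L) : Matrix (Fin 4) (Fin 4) ℂ).det =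
      (Matrix.vandermonde fun j => φ ((θ j : 𝓞 L) : L)).det *
        (((Matrix.of fun i k => y k i : Matrix (Fin 4) (Fin 4) ℤ).det : ℤ) : ℂ) := by
  have h1 : (Matrix.of fun j k => φ ((K.ell (θ j) (y k) : 𝓞 L) : L) :
      Matrix (Fin 4) (Fin 4) ℂ) =
      (Matrix.vandermonde fun j => φ ((θ j : 𝓞 L) : L)) *
        (Matrix.of fun i k => y k i : Matrix (Fin 4) (Fin 4) ℤ).map (Int.castRingHom ℂ) := by
    ext j k
    rw [Matrix.mul_apply]
    have e0 : φ ((K.ell (θ j) (y k) : 𝓞 L) : L) =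
        (φ.comp (algebraMap (𝓞 L) L)) (K.ell (θ j) (y k)) := rfl
    rw [Matrix.of_apply, e0]
    unfold K.ell
    rw [map_sum]
    refine Finset.sum_congr rfl fun i _ => ?_
    rw [Matrix.vandermonde_apply, Matrix.map_apply, Matrix.of_apply, map_mul, map_pow,
      map_intCast, mul_comm]
    rfl
  rw [h1, Matrix.det_mul]
  congr 1
  rw [← RingHom.mapMatrix_apply, ← RingHom.map_det]
  rfl

/-- the bound of the conjugates. -/
theorem fz_bound (φ : L →+* ℂ) (θ : Fin 4 → 𝓞 L) :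
    ∃ A : ℝ, 1 ≤ A ∧ (∀ j, ‖φ ((θ j : 𝓞 L) : L)‖ ≤ A) ∧
      ∀ (j : Fin 4) (y : Fin 4 → ℤ) (B : ℝ), (∀ i, |(y i : ℝ)| ≤ B) →
        ‖φ ((K.ell (θ j) y : 𝓞 L) : L)‖ ≤ A * B := by
  set A0 : ℝ := 1 + ∑ j, ‖φ ((θ j : 𝓞 L) : L)‖ with hA0
  have h0 : ∀ j, ‖φ ((θ j : 𝓞 L) : L)‖ ≤ A0 := by
    intro j
    have h1 : ‖φ ((θ j : 𝓞 L) : L)‖ ≤ ∑ j, ‖φ ((θ j : 𝓞 L) : L)‖ :=
      Finset.single_le_sum (f := fun j => ‖φ ((θ j : 𝓞 L) : L)‖) (fun _ _ => norm_nonneg _)
        (Finset.mem_univ j)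
    linarith
  have hA1 : 1 ≤ A0 := by
    have : 0 ≤ ∑ j, ‖φ ((θ j : 𝓞 L) : L)‖ := Finset.sum_nonneg fun _ _ => norm_nonneg _
    linarith
  have hA3 : 1 ≤ A0 ^ 3 := one_le_pow₀ hA1
  refine ⟨4 * A0 ^ 3, by linarith, fun j => (h0 j).trans ?_, fun j y B hy => ?_⟩
  · have : A0 ≤ A0 ^ 3 := le_self_pow₀ hA1 (by norm_num)
    linarith
  · have hB : 0 ≤ B := (abs_nonneg _).trans (hy 0)
    have e0 : φ ((K.ell (θ j) y : 𝓞 L) : L) =
        (φ.comp (algebraMap (𝓞 L) L)) (K.ell (θ j) y) := rfl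
    rw [e0]
    unfold K.ell
    rw [map_sum]
    refine (norm_sum_le _ _).trans ?_
    calc ∑ i : Fin 4, ‖(φ.comp (algebraMap (𝓞 L) L)) (((y i : ℤ) : 𝓞 L) * θ j ^ (i : ℕ))‖
        ≤ ∑ _i : Fin 4, B * A0 ^ 3 := by
          refine Finset.sum_le_sum fun i _ => ?_
          rw [map_mul, map_pow, map_intCast, norm_mul, norm_pow, Complex.norm_intCast]
          have h1 : ‖(φ.comp (algebraMap (𝓞 L) L)) (θ j)‖ ^ (i : ℕ) ≤ A0 ^ (i : ℕ) :=
            pow_le_pow_left₀ (norm_nonneg _) (h0 j) _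
          have h2 : A0 ^ (i : ℕ) ≤ A0 ^ 3 := pow_le_pow_right₀ hA1 (by omega)
          exact mul_le_mul (hy i) (h1.trans h2) (by positivity) hB
      _ = 4 * A0 ^ 3 * B := by
          rw [Finset.sum_const, Finset.card_univ, Fintype.card_fin, nsmul_eq_mul]
          push_cast
          ring

end

/-- four solutions with the same signs are impossible. -/
theorem fz_four (α : Fin 4 → ℂ) (hα : Function.Injective α) (C : ℝ) (hC : 1 ≤ C) (A : ℝ)
    (hA : 1 ≤ A) (hαA : ∀ j, ‖α j‖ ≤ A) :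
    ∃ (X0 : ℝ) (δ : ℝ), 0 < δ ∧ δ ≤ 1 / 2 ∧ ∀ (X T : ℝ), 1 ≤ T → 1 ≤ X → X0 < X →
      T ^ 2 ≤ C * X →
      ∀ (n : Fin 4 → ℤ) (ρ s : Fin 4 → ℂ) (f P : Fin 4 → Fin 4 → ℂ) (d : ℤ),
      Function.Injective n → (∀ k, X ≤ C * |(n k : ℝ)|) → (∀ k, |(n k : ℝ)| ≤ C * X) →
      (∀ k, s k ^ 2 = (n k : ℂ)) → (∀ j, ρ j ≠ 0) →
      (∀ j k, f j k ^ 2 = 1 - α j / (n k : ℂ)) → (∀ j k, ‖f j k - 1‖ < δ) →
      (∀ j k, P j k = ρ j * s k * f j k) → (∀ j k, ‖P j k‖ ≤ A * (C * T)) →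
      (Matrix.of P).det = (Matrix.vandermonde α).det * (d : ℂ) → False := by
  obtain ⟨δ0, B, hδ0, hB, hnear⟩ := fz_near α hα
  set V : ℝ := ‖(Matrix.vandermonde α).det‖ with hV
  have hV0 : 0 < V := norm_pos_iff.2 (Matrix.det_vandermonde_ne_zero_iff.2 hα)
  refine ⟨B * (16 * C ^ 8 * A ^ 4) * (2 * C) ^ 6 * C ^ 2 / V, min δ0 (1 / 2),
    lt_min hδ0 (by norm_num), min_le_right _ _, ?_⟩
  intro X T hT hX hX0 hTX n ρ s f P d hn hlow hup hs hρ hf hfδ hP hPb hdet
  have hX' : 0 < X := by linarith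
  have hn0 : ∀ k, (n k : ℂ) ≠ 0 := by
    intro k h
    have h1 := hlow k
    have h2 : (n k : ℝ) = 0 := by exact_mod_cast h
    rw [h2, abs_zero, mul_zero] at h1
    linarith
  have hf1 : ∀ j k, ‖f j k - 1‖ < 1 / 2 := fun j k => (hfδ j k).trans_le (min_le_right _ _)
  have hf2 : ∀ j k, 1 / 2 ≤ ‖f j k‖ := by
    intro j k
    have h1 := hf1 j k
    have h2 : ‖(1 : ℂ)‖ ≤ ‖f j k‖ + ‖f j k - 1‖ := by
      have := norm_sub_le (f j k) (f j k - 1)
      simpa using this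
    rw [norm_one] at h2
    linarith
  have hsum : ∀ j k l, f j k + f j l ≠ 0 := by
    intro j k l h
    have h1 : (f j k - 1) + (f j l - 1) = -2 := by linear_combination h
    have h2 := norm_add_le (f j k - 1) (f j l - 1)
    rw [h1, norm_neg] at h2
    have h3 := hf1 j k
    have h4 := hf1 j l
    have h5 : ‖(2 : ℂ)‖ = 2 := by simp
    linarith
  obtain ⟨hD0, hDB⟩ := hnear f fun j k => (hfδ j k).trans_le (min_le_left _ _)
  set t : Fin 4 → ℂ := fun k => 1 / (n k : ℂ) with ht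
  have hdetF := fz_det α f t (fun j k => by rw [hf, ht]; ring) hsum
  have htne : ∀ k l, k ≠ l → t k - t l ≠ 0 := by
    intro k l hkl h
    apply hkl
    apply hn
    have h1 : t k = t l := sub_eq_zero.1 h
    have h2 : (n k : ℂ) = n l := by
      simp only [ht, one_div, inv_inj] at h1
      exact h1
    exact_mod_cast h2
  have htb : ∀ k l, ‖t k - t l‖ ≤ 2 * C / X := by
    have h1 : ∀ k, ‖t k‖ ≤ C / X := by
      intro k
      rw [ht]
      simp only [norm_div, norm_one, Complex.norm_intCast]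
      have h2 : 0 < |(n k : ℝ)| := by
        have := hlow k
        by_contra hcon
        have h3 : |(n k : ℝ)| = 0 := le_antisymm (not_lt.1 hcon) (abs_nonneg _)
        rw [h3, mul_zero] at this
        linarith
      rw [div_le_div_iff₀ h2 hX']
      linarith [hlow k]
    intro k l
    calc ‖t k - t l‖ ≤ ‖t k‖ + ‖t l‖ := norm_sub_le _ _
      _ ≤ C / X + C / X := add_le_add (h1 k) (h1 l)
      _ = 2 * C / X := by ring
  -- the determinant
  have hPdet : (Matrix.of P).det = (∏ j, ρ j) * (∏ k, s k) * (Matrix.of f).det := by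
    have h1 : (Matrix.of P : Matrix (Fin 4) (Fin 4) ℂ) =
        Matrix.diagonal ρ * Matrix.of f * Matrix.diagonal s := by
      ext j k
      rw [Matrix.mul_diagonal, Matrix.diagonal_mul, Matrix.of_apply, Matrix.of_apply, hP]
      ring
    rw [h1, Matrix.det_mul, Matrix.det_mul, Matrix.det_diagonal, Matrix.det_diagonal]
    ring
  have hs0 : ∀ k, s k ≠ 0 := by
    intro k h
    have := hs k
    rw [h] at this
    exact hn0 k (by rw [← this]; norm_num)
  have hne : (Matrix.of P).det ≠ 0 := by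
    rw [hPdet, hdetF]
    refine mul_ne_zero (mul_ne_zero (Finset.prod_ne_zero_iff.2 fun j _ => hρ j)
      (Finset.prod_ne_zero_iff.2 fun k _ => hs0 k)) (mul_ne_zero hD0 ?_)
    have a1 := htne 1 0 (by decide)
    have a2 := htne 2 0 (by decide)
    have a3 := htne 3 0 (by decide)
    have a4 := htne 2 1 (by decide)
    have a5 := htne 3 1 (by decide)
    have a6 := htne 3 2 (by decide)
    exact mul_ne_zero (mul_ne_zero (mul_ne_zero (mul_ne_zero (mul_ne_zero a1 a2) a3) a4) a5) a6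
  have hd : 1 ≤ ‖((d : ℤ) : ℂ)‖ := by
    have h1 : d ≠ 0 := by
      rintro rfl
      apply hne
      rw [hdet]
      simp
    rw [Complex.norm_intCast]
    have h2 : (1 : ℤ) ≤ |d| := Int.one_le_abs h1
    exact_mod_cast h2
  have hVle : V ≤ ‖(Matrix.of P).det‖ := by
    rw [hdet, norm_mul]
    exact le_mul_of_one_le_right hV0.le hd
  -- sizes
  have hsn : ∀ k, ‖s k‖ ^ 2 = |(n k : ℝ)| := by
    intro k
    rw [← norm_pow, hs, Complex.norm_intCast]
  have hρs : ∀ j k, ‖ρ j‖ * ‖s k‖ ≤ 2 * (A * (C * T)) := by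
    intro j k
    have h1 := hPb j k
    rw [hP, norm_mul, norm_mul] at h1
    have h2 := hf2 j k
    have h3 : 0 ≤ ‖ρ j‖ * ‖s k‖ := by positivity
    nlinarith
  have hprod : (∏ j, ‖ρ j‖) * ∏ k, ‖s k‖ ≤ 16 * (A * (C * T)) ^ 4 := by
    rw [← Finset.prod_mul_distrib]
    calc ∏ j, ‖ρ j‖ * ‖s j‖ ≤ ∏ _j : Fin 4, 2 * (A * (C * T)) :=
          Finset.prod_le_prod (fun j _ => by positivity) fun j _ => hρs j j
      _ = 16 * (A * (C * T)) ^ 4 := by
          rw [Finset.prod_const, Finset.card_univ, Fintype.card_fin]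
          ring
  have htp : ‖(t 1 - t 0) * (t 2 - t 0) * (t 3 - t 0) * (t 2 - t 1) * (t 3 - t 1) *
      (t 3 - t 2)‖ ≤ (2 * C / X) ^ 6 := by
    rw [norm_mul, norm_mul, norm_mul, norm_mul, norm_mul]
    have hh : 0 ≤ 2 * C / X := by positivity
    calc ‖t 1 - t 0‖ * ‖t 2 - t 0‖ * ‖t 3 - t 0‖ * ‖t 2 - t 1‖ * ‖t 3 - t 1‖ * ‖t 3 - t 2‖
        ≤ (2 * C / X) * (2 * C / X) * (2 * C / X) * (2 * C / X) * (2 * C / X) * (2 * C / X) := by
          gcongr <;> exact htb _ _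
      _ = (2 * C / X) ^ 6 := by ring
  have hfin : V ≤ (16 * (A * (C * T)) ^ 4) * (B * (2 * C / X) ^ 6) := by
    refine hVle.trans ?_
    rw [hPdet, hdetF, norm_mul, norm_mul, norm_mul, norm_prod, norm_prod]
    refine mul_le_mul hprod ?_ (by positivity) (by positivity)
    exact mul_le_mul hDB htp (norm_nonneg _) hB.le
  -- contradiction
  have hT4 : T ^ 4 ≤ C ^ 2 * X ^ 2 := by
    have h1 : (T ^ 2) ^ 2 ≤ (C * X) ^ 2 := pow_le_pow_left₀ (by positivity) hTX 2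
    calc T ^ 4 = (T ^ 2) ^ 2 := by ring
      _ ≤ (C * X) ^ 2 := h1
      _ = C ^ 2 * X ^ 2 := by ring
  have h1 : (16 * (A * (C * T)) ^ 4) * (B * (2 * C / X) ^ 6) ≤
      B * (16 * C ^ 8 * A ^ 4) * (2 * C) ^ 6 * C ^ 2 / X := by
    have e1 : (16 * (A * (C * T)) ^ 4) * (B * (2 * C / X) ^ 6) =
        B * (16 * C ^ 4 * A ^ 4) * (2 * C) ^ 6 * T ^ 4 / X ^ 6 := by
      field_simp
    rw [e1, div_le_div_iff₀ (by positivity) hX']
    have e2 : C ^ 4 ≤ C ^ 8 := pow_le_pow_right₀ hC (by norm_num)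
    have e3 : X ^ 3 ≤ X ^ 6 := pow_le_pow_right₀ hX (by norm_num)
    calc B * (16 * C ^ 4 * A ^ 4) * (2 * C) ^ 6 * T ^ 4 * X
        ≤ B * (16 * C ^ 8 * A ^ 4) * (2 * C) ^ 6 * (C ^ 2 * X ^ 2) * X := by gcongr
      _ = B * (16 * C ^ 8 * A ^ 4) * (2 * C) ^ 6 * C ^ 2 * X ^ 3 := by ring
      _ ≤ B * (16 * C ^ 8 * A ^ 4) * (2 * C) ^ 6 * C ^ 2 * X ^ 6 := by gcongr
  have h2 : B * (16 * C ^ 8 * A ^ 4) * (2 * C) ^ 6 * C ^ 2 / X < V := by
    rw [div_lt_iff₀ hX']
    rw [div_lt_iff₀ hV0] at hX0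
    linarith
  linarith

/-- few solutions with given `z`. -/
theorem few_z {L : Type} [Field L] [NumberField L] (θ : Fin 4 → 𝓞 L) (G : ℤ[X])
    (hG : Root4 θ G) (C : ℕ) : ∃ K : ℕ, ∀ (X T : ℝ), 1 ≤ T → 1 ≤ X → T ^ 2 ≤ C * X → X ≤ C * T ^ 4 →
      ∀ (c : ℤ) (z : Fin 4 → ℤ) (S : Finset ℤ) (p : ℤ → ℕ) (y : ℤ → Fin 4 → ℤ),
      (∀ N ∈ S, X ≤ C * |(N : ℝ)| ∧ Dat θ C X T N (p N) c (y N) z) → S.card ≤ K := by
  classical
  by_cases hC : C = 0
  · refine ⟨0, fun X T hT hX hTX => ?_⟩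
    exfalso
    rw [hC] at hTX
    simp at hTX
    nlinarith
  have hC1 : (1 : ℝ) ≤ C := by exact_mod_cast Nat.one_le_iff_ne_zero.2 hC
  obtain ⟨φ⟩ : Nonempty (L →+* ℂ) := inferInstance
  obtain ⟨A, hA1, hαA, hell⟩ := fz_bound φ θ
  set α : Fin 4 → ℂ := fun j => φ ((θ j : 𝓞 L) : L) with hα
  have hαinj : Function.Injective α := fun i j h => hG.inj (RingOfIntegers.ext (φ.injective h))
  obtain ⟨X0, δ, hδ, hδ2, hfour⟩ := fz_four α hαinj C hC1 A hA1 hαA
  set X1 : ℝ := max X0 (A * C / δ) with hX1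
  refine ⟨2 * ⌈(C : ℝ) * X1⌉₊ + 1 + 48, fun X T hT hX hTX hXT c z S p y hS => ?_⟩
  by_cases hXX : X ≤ X1
  · refine (fy_card S ⌈(C : ℝ) * X1⌉₊ fun N hN => ?_).trans (by omega)
    obtain ⟨-, hd⟩ := hS N hN
    have h1 : |(N : ℝ)| ≤ ((⌈(C : ℝ) * X1⌉₊ : ℕ) : ℝ) :=
      (hd.hN.trans (mul_le_mul_of_nonneg_left hXX (by positivity))).trans (Nat.le_ceil _)
    have h2 : ((|N| : ℤ) : ℝ) ≤ ((⌈(C : ℝ) * X1⌉₊ : ℕ) : ℝ) := by
      push_cast
      exact h1
    exact_mod_cast h2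
  · push Not at hXX
    have hX0 : X0 < X := (le_max_left _ _).trans_lt hXX
    have hXA : A * C / δ < X := (le_max_right _ _).trans_lt hXX
    by_contra hcon
    have hcard : 48 < S.card := by omega
    have hX' : 0 < X := by linarith
    -- the points
    have hNpos : ∀ N ∈ S, 0 < |(N : ℝ)| := by
      intro N hN
      have h1 := (hS N hN).1
      by_contra hcon
      have h3 : |(N : ℝ)| = 0 := le_antisymm (not_lt.1 hcon) (abs_nonneg _)
      rw [h3, mul_zero] at h1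
      linarith
    have hsmall : ∀ N ∈ S, ∀ j, ‖α j / (N : ℂ)‖ < δ := by
      intro N hN j
      have h1 := (hS N hN).1
      rw [norm_div, Complex.norm_intCast, div_lt_iff₀ (hNpos N hN)]
      rw [div_lt_iff₀ hδ] at hXA
      have h2 := hαA j
      have h3 : A * C < C * |(N : ℝ)| * δ := by
        calc A * C < X * δ := hXA
          _ ≤ C * |(N : ℝ)| * δ := mul_le_mul_of_nonneg_right h1 hδ.le
      have h4 : A < |(N : ℝ)| * δ := by
        by_contra h5
        push Not at h5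
        have : C * (|(N : ℝ)| * δ) ≤ C * A := mul_le_mul_of_nonneg_left h5 (by positivity)
        linarith
      linarith
    choose f hf hf1 using fun (j : Fin 4) (N : ℤ) => fz_sqrt (α j / (N : ℂ))
    choose s hs using fun N : ℤ => IsAlgClosed.exists_pow_nat_eq (N : ℂ) (n := 2) (by norm_num)
    set γ : Fin 4 → ℂ := fun j => φ ((K.ell (θ j) z : 𝓞 L) : L) with hγ
    choose ρ hρ using fun j => IsAlgClosed.exists_pow_nat_eq ((c : ℂ) / γ j) (n := 2)
      (by norm_num)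
    have hmap : ∀ N ∈ S, ∀ j, (c : ℂ) * ((N : ℂ) - α j) =
        φ ((K.ell (θ j) (y N) : 𝓞 L) : L) ^ 2 * γ j := by
      intro N hN j
      have h1 := (hS N hN).2.eqn j
      have h2 := congrArg (φ.comp (algebraMap (𝓞 L) L)) h1
      rw [map_mul, map_mul, map_sub, map_pow, map_intCast, map_intCast] at h2
      exact h2
    have hne : ∀ N ∈ S, ∀ j, (N : ℂ) - α j ≠ 0 := by
      intro N hN j h
      have h1 := hsmall N hN j
      have h2 : α j = N := (sub_eq_zero.1 h).symm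
      have h3 : (N : ℂ) ≠ 0 := by
        intro h4
        have h5 : (N : ℝ) = 0 := by exact_mod_cast h4
        have h6 := hNpos N hN
        rw [h5, abs_zero] at h6
        exact lt_irrefl _ h6
      rw [h2, div_self h3, norm_one] at h1
      linarith
    obtain ⟨N₀, hN₀⟩ : S.Nonempty := Finset.card_pos.1 (by omega)
    have hc0 : (c : ℂ) ≠ 0 := by
      have := (hS N₀ hN₀).2.c0
      exact_mod_cast this
    have hγ0 : ∀ j, γ j ≠ 0 := by
      intro j h
      have h1 := hmap N₀ hN₀ j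
      rw [h, mul_zero] at h1
      exact mul_ne_zero hc0 (hne N₀ hN₀ j) h1
    have hρ0 : ∀ j, ρ j ≠ 0 := by
      intro j h
      have h1 := hρ j
      rw [h] at h1
      exact div_ne_zero hc0 (hγ0 j) (by rw [← h1]; norm_num)
    have hsq : ∀ N ∈ S, ∀ j, φ ((K.ell (θ j) (y N) : 𝓞 L) : L) ^ 2 =
        (ρ j * s N * f j N) ^ 2 := by
      intro N hN j
      have h1 := hmap N hN j
      have h3 : (N : ℂ) ≠ 0 := by
        intro h4
        have h5 : (N : ℝ) = 0 := by exact_mod_cast h4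
        have h6 := hNpos N hN
        rw [h5, abs_zero] at h6
        exact lt_irrefl _ h6
      rw [mul_pow, mul_pow, hρ, hs, hf]
      have h4 := hγ0 j
      field_simp
      linear_combination -h1
    -- pigeonhole on the signs
    set e : ℤ → Fin 4 → Bool := fun N j =>
      decide (φ ((K.ell (θ j) (y N) : 𝓞 L) : L) = ρ j * s N * f j N) with he
    obtain ⟨e₀, -, he₀⟩ := Finset.exists_lt_card_fiber_of_mul_lt_card_of_maps_to
      (s := S) (t := (Finset.univ : Finset (Fin 4 → Bool))) (f := e) (n := 3)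
      (fun _ _ => Finset.mem_univ _) (by
        rw [Finset.card_univ, Fintype.card_fun, Fintype.card_bool, Fintype.card_fin]
        omega)
    obtain ⟨S', hS', hS'c⟩ := Finset.exists_subset_card_eq (show 4 ≤ _ from he₀)
    set n : Fin 4 → ℤ := fun k => S'.orderEmbOfFin hS'c k with hn
    have hninj : Function.Injective n := (S'.orderEmbOfFin hS'c).injective
    have hnS : ∀ k, n k ∈ S ∧ e (n k) = e₀ := fun k =>
      Finset.mem_filter.1 (hS' (Finset.orderEmbOfFin_mem S' hS'c k))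
    set η : Fin 4 → ℂ := fun j => if e₀ j = true then 1 else -1 with hη
    have hη0 : ∀ j, η j ≠ 0 := by
      intro j
      rw [hη]
      dsimp only
      split_ifs <;> norm_num
    have hP : ∀ j k, φ ((K.ell (θ j) (y (n k)) : 𝓞 L) : L) =
        η j * ρ j * s (n k) * f j (n k) := by
      intro j k
      obtain ⟨h1, h2⟩ := hnS k
      have h3 : e (n k) j = e₀ j := congrFun h2 j
      by_cases h4 : e₀ j = true
      · rw [h4] at h3
        have h5 : φ ((K.ell (θ j) (y (n k)) : 𝓞 L) : L) = ρ j * s (n k) * f j (n k) :=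
          of_decide_eq_true h3
        rw [h5, hη]
        dsimp only
        rw [if_pos h4, one_mul]
      · have h5 : ¬ φ ((K.ell (θ j) (y (n k)) : 𝓞 L) : L) = ρ j * s (n k) * f j (n k) := by
          intro h6
          apply h4
          rw [← h3]
          exact decide_eq_true h6
        have h6 := sq_eq_sq_iff_eq_or_eq_neg.1 (hsq (n k) h1 j)
        rw [h6.resolve_left h5, hη]
        dsimp only
        rw [if_neg h4]
        ring
    refine hfour X T hT hX hX0 hTX n (fun j => η j * ρ j) (fun k => s (n k))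
      (fun j k => f j (n k)) (fun j k => φ ((K.ell (θ j) (y (n k)) : 𝓞 L) : L))
      (Matrix.of fun i k => y (n k) i : Matrix (Fin 4) (Fin 4) ℤ).det hninj
      (fun k => (hS _ (hnS k).1).1) (fun k => (hS _ (hnS k).1).2.hN) (fun k => hs _)
      (fun j => mul_ne_zero (hη0 j) (hρ0 j)) (fun j k => hf j _)
      (fun j k => (hf1 j _).trans_lt (hsmall _ (hnS k).1 j)) (fun j k => hP j k)
      (fun j k => hell j _ _ (hS _ (hnS k).1).2.hy) (fz_mat φ θ fun k => y (n k))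

end Vale.Agent.P018.QB
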