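import Mathlib
import Vale.Agent.P018.Q.BFewY
import Vale.Agent.P018.Q.BFewZ

/-! # P018, (B): few solutions with given `z` or given `y` (`few_z`, `few_y`). -/
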