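import Mathlib
import Vale.Agent.P018.LinAlg

/-! # P018, (B), gap curves: linear algebra and the Wronskian identity. -/

namespace Vale.Agent.P018.QB.GapC

open Polynomial Finset

/-- a kernel vector with small entries, when the kernel is one dimensional. -/
theorem bounded_kernel {I J : Type*} [Fintype J] [DecidableEq J] (v : I → J → ℤ) (M : ℤ)
    (hM : ∀ i j, |v i j| ≤ M) (α : J → ℤ) (j0 : J) (hα0 : α j0 ≠ 0)
    (hα : ∀ i, ∑ j, α j * v i j = 0)
    (huniq : ∀ β : J → ℚ, (∀ i, ∑ j, β j * v i j = 0) → β j0 = 0 → β = 0) :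
    ∃ (β : J → ℤ) (a b : ℤ), a ≠ 0 ∧ b ≠ 0 ∧ (∀ j, a * β j = b * α j) ∧
      ∀ j, |β j| ≤ ((Fintype.card {j : J // j ≠ j0}).factorial : ℤ) *
        M ^ (Fintype.card {j : J // j ≠ j0}) := by
  classical
  obtain ⟨φ, hφ⟩ : ∃ φ : {j : J // j ≠ j0} → I,
      (Matrix.of fun (i : {j : J // j ≠ j0}) (j : {j : J // j ≠ j0}) =>
        ((v (φ i) j : ℤ) : ℚ)).det ≠ 0 := by
    by_contra hcon
    push Not at hcon
    obtain ⟨β', hβ', hk⟩ := exists_kernel
      (fun (i : I) (j : {j : J // j ≠ j0}) => ((v i j : ℤ) : ℚ)) hcon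
    apply hβ'
    have h1 := huniq (fun j => if h : j ≠ j0 then β' ⟨j, h⟩ else 0) (by
      intro i
      rw [← Fintype.sum_subtype_add_sum_subtype (fun j => j ≠ j0)]
      have e1 : ∑ j : {j : J // j ≠ j0}, (if h : (j : J) ≠ j0 then β' ⟨j, h⟩ else 0) *
          ((v i j : ℤ) : ℚ) = 0 := by
        rw [← hk i]
        refine Finset.sum_congr rfl fun j _ => ?_
        rw [dif_pos j.2]
      have e2 : ∑ j : {j : J // ¬ j ≠ j0}, (if h : (j : J) ≠ j0 then β' ⟨j, h⟩ else 0) *
          ((v i j : ℤ) : ℚ) = 0 := by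
        refine Finset.sum_eq_zero fun j _ => ?_
        rw [dif_neg j.2, zero_mul]
      rw [e1, e2, add_zero]) (by simp)
    funext j
    have := congrFun h1 (j : J)
    simpa [j.2] using this
  set W : Matrix {j : J // j ≠ j0} {j : J // j ≠ j0} ℤ := Matrix.of fun i j => v (φ i) j with hW
  have hdet : W.det ≠ 0 := by
    intro h0
    apply hφ
    have : (Matrix.of fun (i : {j : J // j ≠ j0}) (j : {j : J // j ≠ j0}) =>
        ((v (φ i) j : ℤ) : ℚ)) = (Int.castRingHom ℚ).mapMatrix W := by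
      ext i j; simp [hW]
    rw [this, ← RingHom.map_det, h0, map_zero]
  set b : {j : J // j ≠ j0} → ℤ := fun i => v (φ i) j0 with hb
  have hmul : W.mulVec (fun j => α j) = -(α j0) • b := by
    funext i
    have h1 := hα (φ i)
    rw [← Fintype.sum_subtype_add_sum_subtype (fun j => j ≠ j0)] at h1
    have e2 : ∑ j : {j : J // ¬ j ≠ j0}, α j * v (φ i) j = α j0 * v (φ i) j0 := by
      rw [Fintype.sum_eq_single (⟨j0, by simp⟩ : {j : J // ¬ j ≠ j0})]
      rintro ⟨j, hj⟩ hne
      exact absurd (Subtype.ext (not_ne_iff.1 hj)) hne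
    rw [e2] at h1
    simp only [Matrix.mulVec, dotProduct, hW, Matrix.of_apply, Pi.smul_apply, smul_eq_mul, hb]
    have : ∑ j : {j : J // j ≠ j0}, v (φ i) j * α j = ∑ j : {j : J // j ≠ j0}, α j * v (φ i) j :=
      Finset.sum_congr rfl fun j _ => mul_comm _ _
    rw [this]
    linarith
  have hcr : -(α j0) • (W.cramer b) = W.det • (fun j : {j : J // j ≠ j0} => α j) := by
    rw [← LinearMap.map_smul, ← hmul, Matrix.cramer_eq_adjugate_mulVec, Matrix.mulVec_mulVec,
      Matrix.adjugate_mul]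
    simp
  have hle : ∀ A : Matrix {j : J // j ≠ j0} {j : J // j ≠ j0} ℤ, (∀ i j, |A i j| ≤ M) →
      |A.det| ≤ ((Fintype.card {j : J // j ≠ j0}).factorial : ℤ) *
        M ^ (Fintype.card {j : J // j ≠ j0}) := by
    intro A hA
    have := Matrix.det_le (A := A) (abv := AbsoluteValue.abs) (x := M) hA
    simpa using this
  refine ⟨fun j => if h : j ≠ j0 then -(W.cramer b ⟨j, h⟩) else W.det, α j0, W.det, hα0, hdet,
    fun j => ?_, fun j => ?_⟩
  · beta_reduce
    by_cases h : j ≠ j0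
    · rw [dif_pos h]
      have := congrFun hcr ⟨j, h⟩
      simp only [Pi.smul_apply, smul_eq_mul] at this
      linarith
    · rw [dif_neg h, not_ne_iff.1 h, mul_comm]
  · beta_reduce
    by_cases h : j ≠ j0
    · rw [dif_pos h, abs_neg, Matrix.cramer_apply]
      refine hle _ fun i k => ?_
      rw [Matrix.updateCol_apply]
      split_ifs
      · exact hM _ _
      · exact hM _ _
    · rw [dif_neg h]
      exact hle _ fun i k => hM _ _

/-- the polynomial with coefficients `β 0, …, β D` -/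
noncomputable def pl {R : Type*} [CommRing R] (D : ℕ) (β : Fin (D + 1) → R) : R[X] :=
  ∑ i : Fin (D + 1), C (β i) * X ^ (i : ℕ)

theorem pl_coeff {R : Type*} [CommRing R] (D : ℕ) (β : Fin (D + 1) → R) (i : Fin (D + 1)) :
    (pl D β).coeff i = β i := by
  unfold pl
  rw [finsetSum_coeff, Finset.sum_eq_single i]
  · simp
  · intro j _ hj
    rw [coeff_C_mul, coeff_X_pow, if_neg, mul_zero]
    exact fun h => hj (Fin.ext h.symm)
  · simp

theorem pl_natDegree {R : Type*} [CommRing R] (D : ℕ) (β : Fin (D + 1) → R) :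
    (pl D β).natDegree ≤ D := by
  unfold pl
  refine natDegree_sum_le_of_forall_le _ _ fun i _ => ?_
  refine (natDegree_C_mul_X_pow_le _ _).trans ?_
  omega

theorem pl_eval {R : Type*} [CommRing R] (D : ℕ) (β : Fin (D + 1) → R) (x : R) :
    (pl D β).eval x = ∑ i : Fin (D + 1), β i * x ^ (i : ℕ) := by
  unfold pl
  rw [eval_finsetSum]
  simp

theorem pl_of_coeff {R : Type*} [CommRing R] (D : ℕ) (A : R[X]) (hA : A.natDegree ≤ D) :
    pl D (fun i => A.coeff i) = A := by
  ext n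
  rcases Nat.lt_or_ge n (D + 1) with h | h
  · exact pl_coeff D _ ⟨n, h⟩
  · rw [coeff_eq_zero_of_natDegree_lt (lt_of_le_of_lt (pl_natDegree D _) (by omega)),
      coeff_eq_zero_of_natDegree_lt (by omega)]

theorem pl_hom {K : Type*} [Field K] (D : ℕ) (β : Fin (D + 1) → K) (x y : K) (hy : y ≠ 0) :
    (pl D β).eval (x / y) * y ^ D = ∑ i : Fin (D + 1), β i * (x ^ (i : ℕ) * y ^ (D - i)) := by
  rw [pl_eval, Finset.sum_mul]
  refine Finset.sum_congr rfl fun i _ => ?_
  have h : y ^ D = y ^ (i : ℕ) * y ^ (D - i) := by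
    rw [← pow_add]; congr 1; omega
  rw [h, div_pow]
  field_simp

theorem uniq_aux {K : Type*} [Field K] {A B A' B' : K[X]} {D : ℕ} (hcop : IsCoprime A B)
    (h : A' * B = A * B') (hA : A.natDegree = D) (hD : 1 ≤ D) (hA' : A'.natDegree ≤ D)
    (h0 : A'.coeff D = 0) : A' = 0 ∧ B' = 0 := by
  have hdvd : A ∣ A' := hcop.dvd_of_dvd_mul_right (h ▸ dvd_mul_right _ _)
  have hA0 : A ≠ 0 := by rintro rfl; simp at hA; omega
  have h1 : A' = 0 := by
    by_contra hne
    have h2 := natDegree_le_of_dvd hdvd hne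
    have h3 : A'.natDegree = D := by omega
    have h4 : A'.leadingCoeff = 0 := by rw [leadingCoeff, h3, h0]
    exact hne (leadingCoeff_eq_zero.1 h4)
  refine ⟨h1, ?_⟩
  rw [h1, zero_mul] at h
  rcases mul_eq_zero.1 h.symm with h2 | h2
  · exact absurd h2 hA0
  · exact h2

/-- replace `(A, B)` by proportional polynomials of bounded height. -/
theorem bounded_pair (D : ℕ) (A B : ℤ[X]) (hA : A.natDegree ≤ D) (hB : B.natDegree ≤ D)
    (hAB : A.natDegree = D ∨ B.natDegree = D)
    (hcop : IsCoprime (A.map (Int.castRingHom ℚ)) (B.map (Int.castRingHom ℚ)))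
    (hD : 1 ≤ D) (S : Finset ℤ) (s t : ℤ → ℤ) (hS : 2 * D < S.card)
    (ht : ∀ N ∈ S, t N ≠ 0)
    (hinj : ∀ N ∈ S, ∀ N' ∈ S, (s N : ℚ) / t N = (s N' : ℚ) / t N' → N = N')
    (heq : ∀ N ∈ S, ((A.map (Int.castRingHom ℚ)).eval ((s N : ℚ) / t N)) * N =
      (B.map (Int.castRingHom ℚ)).eval ((s N : ℚ) / t N))
    (M : ℤ) (hM1 : ∀ N ∈ S, |N| ≤ M) (hM2 : ∀ N ∈ S, |s N| ≤ M) (hM3 : ∀ N ∈ S, |t N| ≤ M)
    (hM : 1 ≤ M) :
    ∃ (A1 B1 : ℤ[X]) (a b : ℤ), a ≠ 0 ∧ b ≠ 0 ∧ C a * A1 = C b * A ∧ C a * B1 = C b * B ∧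
      A1.natDegree ≤ D ∧ B1.natDegree ≤ D ∧
      (∀ i, |A1.coeff i| ≤ ((2 * D + 1).factorial : ℤ) * (M ^ (D + 1)) ^ (2 * D + 1)) ∧
      (∀ i, |B1.coeff i| ≤ ((2 * D + 1).factorial : ℤ) * (M ^ (D + 1)) ^ (2 * D + 1)) := by
  classical
  set v : {N : ℤ // N ∈ S} → Fin (D + 1) ⊕ Fin (D + 1) → ℤ := fun N j =>
    Sum.elim (fun i : Fin (D + 1) => (N : ℤ) * (s N ^ (i : ℕ) * t N ^ (D - i)))
      (fun i : Fin (D + 1) => -(s N ^ (i : ℕ) * t N ^ (D - i))) j with hv
  have hvM : ∀ N j, |v N j| ≤ M ^ (D + 1) := by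
    rintro ⟨N, hN⟩ j
    have h1 : ∀ i : Fin (D + 1), |s N ^ (i : ℕ) * t N ^ (D - i)| ≤ M ^ D := by
      intro i
      have e : M ^ D = M ^ (i : ℕ) * M ^ (D - i) := by rw [← pow_add]; congr 1; omega
      rw [abs_mul, abs_pow, abs_pow, e]
      exact mul_le_mul (pow_le_pow_left₀ (abs_nonneg _) (hM2 N hN) _)
        (pow_le_pow_left₀ (abs_nonneg _) (hM3 N hN) _) (by positivity) (by positivity)
    rcases j with i | i
    · simp only [hv, Sum.elim_inl]
      rw [abs_mul, pow_succ, mul_comm (M ^ D)]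
      exact mul_le_mul (hM1 N hN) (h1 i) (abs_nonneg _) (by linarith)
    · simp only [hv, Sum.elim_inr, abs_neg]
      refine (h1 i).trans ?_
      exact pow_le_pow_right₀ hM (by omega)
  set α : Fin (D + 1) ⊕ Fin (D + 1) → ℤ := fun j =>
    Sum.elim (fun i : Fin (D + 1) => A.coeff i) (fun i : Fin (D + 1) => B.coeff i) j with hαdef
  -- kernel condition in terms of polynomials
  have hker : ∀ (β : Fin (D + 1) ⊕ Fin (D + 1) → ℚ) (N : {N : ℤ // N ∈ S}),
      ∑ j, β j * v N j = ((pl D fun i => β (Sum.inl i)).eval ((s N : ℚ) / t N) * (N : ℤ) -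
        (pl D fun i => β (Sum.inr i)).eval ((s N : ℚ) / t N)) * (t N : ℚ) ^ D := by
    rintro β ⟨N, hN⟩
    have ht0 : (t N : ℚ) ≠ 0 := by exact_mod_cast ht N hN
    rw [sub_mul, mul_right_comm, pl_hom D _ _ _ ht0, pl_hom D _ _ _ ht0, Fintype.sum_sum_type,
      Finset.sum_mul, sub_eq_add_neg, ← Finset.sum_neg_distrib]
    congr 1
    · refine Finset.sum_congr rfl fun i _ => ?_
      simp only [hv, Sum.elim_inl]; push_cast; ring
    · refine Finset.sum_congr rfl fun i _ => ?_
      simp only [hv, Sum.elim_inr]; push_cast; ring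
  have hmapA : (pl D fun i : Fin (D + 1) => ((α (Sum.inl i) : ℤ) : ℚ)) =
      A.map (Int.castRingHom ℚ) := by
    rw [← pl_of_coeff D (A.map (Int.castRingHom ℚ)) (natDegree_map_le.trans hA)]
    congr 1; funext i; simp [hαdef]
  have hmapB : (pl D fun i : Fin (D + 1) => ((α (Sum.inr i) : ℤ) : ℚ)) =
      B.map (Int.castRingHom ℚ) := by
    rw [← pl_of_coeff D (B.map (Int.castRingHom ℚ)) (natDegree_map_le.trans hB)]
    congr 1; funext i; simp [hαdef]
  have hα : ∀ N, ∑ j, α j * v N j = 0 := by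
    intro N
    have h1 := hker (fun j => (α j : ℚ)) N
    rw [hmapA, hmapB, heq N N.2, sub_self, zero_mul] at h1
    exact_mod_cast h1
  have hdegA : (A.map (Int.castRingHom ℚ)).natDegree = A.natDegree :=
    natDegree_map_eq_of_injective (RingHom.injective_int _) _
  have hdegB : (B.map (Int.castRingHom ℚ)).natDegree = B.natDegree :=
    natDegree_map_eq_of_injective (RingHom.injective_int _) _
  -- proportionality
  have hprop : ∀ β : Fin (D + 1) ⊕ Fin (D + 1) → ℚ, (∀ N, ∑ j, β j * v N j = 0) →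
      (pl D fun i => β (Sum.inl i)) * B.map (Int.castRingHom ℚ) =
        A.map (Int.castRingHom ℚ) * (pl D fun i => β (Sum.inr i)) := by
    intro β hβ
    rw [← sub_eq_zero]
    refine eq_zero_of_natDegree_lt_card_of_eval_eq_zero' _
      (S.image fun N => (s N : ℚ) / t N) ?_ ?_
    · intro x hx
      obtain ⟨N, hN, rfl⟩ := Finset.mem_image.1 hx
      have h1 := hker β ⟨N, hN⟩
      rw [hβ] at h1
      have ht0 : (t N : ℚ) ≠ 0 := by exact_mod_cast ht N hN
      have h2 := (mul_eq_zero.1 h1.symm).resolve_right (pow_ne_zero _ ht0)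
      have h3 := heq N hN
      simp only at h2
      rw [eval_sub, eval_mul, eval_mul, ← h3]
      linear_combination ((A.map (Int.castRingHom ℚ)).eval ((s N : ℚ) / t N)) * h2
    · rw [Finset.card_image_of_injOn fun N hN N' hN' h => hinj N hN N' hN' h]
      refine lt_of_le_of_lt ((natDegree_sub_le _ _).trans (max_le ?_ ?_)) hS
      · refine natDegree_mul_le.trans ?_
        have := pl_natDegree D fun i => β (Sum.inl i)
        omega
      · refine natDegree_mul_le.trans ?_
        have := pl_natDegree D fun i => β (Sum.inr i)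
        omega
  have hzero : ∀ β : Fin (D + 1) ⊕ Fin (D + 1) → ℚ, (pl D fun i => β (Sum.inl i)) = 0 →
      (pl D fun i => β (Sum.inr i)) = 0 → β = 0 := by
    intro β h1 h2
    funext j
    rcases j with i | i
    · rw [← pl_coeff D (fun i => β (Sum.inl i)) i, h1]; simp
    · rw [← pl_coeff D (fun i => β (Sum.inr i)) i, h2]; simp
  have hlast : ((Fin.last D : Fin (D + 1)) : ℕ) = D := rfl
  have hcard : ∀ j0 : Fin (D + 1) ⊕ Fin (D + 1),
      Fintype.card {j : Fin (D + 1) ⊕ Fin (D + 1) // j ≠ j0} = 2 * D + 1 := by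
    intro j0
    rw [Fintype.card_subtype_compl, Fintype.card_subtype_eq, Fintype.card_sum, Fintype.card_fin]
    omega
  obtain ⟨j0, hj0, huniq⟩ : ∃ j0, α j0 ≠ 0 ∧ ∀ β : Fin (D + 1) ⊕ Fin (D + 1) → ℚ,
      (∀ N, ∑ j, β j * v N j = 0) → β j0 = 0 → β = 0 := by
    rcases hAB with h | h
    · refine ⟨Sum.inl (Fin.last D), ?_, fun β hβ h0 => ?_⟩
      · simp only [hαdef, Sum.elim_inl, hlast]
        rw [← h]
        intro h0
        have : A = 0 := leadingCoeff_eq_zero.1 h0
        rw [this] at h; simp at h; omega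
      · have := uniq_aux hcop (hprop β hβ) (hdegA.trans h) hD (pl_natDegree D _) (by
          have := pl_coeff D (fun i => β (Sum.inl i)) (Fin.last D)
          rw [hlast] at this
          rw [this, h0])
        exact hzero β this.1 this.2
    · refine ⟨Sum.inr (Fin.last D), ?_, fun β hβ h0 => ?_⟩
      · simp only [hαdef, Sum.elim_inr, hlast]
        rw [← h]
        intro h0
        have : B = 0 := leadingCoeff_eq_zero.1 h0
        rw [this] at h; simp at h; omega
      · have h2 := hprop β hβ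
        have := uniq_aux (A' := pl D fun i => β (Sum.inr i)) (B' := pl D fun i => β (Sum.inl i))
          hcop.symm (by rw [mul_comm, ← h2, mul_comm]) (hdegB.trans h) hD (pl_natDegree D _) (by
          have := pl_coeff D (fun i => β (Sum.inr i)) (Fin.last D)
          rw [hlast] at this
          rw [this, h0])
        exact hzero β this.2 this.1
  obtain ⟨β, a, b, ha, hb, hab, hβM⟩ := bounded_kernel v (M ^ (D + 1)) hvM α j0 hj0 hα huniq
  rw [hcard j0] at hβM
  refine ⟨pl D fun i => β (Sum.inl i), pl D fun i => β (Sum.inr i), a, b, ha, hb, ?_, ?_,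
    pl_natDegree _ _, pl_natDegree _ _, fun i => ?_, fun i => ?_⟩
  · ext n
    rw [coeff_C_mul, coeff_C_mul]
    rcases Nat.lt_or_ge n (D + 1) with h | h
    · rw [pl_coeff D (fun i => β (Sum.inl i)) ⟨n, h⟩]
      exact hab (Sum.inl ⟨n, h⟩)
    · rw [coeff_eq_zero_of_natDegree_lt (lt_of_le_of_lt (pl_natDegree D _) (by omega)),
        coeff_eq_zero_of_natDegree_lt (by omega), mul_zero, mul_zero]
  · ext n
    rw [coeff_C_mul, coeff_C_mul]
    rcases Nat.lt_or_ge n (D + 1) with h | h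
    · rw [pl_coeff D (fun i => β (Sum.inr i)) ⟨n, h⟩]
      exact hab (Sum.inr ⟨n, h⟩)
    · rw [coeff_eq_zero_of_natDegree_lt (lt_of_le_of_lt (pl_natDegree D _) (by omega)),
        coeff_eq_zero_of_natDegree_lt (by omega), mul_zero, mul_zero]
  · rcases Nat.lt_or_ge i (D + 1) with h | h
    · rw [pl_coeff D (fun i => β (Sum.inl i)) ⟨i, h⟩]
      exact hβM _
    · rw [coeff_eq_zero_of_natDegree_lt (lt_of_le_of_lt (pl_natDegree D _) (by omega)), abs_zero]
      positivity
  · rcases Nat.lt_or_ge i (D + 1) with h | h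
    · rw [pl_coeff D (fun i => β (Sum.inr i)) ⟨i, h⟩]
      exact hβM _
    · rw [coeff_eq_zero_of_natDegree_lt (lt_of_le_of_lt (pl_natDegree D _) (by omega)), abs_zero]
      positivity

end Vale.Agent.P018.QB.GapC
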