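import Mathlib
import Vale.Agent.P018.Q.BDefs

/-! # P018, (B): gap curves, counting solutions whose prime divides a given integer. -/

namespace Vale.Agent.P018.QB.GapC

open Polynomial NumberField Vale.Agent.P018.Q

theorem int_dvd_of_dvd {L : Type} [Field L] [NumberField L] (a b : ℤ)
    (h : (a : 𝓞 L) ∣ (b : 𝓞 L)) : a ∣ b := by
  classical
  have h1 := map_dvd (Algebra.norm ℤ) h
  have h2 : ∀ x : ℤ, Algebra.norm ℤ ((x : 𝓞 L)) =
      x ^ (Fintype.card (Module.Free.ChooseBasisIndex ℤ (𝓞 L))) := by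
    intro x
    have := Algebra.norm_algebraMap_of_basis (RingOfIntegers.basis L) x
    simpa using this
  rw [h2, h2] at h1
  exact (Int.pow_dvd_pow_iff Fintype.card_ne_zero).1 h1

/-- the prime divides `G(N)`. -/
theorem prime_dvd_G {L : Type} [Field L] [NumberField L] {θ : Fin 4 → 𝓞 L} {G : ℤ[X]}
    (hG : Root4 θ G) {C : ℕ} {X T : ℝ} (hT : (C : ℝ) < T ^ 4) {N : ℤ} {q : ℕ} {c : ℤ}
    {y z : Fin 4 → ℤ} (h : Dat θ C X T N q c y z) : (q : ℤ) ∣ G.eval N := by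
  obtain ⟨c', -, -, hc'⟩ := h.nrm
  have h1 : ∏ i, ((c : 𝓞 L) * ((N : 𝓞 L) - θ i)) = ∏ i, (K.ell (θ i) y ^ 2 * K.ell (θ i) z) :=
    Finset.prod_congr rfl fun i _ => h.eqn i
  rw [Finset.prod_mul_distrib, Finset.prod_mul_distrib, Finset.prod_pow, hc'] at h1
  have h2 : ∏ i, ((N : 𝓞 L) - θ i) = ((G.eval N : ℤ) : 𝓞 L) := by
    have h3 := congrArg (Polynomial.eval (N : 𝓞 L)) hG.roots
    rw [Polynomial.eval_prod] at h3
    simp only [eval_sub, eval_X, eval_C] at h3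
    rw [← h3, Polynomial.eval_map]
    have := Polynomial.eval₂_at_apply (algebraMap ℤ (𝓞 L)) N (p := G)
    simpa using this
  rw [h2, Finset.prod_const, Finset.card_univ, Fintype.card_fin] at h1
  have h4 : (q : ℤ) ∣ c ^ 4 * G.eval N := by
    apply int_dvd_of_dvd (L := L)
    refine ⟨((q : ℤ) * c' ^ 2 : ℤ) * ∏ i, K.ell (θ i) z, ?_⟩
    have h5 : (((c ^ 4 * G.eval N : ℤ)) : 𝓞 L) = (c : 𝓞 L) ^ 4 * ((G.eval N : ℤ) : 𝓞 L) := by
      push_cast; ring
    rw [h5, h1]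
    push_cast
    ring
  have hp : Prime ((q : ℕ) : ℤ) := Nat.prime_iff_prime_int.1 h.prime
  rcases hp.dvd_or_dvd h4 with h5 | h5
  · exfalso
    have h6 := hp.dvd_of_dvd_pow h5
    have h7 : (q : ℤ) ≤ |c| := by
      have := Int.le_of_dvd (abs_pos.2 h.c0) ((dvd_abs _ _).2 h6)
      exact this
    have h8 : (q : ℝ) ≤ C := by
      have := h7.trans h.cC
      exact_mod_cast this
    have h9 := h.lo
    linarith
  · exact h5

/-- the number of solutions with a given prime. -/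
theorem card_prime {L : Type} [Field L] [NumberField L] (θ : Fin 4 → 𝓞 L) (G : ℤ[X])
    (hG : Root4 θ G) (C : ℕ) (X T : ℝ) (hT : (C : ℝ) < T ^ 4) (hX1 : 1 ≤ X)
    (hX : X ≤ C * T ^ 4) (c : ℤ) (q : ℕ) (S : Finset ℤ) (y z : ℤ → Fin 4 → ℤ)
    (hS : ∀ N ∈ S, Dat θ C X T N q c (y N) (z N)) : S.card ≤ 4 * (2 * C ^ 2 + 1) := by
  classical
  rcases S.eq_empty_or_nonempty with rfl | ⟨N0, hN0⟩
  · simp
  have hq : q.Prime := (hS N0 hN0).prime
  have hq0 : (0 : ℤ) < q := by exact_mod_cast hq.pos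
  have : Fact q.Prime := ⟨hq⟩
  have hmon : (G.map (Int.castRingHom (ZMod q))).Monic := hG.monic.map _
  have hNb : ∀ N ∈ S, |N| ≤ (C : ℤ) ^ 2 * q := by
    intro N hN
    have h1 : |(N : ℝ)| ≤ (C : ℝ) ^ 2 * q := by
      have hC0 : (0 : ℝ) ≤ C := Nat.cast_nonneg C
      calc |(N : ℝ)| ≤ C * X := (hS N hN).hN
        _ ≤ C * (C * T ^ 4) := by gcongr
        _ ≤ C * (C * q) := by
          have := (hS N hN).lo
          gcongr
        _ = _ := by ring
    exact_mod_cast h1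
  have h1 : S.card ≤ (((G.map (Int.castRingHom (ZMod q))).roots.toFinset) ×ˢ
      (Finset.Icc (-(C : ℤ) ^ 2) ((C : ℤ) ^ 2))).card := by
    refine Finset.card_le_card_of_injOn (fun N => ((N : ZMod q), N / (q : ℤ))) ?_ ?_
    · intro N hN
      have hN' : N ∈ S := hN
      rw [Finset.mem_coe, Finset.mem_product]
      constructor
      · rw [Multiset.mem_toFinset, mem_roots hmon.ne_zero, IsRoot.def]
        have h2 := prime_dvd_G hG hT (hS N hN')
        have h3 : ((G.eval N : ℤ) : ZMod q) = 0 := (ZMod.intCast_zmod_eq_zero_iff_dvd _ _).2 h2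
        rw [← h3, Polynomial.eval_map]
        have := Polynomial.eval₂_at_apply (Int.castRingHom (ZMod q)) N (p := G)
        simpa using this
      · have h2 := abs_le.1 (hNb N hN')
        simp only [Finset.mem_Icc]
        constructor
        · apply Int.le_ediv_of_mul_le hq0
          linarith [h2.1]
        · exact Int.ediv_le_of_le_mul hq0 h2.2
    · intro N hN N' hN' h
      simp only [Prod.mk.injEq] at h
      obtain ⟨ha, hb⟩ := h
      rw [ZMod.intCast_eq_intCast_iff] at ha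
      have hc : N % q = N' % q := ha
      have e1 := Int.mul_ediv_add_emod N q
      have e2 := Int.mul_ediv_add_emod N' q
      rw [← e1, ← e2, hb, hc]
  refine h1.trans ?_
  rw [Finset.card_product]
  refine Nat.mul_le_mul ?_ ?_
  · calc _ ≤ Multiset.card (G.map (Int.castRingHom (ZMod q))).roots :=
          Multiset.toFinset_card_le _
      _ ≤ (G.map (Int.castRingHom (ZMod q))).natDegree := card_roots' _
      _ ≤ G.natDegree := natDegree_map_le
      _ = 4 := hG.deg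
  · rw [Int.card_Icc]
    have : (0 : ℤ) ≤ (C : ℤ) ^ 2 := by positivity
    have h2 : ((C : ℤ) ^ 2 + 1 - -(C : ℤ) ^ 2) = ((2 * C ^ 2 + 1 : ℕ) : ℤ) := by push_cast; ring
    rw [h2, Int.toNat_natCast]

/-- the number of solutions whose prime divides `E`. -/
theorem card_dvd {L : Type} [Field L] [NumberField L] (θ : Fin 4 → 𝓞 L) (G : ℤ[X])
    (hG : Root4 θ G) (C : ℕ) (X T : ℝ) (hT : (C : ℝ) < T ^ 4) (hT1 : 1 < T ^ 4) (hX1 : 1 ≤ X)
    (hX : X ≤ C * T ^ 4) (c : ℤ) (E : ℤ) (hE : E ≠ 0) (r H : ℕ) (hEH : |E| ≤ (H : ℤ) ^ r)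
    (hH : (H : ℝ) ≤ (T ^ 4) ^ 2) (S : Finset ℤ) (p : ℤ → ℕ) (y z : ℤ → Fin 4 → ℤ)
    (hS : ∀ N ∈ S, Dat θ C X T N (p N) c (y N) (z N) ∧ (p N : ℤ) ∣ E) :
    S.card ≤ 2 * r * (4 * (2 * C ^ 2 + 1)) := by
  classical
  have h1 := Finset.card_le_mul_card_image (f := p) S (4 * (2 * C ^ 2 + 1)) (by
    intro q hq
    refine card_prime θ G hG C X T hT hX1 hX c q _ y z ?_
    intro N hN
    obtain ⟨h1, h2⟩ := Finset.mem_filter.1 hN
    rw [← h2]
    exact (hS N h1).1)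
  have h2 : (S.image p).card ≤ 2 * r := by
    have hpr : ∀ q ∈ S.image p, q.Prime ∧ T ^ 4 ≤ q ∧ q ∣ E.natAbs := by
      intro q hq
      obtain ⟨N, hN, rfl⟩ := Finset.mem_image.1 hq
      exact ⟨(hS N hN).1.prime, (hS N hN).1.lo, Int.natCast_dvd.1 (hS N hN).2⟩
    have h3 : ∏ q ∈ S.image p, q ∣ E.natAbs :=
      Finset.prod_primes_dvd _ (fun q hq => (hpr q hq).1.prime) (fun q hq => (hpr q hq).2.2)
    have h4 := Nat.le_of_dvd (Int.natAbs_pos.2 hE) h3
    have h5 : (T ^ 4) ^ (S.image p).card ≤ ((∏ q ∈ S.image p, q : ℕ) : ℝ) := by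
      push_cast
      rw [← Finset.prod_const]
      exact Finset.prod_le_prod (fun _ _ => by positivity) (fun q hq => (hpr q hq).2.1)
    have h6 : ((E.natAbs : ℕ) : ℝ) ≤ (H : ℝ) ^ r := by
      have : ((E.natAbs : ℕ) : ℤ) ≤ (H : ℤ) ^ r := by rw [Int.natCast_natAbs]; exact hEH
      exact_mod_cast this
    have h7 : (T ^ 4) ^ (S.image p).card ≤ (T ^ 4) ^ (2 * r) := by
      calc (T ^ 4) ^ (S.image p).card ≤ ((∏ q ∈ S.image p, q : ℕ) : ℝ) := h5
        _ ≤ (E.natAbs : ℝ) := by exact_mod_cast h4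
        _ ≤ (H : ℝ) ^ r := h6
        _ ≤ ((T ^ 4) ^ 2) ^ r := by gcongr
        _ = _ := by rw [← pow_mul]
    exact (pow_le_pow_iff_right₀ hT1).1 h7
  calc S.card ≤ 4 * (2 * C ^ 2 + 1) * (S.image p).card := h1
    _ ≤ 4 * (2 * C ^ 2 + 1) * (2 * r) := Nat.mul_le_mul_left _ h2
    _ = _ := by ring

end Vale.Agent.P018.QB.GapC
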