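import Mathlib
import Vale.Agent.P018.Q.BDefs
import Vale.Agent.P018.Q.Gap
import Vale.Agent.P018.Q.GapPt
import Vale.Agent.P018.Q.KapSh

/-! # P018, (B): gap curves, the divisibility `p ∣ W`. -/

namespace Vale.Agent.P018.QB.GapC

open Polynomial NumberField Vale.Agent.P018.Q

section aux

variable {L : Type} [Field L] [NumberField L]

theorem w_fld {θ : Fin 4 → 𝓞 L} {G : ℤ[X]} (hG : Root4 θ G) : Fld G θ :=
  ⟨hG.monic, hG.deg, hG.irr, hG.inj, hG.roots⟩

/-- `b - a θ ≠ 0` -/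
theorem w_lin_ne {θ : Fin 4 → 𝓞 L} {G : ℤ[X]} (hG : Root4 θ G) {a b : ℤ}
    (h : a ≠ 0 ∨ b ≠ 0) (j : Fin 4) : (b : 𝓞 L) - (a : 𝓞 L) * θ j ≠ 0 := by
  have h1 := GapPt.ell_ne (w_fld hG) (l := ![b, -a, 0, 0]) (by
    intro h0
    have e0 := congrFun h0 0
    have e1 := congrFun h0 1
    simp at e0 e1
    rcases h with h | h
    · exact h e1
    · exact h e0) j
  rw [ell_four] at h1
  intro h2
  apply h1
  simp
  linear_combination h2

/-- the values of the form of `G`. -/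
theorem w_hom_G {θ : Fin 4 → 𝓞 L} {G : ℤ[X]} (hG : Root4 θ G) (b a : ℤ) :
    ((hom 4 G b a : ℤ) : 𝓞 L) = ∏ j, ((b : 𝓞 L) - (a : 𝓞 L) * θ j) := by
  have h1 : G.map (algebraMap ℤ (𝓞 L)) =
      ∏ j, piPoly θ ![1, 0, 0, 0] ![0, -1, 0, 0] j := by
    rw [hG.roots]
    refine Finset.prod_congr rfl fun j _ => ?_
    unfold piPoly
    rw [ell_four, ell_four]
    simp
    ring
  rw [GapPt.hom_lam h1]
  refine Finset.prod_congr rfl fun j _ => ?_
  rw [ell_lin, ell_four, ell_four]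
  simp
  ring

theorem w_hom_bound (G : ℤ[X]) {H E : ℕ} (hH : 2 ≤ H) {a b : ℤ} (ha : |a| ≤ (H : ℤ) ^ E)
    (hb : |b| ≤ (H : ℤ) ^ E) :
    |hom 4 G b a| ≤ (H : ℤ) ^ ((∑ i ∈ Finset.range 5, (G.coeff i).natAbs) + 4 * E) := by
  set S : ℕ := ∑ i ∈ Finset.range 5, (G.coeff i).natAbs with hS
  have h1 : |hom 4 G b a| ≤ (S : ℤ) * (H : ℤ) ^ (4 * E) := by
    unfold hom
    refine (Finset.abs_sum_le_sum_abs _ _).trans ?_
    rw [hS]
    push_cast
    rw [Finset.sum_mul]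
    refine Finset.sum_le_sum fun i hi => ?_
    have hi' : i ≤ 4 := by have := Finset.mem_range.1 hi; omega
    rw [abs_mul, abs_mul, abs_pow, abs_pow, mul_assoc]
    have h2 : |b| ^ i * |a| ^ (4 - i) ≤ (H : ℤ) ^ (4 * E) := by
      have e : (H : ℤ) ^ (4 * E) = ((H : ℤ) ^ E) ^ i * ((H : ℤ) ^ E) ^ (4 - i) := by
        rw [← pow_add, ← pow_mul]; congr 1
        rw [show i + (4 - i) = 4 by omega]; ring
      rw [e]
      exact mul_le_mul (pow_le_pow_left₀ (abs_nonneg _) hb _)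
        (pow_le_pow_left₀ (abs_nonneg _) ha _) (by positivity) (by positivity)
    exact mul_le_mul_of_nonneg_left h2 (abs_nonneg _)
  have h3 : (S : ℤ) ≤ (H : ℤ) ^ S := by
    have : S ≤ H ^ S := (Nat.lt_pow_self (by omega)).le
    exact_mod_cast this
  refine h1.trans ?_
  rw [pow_add]
  exact mul_le_mul_of_nonneg_right h3 (by positivity)

/-- the Wronskian does not vanish. -/
theorem w_wr_ne {d : ℕ} {A B : ℤ[X]} (hAB : A.natDegree = d + 1 ∨ B.natDegree = d + 1)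
    (hcop : IsCoprime (A.map (Int.castRingHom ℚ)) (B.map (Int.castRingHom ℚ))) :
    wr A B ≠ 0 := by
  intro h0
  have h1 : wronskian (A.map (Int.castRingHom ℚ)) (B.map (Int.castRingHom ℚ)) = 0 := by
    have := congrArg (Polynomial.map (Int.castRingHom ℚ)) h0
    simpa [wr, wronskian, Polynomial.derivative_map] using this
  rw [hcop.wronskian_eq_zero_iff] at h1
  have hdegA : (A.map (Int.castRingHom ℚ)).natDegree = A.natDegree :=
    natDegree_map_eq_of_injective (RingHom.injective_int _) _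
  have hdegB : (B.map (Int.castRingHom ℚ)).natDegree = B.natDegree :=
    natDegree_map_eq_of_injective (RingHom.injective_int _) _
  have h2 := derivative_eq_zero.1 h1.1
  have h3 := derivative_eq_zero.1 h1.2
  omega

/-- the identity over `ℂ`. -/
theorem w_id {d : ℕ} {A B : ℤ[X]} {α γ1 γ2 : Fin 4 → ℂ} (hα : Function.Injective α)
    (hA : A.natDegree ≤ d + 1) (hB : B.natDegree ≤ d + 1) (hwr : wr A B ≠ 0)
    (hlead : ∀ j, (B.coeff (d + 1) : ℂ) - α j * (A.coeff (d + 1) : ℂ) ≠ 0)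
    (hγ : ∀ j, γ2 j ≠ 0)
    (hcop : IsCoprime (A.map (Int.castRingHom ℚ)) (B.map (Int.castRingHom ℚ)))
    (hP : ∀ j, ∃ h : ℂ[X], B.map (Int.castRingHom ℂ) - C (α j) * A.map (Int.castRingHom ℂ) =
      (C (γ1 j) + C (γ2 j) * X) * h ^ 2) :
    C (∏ j, ((B.coeff (d + 1) : ℂ) - α j * (A.coeff (d + 1) : ℂ))) *
        (wr A B).map (Int.castRingHom ℂ) ^ 2 * ∏ j, (C (γ1 j) + C (γ2 j) * X) =
      C (((wr A B).coeff (2 * d) : ℂ) ^ 2 * ∏ j, γ2 j) *
        ∏ j, (B.map (Int.castRingHom ℂ) - C (α j) * A.map (Int.castRingHom ℂ)) := by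
  choose h hh using hP
  set f := Int.castRingHom ℂ with hf
  set a := A.map f with ha
  set b := B.map f with hb
  set w := (wr A B).map f with hw
  have hwab : w = a * derivative b - derivative a * b := by
    rw [hw, ha, hb, wr]
    simp [Polynomial.derivative_map]
  have hw0 : w ≠ 0 := by
    rw [hw, Ne, Polynomial.map_eq_zero_iff (RingHom.injective_int f)]
    exact hwr
  have hwdeg : w.natDegree ≤ 2 * d := natDegree_map_le.trans (Gap.natDegree_wr d A B hA hB)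
  have hcop2 : IsCoprime a b := by
    have h1 := hcop.map (mapRingHom (algebraMap ℚ ℂ))
    simp only [coe_mapRingHom, Polynomial.map_map] at h1
    have h2 : (algebraMap ℚ ℂ).comp (Int.castRingHom ℚ) = f := RingHom.ext_int _ _
    rw [h2] at h1
    exact h1
  have hcoeff : ∀ j, (b - C (α j) * a).coeff (d + 1) =
      (B.coeff (d + 1) : ℂ) - α j * (A.coeff (d + 1) : ℂ) := by
    intro j
    simp [ha, hb, hf]
  have hdegP : ∀ j, (b - C (α j) * a).natDegree = d + 1 := by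
    intro j
    refine natDegree_eq_of_le_of_coeff_ne_zero ?_ ?_
    · refine (natDegree_sub_le _ _).trans (max_le (natDegree_map_le.trans hB) ?_)
      exact (natDegree_C_mul_le _ _).trans (natDegree_map_le.trans hA)
    · rw [hcoeff]; exact hlead j
  have hP0 : ∀ j, b - C (α j) * a ≠ 0 := by
    intro j h0
    have := hdegP j
    rw [h0] at this
    simp at this
  have hlin : ∀ j, (C (γ1 j) + C (γ2 j) * X : ℂ[X]).natDegree = 1 := by
    intro j
    rw [add_comm]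
    exact natDegree_linear (hγ j)
  have hlin0 : ∀ j, (C (γ1 j) + C (γ2 j) * X : ℂ[X]) ≠ 0 := by
    intro j h0
    have := hlin j
    rw [h0] at this
    simp at this
  have hh0 : ∀ j, h j ≠ 0 := by
    intro j h0
    apply hP0 j
    rw [hh j, h0]
    ring
  have hdegh : ∀ j, 2 * (h j).natDegree = d := by
    intro j
    have h1 := hdegP j
    rw [hh j, natDegree_mul (hlin0 j) (pow_ne_zero _ (hh0 j)), hlin, natDegree_pow] at h1
    omega
  have hlc : ∀ j, (B.coeff (d + 1) : ℂ) - α j * (A.coeff (d + 1) : ℂ) =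
      γ2 j * (h j).leadingCoeff ^ 2 := by
    intro j
    rw [← hcoeff j, ← hdegP j]
    change (b - C (α j) * a).leadingCoeff = _
    rw [hh j, leadingCoeff_mul, leadingCoeff_pow]
    congr 1
    rw [add_comm]
    exact leadingCoeff_linear (hγ j)
  -- pairwise coprime
  have hPcop : ∀ i j, i ≠ j → IsCoprime (b - C (α i) * a) (b - C (α j) * a) := by
    intro i j hij
    obtain ⟨u, v, huv⟩ := hcop2
    have hne : α j - α i ≠ 0 := sub_ne_zero.2 fun h => hij (hα h.symm)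
    have hC : C ((α j - α i)⁻¹) * (C (α j) - C (α i)) = (1 : ℂ[X]) := by
      rw [← C_sub, ← C_mul, inv_mul_cancel₀ hne, C_1]
    refine ⟨C ((α j - α i)⁻¹) * (u + v * C (α j)), -(C ((α j - α i)⁻¹) * (u + v * C (α i))), ?_⟩
    linear_combination (C ((α j - α i)⁻¹) * (C (α j) - C (α i))) * huv + hC
  have hhcop : ∀ i j, i ≠ j → IsCoprime (h i) (h j) := by
    intro i j hij
    refine ((hPcop i j hij).of_isCoprime_of_dvd_left ?_).of_isCoprime_of_dvd_right ?_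
    · rw [hh i]; exact Dvd.dvd.mul_left (dvd_pow_self _ (by norm_num)) _
    · rw [hh j]; exact Dvd.dvd.mul_left (dvd_pow_self _ (by norm_num)) _
  have hdvd : ∀ j, h j ∣ w := by
    intro j
    have h1 : w = a * derivative (b - C (α j) * a) - derivative a * (b - C (α j) * a) := by
      rw [hwab]
      simp only [derivative_sub, derivative_mul, derivative_C]
      ring
    rw [h1, hh j, derivative_mul, derivative_pow]
    refine dvd_sub (Dvd.dvd.mul_left (dvd_add ?_ ?_) _) ?_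
    · exact Dvd.dvd.mul_left (dvd_pow_self _ (by norm_num)) _
    · refine Dvd.dvd.mul_left ?_ _
      exact ⟨C ((2 : ℕ) : ℂ) * derivative (h j), by
        rw [show (2 - 1 : ℕ) = 1 from rfl]; ring⟩
    · exact Dvd.dvd.mul_left (Dvd.dvd.mul_left (dvd_pow_self _ (by norm_num)) _) _
  obtain ⟨r, hr⟩ : (∏ j, h j) ∣ w :=
    Finset.prod_dvd_of_coprime (fun i _ j _ hij => hhcop i j hij) fun j _ => hdvd j
  have hprod0 : (∏ j, h j) ≠ 0 := Finset.prod_ne_zero_iff.2 fun j _ => hh0 j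
  have hr0 : r ≠ 0 := by
    rintro rfl
    rw [mul_zero] at hr
    exact hw0 hr
  have hproddeg : (∏ j, h j).natDegree = 2 * d := by
    rw [natDegree_prod _ _ fun j _ => hh0 j, Fin.sum_univ_four]
    have h0 := hdegh 0
    have h1 := hdegh 1
    have h2 := hdegh 2
    have h3 := hdegh 3
    omega
  have hrdeg : r.natDegree = 0 := by
    have h1 := hwdeg
    rw [hr, natDegree_mul hprod0 hr0, hproddeg] at h1
    omega
  obtain ⟨q, rfl⟩ : ∃ q, r = C q := ⟨r.coeff 0, eq_C_of_natDegree_eq_zero hrdeg⟩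
  have hwlc : ((wr A B).coeff (2 * d) : ℂ) = (∏ j, (h j).leadingCoeff) * q := by
    have h1 : ((wr A B).coeff (2 * d) : ℂ) = w.coeff (2 * d) := by
      rw [hw, coeff_map]; rfl
    rw [h1, hr, coeff_mul_C, ← hproddeg]
    congr 1
    change (∏ j, h j).leadingCoeff = _
    rw [leadingCoeff_prod]
  rw [hwlc]
  simp only [hlc, hh, hr]
  simp only [Fin.prod_univ_four, C_mul, C_pow]
  ring

end aux

theorem dvd_wr {L : Type} [Field L] [NumberField L] (θ : Fin 4 → 𝓞 L) (G : ℤ[X])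
    (hG : Root4 θ G) (C E D : ℕ) : ∃ C2 : ℕ, ∀ (H d : ℕ) (φ : L →+* ℂ) (g1 g2 : Fin 4 → ℤ)
      (A B : ℤ[X]), 2 ≤ H → d + 1 ≤ D → NonSpec θ g1 g2 →
      A.natDegree ≤ d + 1 → B.natDegree ≤ d + 1 → (A.natDegree = d + 1 ∨ B.natDegree = d + 1) →
      IsCoprime (A.map (Int.castRingHom ℚ)) (B.map (Int.castRingHom ℚ)) →
      (∀ i, |A.coeff i| ≤ (H : ℤ) ^ E) → (∀ i, |B.coeff i| ≤ (H : ℤ) ^ E) →
      (∀ j, ∃ h : ℂ[X], B.map (Int.castRingHom ℂ) - Polynomial.C (φ (θ j)) *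
          A.map (Int.castRingHom ℂ) = (Polynomial.C (cf θ φ g1 j) +
            Polynomial.C (cf θ φ g2 j) * Polynomial.X) * h ^ 2) →
      wr A B ≠ 0 ∧ ∃ m : ℤ, m ≠ 0 ∧ |m| ≤ (H : ℤ) ^ C2 ∧
        ∀ (X T : ℝ) (c N : ℤ) (p : ℕ) (y : Fin 4 → ℤ) (u1 u2 g s t : ℤ),
          Dat θ C X T N p c y (fun j => u1 * g1 j + u2 * g2 j) → u1 = g * t → u2 = g * s →
          IsCoprime s t → t ≠ 0 → hom (d + 1) A s t * N = hom (d + 1) B s t → C < p →
          (p : ℤ) ∣ m * hom (2 * d) (wr A B) s t := by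
  refine ⟨(∑ i ∈ Finset.range 5, (G.coeff i).natAbs) + 4 * E, ?_⟩
  intro H d φ g1 g2 A B hH hdD hns hA hB hAB hcop hAE hBE hP
  have hwr := w_wr_ne hAB hcop
  -- the leading coefficients
  have hab : A.coeff (d + 1) ≠ 0 ∨ B.coeff (d + 1) ≠ 0 := by
    rcases hAB with h | h
    · left
      rw [← h]
      intro h0
      have : A = 0 := leadingCoeff_eq_zero.1 h0
      rw [this] at h; simp at h
    · right
      rw [← h]
      intro h0
      have : B = 0 := leadingCoeff_eq_zero.1 h0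
      rw [this] at h; simp at h
  set ψ : 𝓞 L →+* ℂ := φ.comp (algebraMap (𝓞 L) L) with hψ
  have hψi : Function.Injective ψ := φ.injective.comp RingOfIntegers.coe_injective
  have hg2 : g2 ≠ 0 := by
    rintro rfl
    have h0 : ∀ j, el (θ j) (0 : Fin 4 → ℤ) = 0 := by
      intro j; unfold el; rw [ell_four]; simp
    exact hns 0 1 (by decide) (by rw [h0, h0]; ring)
  have hγ : ∀ j, cf θ φ g2 j ≠ 0 := by
    intro j h0
    have h1 : ψ (el (θ j) g2) = ψ 0 := by rw [map_zero]; exact h0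
    exact GapPt.ell_ne (w_fld hG) hg2 j (hψi h1)
  have hlead : ∀ j, (B.coeff (d + 1) : ℂ) - φ (θ j) * (A.coeff (d + 1) : ℂ) ≠ 0 := by
    intro j h0
    refine w_lin_ne hG hab j (hψi ?_)
    rw [map_zero, map_sub, map_mul, map_intCast, map_intCast]
    have h1 : ψ (θ j) = φ (θ j) := rfl
    rw [h1]
    linear_combination h0
  have hα : Function.Injective fun j => φ ((θ j : 𝓞 L) : L) := fun i j h =>
    hG.inj (hψi h)
  have hid := w_id (d := d) hα hA hB hwr hlead hγ hcop hP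
  refine ⟨hwr, hom 4 G (B.coeff (d + 1)) (A.coeff (d + 1)), ?_, ?_, ?_⟩
  · intro h0
    have h1 := w_hom_G hG (B.coeff (d + 1)) (A.coeff (d + 1))
    rw [h0, Int.cast_zero] at h1
    obtain ⟨j, -, hj⟩ := Finset.prod_eq_zero_iff.1 h1.symm
    exact w_lin_ne hG hab j hj
  · exact w_hom_bound G hH (hAE _) (hBE _)
  intro X T c N p y u1 u2 g s t hdat hu1 hu2 hst ht hN hCp
  set m : ℤ := hom 4 G (B.coeff (d + 1)) (A.coeff (d + 1)) with hm
  set W : ℤ := hom (2 * d) (wr A B) s t with hW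
  set HA : ℤ := hom (d + 1) A s t with hHA
  set HB : ℤ := hom (d + 1) B s t with hHB
  -- the identity in `𝓞 L`
  have hmψ : (m : ℂ) = ∏ j, ((B.coeff (d + 1) : ℂ) - φ (θ j) * (A.coeff (d + 1) : ℂ)) := by
    have h1 := congrArg ψ (w_hom_G hG (B.coeff (d + 1)) (A.coeff (d + 1)))
    rw [map_intCast, map_prod] at h1
    rw [hm, h1]
    refine Finset.prod_congr rfl fun j _ => ?_
    rw [map_sub, map_mul, map_intCast, map_intCast, mul_comm]
    rfl
  have htC : (t : ℂ) ≠ 0 := by exact_mod_cast ht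
  set x : ℂ := (s : ℂ) / t with hx
  have hxt : x * t = s := div_mul_cancel₀ _ htC
  have hhom : ∀ (D' : ℕ) (P : ℤ[X]), P.natDegree ≤ D' →
      ((hom D' P s t : ℤ) : ℂ) = (t : ℂ) ^ D' * (P.map (Int.castRingHom ℂ)).eval x := by
    intro D' P hP
    have h1 := Q.hom_mul (R := ℂ) D' hP x t
    rw [hxt] at h1
    have h2 : ((hom D' P s t : ℤ) : ℂ) = hom D' P (s : ℂ) (t : ℂ) :=
      Q.hom_map (Int.castRingHom ℂ) D' P s t
    rw [h2, h1, aeval_def, eval_map]
    congr 1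
  have hidx := congrArg (Polynomial.eval x) hid
  simp only [eval_mul, eval_C, eval_pow, eval_prod, eval_add, eval_X, eval_sub] at hidx
  rw [← hmψ] at hidx
  have hWx := hhom (2 * d) (wr A B) (Gap.natDegree_wr d A B hA hB)
  have hAx := hhom (d + 1) A hA
  have hBx := hhom (d + 1) B hB
  have key : (m : 𝓞 L) * (W : 𝓞 L) ^ 2 *
      ∏ j, ((t : 𝓞 L) * el (θ j) g1 + (s : 𝓞 L) * el (θ j) g2) =
      ((wr A B).coeff (2 * d) : 𝓞 L) ^ 2 * (∏ j, el (θ j) g2) * (HA : 𝓞 L) ^ 4 *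
        ∏ j, ((N : 𝓞 L) - θ j) := by
    apply hψi
    simp only [map_mul, map_pow, map_prod, map_intCast, map_add, map_sub]
    have e1 : ∀ j, ψ (el (θ j) g1) = cf θ φ g1 j := fun j => rfl
    have e2 : ∀ j, ψ (el (θ j) g2) = cf θ φ g2 j := fun j => rfl
    have e3 : ∀ j, ψ (θ j) = φ (θ j) := fun j => rfl
    simp only [e1, e2, e3]
    have hNC : ((HA : ℤ) : ℂ) * N = ((HB : ℤ) : ℂ) := by exact_mod_cast hN
    have l1 : ∏ j, ((t : ℂ) * cf θ φ g1 j + (s : ℂ) * cf θ φ g2 j) =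
        (t : ℂ) ^ 4 * ∏ j, (cf θ φ g1 j + cf θ φ g2 j * x) := by
      simp only [Fin.prod_univ_four, ← hxt]
      ring
    have l2 : ((HA : ℤ) : ℂ) ^ 4 * ∏ j, ((N : ℂ) - φ (θ j)) = ((t : ℂ) ^ (d + 1)) ^ 4 *
        ∏ j, ((B.map (Int.castRingHom ℂ)).eval x -
          φ (θ j) * (A.map (Int.castRingHom ℂ)).eval x) := by
      have l3 : ∀ j, ((HA : ℤ) : ℂ) * ((N : ℂ) - φ (θ j)) = (t : ℂ) ^ (d + 1) *
          ((B.map (Int.castRingHom ℂ)).eval x -
            φ (θ j) * (A.map (Int.castRingHom ℂ)).eval x) := by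
        intro j
        rw [mul_sub, hNC, hBx, hAx]
        ring
      have l4 : ∏ j, (((HA : ℤ) : ℂ) * ((N : ℂ) - φ (θ j))) = ∏ j, ((t : ℂ) ^ (d + 1) *
          ((B.map (Int.castRingHom ℂ)).eval x -
            φ (θ j) * (A.map (Int.castRingHom ℂ)).eval x)) := Finset.prod_congr rfl fun j _ => l3 j
      simpa only [Finset.prod_mul_distrib, Finset.prod_const, Finset.card_univ,
        Fintype.card_fin] using l4
    rw [l1, mul_assoc _ (((HA : ℤ) : ℂ) ^ 4), l2, hWx]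
    have l5 : ((t : ℂ) ^ (d + 1)) ^ 4 = ((t : ℂ) ^ (2 * d)) ^ 2 * (t : ℂ) ^ 4 := by
      rw [← pow_mul, ← pow_mul, ← pow_add]; congr 1; ring
    rw [l5]
    linear_combination ((t : ℂ) ^ (2 * d)) ^ 2 * (t : ℂ) ^ 4 * hidx
  -- the divisibility
  obtain ⟨c', hc'0, hc'C, hnrm⟩ := hdat.nrm
  have hell : ∀ j, el (θ j) (fun i => u1 * g1 i + u2 * g2 i) =
      (g : 𝓞 L) * ((t : 𝓞 L) * el (θ j) g1 + (s : 𝓞 L) * el (θ j) g2) := by
    intro j
    have h1 : (fun i => u1 * g1 i + u2 * g2 i) = u1 • g1 + u2 • g2 := rfl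
    rw [h1]
    unfold el
    rw [ell_lin, hu1, hu2]
    push_cast
    ring
  have hfac : ∀ j, (t : 𝓞 L) * el (θ j) g1 + (s : 𝓞 L) * el (θ j) g2 ≠ 0 := by
    intro j h0
    have h1 := hdat.eqn j
    have h2 := hell j
    unfold el at h0 h2
    rw [h2, h0, mul_zero, mul_zero] at h1
    rcases mul_eq_zero.1 h1 with h3 | h3
    · exact hdat.c0 (by exact_mod_cast h3)
    · have h4 := w_lin_ne hG (a := 1) (b := N) (Or.inl one_ne_zero) j
      apply h4
      rw [Int.cast_one, one_mul]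
      exact h3
  set Z : 𝓞 L := ∏ j, ((t : 𝓞 L) * el (θ j) g1 + (s : 𝓞 L) * el (θ j) g2) with hZ
  have hZ0 : Z ≠ 0 := Finset.prod_ne_zero_iff.2 fun j _ => hfac j
  have hprodN : (c : 𝓞 L) ^ 4 * ∏ j, ((N : 𝓞 L) - θ j) =
      (((p : ℤ) * c' : ℤ) : 𝓞 L) ^ 2 * ((g : 𝓞 L) ^ 4 * Z) := by
    have h1 : ∏ j, ((c : 𝓞 L) * ((N : 𝓞 L) - θ j)) = ∏ j, (K.ell (θ j) y ^ 2 *
        ((g : 𝓞 L) * ((t : 𝓞 L) * el (θ j) g1 + (s : 𝓞 L) * el (θ j) g2))) := by
      refine Finset.prod_congr rfl fun j _ => ?_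
      rw [hdat.eqn j]
      exact congrArg _ (hell j)
    rw [Finset.prod_mul_distrib, Finset.prod_mul_distrib, Finset.prod_mul_distrib,
      Finset.prod_const, Finset.prod_const, Finset.card_univ, Fintype.card_fin,
      Finset.prod_pow, hnrm] at h1
    exact h1
  have hfin : ((c ^ 4 * (m * W ^ 2) : ℤ) : 𝓞 L) = (((p : ℤ) ^ 2 : ℤ) : 𝓞 L) *
      ((((wr A B).coeff (2 * d) : 𝓞 L) ^ 2 * (∏ j, el (θ j) g2) * (HA : 𝓞 L) ^ 4) *
        ((c' : 𝓞 L) ^ 2 * (g : 𝓞 L) ^ 4)) := by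
    apply mul_right_cancel₀ hZ0
    push_cast at hprodN ⊢
    linear_combination (c : 𝓞 L) ^ 4 * key + (((wr A B).coeff (2 * d) : 𝓞 L) ^ 2 *
      (∏ j, el (θ j) g2) * (HA : 𝓞 L) ^ 4) * hprodN
  have hdvd : (p : ℤ) ^ 2 ∣ c ^ 4 * (m * W ^ 2) := by
    refine rd_int L ?_
    rw [hfin]
    exact dvd_mul_right _ _
  have hpp : Prime (p : ℤ) := Nat.prime_iff_prime_int.1 hdat.prime
  have h1 : (p : ℤ) ∣ c ^ 4 * (m * W ^ 2) := (dvd_pow_self _ (by norm_num)).trans hdvd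
  rcases hpp.dvd_or_dvd h1 with h2 | h2
  · exfalso
    have h3 := hpp.dvd_of_dvd_pow h2
    have h4 := Int.le_of_dvd (abs_pos.2 hdat.c0) ((dvd_abs _ _).2 h3)
    have h5 := hdat.cC
    omega
  · rcases hpp.dvd_or_dvd h2 with h3 | h3
    · exact Dvd.dvd.mul_right h3 _
    · exact Dvd.dvd.mul_left (hpp.dvd_of_dvd_pow h3) _

end Vale.Agent.P018.QB.GapC
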