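import Mathlib
import Vale.Agent.P018.Q.BDefs
import Vale.Agent.P018.Q.Gap
import Vale.Agent.P018.Q.BGapC1
import Vale.Agent.P018.Q.BGapW
import Vale.Agent.P018.Q.BGapF

/-! # P018, (B): gap curves, assembly. -/

namespace Vale.Agent.P018.QB

open Polynomial NumberField Vale.Agent.P018.Q

namespace GapC

theorem exists_red (u1 u2 : ℤ) (h : u1 ≠ 0) : ∃ g s t : ℤ, g ≠ 0 ∧ t ≠ 0 ∧ u1 = g * t ∧
    u2 = g * s ∧ IsCoprime s t ∧ |s| ≤ |u2| ∧ |t| ≤ |u1| := by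
  have hg : 0 < Int.gcd u1 u2 := Int.gcd_pos_of_ne_zero_left _ h
  obtain ⟨t, s, h1, h2, h3⟩ := Int.exists_gcd_one hg
  set g : ℤ := (Int.gcd u1 u2 : ℤ) with hgdef
  have hg0 : g ≠ 0 := by rw [hgdef]; exact_mod_cast hg.ne'
  have ht : t ≠ 0 := by
    rintro rfl
    apply h; rw [h2]; ring
  have hg1 : 1 ≤ |g| := Int.one_le_abs hg0
  refine ⟨g, s, t, hg0, ht, by rw [h2]; ring, by rw [h3]; ring, ?_, ?_, ?_⟩
  · exact (Int.isCoprime_iff_gcd_eq_one.2 h1).symm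
  · rw [h3, abs_mul]
    nlinarith [abs_nonneg s]
  · rw [h2, abs_mul]
    nlinarith [abs_nonneg t]

theorem hom_eval (D : ℕ) (A : ℤ[X]) (hA : A.natDegree ≤ D) (s t : ℤ) (ht : t ≠ 0) :
    ((hom D A s t : ℤ) : ℚ) = (t : ℚ) ^ D * (A.map (Int.castRingHom ℚ)).eval ((s : ℚ) / t) := by
  rw [← Gap.hQ_map, Gap.hQ_ne D _ (natDegree_map_le.trans hA) _ _ (by exact_mod_cast ht)]

theorem eval_ne {A B : ℚ[X]} (h : IsCoprime A B) {w N : ℚ} (hN : N * A.eval w = B.eval w) :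
    A.eval w ≠ 0 := by
  intro h0
  obtain ⟨a, b, hab⟩ := h
  have := congrArg (Polynomial.eval w) hab
  rw [eval_add, eval_mul, eval_mul, ← hN, h0, eval_one] at this
  simp at this

/-- the count, for polynomials with bounded coefficients. -/
theorem gap_core {L : Type} [Field L] [NumberField L] (θ : Fin 4 → 𝓞 L) (G : ℤ[X])
    (hG : Root4 θ G) (C E D : ℕ) (ε : ℝ) (hε : 0 < ε) :
    ∃ K : ℝ, 0 < K ∧ ∀ (H : ℕ) (X T : ℝ), 2 ≤ H → (H : ℝ) ≤ (T ^ 4) ^ 2 → (C : ℝ) < T ^ 4 →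
      1 < T ^ 4 → 1 ≤ T → 1 ≤ X → X ≤ C * T ^ 4 → ∀ (φ : L →+* ℂ) (c : ℤ) (g1 g2 : Fin 4 → ℤ),
      NonSpec θ g1 g2 → ∀ (d : ℕ) (A B : ℤ[X]), d + 1 ≤ D → A.natDegree ≤ d + 1 →
      B.natDegree ≤ d + 1 → (A.natDegree = d + 1 ∨ B.natDegree = d + 1) →
      IsCoprime (A.map (Int.castRingHom ℚ)) (B.map (Int.castRingHom ℚ)) →
      (∀ i, |A.coeff i| ≤ (H : ℤ) ^ E) → (∀ i, |B.coeff i| ≤ (H : ℤ) ^ E) →
      (∀ j, ∃ h : ℂ[X], B.map (Int.castRingHom ℂ) - Polynomial.C (φ (θ j)) *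
          A.map (Int.castRingHom ℂ) = (Polynomial.C (cf θ φ g1 j) +
            Polynomial.C (cf θ φ g2 j) * Polynomial.X) * h ^ 2) →
      ∀ (S : Finset ℤ) (p : ℤ → ℕ) (y : ℤ → Fin 4 → ℤ) (u1 u2 : ℤ → ℤ),
        (∀ N ∈ S, Dat θ C X T N (p N) c (y N) (fun j => u1 N * g1 j + u2 N * g2 j) ∧
          u1 N ≠ 0 ∧ |u1 N| ≤ (H : ℤ) ^ E ∧ |u2 N| ≤ (H : ℤ) ^ E ∧
          (N : ℚ) * (A.map (Int.castRingHom ℚ)).eval ((u2 N : ℚ) / u1 N) =
            (B.map (Int.castRingHom ℚ)).eval ((u2 N : ℚ) / u1 N)) →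
        (S.card : ℝ) ≤ K * T ^ ε := by
  classical
  obtain ⟨C1, hC1⟩ := Vale.Agent.P018.Q.Gap.exists_res D E
  obtain ⟨C2, hC2⟩ := dvd_wr θ G hG C E D
  obtain ⟨K1, hK1, hK1'⟩ := gap_lemma D E (ε / 8) (by positivity)
  refine ⟨K1 * (C ^ 2 + 2) + 2 * D + 2 * (C1 + C2) * (4 * (2 * C ^ 2 + 1)), by positivity, ?_⟩
  intro H X T hH hHT hCT hT1 hT hX1 hX φ c g1 g2 hns d A B hdD hA hB hAB hcop hAH hBH hfac S p y
    u1 u2 hS
  obtain ⟨hwr0, m, hm0, hmH, hm⟩ := hC2 H d φ g1 g2 A B hH hdD hns hA hB hAB hcop hAH hBH hfac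
  obtain ⟨R, hR0, hRH, hR⟩ := hC1 H (d + 1) A B hH (by omega) hdD hA hB hAB hcop hAH hBH
  have hred : ∀ N : ℤ, ∃ g s t : ℤ, N ∈ S → g ≠ 0 ∧ t ≠ 0 ∧ u1 N = g * t ∧
      u2 N = g * s ∧ IsCoprime s t ∧ |s| ≤ |u2 N| ∧ |t| ≤ |u1 N| := by
    intro N
    by_cases hN : N ∈ S
    · obtain ⟨g, s, t, h⟩ := exists_red (u1 N) (u2 N) (hS N hN).2.1
      exact ⟨g, s, t, fun _ => h⟩
    · exact ⟨0, 0, 0, fun h => absurd h hN⟩
  choose g s t hgst using hred
  have hw : ∀ N ∈ S, (u2 N : ℚ) / u1 N = (s N : ℚ) / t N := by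
    intro N hN
    obtain ⟨h1, h2, h3, h4, -⟩ := hgst N hN
    rw [h3, h4]; push_cast
    rw [mul_div_mul_left _ _ (by exact_mod_cast h1)]
  have hEv : ∀ N ∈ S, (N : ℚ) * (A.map (Int.castRingHom ℚ)).eval ((s N : ℚ) / t N) =
      (B.map (Int.castRingHom ℚ)).eval ((s N : ℚ) / t N) := by
    intro N hN
    have := (hS N hN).2.2.2.2
    rwa [hw N hN] at this
  have hinj : ∀ N ∈ S, ∀ N' ∈ S, (s N : ℚ) / t N = (s N' : ℚ) / t N' → N = N' := by
    intro N hN N' hN' h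
    have h1 := hEv N hN
    have h2 := hEv N' hN'
    rw [← h] at h2
    have h3 := eval_ne hcop h1
    have h4 : (N : ℚ) = N' := mul_right_cancel₀ h3 (h1.trans h2.symm)
    exact_mod_cast h4
  have hhomA : ∀ N ∈ S, hom (d + 1) A (s N) (t N) ≠ 0 := by
    intro N hN h
    obtain ⟨h1, h2, h3, h4, -⟩ := hgst N hN
    have h5 := hom_eval (d + 1) A hA (s N) (t N) h2
    rw [h] at h5
    have h6 : ((t N : ℤ) : ℚ) ≠ 0 := by exact_mod_cast h2
    have h7 := eval_ne hcop (hEv N hN)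
    have h8 := mul_ne_zero (pow_ne_zero (d + 1) h6) h7
    apply h8; rw [← h5]; simp
  have hhom : ∀ N ∈ S, hom (d + 1) A (s N) (t N) * N = hom (d + 1) B (s N) (t N) := by
    intro N hN
    obtain ⟨h1, h2, h3, h4, -⟩ := hgst N hN
    have h5 := hom_eval (d + 1) A hA (s N) (t N) h2
    have h6 := hom_eval (d + 1) B hB (s N) (t N) h2
    have h7 : ((hom (d + 1) A (s N) (t N) : ℤ) : ℚ) * N = ((hom (d + 1) B (s N) (t N) : ℤ) : ℚ) := by
      rw [h5, h6, ← hEv N hN]; ring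
    exact_mod_cast h7
  -- the three parts
  set S1 := S.filter fun N => (p N : ℤ) ∣ m * R with hS1
  set S2 := S.filter fun N => hom (2 * d) (wr A B) (s N) (t N) = 0 with hS2
  set S3 := S.filter fun N => ¬ ((p N : ℤ) ∣ m * R) ∧ hom (2 * d) (wr A B) (s N) (t N) ≠ 0 with hS3
  have hcov : S ⊆ S1 ∪ S2 ∪ S3 := by
    intro N hN
    by_cases a : (p N : ℤ) ∣ m * R
    · exact Finset.mem_union_left _ (Finset.mem_union_left _ (Finset.mem_filter.2 ⟨hN, a⟩))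
    · by_cases b : hom (2 * d) (wr A B) (s N) (t N) = 0
      · exact Finset.mem_union_left _ (Finset.mem_union_right _ (Finset.mem_filter.2 ⟨hN, b⟩))
      · exact Finset.mem_union_right _ (Finset.mem_filter.2 ⟨hN, a, b⟩)
  have hcard : S.card ≤ S1.card + S2.card + S3.card :=
    (Finset.card_le_card hcov).trans ((Finset.card_union_le _ _).trans
      (Nat.add_le_add_right (Finset.card_union_le _ _) _))
  have c1 : S1.card ≤ 2 * (C1 + C2) * (4 * (2 * C ^ 2 + 1)) := by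
    refine card_dvd θ G hG C X T hCT hT1 hX1 hX c (m * R) (mul_ne_zero hm0 hR0) (C1 + C2) H ?_ hHT
      S1 p y (fun N => fun j => u1 N * g1 j + u2 N * g2 j) ?_
    · rw [abs_mul, add_comm, pow_add]
      exact mul_le_mul hmH hRH (abs_nonneg _) (by positivity)
    · intro N hN
      obtain ⟨h1, h2⟩ := Finset.mem_filter.1 hN
      exact ⟨(hS N h1).1, h2⟩
  have c2 : S2.card ≤ 2 * D := by
    have hmap0 : (wr A B).map (Int.castRingHom ℚ) ≠ 0 :=
      (Polynomial.map_ne_zero_iff (RingHom.injective_int _)).2 hwr0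
    have h1 : S2.card ≤ ((wr A B).map (Int.castRingHom ℚ)).roots.toFinset.card := by
      refine Finset.card_le_card_of_injOn (fun N => (s N : ℚ) / t N) ?_ ?_
      · intro N hN
        obtain ⟨h1, h2⟩ := Finset.mem_filter.1 (Finset.mem_coe.1 hN)
        obtain ⟨-, ht, -⟩ := hgst N h1
        have h3 := hom_eval (2 * d) (wr A B) (Gap.natDegree_wr d A B hA hB) (s N) (t N) ht
        rw [h2] at h3
        have h6 : ((t N : ℤ) : ℚ) ≠ 0 := by exact_mod_cast ht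
        rw [Finset.mem_coe, Multiset.mem_toFinset, mem_roots hmap0, IsRoot.def]
        have h7 : (t N : ℚ) ^ (2 * d) ≠ 0 := pow_ne_zero _ h6
        have h8 : (0 : ℚ) = (t N : ℚ) ^ (2 * d) *
          ((wr A B).map (Int.castRingHom ℚ)).eval ((s N : ℚ) / t N) := by
          rw [← h3]; simp
        exact (mul_eq_zero.1 h8.symm).resolve_left h7
      · intro N hN N' hN' h
        exact hinj N (Finset.mem_filter.1 (Finset.mem_coe.1 hN)).1 N'
          (Finset.mem_filter.1 (Finset.mem_coe.1 hN')).1 h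
    have h2 : ((wr A B).map (Int.castRingHom ℚ)).roots.toFinset.card ≤ 2 * d :=
      ((Multiset.toFinset_card_le _).trans (card_roots' _)).trans
        (natDegree_map_le.trans (Gap.natDegree_wr d A B hA hB))
    omega
  have hC0 : (0 : ℝ) ≤ C := Nat.cast_nonneg C
  have c3 : (S3.card : ℝ) ≤ K1 * (C ^ 2 + 2) * T ^ ε := by
    have h0 : (S3.card : ℝ) ≤ K1 * (H : ℝ) ^ (ε / 8) * (1 + max 1 (C * X) / T ^ 4) := by
      refine hK1' H (max 1 (C * X)) (T ^ 4) (d + 1) A B S3 s t p hH (le_max_left _ _) hT1.le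
        (by omega) hdD hA hB hAB hcop hAH hBH ?_
      intro N hN
      obtain ⟨hNS, hN1, hN2⟩ := Finset.mem_filter.1 hN
      obtain ⟨hdat, hu10, hu1, hu2, -⟩ := hS N hNS
      obtain ⟨hg0, ht0, hu1e, hu2e, hst, hs, ht⟩ := hgst N hNS
      refine ⟨hdat.hN.trans (le_max_right _ _), hst, hs.trans hu2, ht.trans hu1, hhom N hNS,
        hhomA N hNS, hdat.prime, hdat.lo, ?_, ?_, ?_⟩
      · intro h
        apply hN1
        have h1 := hR (s N) (t N) hst ⟨N, (hhom N hNS).symm⟩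
        exact (h.trans h1).mul_left m
      · rw [show 2 * (d + 1) - 2 = 2 * d by omega]
        have hCp : C < p N := by
          have := hCT.trans_le hdat.lo
          exact_mod_cast this
        have h1 := hm X T c N (p N) (y N) (u1 N) (u2 N) (g N) (s N) (t N) hdat hu1e hu2e hst ht0
          (hhom N hNS) hCp
        have hpp : Prime ((p N : ℕ) : ℤ) := Nat.prime_iff_prime_int.1 hdat.prime
        rcases hpp.dvd_or_dvd h1 with h | h
        · exact absurd (h.mul_right R) hN1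
        · exact h
      · rw [show 2 * (d + 1) - 2 = 2 * d by omega]; exact hN2
    have hT0 : 0 < T := by linarith
    have h1 : (H : ℝ) ^ (ε / 8) ≤ T ^ ε := by
      calc (H : ℝ) ^ (ε / 8) ≤ ((T ^ 4) ^ 2) ^ (ε / 8) := by gcongr
        _ = (T ^ (8 : ℝ)) ^ (ε / 8) := by
          congr 1
          rw [← pow_mul]
          norm_cast
        _ = T ^ ε := by rw [← Real.rpow_mul hT0.le]; congr 1; ring
    have h2 : 1 + max 1 (C * X) / T ^ 4 ≤ (C : ℝ) ^ 2 + 2 := by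
      have h3 : max 1 (C * X) ≤ ((C : ℝ) ^ 2 + 1) * T ^ 4 := by
        apply max_le
        · nlinarith [sq_nonneg (C : ℝ)]
        · nlinarith
      have h4 : max 1 (C * X) / T ^ 4 ≤ (C : ℝ) ^ 2 + 1 := by
        rw [div_le_iff₀ (by positivity)]; exact h3
      linarith
    have h5 : 0 ≤ 1 + max 1 (C * X) / T ^ 4 := by positivity
    calc (S3.card : ℝ) ≤ K1 * (H : ℝ) ^ (ε / 8) * (1 + max 1 (C * X) / T ^ 4) := h0
      _ ≤ K1 * T ^ ε * (C ^ 2 + 2) := by gcongr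
      _ = _ := by ring
  have hTe : (1 : ℝ) ≤ T ^ ε := Real.one_le_rpow hT hε.le
  have e1 : (S.card : ℝ) ≤ (S1.card : ℝ) + S2.card + S3.card := by exact_mod_cast hcard
  have e2 : (S1.card : ℝ) ≤ 2 * (C1 + C2) * (4 * (2 * C ^ 2 + 1)) * T ^ ε := by
    have h1 : (S1.card : ℝ) ≤ 2 * (C1 + C2) * (4 * (2 * C ^ 2 + 1)) := by exact_mod_cast c1
    refine h1.trans ?_
    have h2 : (0 : ℝ) ≤ 2 * (C1 + C2) * (4 * (2 * C ^ 2 + 1)) := by positivity
    exact le_mul_of_one_le_right h2 hTe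
  have e3 : (S2.card : ℝ) ≤ 2 * D * T ^ ε := by
    have h1 : (S2.card : ℝ) ≤ 2 * D := by exact_mod_cast c2
    refine h1.trans ?_
    have h2 : (0 : ℝ) ≤ 2 * D := by positivity
    exact le_mul_of_one_le_right h2 hTe
  calc (S.card : ℝ) ≤ (S1.card : ℝ) + S2.card + S3.card := e1
    _ ≤ 2 * (C1 + C2) * (4 * (2 * C ^ 2 + 1)) * T ^ ε + 2 * D * T ^ ε
      + K1 * (C ^ 2 + 2) * T ^ ε := by linarith
    _ = _ := by ring

theorem eval_ratC (A : ℤ[X]) (q : ℚ) : (A.map (Int.castRingHom ℂ)).eval ((q : ℚ) : ℂ) =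
    (((A.map (Int.castRingHom ℚ)).eval q : ℚ) : ℂ) := by
  have h : Int.castRingHom ℂ = (algebraMap ℚ ℂ).comp (Int.castRingHom ℚ) :=
    RingHom.ext_int _ _
  have h1 : ((q : ℚ) : ℂ) = algebraMap ℚ ℂ q := by simp
  rw [h, ← Polynomial.map_map, Polynomial.eval_map, h1, Polynomial.eval₂_at_apply]
  simp

theorem map_prop {K : Type*} [Field K] [CharZero K] {A A1 : ℤ[X]} {a b : ℤ} (ha : a ≠ 0)
    (h : Polynomial.C a * A1 = Polynomial.C b * A) :
    A1.map (Int.castRingHom K) = Polynomial.C ((b : K) / a) * A.map (Int.castRingHom K) := by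
  have h1 := congrArg (Polynomial.map (Int.castRingHom K)) h
  rw [Polynomial.map_mul, Polynomial.map_mul, Polynomial.map_C, Polynomial.map_C] at h1
  have ha' : (a : K) ≠ 0 := by exact_mod_cast ha
  have h2 : Polynomial.C ((a : K)⁻¹) * (Polynomial.C (a : K) * A1.map (Int.castRingHom K)) =
      Polynomial.C ((a : K)⁻¹) * (Polynomial.C (b : K) * A.map (Int.castRingHom K)) := by
    simpa using congrArg (fun x => Polynomial.C ((a : K)⁻¹) * x) h1
  rw [← mul_assoc, ← mul_assoc, ← Polynomial.C_mul, ← Polynomial.C_mul, inv_mul_cancel₀ ha',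
    Polynomial.C_1, one_mul] at h2
  rw [h2, div_eq_inv_mul]

end GapC

open GapC in
/-- gap curves: uses `gap_lemma`. -/
theorem count_gap {L : Type} [Field L] [NumberField L] (θ : Fin 4 → 𝓞 L) (G : ℤ[X])
    (hG : Root4 θ G) (C D : ℕ) (ε : ℝ) (hε : 0 < ε) :
    ∃ K : ℝ, 0 < K ∧ ∀ (X T U : ℝ), 1 ≤ T → 1 ≤ X → T ^ 2 ≤ C * X → X ≤ C * T ^ 4 → 1 ≤ U →
      U ≤ C * T ^ 4 → ∀ (φ : L →+* ℂ) (c : ℤ) (g1 g2 : Fin 4 → ℤ), NonSpec θ g1 g2 →
      (∀ j, |(g1 j : ℝ)| ≤ C * T ^ 4) → (∀ j, |(g2 j : ℝ)| ≤ C * T ^ 4) →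
      ∀ A B : ℤ[X], A.natDegree ≤ D → B.natDegree ≤ D →
        IsCoprime (A.map (Int.castRingHom ℚ)) (B.map (Int.castRingHom ℚ)) →
        (∀ j, ∃ h : ℂ[X], B.map (Int.castRingHom ℂ) - Polynomial.C (φ (θ j)) *
          A.map (Int.castRingHom ℂ) = (Polynomial.C (cf θ φ g1 j) +
            Polynomial.C (cf θ φ g2 j) * Polynomial.X) * h ^ 2) →
      ∀ (S : Finset ℤ) (p : ℤ → ℕ) (y : ℤ → Fin 4 → ℤ) (u1 u2 : ℤ → ℤ),
        (∀ N ∈ S, BDat θ C X T U c g1 g2 N (p N) (y N) (u1 N) (u2 N)) →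
        (∀ N ∈ S, (N : ℂ) * (A.map (Int.castRingHom ℂ)).eval ((u2 N : ℂ) / u1 N) =
          (B.map (Int.castRingHom ℂ)).eval ((u2 N : ℂ) / u1 N)) →
        (S.card : ℝ) ≤ K * T ^ ε := by
  classical
  set E : ℕ := (D + 1) * (2 * D + 1) + 1 with hE
  obtain ⟨K, hK, hK'⟩ := gap_core θ G hG C E D ε hε
  set T0 : ℝ := (C : ℝ) ^ 2 + C + 3 + (2 * D + 1).factorial with hT0
  have hT0p : 0 < T0 := by positivity
  refine ⟨K + (2 * (C ^ 2 * T0) + 1) + (2 * D + 1), by positivity, ?_⟩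
  intro X T U hT hX hTX hXT hU hUT φ c g1 g2 hns hg1 hg2 A B hA hB hcop hfac S p y u1 u2 hS hSeq
  have hTe : (1 : ℝ) ≤ T ^ ε := Real.one_le_rpow hT hε.le
  have hT4 : (1 : ℝ) ≤ T ^ 4 := one_le_pow₀ hT
  have hC0 : (0 : ℝ) ≤ C := Nat.cast_nonneg C
  have hfin : ∀ (a : ℝ), 0 ≤ a → (S.card : ℝ) ≤ a → a ≤ K + (2 * (C ^ 2 * T0) + 1) + (2 * D + 1) →
      (S.card : ℝ) ≤ (K + (2 * (C ^ 2 * T0) + 1) + (2 * D + 1)) * T ^ ε := by
    intro a ha h1 h2
    have h3 : (0 : ℝ) ≤ K + (2 * (C ^ 2 * T0) + 1) + (2 * D + 1) := by positivity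
    exact (h1.trans h2).trans (le_mul_of_one_le_right h3 hTe)
  have hNX : ∀ N ∈ S, |(N : ℝ)| ≤ C ^ 2 * T ^ 4 := by
    intro N hN
    have := (hS N hN).dat.hN
    calc |(N : ℝ)| ≤ C * X := this
      _ ≤ C * (C * T ^ 4) := by gcongr
      _ = _ := by ring
  by_cases hsmall : T ^ 4 < T0
  · have hsub : S ⊆ Finset.Icc (-⌊(C : ℝ) ^ 2 * T0⌋) ⌊(C : ℝ) ^ 2 * T0⌋ := by
      intro N hN
      have h1 : |(N : ℝ)| ≤ C ^ 2 * T0 := (hNX N hN).trans (by gcongr)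
      have h2 := abs_le.1 h1
      rw [Finset.mem_Icc]
      constructor
      · have : -N ≤ ⌊(C : ℝ) ^ 2 * T0⌋ := Int.le_floor.2 (by push_cast; linarith)
        linarith
      · exact Int.le_floor.2 h2.2
    have h1 := Finset.card_le_card hsub
    rw [Int.card_Icc] at h1
    have h0 : (0 : ℤ) ≤ ⌊(C : ℝ) ^ 2 * T0⌋ := Int.floor_nonneg.2 (by positivity)
    have h2 : (S.card : ℤ) ≤ 2 * ⌊(C : ℝ) ^ 2 * T0⌋ + 1 := by omega
    have h3 : (S.card : ℝ) ≤ 2 * (⌊(C : ℝ) ^ 2 * T0⌋ : ℝ) + 1 := by exact_mod_cast h2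
    have h4 := Int.floor_le ((C : ℝ) ^ 2 * T0)
    refine hfin (2 * (C ^ 2 * T0) + 1) (by positivity) (by linarith) ?_
    have : (0 : ℝ) ≤ 2 * D + 1 := by positivity
    linarith
  by_cases hcard : S.card ≤ 2 * D + 1
  · refine hfin (2 * D + 1) (by positivity) (by exact_mod_cast hcard) ?_
    have : (0 : ℝ) ≤ 2 * (C ^ 2 * T0) + 1 := by positivity
    linarith
  push Not at hsmall hcard
  set H : ℕ := ⌈((C : ℝ) ^ 2 + C + 2) * T ^ 4⌉₊ with hH
  have hH1 : ((C : ℝ) ^ 2 + C + 2) * T ^ 4 ≤ H := Nat.le_ceil _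
  have hH2 : (H : ℝ) ≤ ((C : ℝ) ^ 2 + C + 3) * T ^ 4 := by
    have := (Nat.ceil_lt_add_one (show (0 : ℝ) ≤ ((C : ℝ) ^ 2 + C + 2) * T ^ 4 by positivity)).le
    rw [← hH] at this
    linarith
  have hfac1 : (1 : ℝ) ≤ ((2 * D + 1).factorial : ℝ) := by
    exact_mod_cast (2 * D + 1).factorial_pos
  have hT4C : (C : ℝ) ^ 2 + C + 3 ≤ T ^ 4 := by
    rw [hT0] at hsmall; linarith
  have hT4f : ((2 * D + 1).factorial : ℝ) ≤ T ^ 4 := by
    have : (0 : ℝ) ≤ (C : ℝ) ^ 2 + C + 3 := by positivity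
    rw [hT0] at hsmall; linarith
  have hHT : (H : ℝ) ≤ (T ^ 4) ^ 2 := by
    calc (H : ℝ) ≤ ((C : ℝ) ^ 2 + C + 3) * T ^ 4 := hH2
      _ ≤ T ^ 4 * T ^ 4 := by gcongr
      _ = _ := by ring
  have hCC : (0 : ℝ) ≤ (C : ℝ) ^ 2 := by positivity
  have hH0 : ∀ x : ℝ, 0 ≤ x → x ≤ ((C : ℝ) ^ 2 + C + 2) → x * T ^ 4 ≤ (H : ℝ) := by
    intro x hx hx2
    calc x * T ^ 4 ≤ ((C : ℝ) ^ 2 + C + 2) * T ^ 4 := by gcongr
      _ ≤ (H : ℝ) := hH1
  have hH2' : 2 ≤ H := by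
    have h1 := hH0 2 (by norm_num) (by linarith)
    have : (2 : ℝ) ≤ H := by linarith
    exact_mod_cast this
  have hHf : (2 * D + 1).factorial ≤ H := by
    have h1 := hH0 1 (by norm_num) (by linarith)
    have : ((2 * D + 1).factorial : ℝ) ≤ H := by linarith
    exact_mod_cast this
  have hNH : ∀ N ∈ S, |N| ≤ (H : ℤ) := by
    intro N hN
    have h1 := hH0 ((C : ℝ) ^ 2) hCC (by linarith)
    have h2 := (hNX N hN).trans h1
    exact_mod_cast h2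
  have hu1H : ∀ N ∈ S, |u1 N| ≤ (H : ℤ) := by
    intro N hN
    have h1 := hH0 C hC0 (by linarith)
    have h2 := ((hS N hN).hu1.trans hUT).trans h1
    exact_mod_cast h2
  have hu2H : ∀ N ∈ S, |u2 N| ≤ (H : ℤ) := by
    intro N hN
    have h1 := hH0 C hC0 (by linarith)
    have h2 := ((hS N hN).hu2.trans hUT).trans h1
    exact_mod_cast h2
  have hEq : ∀ N ∈ S, (N : ℚ) * (A.map (Int.castRingHom ℚ)).eval ((u2 N : ℚ) / u1 N) =
      (B.map (Int.castRingHom ℚ)).eval ((u2 N : ℚ) / u1 N) := by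
    intro N hN
    have h1 := hSeq N hN
    have h2 : (u2 N : ℂ) / u1 N = (((u2 N : ℚ) / u1 N : ℚ) : ℂ) := by push_cast; rfl
    rw [h2, eval_ratC, eval_ratC] at h1
    exact_mod_cast h1
  have hinj : ∀ N ∈ S, ∀ N' ∈ S, (u2 N : ℚ) / u1 N = (u2 N' : ℚ) / u1 N' → N = N' := by
    intro N hN N' hN' h
    have h1 := hEq N hN
    have h2 := hEq N' hN'
    rw [← h] at h2
    have h3 := eval_ne hcop h1
    have h4 : (N : ℚ) = N' := mul_right_cancel₀ h3 (h1.trans h2.symm)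
    exact_mod_cast h4
  -- the degree
  obtain ⟨D', hD', hA', hB', hAB⟩ : ∃ D' ≤ D, A.natDegree ≤ D' ∧ B.natDegree ≤ D' ∧
      (A.natDegree = D' ∨ B.natDegree = D') := by
    refine ⟨max A.natDegree B.natDegree, max_le hA hB, le_max_left _ _, le_max_right _ _, ?_⟩
    rcases max_choice A.natDegree B.natDegree with h | h
    · exact Or.inl h.symm
    · exact Or.inr h.symm
  rcases Nat.eq_zero_or_pos D' with h0 | h0
  · exfalso
    subst h0
    have hA0 : A = Polynomial.C (A.coeff 0) := eq_C_of_natDegree_le_zero hA'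
    have hB0 : B = Polynomial.C (B.coeff 0) := eq_C_of_natDegree_le_zero hB'
    have h1 : S.card ≤ 1 := by
      rw [Finset.card_le_one]
      intro N hN N' hN'
      have e1 := hEq N hN
      have e2 := hEq N' hN'
      have e3 := eval_ne hcop e1
      rw [hA0, hB0] at e1 e2
      rw [hA0] at e3
      simp only [Polynomial.map_C, eval_C] at e1 e2 e3
      have h4 : (N : ℚ) = N' := mul_right_cancel₀ e3 (e1.trans e2.symm)
      exact_mod_cast h4
    omega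
  obtain ⟨d, rfl⟩ : ∃ d, D' = d + 1 := ⟨D' - 1, by omega⟩
  obtain ⟨A1, B1, a, b, ha, hb, hA1, hB1, hA1d, hB1d, hA1H, hB1H⟩ :=
    bounded_pair (d + 1) A B hA' hB' hAB hcop (by omega) S u2 u1 (by omega)
      (fun N hN => (hS N hN).u10) hinj (fun N hN => by rw [mul_comm]; exact hEq N hN)
      (H : ℤ) hNH hu2H hu1H (by exact_mod_cast (show 1 ≤ H by omega))
  have hHE : ((2 * (d + 1) + 1).factorial : ℤ) * (((H : ℤ) ^ (d + 1 + 1)) ^ (2 * (d + 1) + 1))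
      ≤ (H : ℤ) ^ E := by
    have h1 : (2 * (d + 1) + 1).factorial ≤ H :=
      (Nat.factorial_le (by omega)).trans hHf
    have h2 : (H ^ (d + 1 + 1)) ^ (2 * (d + 1) + 1) ≤ H ^ ((D + 1) * (2 * D + 1)) := by
      rw [← pow_mul]
      refine Nat.pow_le_pow_right (by omega) ?_
      exact Nat.mul_le_mul (by omega) (by omega)
    have h3 := Nat.mul_le_mul h1 h2
    have h4 : (2 * (d + 1) + 1).factorial * (H ^ (d + 1 + 1)) ^ (2 * (d + 1) + 1) ≤ H ^ E := by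
      have h5 : H ^ E = H * H ^ ((D + 1) * (2 * D + 1)) := by rw [hE]; ring
      rw [h5]
      exact h3
    exact_mod_cast h4
  have hdegA : A1.natDegree = A.natDegree := by
    have := congrArg natDegree hA1
    rwa [natDegree_C_mul ha, natDegree_C_mul hb] at this
  have hdegB : B1.natDegree = B.natDegree := by
    have := congrArg natDegree hB1
    rwa [natDegree_C_mul ha, natDegree_C_mul hb] at this
  have haQ : (a : ℚ) ≠ 0 := by exact_mod_cast ha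
  have hbQ : (b : ℚ) ≠ 0 := by exact_mod_cast hb
  have hcount := hK' H X T hH2' hHT (by linarith) (by linarith) hT hX hXT φ c g1 g2 hns d A1 B1
    hD' hA1d hB1d (by rw [hdegA, hdegB]; exact hAB) ?_ (fun i => (hA1H i).trans hHE)
    (fun i => (hB1H i).trans hHE) ?_ S p y u1 u2 ?_
  · refine hcount.trans ?_
    have : (0 : ℝ) ≤ (2 * (C ^ 2 * T0) + 1) + (2 * D + 1) := by positivity
    have h1 : K ≤ K + (2 * (C ^ 2 * T0) + 1) + (2 * D + 1) := by linarith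
    gcongr
  · rw [map_prop ha hA1, map_prop ha hB1]
    rw [isCoprime_mul_unit_left (Polynomial.isUnit_C.2 (isUnit_iff_ne_zero.2 (div_ne_zero hbQ haQ)))]
    exact hcop
  · intro j
    obtain ⟨h, hh⟩ := hfac j
    obtain ⟨r, hr⟩ := IsAlgClosed.exists_pow_nat_eq ((b : ℂ) / a) (n := 2) (by norm_num)
    refine ⟨Polynomial.C r * h, ?_⟩
    rw [map_prop ha hA1, map_prop ha hB1, mul_pow, ← Polynomial.C_pow, hr]
    linear_combination (Polynomial.C ((b : ℂ) / a)) * hh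
  · intro N hN
    have hE1 : (H : ℤ) ≤ (H : ℤ) ^ E := by
      refine le_self_pow₀ (by exact_mod_cast (show 1 ≤ H by omega)) (by omega)
    refine ⟨(hS N hN).dat, (hS N hN).u10, (hu1H N hN).trans hE1, (hu2H N hN).trans hE1, ?_⟩
    rw [map_prop ha hA1, map_prop ha hB1, eval_mul, eval_mul, ← hEq N hN]
    ring

end Vale.Agent.P018.QB
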