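import Mathlib
import Vale.Agent.P018.Q.BDefs
import Vale.Agent.P018.Q.BCurve
import Vale.Agent.P018.Q.BBez
import Vale.Agent.P018.Q.BCountAux
import Vale.Agent.P018.Q.BCountRank
import Vale.Agent.P018.Q.BFew
import Vale.Agent.P018.Q.BGapC

/-! # P018, (B): number of solutions on a curve (`count_of_rank` is in `BCountRank`). -/

namespace Vale.Agent.P018.QB

open Polynomial NumberField Vale.Agent.P018.Q

theorem curve_count {L : Type} [Field L] [NumberField L] (θ : Fin 4 → 𝓞 L) (G : ℤ[X])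
    (hG : Root4 θ G) (C D : ℕ) (ε : ℝ) (hε : 0 < ε) :
    ∃ K : ℝ, 0 < K ∧ ∀ (X T U : ℝ), 1 ≤ T → 1 ≤ X → T ^ 2 ≤ C * X → X ≤ C * T ^ 4 → 1 ≤ U →
      U ≤ C * T ^ 4 → ∀ (c : ℤ) (g1 g2 : Fin 4 → ℤ), NonSpec θ g1 g2 →
      (∀ j, |(g1 j : ℝ)| ≤ C * T ^ 4) → (∀ j, |(g2 j : ℝ)| ≤ C * T ^ 4) →
      ∀ Φ : ℂ[X][X], Irreducible Φ → BiDeg D D Φ →
      ∀ (S : Finset ℤ) (p : ℤ → ℕ) (y : ℤ → Fin 4 → ℤ) (u1 u2 : ℤ → ℤ),
        (∀ N ∈ S, BDat θ C X T U c g1 g2 N (p N) (y N) (u1 N) (u2 N)) →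
        (∀ N ∈ S, evB (N : ℂ) ((u2 N : ℂ) / u1 N) Φ = 0) →
        (S.card : ℝ) ≤ K * (T ^ (27 / 169 + ε) * U ^ (131 / 338 : ℝ)) := by
  classical
  obtain ⟨K0, hK0⟩ := rational_of_points D
  obtain ⟨C0, hC0⟩ := curve_rank D
  obtain ⟨Kz, hKz⟩ := few_z θ G hG C
  obtain ⟨Ky, hKy⟩ := few_y θ G hG C
  set C1 : ℕ := (C ^ 2 + C + 3) ^ K0 + 4 * K0 with hC1
  obtain ⟨Kr, hKr, hrank⟩ := count_of_rank θ G hG C D C0 C1 ε hε
  obtain ⟨Kg, hKg, hgap⟩ := count_gap θ G hG C D ε hε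
  set M : ℕ := ccM θ C with hM
  set Kw : ℕ := (Kz * ((2 * M + 1) * (M + 1))) * D with hKw
  set Kd : ℕ := (Ky * ((2 * M + 1) * (M + 1))) * 16 with hKd
  refine ⟨K0 + Kw + Kd + Kr + Kg, by positivity, ?_⟩
  intro X T U hT hX hTX hXT hU hUT c g1 g2 hns hg1 hg2 Φ hΦ hbd S p y u1 u2 hB hev
  have hP : 1 ≤ T ^ (27 / 169 + ε) * U ^ (131 / 338 : ℝ) :=
    one_le_mul_of_one_le_of_one_le (Real.one_le_rpow hT (by positivity))
      (Real.one_le_rpow hU (by norm_num))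
  set P : ℝ := T ^ (27 / 169 + ε) * U ^ (131 / 338 : ℝ) with hPdef
  have hP0 : 0 ≤ P := zero_le_one.trans hP
  -- a bound by a summand suffices
  have hfin : ∀ k : ℝ, 0 ≤ k → k ≤ K0 + Kw + Kd + Kr + Kg → (S.card : ℝ) ≤ k * P →
      (S.card : ℝ) ≤ (K0 + Kw + Kd + Kr + Kg) * P := fun k _ h1 h2 =>
    h2.trans (mul_le_mul_of_nonneg_right h1 hP0)
  have hnat : ∀ k : ℕ, S.card ≤ k → (S.card : ℝ) ≤ (k : ℝ) * P := fun k hk => by
    have : (S.card : ℝ) ≤ k := by exact_mod_cast hk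
    nlinarith [(Nat.cast_nonneg k : (0 : ℝ) ≤ k)]
  have n0 : (0 : ℝ) ≤ K0 := Nat.cast_nonneg _
  have n1 : (0 : ℝ) ≤ Kw := Nat.cast_nonneg _
  have n2 : (0 : ℝ) ≤ Kd := Nat.cast_nonneg _
  have n3 : (0 : ℝ) ≤ Kr := hKr.le
  have n4 : (0 : ℝ) ≤ Kg := hKg.le
  by_cases hS : S.card ≤ K0
  · exact hfin K0 n0 (by linarith) (hnat K0 hS)
  push Not at hS
  obtain ⟨N1, hN1⟩ : S.Nonempty := Finset.card_pos.1 (by omega)
  have hc0 : c ≠ 0 := (hB N1 hN1).dat.c0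
  obtain ⟨φ⟩ : Nonempty (L →+* ℂ) := inferInstance
  -- rationality
  obtain ⟨H, hH2, hHX, hHU, hHp⟩ := cc_height C K0 T hT
  have hHb : ∀ (a : ℤ) (b : ℝ), |(a : ℝ)| ≤ b → b ≤ H → |a| ≤ H := fun a b h1 h2 => by
    have : |(a : ℝ)| ≤ H := h1.trans h2
    exact_mod_cast this
  obtain ⟨Ψ, a, ha, hΨ, hΨH⟩ := hK0 H hH2 Φ hΦ hbd S u1 u2 (fun N hN => by
    have hb := hB N hN
    refine ⟨hHb N _ hb.dat.hN (le_trans ?_ hHX), hHb _ _ hb.hu1 (hUT.trans hHU),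
      hHb _ _ hb.hu2 (hUT.trans hHU), hb.u10, hev N hN⟩
    exact mul_le_mul_of_nonneg_left hXT (Nat.cast_nonneg _)) hS
  have hirr : Irreducible (toC Ψ) := by
    rw [hΨ]
    refine (irreducible_isUnit_mul ?_).2 hΦ
    exact (isUnit_C.2 (isUnit_C.2 (isUnit_iff_ne_zero.2 ha)))
  have hbdΨ : BiDeg D D Ψ := cc_bideg hΨ hbd
  have hevΨ : ∀ N ∈ S, evB (N : ℂ) ((u2 N : ℂ) / u1 N) (toC Ψ) = 0 := fun N hN => by
    rw [hΨ, cc_evB_mul, hev N hN, mul_zero]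
  have hcoef : ∀ i j, |(((Ψ.coeff i).coeff j : ℤ) : ℝ)| ≤ C1 * T ^ C1 := fun i j => by
    have h1 : |(((Ψ.coeff i).coeff j : ℤ) : ℝ)| ≤ (H : ℝ) ^ K0 := by exact_mod_cast hΨH i j
    exact h1.trans hHp
  -- the fibre case
  have hfib : Ψ.natDegree = 0 → (S.card : ℝ) ≤ (K0 + Kw + Kd + Kr + Kg) * P := fun h0 => by
    refine hfin Kw n1 (by linarith) (hnat Kw ?_)
    have hd0 : Φ.natDegree = 0 := by
      have h1 : (toC Ψ).natDegree = 0 := by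
        have : (toC Ψ).natDegree ≤ Ψ.natDegree := natDegree_map_le
        omega
      rw [hΨ, natDegree_C_mul (by simpa using ha)] at h1
      exact h1
    have hΦC : Φ = Polynomial.C (Φ.coeff 0) := eq_C_of_natDegree_eq_zero hd0
    refine cc_fibre_w hG Kz D S p y u1 u2 hB (Φ.coeff 0) ?_ (hbd.2 0) ?_ ?_
    · intro h1
      rw [h1, map_zero] at hΦC
      exact hΦ.ne_zero hΦC
    · intro N hN
      rw [← cc_evB0 hd0 (N : ℂ)]
      exact hev N hN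
    · intro z S' hS' hz
      refine hKz X T hT hX hTX hXT c z S' p y fun N hN => ?_
      have hb := hB N (hS' hN)
      refine ⟨hb.lowN, ?_⟩
      rw [← hz N hN]
      exact hb.dat
  rcases hC0 θ G hG φ c g1 g2 hc0 hns Ψ hirr hbdΨ with h | h | h | h
  · by_cases h0 : Ψ.natDegree = 0
    · exact hfib h0
    · exact hfin Kr n3 (by linarith) (hrank X T U hT hX hTX hXT hU hUT φ c g1 g2 hns hg1 hg2 Ψ hirr
        hbdΨ hcoef h0 h S p y u1 u2 hB hevΨ)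
  · exact hfib h
  · obtain ⟨r, hr, hdir⟩ := h
    refine hfin Kd n2 (by linarith) (hnat Kd ?_)
    refine cc_signs hG.inj φ r hr Ky M S y (fun N hN j => cc_pi_ne (hB N hN).dat j) ?_ ?_ ?_
    · intro N hN j
      exact cc_dir hG φ (hB N hN) r j 0 (hdir N _ (hevΨ N hN) j 0)
    · intro N hN d hd
      exact cc_content hG.inj (hB N hN).dat d (Or.inr hd)
    · intro w S' hS' hw
      refine hKy X T hT hX hTX hXT c w S' p (fun N j => u1 N * g1 j + u2 N * g2 j) fun N hN => ?_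
      have hb := hB N (hS' hN)
      refine ⟨hb.lowN, ?_⟩
      rw [← hw N hN]
      exact hb.dat
  · obtain ⟨A, B, hA, hBd, hcop, hiff, hsq⟩ := h
    refine hfin Kg n4 (by linarith) ?_
    have h1 := hgap X T U hT hX hTX hXT hU hUT φ c g1 g2 hns hg1 hg2 A B hA hBd hcop hsq S p y u1 u2
      hB (fun N hN => (hiff _ _).1 (hevΨ N hN))
    refine h1.trans (mul_le_mul_of_nonneg_left ?_ n4)
    have h2 : T ^ ε ≤ T ^ (27 / 169 + ε) := Real.rpow_le_rpow_of_exponent_le hT (by linarith)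
    have h3 : 1 ≤ U ^ (131 / 338 : ℝ) := Real.one_le_rpow hU (by norm_num)
    have h4 : 0 ≤ T ^ (27 / 169 + ε) := Real.rpow_nonneg (by linarith) _
    rw [hPdef]
    nlinarith

end Vale.Agent.P018.QB
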