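import Mathlib

/-! # P018, (B), relation step: Taylor expansions of square roots. -/

namespace Vale.Agent.P018.QB

/-- principal square root of `1 + z`. -/
noncomputable def sq (z : ℂ) : ℂ := (1 + z) ^ (1 / 2 : ℂ)

/-- inverse square root of `1 + z`. -/
noncomputable def isq (z : ℂ) : ℂ := (1 + z) ^ (-(1 / 2) : ℂ)

theorem sq_sq (z : ℂ) : sq z ^ 2 = 1 + z := by
  unfold sq
  have h := Complex.cpow_nat_inv_pow (1 + z) (n := 2) two_ne_zero
  have e : ((2 : ℕ) : ℂ)⁻¹ = 1 / 2 := by norm_num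
  rw [e] at h
  exact h

theorem isq_sq (z : ℂ) (hz : ‖z‖ < 1) : isq z ^ 2 * (1 + z) = 1 := by
  have h0 : 1 + z ≠ 0 := by
    intro h
    have : z = -1 := by linear_combination h
    rw [this] at hz
    simp at hz
  have h1 : isq z = (sq z)⁻¹ := by
    unfold isq sq
    rw [Complex.cpow_neg]
  rw [h1, inv_pow, sq_sq]
  exact inv_mul_cancel₀ h0

/-- bounded holomorphic functions have jets with explicit constants. -/
theorem jet_of_bdd (R : ℕ) : ∀ (r M : ℝ), 0 < r → 0 < M → ∀ f : ℂ → ℂ,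
    DifferentiableOn ℂ f (Metric.ball 0 r) → (∀ z ∈ Metric.ball (0 : ℂ) r, ‖f z‖ ≤ M) →
    ∃ c : ℕ → ℂ, (∀ n, ‖c n‖ ≤ M * (1 + 3 / r) ^ R) ∧ ∀ z ∈ Metric.ball (0 : ℂ) r,
      ‖f z - ∑ n ∈ Finset.range R, c n * z ^ n‖ ≤ M * (1 + 3 / r) ^ R * ‖z‖ ^ R := by
  induction R with
  | zero =>
    intro r M hr hM f hf hb
    refine ⟨fun _ => 0, fun n => by simp [hM.le], fun z hz => ?_⟩
    simpa using hb z hz
  | succ R ih =>
    intro r M hr hM f hf hb
    have hnhds : Metric.ball (0 : ℂ) r ∈ nhds (0 : ℂ) := Metric.ball_mem_nhds _ hr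
    have hd : DifferentiableOn ℂ (dslope f 0) (Metric.ball 0 r) :=
      (Complex.differentiableOn_dslope hnhds).2 hf
    have h0 : ‖f 0‖ ≤ M := hb 0 (Metric.mem_ball_self hr)
    have hmap : Set.MapsTo f (Metric.ball 0 r) (Metric.ball (f 0) (3 * M)) := by
      intro z hz
      rw [mem_ball_iff_norm]
      calc ‖f z - f 0‖ ≤ ‖f z‖ + ‖f 0‖ := norm_sub_le _ _
        _ ≤ M + M := add_le_add (hb z hz) h0
        _ < 3 * M := by linarith
    have hb' : ∀ z ∈ Metric.ball (0 : ℂ) r, ‖dslope f 0 z‖ ≤ 3 * M / r := by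
      intro z hz
      exact Complex.norm_dslope_le_div_of_mapsTo_ball hf
        (hmap.mono_right Metric.ball_subset_closedBall) hz
    obtain ⟨c, hc, hz⟩ := ih r (3 * M / r) hr (by positivity) (dslope f 0) hd hb'
    have hpow : 1 ≤ (1 + 3 / r) ^ R := one_le_pow₀ (by
      have : 0 ≤ 3 / r := by positivity
      linarith)
    have hle : 3 * M / r * (1 + 3 / r) ^ R ≤ M * (1 + 3 / r) ^ (R + 1) := by
      have e : M * (1 + 3 / r) ^ (R + 1) =
        M * (1 + 3 / r) ^ R + 3 * M / r * (1 + 3 / r) ^ R := by ring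
      rw [e]
      have : 0 ≤ M * (1 + 3 / r) ^ R := by positivity
      linarith
    have hle0 : M ≤ M * (1 + 3 / r) ^ (R + 1) := by
      have h1 : 1 ≤ (1 + 3 / r) ^ (R + 1) := one_le_pow₀ (by
        have : 0 ≤ 3 / r := by positivity
        linarith)
      nlinarith
    refine ⟨fun n => Nat.casesOn n (f 0) c, ?_, ?_⟩
    · intro n
      cases n with
      | zero => exact h0.trans hle0
      | succ n => exact (hc n).trans hle
    · intro z hzr
      have e1 : f z = f 0 + z * dslope f 0 z := by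
        have := sub_smul_dslope f 0 z
        simp only [sub_zero, smul_eq_mul] at this
        rw [this]; ring
      have e2 : f z - ∑ n ∈ Finset.range (R + 1),
          (Nat.casesOn n (f 0) c : ℂ) * z ^ n =
          z * (dslope f 0 z - ∑ n ∈ Finset.range R, c n * z ^ n) := by
        rw [Finset.sum_range_succ', mul_sub, Finset.mul_sum]
        rw [e1]
        have : ∑ x ∈ Finset.range R, (Nat.casesOn (x + 1) (f 0) c : ℂ) * z ^ (x + 1) =
            ∑ x ∈ Finset.range R, z * (c x * z ^ x) :=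
          Finset.sum_congr rfl (fun x _ => by
            show c x * z ^ (x + 1) = _
            ring)
        rw [this]
        show f 0 + z * dslope f 0 z - (∑ x ∈ Finset.range R, z * (c x * z ^ x) + f 0 * z ^ 0) = _
        ring
      show ‖f z - ∑ n ∈ Finset.range (R + 1), (Nat.casesOn n (f 0) c : ℂ) * z ^ n‖ ≤ _
      rw [e2, norm_mul]
      calc ‖z‖ * ‖dslope f 0 z - ∑ n ∈ Finset.range R, c n * z ^ n‖
          ≤ ‖z‖ * (3 * M / r * (1 + 3 / r) ^ R * ‖z‖ ^ R) := by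
            gcongr
            exact hz z hzr
        _ ≤ ‖z‖ * (M * (1 + 3 / r) ^ (R + 1) * ‖z‖ ^ R) := by gcongr
        _ = M * (1 + 3 / r) ^ (R + 1) * ‖z‖ ^ (R + 1) := by ring

theorem norm_sq_le (z : ℂ) (hz : ‖z‖ < 1) : ‖sq z‖ ≤ 2 := by
  have h := congrArg norm (sq_sq z)
  rw [norm_pow] at h
  have h1 : ‖1 + z‖ ≤ 1 + ‖z‖ := by
    simpa using norm_add_le (1 : ℂ) z
  nlinarith [norm_nonneg (sq z)]

theorem norm_isq_le (z : ℂ) (hz : ‖z‖ < 3 / 4) : ‖isq z‖ ≤ 2 := by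
  have h := congrArg norm (isq_sq z (by linarith))
  rw [norm_mul, norm_pow, norm_one] at h
  have h1 : 1 / 4 ≤ ‖1 + z‖ := by
    have h2 : ‖(1 : ℂ)‖ ≤ ‖1 + z‖ + ‖z‖ := by
      have := norm_sub_le (1 + z) z
      simpa using this
    rw [norm_one] at h2
    linarith
  by_contra hc
  push Not at hc
  have h3 : 4 < ‖isq z‖ ^ 2 := by nlinarith
  nlinarith

theorem one_add_mem_slit (z : ℂ) (hz : ‖z‖ < 1) : 1 + z ∈ Complex.slitPlane := by
  rw [Complex.mem_slitPlane_iff]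
  left
  have h := Complex.abs_re_le_norm z
  have h2 := neg_abs_le z.re
  simp only [Complex.add_re, Complex.one_re]
  linarith

theorem sq_diff (z : ℂ) (hz : ‖z‖ < 1) : DifferentiableAt ℂ sq z := by
  unfold sq
  exact (DifferentiableAt.const_add (1 : ℂ) differentiableAt_id).cpow (differentiableAt_const _)
    (one_add_mem_slit z hz)

theorem isq_diff (z : ℂ) (hz : ‖z‖ < 1) : DifferentiableAt ℂ isq z := by
  unfold isq
  exact (DifferentiableAt.const_add (1 : ℂ) differentiableAt_id).cpow (differentiableAt_const _)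
    (one_add_mem_slit z hz)

/-- expansion of the functions of the relation step: jets of order `R` of
`(x0 + x1 ω)^a ∏ sq(-α_j v)^(e_j) ∏ isq(b_j ω)^(e_j)`, a function of `v` times a function of `ω`.
Proof: `sq`, `isq` are analytic on the unit disc (Taylor bound `HasFPowerSeriesOnBall`), so have
`R`-jets `|f(z) - ∑_{τ<R} a_τ z^τ| ≤ K |z|^R` on `|z| ≤ 1/2`; jets with bounded coefficients are
closed under products and powers and under `z ↦ b z`, `|b| ≤ A`. -/
theorem entry_expand (R E : ℕ) (A : ℝ) (hA : 1 ≤ A) : ∃ K : ℝ, 0 < K ∧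
    ∀ (α b : Fin 4 → ℂ) (x0 x1 : ℂ) (a : ℕ) (e : Fin 4 → ℕ), (∀ j, ‖α j‖ ≤ A) →
      (∀ j, ‖b j‖ ≤ 1) → ‖x0‖ ≤ A → ‖x1‖ ≤ A → a ≤ E → (∀ j, e j ≤ E) →
      ∃ cf : ℕ → ℕ → ℂ, (∀ τ k, ‖cf τ k‖ ≤ K) ∧ ∀ v ω : ℂ, ‖v‖ ≤ 1 / (2 * A) → ‖ω‖ ≤ 1 / 2 →
        ‖(x0 + x1 * ω) ^ a * (∏ j, sq (-(α j * v)) ^ e j) * (∏ j, isq (b j * ω) ^ e j) -
          ∑ τ ∈ Finset.range R, ∑ k ∈ Finset.range R, cf τ k * v ^ τ * ω ^ k‖ ≤
        K * (‖v‖ ^ R + ‖ω‖ ^ R) := by
  have hA0 : 0 < A := by linarith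
  -- the two bounds
  set MG : ℝ := (2 ^ E) ^ 4 with hMG
  set MH : ℝ := (2 * A) ^ E * (2 ^ E) ^ 4 with hMH
  have hMG0 : 0 < MG := by positivity
  have hMH0 : 0 < MH := by positivity
  set KG : ℝ := MG * (1 + 3 / (1 / A)) ^ R with hKG
  set KH : ℝ := MH * (1 + 3 / (3 / 4)) ^ R with hKH
  have hKG0 : 0 < KG := by positivity
  have hKH0 : 0 < KH := by positivity
  refine ⟨KG * KH + MG * KH + KG * (MH + KH), by positivity, ?_⟩
  intro α b x0 x1 a e hα hb hx0 hx1 ha he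
  set G : ℂ → ℂ := fun v => ∏ j, sq (-(α j * v)) ^ e j with hG
  set H : ℂ → ℂ := fun ω => (x0 + x1 * ω) ^ a * (∏ j, isq (b j * ω) ^ e j) with hH
  have hαv : ∀ v ∈ Metric.ball (0 : ℂ) (1 / A), ∀ j, ‖-(α j * v)‖ < 1 := by
    intro v hv j
    rw [mem_ball_zero_iff] at hv
    rw [norm_neg, norm_mul]
    calc ‖α j‖ * ‖v‖ ≤ A * ‖v‖ := by gcongr; exact hα j
      _ < A * (1 / A) := by gcongr
      _ = 1 := by field_simp
  have hbω : ∀ ω ∈ Metric.ball (0 : ℂ) (3 / 4), ∀ j, ‖b j * ω‖ < 3 / 4 := by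
    intro ω hω j
    rw [mem_ball_zero_iff] at hω
    rw [norm_mul]
    calc ‖b j‖ * ‖ω‖ ≤ 1 * ‖ω‖ := by gcongr; exact hb j
      _ < 3 / 4 := by rw [one_mul]; exact hω
  have hGd : DifferentiableOn ℂ G (Metric.ball 0 (1 / A)) := by
    intro v hv
    apply DifferentiableAt.differentiableWithinAt
    rw [hG]
    apply DifferentiableAt.fun_finsetProd
    intro j _
    apply DifferentiableAt.fun_pow
    exact DifferentiableAt.comp v (sq_diff _ (hαv v hv j)) (by fun_prop)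
  have hHd : DifferentiableOn ℂ H (Metric.ball 0 (3 / 4)) := by
    intro ω hω
    apply DifferentiableAt.differentiableWithinAt
    rw [hH]
    apply DifferentiableAt.fun_mul
    · fun_prop
    apply DifferentiableAt.fun_finsetProd
    intro j _
    apply DifferentiableAt.fun_pow
    exact DifferentiableAt.comp ω (isq_diff _ ((hbω ω hω j).trans (by norm_num))) (by fun_prop)
  have hGb : ∀ v ∈ Metric.ball (0 : ℂ) (1 / A), ‖G v‖ ≤ MG := by
    intro v hv
    rw [hG]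
    simp only
    rw [norm_prod]
    calc ∏ j, ‖sq (-(α j * v)) ^ e j‖ ≤ ∏ _j : Fin 4, (2 : ℝ) ^ E := by
          apply Finset.prod_le_prod (fun j _ => norm_nonneg _)
          intro j _
          rw [norm_pow]
          calc ‖sq (-(α j * v))‖ ^ e j ≤ 2 ^ e j := by
                gcongr; exact norm_sq_le _ (hαv v hv j)
            _ ≤ 2 ^ E := pow_le_pow_right₀ (by norm_num) (he j)
      _ = MG := by rw [Finset.prod_const, Finset.card_univ, Fintype.card_fin]
  have hHb : ∀ ω ∈ Metric.ball (0 : ℂ) (3 / 4), ‖H ω‖ ≤ MH := by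
    intro ω hω
    rw [hH]
    simp only
    rw [norm_mul, norm_prod, norm_pow, hMH]
    have h1 : ∏ j, ‖isq (b j * ω) ^ e j‖ ≤ (2 ^ E) ^ 4 := by
      calc ∏ j, ‖isq (b j * ω) ^ e j‖ ≤ ∏ _j : Fin 4, (2 : ℝ) ^ E := by
            apply Finset.prod_le_prod (fun j _ => norm_nonneg _)
            intro j _
            rw [norm_pow]
            calc ‖isq (b j * ω)‖ ^ e j ≤ 2 ^ e j := by
                  gcongr; exact norm_isq_le _ (hbω ω hω j)
              _ ≤ 2 ^ E := pow_le_pow_right₀ (by norm_num) (he j)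
        _ = (2 ^ E) ^ 4 := by rw [Finset.prod_const, Finset.card_univ, Fintype.card_fin]
    have h2 : ‖x0 + x1 * ω‖ ≤ 2 * A := by
      rw [mem_ball_zero_iff] at hω
      calc ‖x0 + x1 * ω‖ ≤ ‖x0‖ + ‖x1 * ω‖ := norm_add_le _ _
        _ = ‖x0‖ + ‖x1‖ * ‖ω‖ := by rw [norm_mul]
        _ ≤ A + A * 1 := by
          gcongr
          linarith
        _ = 2 * A := by ring
    have h3 : ‖x0 + x1 * ω‖ ^ a ≤ (2 * A) ^ E := by
      calc ‖x0 + x1 * ω‖ ^ a ≤ (2 * A) ^ a := by gcongr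
        _ ≤ (2 * A) ^ E := pow_le_pow_right₀ (by linarith) ha
    exact mul_le_mul h3 h1 (Finset.prod_nonneg (fun j _ => norm_nonneg _)) (by positivity)
  obtain ⟨cG, hcG, hzG⟩ := jet_of_bdd R (1 / A) MG (by positivity) hMG0 G hGd hGb
  obtain ⟨cH, hcH, hzH⟩ := jet_of_bdd R (3 / 4) MH (by norm_num) hMH0 H hHd hHb
  refine ⟨fun τ k => cG τ * cH k, ?_, ?_⟩
  · intro τ k
    rw [norm_mul]
    calc ‖cG τ‖ * ‖cH k‖ ≤ KG * KH := mul_le_mul (hcG τ) (hcH k) (norm_nonneg _) hKG0.le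
      _ ≤ KG * KH + MG * KH + KG * (MH + KH) := by
        have : 0 < MG * KH := by positivity
        have : 0 < KG * (MH + KH) := by positivity
        linarith
  · intro v ω hv hω
    have hv' : v ∈ Metric.ball (0 : ℂ) (1 / A) := by
      rw [mem_ball_zero_iff]
      refine lt_of_le_of_lt hv ?_
      exact one_div_lt_one_div_of_lt hA0 (by linarith)
    have hω' : ω ∈ Metric.ball (0 : ℂ) (3 / 4) := by
      rw [mem_ball_zero_iff]
      linarith
    set PG : ℂ := ∑ τ ∈ Finset.range R, cG τ * v ^ τ with hPG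
    set PH : ℂ := ∑ k ∈ Finset.range R, cH k * ω ^ k with hPH
    have e1 : ∑ τ ∈ Finset.range R, ∑ k ∈ Finset.range R, cG τ * cH k * v ^ τ * ω ^ k =
        PG * PH := by
      rw [hPG, hPH, Finset.sum_mul_sum]
      exact Finset.sum_congr rfl (fun τ _ => Finset.sum_congr rfl (fun k _ => by ring))
    have e2 : (x0 + x1 * ω) ^ a * (∏ j, sq (-(α j * v)) ^ e j) * (∏ j, isq (b j * ω) ^ e j) =
        G v * H ω := by
      rw [hG, hH]; ring
    rw [e1, e2]
    have e3 : G v * H ω - PG * PH = G v * (H ω - PH) + (G v - PG) * PH := by ring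
    have hvn : ‖v‖ ≤ 1 := by
      refine hv.trans ?_
      rw [div_le_one (by positivity)]
      linarith
    have hωn : ‖ω‖ ^ R ≤ 1 := pow_le_one₀ (norm_nonneg _) (by linarith)
    have hE1 : ‖H ω - PH‖ ≤ KH * ‖ω‖ ^ R := hzH ω hω'
    have hE2 : ‖G v - PG‖ ≤ KG * ‖v‖ ^ R := hzG v hv'
    have hPHb : ‖PH‖ ≤ MH + KH := by
      have : PH = H ω - (H ω - PH) := by ring
      rw [this]
      calc ‖H ω - (H ω - PH)‖ ≤ ‖H ω‖ + ‖H ω - PH‖ := norm_sub_le _ _
        _ ≤ MH + KH * ‖ω‖ ^ R := add_le_add (hHb ω hω') hE1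
        _ ≤ MH + KH * 1 := by gcongr
        _ = MH + KH := by ring
    have hvR : 0 ≤ ‖v‖ ^ R := by positivity
    have hωR : 0 ≤ ‖ω‖ ^ R := by positivity
    rw [e3]
    calc ‖G v * (H ω - PH) + (G v - PG) * PH‖
        ≤ ‖G v * (H ω - PH)‖ + ‖(G v - PG) * PH‖ := norm_add_le _ _
      _ = ‖G v‖ * ‖H ω - PH‖ + ‖G v - PG‖ * ‖PH‖ := by rw [norm_mul, norm_mul]
      _ ≤ MG * (KH * ‖ω‖ ^ R) + KG * ‖v‖ ^ R * (MH + KH) := by
        gcongr
        exact hGb v hv'
      _ ≤ (KG * KH + MG * KH + KG * (MH + KH)) * (‖v‖ ^ R + ‖ω‖ ^ R) := by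
        have h1 : 0 ≤ KG * KH * ‖v‖ ^ R := by positivity
        have h2 : 0 ≤ KG * KH * ‖ω‖ ^ R := by positivity
        have h3 : 0 ≤ MG * KH * ‖v‖ ^ R := by positivity
        have h4 : 0 ≤ KG * (MH + KH) * ‖ω‖ ^ R := by positivity
        nlinarith

end Vale.Agent.P018.QB
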