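import Mathlib
import Vale.Agent.P018.Q.BDefs
import Vale.Agent.P018.Q.BRelJ

/-! # P018, (B), relation step: the entries of the matrices in a cell, complex version. -/

namespace Vale.Agent.P018.QB

open Finset

/-- the signs. -/
theorem ent_sign (a b : ℂ) (h : a ^ 2 = b ^ 2) : ∃ s : ℤˣ, a = ((s : ℤ) : ℂ) * b := by
  rcases sq_eq_sq_iff_eq_or_eq_neg.1 h with h1 | h1
  · exact ⟨1, by simp [h1]⟩
  · exact ⟨-1, by simp [h1]⟩

/-- the linear forms. -/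
theorem ent_lin (u1 u2 : ℤ) (hu : u1 ≠ 0) (w0 w : ℝ) (hw : w = (u2 : ℝ) / u1 - w0) (G1 G2 d : ℂ)
    (hd : d = G1 + w0 * G2) : (u1 : ℂ) * G1 + u2 * G2 = u1 * (d + w * G2) := by
  have h1 : (u1 : ℂ) ≠ 0 := by exact_mod_cast hu
  rw [hw, hd]
  push_cast
  field_simp
  ring

/-- the square of `π`. -/
theorem ent_pi (c n v α d b ω u z pi r h : ℂ) (hz : z ≠ 0) (hn : n ≠ 0) (hv : v = n⁻¹)
    (hu : u ≠ 0) (hd : d ≠ 0) (hzz : z = u * (d * (1 + b * ω))) (hc : c * (n - α) = pi ^ 2 * z)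
    (hr : r ^ 2 = c * n / u) (hh : h ^ 2 = d⁻¹) (hbw : ‖b * ω‖ < 1) :
    pi ^ 2 = (r * h * (sq (-(α * v)) * isq (b * ω))) ^ 2 := by
  have h1 := sq_sq (-(α * v))
  have h2 := isq_sq (b * ω) hbw
  apply mul_right_cancel₀ hz
  rw [← hc]
  calc c * (n - α) = c * n * (1 + -(α * v)) := by
        rw [hv]; field_simp; ring
    _ = (c * n / u) * d⁻¹ * (1 + -(α * v)) * (u * d) := by field_simp
    _ = (c * n / u) * d⁻¹ * (1 + -(α * v)) * (isq (b * ω) ^ 2 * (1 + b * ω)) * (u * d) := by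
        rw [h2]; ring
    _ = (r * h * (sq (-(α * v)) * isq (b * ω))) ^ 2 * z := by
        rw [← h1, ← hr, ← hh, hzz]; ring

/-- the size of `r h`. -/
theorem ent_rh (α v b ω pi r h : ℂ) (A T : ℝ) (hA : 0 ≤ A) (hT : 0 ≤ T) (hav : ‖α * v‖ ≤ 1 / 2)
    (hbw : ‖b * ω‖ ≤ 1 / 2)
    (hpi : pi ^ 2 = (r * h * (sq (-(α * v)) * isq (b * ω))) ^ 2) (hT' : ‖pi‖ ≤ A * T) :
    ‖r‖ * ‖h‖ ≤ 2 * A * T := by
  have h1 := congrArg norm (sq_sq (-(α * v)))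
  have h2 := congrArg norm (isq_sq (b * ω) (by linarith))
  rw [norm_mul, norm_pow, norm_one] at h2
  rw [norm_pow] at h1
  have h3 : (1 : ℝ) / 2 ≤ ‖1 + -(α * v)‖ := by
    have := norm_sub_norm_le (1 : ℂ) (α * v)
    rw [norm_one] at this
    rw [← sub_eq_add_neg]
    linarith
  have h4 : ‖1 + b * ω‖ ≤ 3 / 2 := by
    have := norm_add_le (1 : ℂ) (b * ω)
    rw [norm_one] at this
    linarith
  have h5 : 0 ≤ ‖isq (b * ω)‖ ^ 2 := by positivity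
  have h6 : (2 : ℝ) / 3 ≤ ‖isq (b * ω)‖ ^ 2 := by nlinarith
  have h7 : ‖pi‖ ^ 2 = (‖r‖ * ‖h‖) ^ 2 * (‖sq (-(α * v))‖ ^ 2 * ‖isq (b * ω)‖ ^ 2) := by
    have := congrArg norm hpi
    rw [norm_pow, norm_pow, norm_mul, norm_mul, norm_mul] at this
    rw [this]; ring
  rw [h1] at h7
  have h8 : ‖pi‖ ^ 2 ≤ (A * T) ^ 2 := pow_le_pow_left₀ (norm_nonneg _) hT' 2
  have h9 : (1 : ℝ) / 3 ≤ ‖1 + -(α * v)‖ * ‖isq (b * ω)‖ ^ 2 := by nlinarith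
  have h10 : (‖r‖ * ‖h‖) ^ 2 * (1 / 3) ≤ (A * T) ^ 2 := by
    refine le_trans ?_ h8
    rw [h7]
    exact mul_le_mul_of_nonneg_left h9 (by positivity)
  have h11 : (‖r‖ * ‖h‖) ^ 2 ≤ (2 * A * T) ^ 2 := by nlinarith
  exact (pow_le_pow_iff_left₀ (by positivity) (by positivity) (by norm_num)).1 h11

/-- the algebraic identity. -/
theorem ent_alg (a1 a2 m : ℕ) (e : Fin 4 → ℕ) (he : ∑ j, e j = 2 * m) (u1 u2 U U1 R1 r X : ℂ)
    (s h q k : Fin 4 → ℂ) (hU1 : U1 ≠ 0) (hR1 : R1 ≠ 0) (hX : U * X * u1 = U1 * u2) :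
    u1 ^ a1 * u2 ^ a2 * ∏ j, (s j * (r * h j * (q j * k j))) ^ e j =
      ((u1 / U1) ^ (a1 + a2) * (r / R1) ^ (2 * m)) *
        ((U1 ^ a1 * U ^ a2 * R1 ^ (2 * m) * ∏ j, (s j * h j) ^ e j) *
          (X ^ a2 * (∏ j, q j ^ e j) * ∏ j, k j ^ e j)) := by
  have h1 : ∏ j, (s j * (r * h j * (q j * k j))) ^ e j =
      r ^ (2 * m) * (∏ j, (s j * h j) ^ e j) * (∏ j, q j ^ e j) * ∏ j, k j ^ e j := by
    rw [← he, ← prod_pow_eq_pow_sum, ← prod_mul_distrib, ← prod_mul_distrib, ← prod_mul_distrib]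
    refine prod_congr rfl fun j _ => ?_
    rw [← mul_pow, ← mul_pow, ← mul_pow]
    congr 1
    ring
  rw [h1]
  have h2 : (u1 / U1) ^ (a1 + a2) * (U1 ^ a1 * U ^ a2 * X ^ a2) = u1 ^ a1 * u2 ^ a2 := by
    rw [pow_add]
    have h3 : (u1 / U1) ^ a1 * U1 ^ a1 = u1 ^ a1 := by
      rw [← mul_pow, div_mul_cancel₀ _ hU1]
    have h4 : (u1 / U1) ^ a2 * (U ^ a2 * X ^ a2) = u2 ^ a2 := by
      rw [← mul_pow, ← mul_pow]
      congr 1
      rw [div_mul_eq_mul_div, div_eq_iff hU1]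
      linear_combination hX
    calc (u1 / U1) ^ a1 * (u1 / U1) ^ a2 * (U1 ^ a1 * U ^ a2 * X ^ a2)
        = ((u1 / U1) ^ a1 * U1 ^ a1) * ((u1 / U1) ^ a2 * (U ^ a2 * X ^ a2)) := by ring
      _ = _ := by rw [h3, h4]
  have h5 : (r / R1) ^ (2 * m) * R1 ^ (2 * m) = r ^ (2 * m) := by
    rw [← mul_pow, div_mul_cancel₀ _ hR1]
  rw [← h2, ← h5]
  ring

theorem ent_core (R i m : ℕ) (A : ℝ) (hA : 1 ≤ A) : ∃ Kc : ℝ, 1 ≤ Kc ∧
    ∀ (T U ρ : ℝ), 1 ≤ T → 0 < ρ → ρ ≤ 1 / 2 → 1 ≤ U →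
    ∀ (α G1 G2 : Fin 4 → ℂ) (c : ℂ) (w0 B : ℝ) (S : Finset ℤ) (u1 u2 : ℤ → ℤ)
      (pi : ℤ → Fin 4 → ℂ) (j0 : Fin 4), c ≠ 0 → (∀ j, ‖α j‖ ≤ A) → 0 < B →
      B ≤ A * U * ‖G2 j0‖ →
      (∀ N ∈ S, N ≠ 0 ∧ u1 N ≠ 0 ∧ |(u1 N : ℝ)| ≤ U ∧ |(u2 N : ℝ)| ≤ U ∧
        ‖(N : ℂ)⁻¹‖ ≤ 1 / (4 * A ^ 2) ∧
        ∀ j, ‖pi N j‖ ≤ A * T ∧ (u1 N : ℂ) * G1 j + u2 N * G2 j ≠ 0 ∧
          ‖(u1 N : ℂ) * G1 j + u2 N * G2 j‖ ≤ A * B ∧
          c * (N - α j) = pi N j ^ 2 * (u1 N * G1 j + u2 N * G2 j) ∧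
          |(u2 N : ℝ) / u1 N - w0| * ‖G2 j‖ ≤ ρ * ‖G1 j + w0 * G2 j‖) →
      ∃ (sg : ℤ → Fin 4 → ℤˣ), ∀ s : Fin 4 → ℤˣ,
        ∃ (co : Ix → ℕ → ℕ → ℂ) (rr ω : ℤ → ℂ),
          (∀ x ∈ mons i (2 * m), ∀ τ k, ‖co x τ k‖ ≤ Kc * (U ^ i * T ^ (2 * m))) ∧
          ∀ N ∈ S, sg N = s → ‖rr N‖ ≤ 1 ∧ ‖ω N‖ ≤ ρ ∧
            ∀ x ∈ mons i (2 * m),
              ∃ er : ℂ, ‖er‖ ≤ Kc * (U ^ i * T ^ (2 * m)) * (‖(N : ℂ)⁻¹‖ ^ R + ‖ω N‖ ^ R) ∧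
              fv (u1 N : ℂ) (u2 N : ℂ) (pi N) x =
                rr N * (∑ τ ∈ Finset.range R, ∑ k ∈ Finset.range R,
                  co x τ k * (N : ℂ)⁻¹ ^ τ * ω N ^ k + er) := by
  classical
  have hA2 : 1 ≤ 2 * A ^ 2 := by nlinarith
  obtain ⟨Ke, hKe, hexp⟩ := entry_expand R (i + 2 * m) (2 * A ^ 2) hA2
  refine ⟨max 1 ((2 * A) ^ (2 * m) * Ke), le_max_left _ _, ?_⟩
  intro T U ρ hT hρ hρ2 hU α G1 G2 c w0 B S u1 u2 pi j0 hc hα hB0 hB hS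
  have hA0 : 0 < A := by linarith
  have hT0 : 0 < T := by linarith
  have hU0 : 0 < U := by linarith
  obtain ⟨d, hd⟩ : ∃ d : Fin 4 → ℂ, ∀ j, d j = G1 j + w0 * G2 j := ⟨_, fun _ => rfl⟩
  obtain ⟨w, hw⟩ : ∃ w : ℤ → ℝ, ∀ N, w N = (u2 N : ℝ) / u1 N - w0 := ⟨_, fun _ => rfl⟩
  have hr0 : ∀ N : ℤ, ∃ r : ℂ, r ^ 2 = c * N / u1 N := fun N =>
    IsAlgClosed.exists_pow_nat_eq _ (by norm_num)
  choose r hr using hr0
  have hh0 : ∀ j, ∃ h : ℂ, h ^ 2 = (d j)⁻¹ := fun j =>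
    IsAlgClosed.exists_pow_nat_eq _ (by norm_num)
  choose h hh using hh0
  rcases S.eq_empty_or_nonempty with hSe | ⟨N0, hN0⟩
  · refine ⟨fun _ _ => 1, fun s => ⟨fun _ _ _ => 0, fun _ => 0, fun _ => 0, ?_, ?_⟩⟩
    · intro x _ τ k
      rw [norm_zero]
      positivity
    · intro N hN
      rw [hSe] at hN
      exact absurd hN (notMem_empty _)
  -- `d j ≠ 0`
  have hlin : ∀ N ∈ S, ∀ j, (u1 N : ℂ) * G1 j + u2 N * G2 j = u1 N * (d j + w N * G2 j) :=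
    fun N hN j => ent_lin _ _ (hS N hN).2.1 w0 (w N) (hw N) _ _ _ (hd j)
  have hcell : ∀ N ∈ S, ∀ j, |w N| * ‖G2 j‖ ≤ ρ * ‖d j‖ := by
    intro N hN j
    have := ((hS N hN).2.2.2.2.2 j).2.2.2.2
    rw [← hw, ← hd] at this
    exact this
  have hd0 : ∀ j, d j ≠ 0 := by
    intro j hj
    have h1 := hcell N0 hN0 j
    rw [hj, norm_zero, mul_zero] at h1
    have h2 : (w N0 : ℂ) * G2 j = 0 := by
      rw [← norm_eq_zero, norm_mul, Complex.norm_real, Real.norm_eq_abs]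
      exact le_antisymm h1 (by positivity)
    apply ((hS N0 hN0).2.2.2.2.2 j).2.1
    rw [hlin N0 hN0 j, hj, h2]
    simp
  have hdn : ∀ j, 0 < ‖d j‖ := fun j => norm_pos_iff.2 (hd0 j)
  obtain ⟨j1, -, hj1⟩ := Finset.exists_max_image (Finset.univ : Finset (Fin 4))
    (fun j => ‖G2 j / d j‖) Finset.univ_nonempty
  obtain ⟨as, has⟩ : ∃ as : ℝ, as = ‖G2 j1 / d j1‖ := ⟨_, rfl⟩
  have hasj : ∀ j, ‖G2 j / d j‖ ≤ as := fun j => by rw [has]; exact hj1 j (Finset.mem_univ j)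
  have hG0 : 0 < ‖G2 j0‖ := by
    by_contra hcon
    have : ‖G2 j0‖ = 0 := le_antisymm (not_lt.1 hcon) (norm_nonneg _)
    rw [this, mul_zero] at hB
    linarith
  have has0 : 0 < as := by
    refine lt_of_lt_of_le ?_ (hasj j0)
    rw [norm_div]
    exact div_pos hG0 (hdn j0)
  have hasc : (as : ℂ) ≠ 0 := by exact_mod_cast has0.ne'
  -- `ω` and `b`
  obtain ⟨ω, hω⟩ : ∃ ω : ℤ → ℂ, ∀ N, ω N = ((as * w N : ℝ) : ℂ) := ⟨_, fun _ => rfl⟩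
  obtain ⟨b, hb⟩ : ∃ b : Fin 4 → ℂ, ∀ j, b j = G2 j / d j / as := ⟨_, fun _ => rfl⟩
  have hb1 : ∀ j, ‖b j‖ ≤ 1 := by
    intro j
    rw [hb, norm_div, Complex.norm_real, Real.norm_eq_abs, abs_of_pos has0, div_le_one has0]
    exact hasj j
  have hωN : ∀ N, ‖ω N‖ = as * |w N| := by
    intro N
    rw [hω, Complex.norm_real, Real.norm_eq_abs, abs_mul, abs_of_pos has0]
  have hωρ : ∀ N ∈ S, ‖ω N‖ ≤ ρ := by
    intro N hN
    rw [hωN, has, norm_div]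
    have h1 := hcell N hN j1
    rw [div_mul_eq_mul_div, div_le_iff₀ (hdn j1)]
    linarith
  have hbω : ∀ N ∈ S, ∀ j, ‖b j * ω N‖ ≤ 1 / 2 := by
    intro N hN j
    rw [norm_mul]
    have h1 := hb1 j
    have h2 := hωρ N hN
    have h3 := norm_nonneg (b j)
    have h4 := norm_nonneg (ω N)
    nlinarith
  have hz : ∀ N ∈ S, ∀ j, (u1 N : ℂ) * G1 j + u2 N * G2 j =
      u1 N * (d j * (1 + b j * ω N)) := by
    intro N hN j
    rw [hlin N hN j, hb, hω]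
    have h1 := hd0 j
    push_cast
    field_simp
  have hαv : ∀ N ∈ S, ∀ j, ‖α j * (N : ℂ)⁻¹‖ ≤ 1 / 2 := by
    intro N hN j
    rw [norm_mul]
    have h1 := (hS N hN).2.2.2.2.1
    calc ‖α j‖ * ‖(N : ℂ)⁻¹‖ ≤ A * (1 / (4 * A ^ 2)) :=
          mul_le_mul (hα j) h1 (norm_nonneg _) hA0.le
      _ = 1 / (4 * A) := by field_simp
      _ ≤ 1 / 2 := one_div_le_one_div_of_le (by norm_num) (by linarith)
  have hpi : ∀ N ∈ S, ∀ j, pi N j ^ 2 =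
      (r N * h j * (sq (-(α j * (N : ℂ)⁻¹)) * isq (b j * ω N))) ^ 2 := by
    intro N hN j
    obtain ⟨hNz, hu1, -, -, -, hj⟩ := hS N hN
    obtain ⟨-, h2, -, h4, -⟩ := hj j
    have hbw := hbω N hN j
    exact ent_pi c N (N : ℂ)⁻¹ (α j) (d j) (b j) (ω N) (u1 N) _ (pi N j) (r N) (h j) h2
      (by exact_mod_cast hNz) rfl (by exact_mod_cast hu1) (hd0 j) (hz N hN j) h4 (hr N) (hh j)
      (by linarith)
  have hrh : ∀ N ∈ S, ∀ j, ‖r N‖ * ‖h j‖ ≤ 2 * A * T := fun N hN j =>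
    ent_rh (α j) (N : ℂ)⁻¹ (b j) (ω N) (pi N j) (r N) (h j) A T hA0.le hT0.le (hαv N hN j)
      (hbω N hN j) (hpi N hN j) ((hS N hN).2.2.2.2.2 j).1
  have hu1a : ∀ N ∈ S, |(u1 N : ℝ)| ≤ 2 * A ^ 2 * U * as := by
    intro N hN
    have h1 := ((hS N hN).2.2.2.2.2 j0).2.2.1
    rw [hz N hN j0, norm_mul, norm_mul, Complex.norm_intCast] at h1
    have h2 : (1 : ℝ) / 2 ≤ ‖1 + b j0 * ω N‖ := by
      have h3 := norm_sub_norm_le (1 : ℂ) (-(b j0 * ω N))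
      rw [norm_one, norm_neg, sub_neg_eq_add] at h3
      have h4 := hbω N hN j0
      linarith
    have h5 : |(u1 N : ℝ)| * ‖d j0‖ ≤ 2 * (A * B) := by
      have h6 : 0 ≤ |(u1 N : ℝ)| * ‖d j0‖ := by positivity
      nlinarith
    have h7 : ‖G2 j0‖ / ‖d j0‖ ≤ as := by
      have := hasj j0
      rwa [norm_div] at this
    rw [div_le_iff₀ (hdn j0)] at h7
    have h8 : |(u1 N : ℝ)| * ‖d j0‖ ≤ (2 * A ^ 2 * U * as) * ‖d j0‖ := by
      calc |(u1 N : ℝ)| * ‖d j0‖ ≤ 2 * (A * B) := h5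
        _ ≤ 2 * (A * (A * U * ‖G2 j0‖)) := by gcongr
        _ ≤ 2 * (A * (A * U * (as * ‖d j0‖))) := by gcongr
        _ = (2 * A ^ 2 * U * as) * ‖d j0‖ := by ring
    exact le_of_mul_le_mul_right h8 (hdn j0)
  -- the signs
  have hsg : ∀ N j, ∃ s : ℤˣ, N ∈ S → pi N j = ((s : ℤ) : ℂ) *
      (r N * h j * (sq (-(α j * (N : ℂ)⁻¹)) * isq (b j * ω N))) := by
    intro N j
    by_cases hN : N ∈ S
    · obtain ⟨s, hs⟩ := ent_sign _ _ (hpi N hN j)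
      exact ⟨s, fun _ => hs⟩
    · exact ⟨1, fun h => absurd h hN⟩
  choose sg hsg using hsg
  refine ⟨sg, fun s => ?_⟩
  rcases (S.filter fun N => sg N = s).eq_empty_or_nonempty with hSe | hSn
  · refine ⟨fun _ _ _ => 0, fun _ => 0, fun _ => 0, ?_, ?_⟩
    · intro x _ τ k
      rw [norm_zero]
      positivity
    · intro N hN hs
      exact absurd (mem_filter.2 ⟨hN, hs⟩) (by rw [hSe]; exact notMem_empty _)
  obtain ⟨N1, hN1, hN1m⟩ := Finset.exists_max_image _ (fun N => |(u1 N : ℝ)|) hSn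
  obtain ⟨N2, hN2, hN2m⟩ := Finset.exists_max_image _ (fun N => ‖r N‖) hSn
  rw [mem_filter] at hN1 hN2
  obtain ⟨U1, hU1⟩ : ∃ U1 : ℝ, U1 = |(u1 N1 : ℝ)| := ⟨_, rfl⟩
  obtain ⟨R1, hR1⟩ : ∃ R1 : ℝ, R1 = ‖r N2‖ := ⟨_, rfl⟩
  have hU10 : 0 < U1 := by
    rw [hU1]
    have := (hS N1 hN1.1).2.1
    positivity
  have hR10 : 0 < R1 := by
    rw [hR1, norm_pos_iff]
    intro h0
    have h1 := hr N2
    rw [h0] at h1
    have h2 := (hS N2 hN2.1).1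
    have h3 := (hS N2 hN2.1).2.1
    have h4 : c * (N2 : ℂ) / u1 N2 ≠ 0 := by
      have h5 : (N2 : ℂ) ≠ 0 := by exact_mod_cast h2
      have h6 : (u1 N2 : ℂ) ≠ 0 := by exact_mod_cast h3
      positivity
    apply h4
    rw [← h1]
    simp
  have hU1U : U1 ≤ U := by rw [hU1]; exact (hS N1 hN1.1).2.2.1
  have hR1h : ∀ j, R1 * ‖h j‖ ≤ 2 * A * T := by
    intro j
    rw [hR1]
    exact hrh N2 hN2.1 j
  obtain ⟨x0, hx0⟩ : ∃ x0 : ℂ, x0 = ((U1 * w0 / U : ℝ) : ℂ) := ⟨_, rfl⟩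
  obtain ⟨x1, hx1⟩ : ∃ x1 : ℂ, x1 = ((U1 / (as * U) : ℝ) : ℂ) := ⟨_, rfl⟩
  have hx1n : ‖x1‖ ≤ 2 * A ^ 2 := by
    rw [hx1, Complex.norm_real, Real.norm_eq_abs, abs_of_pos (by positivity),
      div_le_iff₀ (by positivity), hU1]
    have := hu1a N1 hN1.1
    linarith
  have hx0n : ‖x0‖ ≤ 2 * A ^ 2 := by
    rw [hx0, Complex.norm_real, Real.norm_eq_abs, abs_div, abs_of_pos hU0,
      div_le_iff₀ hU0, abs_mul, abs_of_pos hU10, hU1]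
    have h1 : (u1 N1 : ℝ) * w0 = u2 N1 - u1 N1 * w N1 := by
      have h2 : (u1 N1 : ℝ) ≠ 0 := by
        have := (hS N1 hN1.1).2.1
        exact_mod_cast this
      rw [hw]
      field_simp
      ring
    rw [← abs_mul, h1]
    have h3 : |(u1 N1 : ℝ) * w N1| ≤ A ^ 2 * U := by
      rw [abs_mul]
      have h4 := hu1a N1 hN1.1
      have h5 := hωρ N1 hN1.1
      rw [hωN] at h5
      calc |(u1 N1 : ℝ)| * |w N1| ≤ (2 * A ^ 2 * U * as) * |w N1| := by gcongr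
        _ = 2 * A ^ 2 * U * (as * |w N1|) := by ring
        _ ≤ 2 * A ^ 2 * U * (1 / 2) := by
            have h6 : as * |w N1| ≤ 1 / 2 := by linarith
            gcongr
        _ = A ^ 2 * U := by ring
    have h6 := (hS N1 hN1.1).2.2.2.1
    have h7 := abs_sub (u2 N1 : ℝ) (u1 N1 * w N1)
    have h8 : 1 ≤ A ^ 2 := by nlinarith
    nlinarith
  have hex : ∀ x : Ix, x ∈ mons i (2 * m) → ∃ cf : ℕ → ℕ → ℂ, (∀ τ k, ‖cf τ k‖ ≤ Ke) ∧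
      ∀ v ω : ℂ, ‖v‖ ≤ 1 / (2 * (2 * A ^ 2)) → ‖ω‖ ≤ 1 / 2 →
        ‖(x0 + x1 * ω) ^ x.1.2 * (∏ j, sq (-(α j * v)) ^ x.2 j) *
            (∏ j, isq (b j * ω) ^ x.2 j) -
          ∑ τ ∈ Finset.range R, ∑ k ∈ Finset.range R, cf τ k * v ^ τ * ω ^ k‖ ≤
        Ke * (‖v‖ ^ R + ‖ω‖ ^ R) := by
    intro x hx
    rw [mons, mem_product, HasAntidiagonal.mem_antidiagonal, mem_piAntidiag] at hx
    refine hexp α b x0 x1 x.1.2 x.2 (fun j => (hα j).trans ?_) hb1 hx0n hx1n ?_ ?_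
    · nlinarith
    · omega
    · intro j
      have h0 : ∑ j, x.2 j = 2 * m := hx.2.1
      have : x.2 j ≤ ∑ j, x.2 j := single_le_sum (fun _ _ => Nat.zero_le _) (mem_univ j)
      omega
  choose! cf hcf1 hcf2 using hex
  obtain ⟨F, hF⟩ : ∃ F : Ix → ℂ, ∀ x, F x = (U1 : ℂ) ^ x.1.1 * (U : ℂ) ^ x.1.2 *
      (R1 : ℂ) ^ (2 * m) * ∏ j, (((s j : ℤ) : ℂ) * h j) ^ x.2 j := ⟨_, fun _ => rfl⟩
  have hFn : ∀ x ∈ mons i (2 * m), ‖F x‖ ≤ (2 * A) ^ (2 * m) * (U ^ i * T ^ (2 * m)) := by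
    intro x hx
    rw [mons, mem_product, HasAntidiagonal.mem_antidiagonal, mem_piAntidiag] at hx
    obtain ⟨hx1, hx2, -⟩ := hx
    have hs1 : ∀ j, ‖((s j : ℤ) : ℂ)‖ = 1 := by
      intro j
      rcases Int.units_eq_one_or (s j) with h1 | h1 <;> simp [h1]
    rw [hF, norm_mul, norm_mul, norm_mul, norm_pow, norm_pow, norm_pow, norm_prod,
      Complex.norm_real, Complex.norm_real, Complex.norm_real, Real.norm_eq_abs,
      Real.norm_eq_abs, Real.norm_eq_abs, abs_of_pos hU10, abs_of_pos hU0, abs_of_pos hR10]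
    have h1 : R1 ^ (2 * m) * ∏ j, ‖(((s j : ℤ) : ℂ) * h j) ^ x.2 j‖ ≤ (2 * A * T) ^ (2 * m) := by
      rw [← hx2, ← prod_pow_eq_pow_sum, ← prod_pow_eq_pow_sum, ← prod_mul_distrib]
      refine prod_le_prod (fun j _ => by positivity) fun j _ => ?_
      rw [norm_pow, ← mul_pow, norm_mul, hs1, one_mul]
      exact pow_le_pow_left₀ (by positivity) (hR1h j) _
    calc U1 ^ x.1.1 * U ^ x.1.2 * R1 ^ (2 * m) * ∏ j, ‖(((s j : ℤ) : ℂ) * h j) ^ x.2 j‖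
        = (U1 ^ x.1.1 * U ^ x.1.2) *
            (R1 ^ (2 * m) * ∏ j, ‖(((s j : ℤ) : ℂ) * h j) ^ x.2 j‖) := by ring
      _ ≤ (U ^ x.1.1 * U ^ x.1.2) * (2 * A * T) ^ (2 * m) := by gcongr
      _ = (2 * A) ^ (2 * m) * (U ^ i * T ^ (2 * m)) := by
          rw [← pow_add, hx1, mul_pow]
          ring
  have hKle : (2 * A) ^ (2 * m) * Ke ≤ max 1 ((2 * A) ^ (2 * m) * Ke) := le_max_right _ _
  have hUT : 0 ≤ U ^ i * T ^ (2 * m) := by positivity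
  refine ⟨fun x τ k => F x * cf x τ k,
    fun N => ((u1 N : ℂ) / U1) ^ i * (r N / R1) ^ (2 * m), ω, ?_, ?_⟩
  · intro x hx τ k
    rw [norm_mul]
    calc ‖F x‖ * ‖cf x τ k‖ ≤ ((2 * A) ^ (2 * m) * (U ^ i * T ^ (2 * m))) * Ke :=
          mul_le_mul (hFn x hx) (hcf1 x hx τ k) (norm_nonneg _) (by positivity)
      _ = ((2 * A) ^ (2 * m) * Ke) * (U ^ i * T ^ (2 * m)) := by ring
      _ ≤ _ := mul_le_mul_of_nonneg_right hKle hUT
  · intro N hN hs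
    have hNf : N ∈ S.filter fun N => sg N = s := mem_filter.2 ⟨hN, hs⟩
    obtain ⟨hNz, hu1, -, -, hNi, hj⟩ := hS N hN
    refine ⟨?_, hωρ N hN, ?_⟩
    · rw [norm_mul, norm_pow, norm_pow, norm_div, norm_div, Complex.norm_intCast,
        Complex.norm_real, Complex.norm_real, Real.norm_eq_abs, Real.norm_eq_abs,
        abs_of_pos hU10, abs_of_pos hR10]
      have h1 : |(u1 N : ℝ)| / U1 ≤ 1 := by
        rw [div_le_one hU10, hU1]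
        exact hN1m N hNf
      have h2 : ‖r N‖ / R1 ≤ 1 := by
        rw [div_le_one hR10, hR1]
        exact hN2m N hNf
      exact mul_le_one₀ (pow_le_one₀ (by positivity) h1) (by positivity)
        (pow_le_one₀ (by positivity) h2)
    · intro x hx
      have hx' := hx
      rw [mons, mem_product, HasAntidiagonal.mem_antidiagonal, mem_piAntidiag] at hx'
      obtain ⟨hx1', hx2', -⟩ := hx'
      have hvi : ‖(N : ℂ)⁻¹‖ ≤ 1 / (2 * (2 * A ^ 2)) := by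
        refine hNi.trans (le_of_eq ?_)
        congr 1
        ring
      have hω2 : ‖ω N‖ ≤ 1 / 2 := (hωρ N hN).trans hρ2
      have hE := hcf2 x hx (N : ℂ)⁻¹ (ω N) hvi hω2
      refine ⟨F x * ((x0 + x1 * ω N) ^ x.1.2 * (∏ j, sq (-(α j * (N : ℂ)⁻¹)) ^ x.2 j) *
            (∏ j, isq (b j * ω N) ^ x.2 j) -
          ∑ τ ∈ Finset.range R, ∑ k ∈ Finset.range R,
            cf x τ k * (N : ℂ)⁻¹ ^ τ * ω N ^ k), ?_, ?_⟩
      · rw [norm_mul]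
        calc _ ≤ ((2 * A) ^ (2 * m) * (U ^ i * T ^ (2 * m))) *
              (Ke * (‖(N : ℂ)⁻¹‖ ^ R + ‖ω N‖ ^ R)) :=
              mul_le_mul (hFn x hx) hE (norm_nonneg _) (by positivity)
          _ = ((2 * A) ^ (2 * m) * Ke) * (U ^ i * T ^ (2 * m)) *
              (‖(N : ℂ)⁻¹‖ ^ R + ‖ω N‖ ^ R) := by ring
          _ ≤ _ := by
              refine mul_le_mul_of_nonneg_right ?_ (by positivity)
              exact mul_le_mul_of_nonneg_right hKle hUT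
      · have h1 : ∑ τ ∈ Finset.range R, ∑ k ∈ Finset.range R,
            F x * cf x τ k * (N : ℂ)⁻¹ ^ τ * ω N ^ k =
            F x * ∑ τ ∈ Finset.range R, ∑ k ∈ Finset.range R,
              cf x τ k * (N : ℂ)⁻¹ ^ τ * ω N ^ k := by
          rw [mul_sum]
          refine sum_congr rfl fun τ _ => ?_
          rw [mul_sum]
          exact sum_congr rfl fun k _ => by ring
        rw [h1, ← mul_add, add_sub_cancel, hF]
        unfold fv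
        have h2 : ∀ j, pi N j = ((s j : ℤ) : ℂ) *
            (r N * h j * (sq (-(α j * (N : ℂ)⁻¹)) * isq (b j * ω N))) := by
          intro j
          have := hsg N j hN
          rw [hs] at this
          exact this
        have h3 : ∏ j, pi N j ^ x.2 j = ∏ j, (((s j : ℤ) : ℂ) *
            (r N * h j * (sq (-(α j * (N : ℂ)⁻¹)) * isq (b j * ω N)))) ^ x.2 j :=
          prod_congr rfl fun j _ => by rw [h2 j]
        rw [h3, ← hx1']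
        refine ent_alg x.1.1 x.1.2 m x.2 hx2' (u1 N) (u2 N) U U1 R1 (r N) (x0 + x1 * ω N) _ h _ _
          (by exact_mod_cast hU10.ne') (by exact_mod_cast hR10.ne') ?_
        have h4 : (u1 N : ℂ) ≠ 0 := by exact_mod_cast hu1
        have h5 : (U : ℂ) ≠ 0 := by exact_mod_cast hU0.ne'
        rw [hx0, hx1, hω, hw]
        push_cast
        field_simp
        ring

end Vale.Agent.P018.QB
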