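import Mathlib
import Vale.Agent.P018.Q.FamDefs

namespace Vale.Agent.P018.Q

open Polynomial NumberField Finset

section basic

variable {L : Type} [Field L] [NumberField L] {θ : Fin 4 → 𝓞 L} {C : ℕ} {X T : ℝ}
  {N N' : ℤ} {p p' : ℕ} {c : ℤ} {y y' z : Fin 4 → ℤ}

theorem famg_y_ne (hd : Dat θ C X T N p c y z) : ∃ i, y i ≠ 0 := by
  by_contra h
  push Not at h
  obtain ⟨c', hc'0, -, hc'⟩ := hd.nrm
  have h1 : ∀ i, K.ell (θ i) y = 0 := by
    intro i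
    unfold K.ell
    exact sum_eq_zero fun j _ => by rw [h j]; simp
  have h2 : (((p : ℤ) * c' : ℤ) : 𝓞 L) = 0 := by
    rw [← hc']
    exact prod_eq_zero (mem_univ 0) (h1 0)
  have h3 : (p : ℤ) * c' = 0 := by exact_mod_cast h2
  rcases mul_eq_zero.1 h3 with h4 | h4
  · exact hd.prime.ne_zero (by exact_mod_cast h4)
  · exact hc'0 h4

/-- proportional vectors `y` give the same `N`. -/
theorem famg_parallel (hinj : Function.Injective θ) (hd : Dat θ C X T N p c y z)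
    (hd' : Dat θ C X T N' p' c y' z) (hpar : ∀ i k, y i * y' k = y k * y' i) : N = N' := by
  obtain ⟨i, hi⟩ := famg_y_ne hd
  have h1 : ∀ j, (y i : 𝓞 L) * K.ell (θ j) y' = (y' i : 𝓞 L) * K.ell (θ j) y := by
    intro j
    unfold K.ell
    rw [mul_sum, mul_sum]
    refine sum_congr rfl fun k _ => ?_
    have h2 : (y i : 𝓞 L) * (y' k : 𝓞 L) = (y k : 𝓞 L) * (y' i : 𝓞 L) := by
      exact_mod_cast hpar i k
    linear_combination (θ j) ^ (k : ℕ) * h2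
  have hc : (c : 𝓞 L) ≠ 0 := by exact_mod_cast hd.c0
  have h3 : ∀ j, (y i : 𝓞 L) ^ 2 * ((N' : 𝓞 L) - θ j) =
      (y' i : 𝓞 L) ^ 2 * ((N : 𝓞 L) - θ j) := by
    intro j
    apply mul_left_cancel₀ hc
    have e1 := hd.eqn j
    have e2 := hd'.eqn j
    have e3 := h1 j
    calc (c : 𝓞 L) * ((y i : 𝓞 L) ^ 2 * ((N' : 𝓞 L) - θ j))
        = (y i : 𝓞 L) ^ 2 * (c * ((N' : 𝓞 L) - θ j)) := by ring
      _ = ((y i : 𝓞 L) * K.ell (θ j) y') ^ 2 * K.ell (θ j) z := by rw [e2]; ring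
      _ = ((y' i : 𝓞 L) * K.ell (θ j) y) ^ 2 * K.ell (θ j) z := by rw [e3]
      _ = (y' i : 𝓞 L) ^ 2 * (c * ((N : 𝓞 L) - θ j)) := by rw [e1]; ring
      _ = _ := by ring
  have h01 : θ 0 - θ 1 ≠ 0 := by
    rw [sub_ne_zero]
    exact fun h => absurd (hinj h) (by decide)
  have h4 : (y i : 𝓞 L) ^ 2 = (y' i : 𝓞 L) ^ 2 := by
    apply mul_right_cancel₀ h01
    linear_combination (h3 1) - (h3 0)
  have hyi : (y i : 𝓞 L) ^ 2 ≠ 0 := pow_ne_zero 2 (by exact_mod_cast hi)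
  have h5 : (N' : 𝓞 L) - θ 0 = (N : 𝓞 L) - θ 0 := by
    apply mul_left_cancel₀ hyi
    rw [h3 0, h4]
  have h6 : (N' : 𝓞 L) = (N : 𝓞 L) := by linear_combination h5
  exact_mod_cast h6.symm

omit [NumberField L] in
/-- inversion of the Vandermonde matrix. -/
theorem famg_interp (θ : Fin 4 → 𝓞 L) (hinj : Function.Injective θ) (u : Fin 4 → ℤ)
    (k : Fin 4) :
    (∏ l, dval θ l) * (u k : 𝓞 L) = ∑ i, K.ell (θ i) u * (ipol θ i).coeff k := by
  have h1 : hpol θ (fun i => K.ell (θ i) u) =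
      Polynomial.C (∏ l, dval θ l) * (K.smPoly u).map (algebraMap ℤ (𝓞 L)) := by
    apply Polynomial.eq_of_degrees_lt_of_eval_index_eq (v := θ) (univ : Finset (Fin 4))
      hinj.injOn
    · rw [card_univ, Fintype.card_fin]
      refine lt_of_le_of_lt degree_le_natDegree ?_
      have := hpol_degree θ (fun i => K.ell (θ i) u)
      exact_mod_cast (by omega : (hpol θ (fun i => K.ell (θ i) u)).natDegree < 4)
    · rw [card_univ, Fintype.card_fin]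
      refine lt_of_le_of_lt (degree_mul_le _ _) ?_
      refine lt_of_le_of_lt (add_le_add degree_C_le degree_map_le) ?_
      rw [zero_add]
      exact K.sm_degree u
    · intro i _
      rw [hpol_eval, eval_mul, eval_C, K.sm_eval]
  have h2 := congrArg (fun q => q.coeff (k : ℕ)) h1
  simp only [hpol, finsetSum_coeff, coeff_C_mul, coeff_map, K.sm_coeff] at h2
  rw [h2]
  simp

omit [NumberField L] in
/-- the inverse matrix is bounded. -/
theorem famg_inv (θ : Fin 4 → 𝓞 L) (hinj : Function.Injective θ) (ψ : 𝓞 L →+* ℂ)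
    (hψ : Function.Injective ψ) :
    ∃ K2 : ℝ, 0 < K2 ∧ ∀ (u v : Fin 4 → ℤ) (α β M : ℝ),
      (∀ j, ‖(α : ℂ) * ψ (K.ell (θ j) u) - (β : ℂ) * ψ (K.ell (θ j) v)‖ ≤ M) →
      ∀ k, |α * u k - β * v k| ≤ K2 * M := by
  have hD : ψ (∏ l, dval θ l) ≠ 0 := by
    rw [map_ne_zero_iff ψ hψ]
    refine prod_ne_zero_iff.2 fun k _ => prod_ne_zero_iff.2 fun j hj => ?_
    rw [sub_ne_zero]
    exact fun h => (mem_erase.1 hj).1 (hinj h).symm
  have hD' : 0 < ‖ψ (∏ l, dval θ l)‖ := norm_pos_iff.2 hD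
  have hS : 0 ≤ ∑ i, ∑ k : Fin 4, ‖ψ ((ipol θ i).coeff k)‖ :=
    sum_nonneg fun _ _ => sum_nonneg fun _ _ => norm_nonneg _
  refine ⟨(1 + ∑ i, ∑ k : Fin 4, ‖ψ ((ipol θ i).coeff k)‖) / ‖ψ (∏ l, dval θ l)‖,
    by positivity, ?_⟩
  intro u v α β M hM k
  have hM0 : 0 ≤ M := (norm_nonneg _).trans (hM 0)
  have e1 := congrArg ψ (famg_interp θ hinj u k)
  have e2 := congrArg ψ (famg_interp θ hinj v k)
  simp only [map_mul, map_sum, map_intCast] at e1 e2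
  have e3 : ψ (∏ l, dval θ l) * ((α * u k - β * v k : ℝ) : ℂ) =
      ∑ i, ((α : ℂ) * ψ (K.ell (θ i) u) - (β : ℂ) * ψ (K.ell (θ i) v)) *
        ψ ((ipol θ i).coeff k) := by
    have e4 : ∑ i, ((α : ℂ) * ψ (K.ell (θ i) u) - (β : ℂ) * ψ (K.ell (θ i) v)) *
        ψ ((ipol θ i).coeff k) =
        (α : ℂ) * (∑ i, ψ (K.ell (θ i) u) * ψ ((ipol θ i).coeff k)) -
        (β : ℂ) * (∑ i, ψ (K.ell (θ i) v) * ψ ((ipol θ i).coeff k)) := by
      rw [mul_sum, mul_sum, ← sum_sub_distrib]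
      exact sum_congr rfl fun i _ => by ring
    rw [e4, ← e1, ← e2]
    push_cast
    ring
  have e5 : ‖ψ (∏ l, dval θ l)‖ * |α * u k - β * v k| ≤
      (1 + ∑ i, ∑ k : Fin 4, ‖ψ ((ipol θ i).coeff k)‖) * M := by
    have e6 : ‖ψ (∏ l, dval θ l)‖ * |α * u k - β * v k| =
        ‖ψ (∏ l, dval θ l) * ((α * u k - β * v k : ℝ) : ℂ)‖ := by
      rw [norm_mul, Complex.norm_real, Real.norm_eq_abs]
    rw [e6, e3]
    refine (norm_sum_le _ _).trans ?_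
    have e7 : ∀ i ∈ (univ : Finset (Fin 4)),
        ‖((α : ℂ) * ψ (K.ell (θ i) u) - (β : ℂ) * ψ (K.ell (θ i) v)) *
          ψ ((ipol θ i).coeff k)‖ ≤ M * ∑ k : Fin 4, ‖ψ ((ipol θ i).coeff k)‖ := by
      intro i _
      rw [norm_mul]
      exact mul_le_mul (hM i) (single_le_sum (f := fun k : Fin 4 => ‖ψ ((ipol θ i).coeff k)‖)
        (fun _ _ => norm_nonneg _) (mem_univ k)) (norm_nonneg _) hM0
    refine (sum_le_sum e7).trans ?_
    rw [← mul_sum]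
    nlinarith
  rw [div_mul_eq_mul_div, le_div_iff₀ hD']
  linarith [e5, mul_comm (‖ψ (∏ l, dval θ l)‖) (|α * u k - β * v k|)]

end basic

/-- square roots of close numbers. -/
theorem famg_sqrt {Q Q' τ : ℂ} {n n' : ℝ} (hn : 0 < n) (hn' : 0 < n')
    (h : Q ^ 2 = n - τ) (h' : Q' ^ 2 = n' - τ) (hτ : ‖τ‖ ≤ n / 2) (hτ' : ‖τ‖ ≤ n' / 2)
    (hs : 0 ≤ Q.re ↔ 0 ≤ Q'.re) :
    n / 2 ≤ ‖Q‖ ^ 2 ∧
      ‖(Real.sqrt n : ℂ) * Q' - (Real.sqrt n' : ℂ) * Q‖ * (Real.sqrt n * Real.sqrt n') ≤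
        ‖τ‖ * |n' - n| := by
  have key : ∀ (R : ℂ) (m : ℝ), R ^ 2 = m - τ → ‖τ‖ ≤ m / 2 → m / 2 ≤ R.re ^ 2 := by
    intro R m h1 h2
    have h3 := congrArg Complex.re h1
    have h4 : τ.re ≤ ‖τ‖ := Complex.re_le_norm τ
    simp only [sq, Complex.mul_re, Complex.sub_re, Complex.ofReal_re] at h3
    nlinarith [mul_self_nonneg R.im]
  have k1 := key Q n h hτ
  have k2 := key Q' n' h' hτ'
  have hsn : Real.sqrt n ^ 2 = n := Real.sq_sqrt hn.le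
  have hsn' : Real.sqrt n' ^ 2 = n' := Real.sq_sqrt hn'.le
  have sp : 0 < Real.sqrt n := Real.sqrt_pos.2 hn
  have sp' : 0 < Real.sqrt n' := Real.sqrt_pos.2 hn'
  constructor
  · have h5 : Q.re ^ 2 ≤ ‖Q‖ ^ 2 := by
      rw [← sq_abs]
      exact pow_le_pow_left₀ (abs_nonneg _) (Complex.abs_re_le_norm Q) 2
    linarith
  · -- the sum is large
    have h6 : Real.sqrt n * Real.sqrt n' ≤
        ‖(Real.sqrt n : ℂ) * Q' + (Real.sqrt n' : ℂ) * Q‖ := by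
      have h7 : |Real.sqrt n * Q'.re + Real.sqrt n' * Q.re| ≤
          ‖(Real.sqrt n : ℂ) * Q' + (Real.sqrt n' : ℂ) * Q‖ := by
        refine le_trans (le_of_eq ?_) (Complex.abs_re_le_norm _)
        simp
      refine le_trans ?_ h7
      rw [← abs_of_pos (mul_pos sp sp'), ← sq_le_sq]
      have h8 : 0 ≤ Q'.re * Q.re := by
        by_cases h9 : 0 ≤ Q.re
        · exact mul_nonneg (hs.1 h9) h9
        · have h10 : ¬ 0 ≤ Q'.re := fun h => h9 (hs.2 h)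
          push Not at h9 h10
          exact (mul_pos_of_neg_of_neg h10 h9).le
      have h11 : (Real.sqrt n * Real.sqrt n') ^ 2 = n * n' := by rw [mul_pow, hsn, hsn']
      have h12 : (Real.sqrt n * Q'.re + Real.sqrt n' * Q.re) ^ 2 =
          n * Q'.re ^ 2 + n' * Q.re ^ 2 +
            2 * (Real.sqrt n * Real.sqrt n') * (Q'.re * Q.re) := by
        rw [← hsn, ← hsn']
        rw [hsn, hsn']
        ring_nf
        rw [hsn, hsn']
        ring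
      rw [h11, h12]
      have h13 : 0 ≤ 2 * (Real.sqrt n * Real.sqrt n') * (Q'.re * Q.re) := by positivity
      nlinarith
    have h14 : ((Real.sqrt n : ℂ) * Q' - (Real.sqrt n' : ℂ) * Q) *
        ((Real.sqrt n : ℂ) * Q' + (Real.sqrt n' : ℂ) * Q) = τ * ((n' - n : ℝ) : ℂ) := by
      have e1 : (Real.sqrt n : ℂ) ^ 2 = n := by exact_mod_cast hsn
      have e2 : (Real.sqrt n' : ℂ) ^ 2 = n' := by exact_mod_cast hsn'
      calc _ = (Real.sqrt n : ℂ) ^ 2 * Q' ^ 2 - (Real.sqrt n' : ℂ) ^ 2 * Q ^ 2 := by ring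
        _ = n * (n' - τ) - n' * (n - τ) := by rw [e1, e2, h, h']
        _ = _ := by push_cast; ring
    have h15 := congrArg (fun x => ‖x‖) h14
    simp only [norm_mul, Complex.norm_real, Real.norm_eq_abs] at h15
    calc _ ≤ ‖(Real.sqrt n : ℂ) * Q' - (Real.sqrt n' : ℂ) * Q‖ *
          ‖(Real.sqrt n : ℂ) * Q' + (Real.sqrt n' : ℂ) * Q‖ :=
          mul_le_mul_of_nonneg_left h6 (norm_nonneg _)
      _ = _ := h15


section count

variable {L : Type} [Field L] [NumberField L]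

omit [NumberField L] in
/-- the size of the minors. -/
theorem famg_minor (θ : Fin 4 → 𝓞 L) (ψ : 𝓞 L →+* ℂ) (K2 : ℝ)
    (hinv : ∀ (u v : Fin 4 → ℤ) (α β M : ℝ),
      (∀ j, ‖(α : ℂ) * ψ (K.ell (θ j) u) - (β : ℂ) * ψ (K.ell (θ j) v)‖ ≤ M) →
      ∀ k, |α * u k - β * v k| ≤ K2 * M)
    (a0 c : ℤ) (ha0 : a0 ≠ 0) (hc : c ≠ 0) (y y' z : Fin 4 → ℤ) (n n' : ℕ) (Y tm A B : ℝ)
    (hY : 0 < Y) (hn : Y ≤ n) (hn' : Y ≤ n') (htm : ∀ j, ‖ψ (θ j) / a0‖ ≤ tm)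
    (htY : 2 * tm ≤ Y) (hA : ∀ k, |(y k : ℝ)| ≤ A) (hB0 : 0 ≤ B)
    (hB : ∀ j, ‖ψ (K.ell (θ j) y)‖ ≤ B)
    (g : Fin 4 → ℂ) (hg : ∀ j, g j ^ 2 = ψ (K.ell (θ j) z) / (c * a0))
    (e1 : ∀ j, (c : 𝓞 L) * (((a0 * n : ℤ) : 𝓞 L) - θ j) = K.ell (θ j) y ^ 2 * K.ell (θ j) z)
    (e2 : ∀ j, (c : 𝓞 L) * (((a0 * n' : ℤ) : 𝓞 L) - θ j) = K.ell (θ j) y' ^ 2 * K.ell (θ j) z)
    (hs : ∀ j, 0 ≤ (ψ (K.ell (θ j) y) * g j).re ↔ 0 ≤ (ψ (K.ell (θ j) y') * g j).re)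
    (i k : Fin 4) :
    |((y i * y' k - y k * y' i : ℤ) : ℝ)| * Y ^ 2 ≤ 4 * A * K2 * B * tm * |(n' : ℝ) - n| := by
  have hn0 : (0 : ℝ) < n := hY.trans_le hn
  have hn0' : (0 : ℝ) < n' := hY.trans_le hn'
  have hsn : Real.sqrt n ^ 2 = n := Real.sq_sqrt hn0.le
  have hsn' : Real.sqrt n' ^ 2 = n' := Real.sq_sqrt hn0'.le
  have sp : 0 < Real.sqrt n := Real.sqrt_pos.2 hn0
  have sp' : 0 < Real.sqrt n' := Real.sqrt_pos.2 hn0'
  have htm0 : 0 ≤ tm := (norm_nonneg _).trans (htm 0)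
  have hA0 : 0 ≤ A := (abs_nonneg _).trans (hA 0)
  have hQ : ∀ (y : Fin 4 → ℤ) (n : ℕ),
      (∀ j, (c : 𝓞 L) * (((a0 * n : ℤ) : 𝓞 L) - θ j) = K.ell (θ j) y ^ 2 * K.ell (θ j) z) →
      ∀ j, (ψ (K.ell (θ j) y) * g j) ^ 2 = ((n : ℝ) : ℂ) - ψ (θ j) / a0 := by
    intro y n h j
    have h1 := congrArg ψ (h j)
    simp only [map_mul, map_sub, map_pow, map_intCast] at h1
    have ha0' : (a0 : ℂ) ≠ 0 := by exact_mod_cast ha0
    have hc' : (c : ℂ) ≠ 0 := by exact_mod_cast hc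
    rw [mul_pow, hg]
    push_cast at h1 ⊢
    field_simp
    linear_combination -h1
  have hD : ∀ j, ‖((Real.sqrt n : ℝ) : ℂ) * ψ (K.ell (θ j) y') -
      ((Real.sqrt n' : ℝ) : ℂ) * ψ (K.ell (θ j) y)‖ ≤
      2 * B * tm * |(n' : ℝ) - n| / (n * Real.sqrt n') := by
    intro j
    obtain ⟨h1, h2⟩ := famg_sqrt hn0 hn0' (hQ y n e1 j) (hQ y' n' e2 j)
      (by linarith [htm j]) (by linarith [htm j]) (hs j)
    rw [le_div_iff₀ (by positivity)]
    have h3 : ((Real.sqrt n : ℝ) : ℂ) * (ψ (K.ell (θ j) y') * g j) -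
        ((Real.sqrt n' : ℝ) : ℂ) * (ψ (K.ell (θ j) y) * g j) =
        (((Real.sqrt n : ℝ) : ℂ) * ψ (K.ell (θ j) y') -
          ((Real.sqrt n' : ℝ) : ℂ) * ψ (K.ell (θ j) y)) * g j := by ring
    rw [h3, norm_mul] at h2
    rw [norm_mul] at h1
    obtain ⟨E, hE⟩ : ∃ E, E = ‖((Real.sqrt n : ℝ) : ℂ) * ψ (K.ell (θ j) y') -
          ((Real.sqrt n' : ℝ) : ℂ) * ψ (K.ell (θ j) y)‖ := ⟨_, rfl⟩
    have hE0 : 0 ≤ E := by rw [hE]; exact norm_nonneg _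
    rw [← hE] at h2 ⊢
    have h4 : Real.sqrt n ≤ 2 * B * ‖g j‖ := by
      apply abs_le_of_sq_le_sq' _ (by positivity) |>.2
      have h5 : (‖ψ (K.ell (θ j) y)‖ * ‖g j‖) ^ 2 ≤ (B * ‖g j‖) ^ 2 :=
        pow_le_pow_left₀ (by positivity) (mul_le_mul_of_nonneg_right (hB j) (norm_nonneg _)) 2
      rw [hsn]
      nlinarith [sq_nonneg (B * ‖g j‖)]
    calc E * (n * Real.sqrt n') = E * Real.sqrt n * Real.sqrt n' * Real.sqrt n := by
          rw [← hsn]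
          rw [Real.sqrt_sq (Real.sqrt_nonneg _)]
          ring
      _ ≤ E * Real.sqrt n * Real.sqrt n' * (2 * B * ‖g j‖) :=
          mul_le_mul_of_nonneg_left h4 (by positivity)
      _ = 2 * B * (E * ‖g j‖ * (Real.sqrt n * Real.sqrt n')) := by ring
      _ ≤ 2 * B * (‖ψ (θ j) / a0‖ * |(n' : ℝ) - n|) :=
          mul_le_mul_of_nonneg_left h2 (by positivity)
      _ ≤ 2 * B * (tm * |(n' : ℝ) - n|) :=
          mul_le_mul_of_nonneg_left (mul_le_mul_of_nonneg_right (htm j) (abs_nonneg _))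
            (by positivity)
      _ = _ := by ring
  obtain ⟨M, hM⟩ : ∃ M, M = 2 * B * tm * |(n' : ℝ) - n| / (n * Real.sqrt n') := ⟨_, rfl⟩
  rw [← hM] at hD
  have hM1 : M * (n * Real.sqrt n') = 2 * B * tm * |(n' : ℝ) - n| := by
    rw [hM]
    field_simp
  have hM0 : 0 ≤ M := by rw [hM]; positivity
  have h6 := hinv y' y _ _ M hD
  have h7 : Real.sqrt n * |((y i * y' k - y k * y' i : ℤ) : ℝ)| ≤ 2 * A * (K2 * M) := by
    have h8 : Real.sqrt n * |((y i * y' k - y k * y' i : ℤ) : ℝ)| =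
        |(y i : ℝ) * (Real.sqrt n * y' k - Real.sqrt n' * y k) -
          (y k : ℝ) * (Real.sqrt n * y' i - Real.sqrt n' * y i)| := by
      rw [← abs_of_pos sp, ← abs_mul, abs_of_pos sp]
      congr 1
      push_cast
      ring
    rw [h8]
    refine (abs_sub _ _).trans ?_
    rw [abs_mul, abs_mul]
    have h9 := mul_le_mul (hA i) (h6 k) (abs_nonneg _) hA0
    have h10 := mul_le_mul (hA k) (h6 i) (abs_nonneg _) hA0
    linarith
  have h11 : Y ^ 2 ≤ Real.sqrt n * (n * Real.sqrt n') := by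
    have h12 : Real.sqrt Y ≤ Real.sqrt n := Real.sqrt_le_sqrt hn
    have h13 : Real.sqrt Y ≤ Real.sqrt n' := Real.sqrt_le_sqrt hn'
    have h14 : Real.sqrt Y ^ 2 = Y := Real.sq_sqrt hY.le
    calc Y ^ 2 = Real.sqrt Y * (Y * Real.sqrt Y) := by nlinarith
      _ ≤ _ := by
        apply mul_le_mul h12 _ (by positivity) (by positivity)
        exact mul_le_mul hn h13 (by positivity) (by positivity)
  calc |((y i * y' k - y k * y' i : ℤ) : ℝ)| * Y ^ 2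
      ≤ |((y i * y' k - y k * y' i : ℤ) : ℝ)| * (Real.sqrt n * (n * Real.sqrt n')) :=
        mul_le_mul_of_nonneg_left h11 (abs_nonneg _)
    _ = Real.sqrt n * |((y i * y' k - y k * y' i : ℤ) : ℝ)| * (n * Real.sqrt n') := by ring
    _ ≤ 2 * A * (K2 * M) * (n * Real.sqrt n') :=
        mul_le_mul_of_nonneg_right h7 (by positivity)
    _ = 2 * A * K2 * (M * (n * Real.sqrt n')) := by ring
    _ = _ := by rw [hM1]; ring

/-- the number of `n` in a set with data. -/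
theorem famg_count (θ : Fin 4 → 𝓞 L) (hinj : Function.Injective θ) (a0 : ℤ) (ha0 : a0 ≠ 0)
    (C : ℕ) : ∃ K5 : ℝ, 0 < K5 ∧ ∀ (X T Y : ℝ) (W : Finset ℕ), 1 ≤ X → 1 ≤ T → K5 ≤ Y →
      (∀ n ∈ W, Y ≤ n ∧ (n : ℝ) ≤ X ∧
        ∃ (p : ℕ) (c : ℤ) (y z : Fin 4 → ℤ), Dat θ C X T (a0 * n) p c y z) →
      (W.card : ℝ) ≤ (2 * C + 1) * ((2 * (C * X / T ^ 2) + 1) ^ 4 *
        (16 * (K5 * X * T ^ 2 / Y ^ 2 + 1))) := by
  classical
  obtain ⟨σ⟩ : Nonempty (L →+* ℂ) := inferInstance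
  have hψi : Function.Injective (σ.comp (algebraMap (𝓞 L) L)) := by
    rw [RingHom.coe_comp]
    exact σ.injective.comp RingOfIntegers.coe_injective
  generalize σ.comp (algebraMap (𝓞 L) L) = ψ at hψi
  obtain ⟨K2, hK2, hinv⟩ := famg_inv θ hinj ψ hψi
  have hg : ∀ (c : ℤ) (z : Fin 4 → ℤ) (j : Fin 4),
      ∃ g : ℂ, g ^ 2 = ψ (K.ell (θ j) z) / (c * a0) := fun c z j =>
    IsAlgClosed.exists_pow_nat_eq _ (by norm_num)
  choose g hg using hg
  obtain ⟨tm, htm⟩ : ∃ tm : ℝ, tm = ∑ j, ‖ψ (θ j) / a0‖ := ⟨_, rfl⟩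
  have htm1 : ∀ j, ‖ψ (θ j) / a0‖ ≤ tm := by
    intro j
    rw [htm]
    exact single_le_sum (f := fun j => ‖ψ (θ j) / a0‖) (fun _ _ => norm_nonneg _) (mem_univ j)
  have htm0 : 0 ≤ tm := (norm_nonneg _).trans (htm1 0)
  obtain ⟨B0, hB0⟩ : ∃ B0 : ℝ, B0 = ∑ j, ∑ k : Fin 4, ‖ψ (θ j)‖ ^ (k : ℕ) := ⟨_, rfl⟩
  have hB1 : ∀ j, ∑ k : Fin 4, ‖ψ (θ j)‖ ^ (k : ℕ) ≤ B0 := by
    intro j
    rw [hB0]
    exact single_le_sum (f := fun j => ∑ k : Fin 4, ‖ψ (θ j)‖ ^ (k : ℕ))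
      (fun _ _ => sum_nonneg fun _ _ => by positivity) (mem_univ j)
  have hB00 : 0 ≤ B0 := (sum_nonneg fun _ _ => by positivity).trans (hB1 0)
  obtain ⟨K4, hK4⟩ : ∃ K4 : ℝ, K4 = 4 * C * K2 * (C * B0) * tm + 1 := ⟨_, rfl⟩
  have hK40 : 0 < K4 := by rw [hK4]; positivity
  refine ⟨K4 + 2 * tm, by positivity, ?_⟩
  intro X T Y W hX hT hY hW
  have hT0 : 0 < T := by linarith
  have hY0 : 0 < Y := by linarith
  have hYn : ∀ n ∈ W, Y ≤ n := fun n hn => (hW n hn).1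
  have hnX : ∀ n ∈ W, (n : ℝ) ≤ X := fun n hn => (hW n hn).2.1
  have hWd : ∀ n ∈ W, ∃ (p : ℕ) (c : ℤ) (y z : Fin 4 → ℤ), Dat θ C X T (a0 * n) p c y z :=
    fun n hn => (hW n hn).2.2
  choose! p c y z hdat using hWd
  obtain ⟨Δ, hΔ⟩ : ∃ Δ : ℝ, Δ = Y ^ 2 / (K4 * T ^ 2) := ⟨_, rfl⟩
  have hΔ0 : 0 < Δ := by rw [hΔ]; positivity
  have hC0 : (0 : ℝ) ≤ C := Nat.cast_nonneg C
  have hZ0 : 0 ≤ C * X / T ^ 2 := by positivity
  -- the injection
  have hcard : W.card ≤ ((Icc (-(C : ℤ)) C) ×ˢ ((Fintype.piFinset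
      (fun _ : Fin 4 => Icc (-(⌊C * X / T ^ 2⌋₊ : ℤ)) ⌊C * X / T ^ 2⌋₊)) ×ˢ
        ((univ : Finset (Fin 4 → Bool)) ×ˢ range (⌊X / Δ⌋₊ + 1)))).card := by
    refine card_le_card_of_injOn (fun n => (c n, z n,
      (fun j => decide (0 ≤ (ψ (K.ell (θ j) (y n)) * g (c n) (z n) j).re)),
      ⌊(n : ℝ) / Δ⌋₊)) ?_ ?_
    · intro n hn
      have hd := hdat n hn
      rw [mem_coe, mem_product, mem_product, mem_product]
      refine ⟨?_, ?_, mem_univ _, ?_⟩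
      · rw [mem_Icc]
        exact abs_le.1 hd.cC
      · rw [Fintype.mem_piFinset]
        intro k
        rw [mem_Icc, ← abs_le]
        have h1 := hd.hz k
        have h2 : ((z n k).natAbs : ℝ) ≤ C * X / T ^ 2 := by
          rw [Nat.cast_natAbs]
          push_cast
          exact h1
        have h3 := Nat.le_floor h2
        rw [Int.abs_eq_natAbs]
        exact_mod_cast h3
      · rw [mem_range, Nat.lt_succ_iff]
        exact Nat.floor_le_floor (div_le_div_of_nonneg_right (hnX n hn) hΔ0.le)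
    · intro n hn n' hn' heq
      simp only [Prod.mk.injEq] at heq
      obtain ⟨hc, hz, hs, hf⟩ := heq
      have hd := hdat n hn
      have hd' := hdat n' hn'
      rw [← hc, ← hz] at hd' hs
      have hs' : ∀ j, 0 ≤ (ψ (K.ell (θ j) (y n)) * g (c n) (z n) j).re ↔
          0 ≤ (ψ (K.ell (θ j) (y n')) * g (c n) (z n) j).re := fun j =>
        decide_eq_decide.1 (congrFun hs j)
      have hdist : |(n' : ℝ) - n| < Δ := by
        have h1 : |(n' : ℝ) / Δ - n / Δ| < 1 := by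
          have h2 := Nat.floor_le (show 0 ≤ (n : ℝ) / Δ by positivity)
          have h3 := Nat.lt_floor_add_one ((n : ℝ) / Δ)
          have h4 := Nat.floor_le (show 0 ≤ (n' : ℝ) / Δ by positivity)
          have h5 := Nat.lt_floor_add_one ((n' : ℝ) / Δ)
          rw [hf] at h2 h3
          rw [abs_lt]
          constructor <;> linarith
        rw [← sub_div, abs_div, abs_of_pos hΔ0, div_lt_one hΔ0] at h1
        exact h1
      have hpar : ∀ i k, y n i * y n' k = y n k * y n' i := by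
        intro i k
        have h1 := famg_minor θ ψ K2 hinv a0 (c n) ha0 hd.c0 (y n) (y n') (z n) n n' Y tm
          (C * T) (C * T * B0) hY0 (hYn n hn) (hYn n' hn') htm1 (by linarith) hd.hy
          (by positivity) (fun j => (data_upper ψ (θ j) (y n) (C * T) hd.hy).trans
            (mul_le_mul_of_nonneg_left (hB1 j) (by positivity)))
          (g (c n) (z n)) (hg (c n) (z n)) hd.eqn hd'.eqn hs' i k
        have h2 : 4 * (C * T) * K2 * (C * T * B0) * tm * |(n' : ℝ) - n| ≤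
            K4 * T ^ 2 * |(n' : ℝ) - n| := by
          refine mul_le_mul_of_nonneg_right ?_ (abs_nonneg _)
          rw [hK4]
          nlinarith [sq_nonneg T]
        have h3 : K4 * T ^ 2 * |(n' : ℝ) - n| < Y ^ 2 := by
          rw [hΔ, lt_div_iff₀ (by positivity)] at hdist
          linarith
        have h4 : |((y n i * y n' k - y n k * y n' i : ℤ) : ℝ)| < 1 := by
          by_contra h5
          push Not at h5
          nlinarith [sq_nonneg Y]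
        have h5 : |y n i * y n' k - y n k * y n' i| < 1 := by exact_mod_cast h4
        have h6 := Int.abs_lt_one_iff.1 h5
        linarith
      have h1 := famg_parallel hinj hd hd' hpar
      have h2 := mul_left_cancel₀ ha0 h1
      exact_mod_cast h2
  have h1 : (W.card : ℝ) ≤ (((Icc (-(C : ℤ)) C) ×ˢ ((Fintype.piFinset
      (fun _ : Fin 4 => Icc (-(⌊C * X / T ^ 2⌋₊ : ℤ)) ⌊C * X / T ^ 2⌋₊)) ×ˢ
        ((univ : Finset (Fin 4 → Bool)) ×ˢ range (⌊X / Δ⌋₊ + 1)))).card : ℝ) := by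
    exact_mod_cast hcard
  refine h1.trans ?_
  rw [card_product, card_product, card_product, Fintype.card_piFinset, prod_const, card_univ,
    card_univ, card_range, Fintype.card_fin, Int.card_Icc, Int.card_Icc]
  have h2 : (Fintype.card (Fin 4 → Bool) : ℝ) = 16 := by
    simp
    try norm_num
  have h3 : (((C : ℤ) + 1 - -(C : ℤ)).toNat : ℝ) = 2 * C + 1 := by
    have : ((C : ℤ) + 1 - -(C : ℤ)).toNat = 2 * C + 1 := by omega
    rw [this]
    push_cast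
    ring
  have h4 : ((((⌊C * X / T ^ 2⌋₊ : ℕ) : ℤ) + 1 - -((⌊C * X / T ^ 2⌋₊ : ℕ) : ℤ)).toNat : ℝ) ≤
      2 * (C * X / T ^ 2) + 1 := by
    have h5 : (((⌊C * X / T ^ 2⌋₊ : ℕ) : ℤ) + 1 - -((⌊C * X / T ^ 2⌋₊ : ℕ) : ℤ)).toNat =
      2 * ⌊C * X / T ^ 2⌋₊ + 1 := by omega
    rw [h5]
    push_cast
    have := Nat.floor_le hZ0
    linarith
  have h5 : ((⌊X / Δ⌋₊ : ℕ) : ℝ) ≤ (K4 + 2 * tm) * X * T ^ 2 / Y ^ 2 := by
    refine (Nat.floor_le (by positivity)).trans ?_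
    rw [hΔ, div_div_eq_mul_div]
    apply div_le_div_of_nonneg_right _ (by positivity)
    have h6 : 0 ≤ X * T ^ 2 := by positivity
    nlinarith
  push_cast
  rw [h3]
  refine mul_le_mul_of_nonneg_left ?_ (by positivity)
  refine mul_le_mul (pow_le_pow_left₀ (by positivity) h4 4) ?_ (by positivity) (by positivity)
  rw [h2]
  linarith

end count

/-- few `γ`: every `γ` belongs to `O(1)` values of `n`. -/
theorem famG (f : ℤ[X]) (hirr : Irreducible (f.map (Int.castRingHom ℚ))) (hd : f.natDegree = 4)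
    (a : ℝ) (h1 : 1.505 ≤ a) (h2 : a ≤ 2) : Near f a := by
  classical
  obtain ⟨L, _, _, θ, G, a0, C, ha0, -, -, -, hθi, -, hdat⟩ := exists_dat f hirr hd
  obtain ⟨X1, hX1⟩ := pairs_le f hirr hd a0 ha0
  obtain ⟨K5, hK5, hcount⟩ := famg_count θ hθi a0 ha0 C
  have hC0 : (0 : ℝ) ≤ C := Nat.cast_nonneg C
  refine ⟨1 / 1000, by norm_num, 1 / 1000,
    4 * (1 + (2 * C + 1) * ((2 * C + 1) ^ 4 * (16 * (K5 + 1)))), by norm_num, by positivity,
    C + X1 + 2 + ⌈(K5 + 1) ^ 2⌉₊, ?_⟩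
  intro X P hX hXP hlog
  have hXC : C ≤ X := by omega
  have hXX1 : X1 ≤ X := by omega
  have hX2 : 2 ≤ X := by omega
  have hXK : (K5 + 1) ^ 2 ≤ X := by
    have e1 : ⌈(K5 + 1) ^ 2⌉₊ ≤ X := by omega
    exact Nat.ceil_le.1 e1
  have hXr : (2 : ℝ) ≤ X := by exact_mod_cast hX2
  have hX0 : (0 : ℝ) < X := by linarith
  have hXr1 : (1 : ℝ) ≤ X := by linarith
  have hP0 : (0 : ℝ) < P := by exact_mod_cast (by omega : 0 < P)
  have hP1 : (1 : ℝ) ≤ P := by exact_mod_cast (by omega : 1 ≤ P)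
  have hlX : 0 < Real.log X := Real.log_pos (by linarith)
  obtain ⟨hl1, hl2⟩ := hlog
  rw [lt_div_iff₀ hlX] at hl1
  rw [div_lt_iff₀ hlX] at hl2
  obtain ⟨T, hT⟩ : ∃ T : ℝ, T = (P : ℝ) ^ (1 / 4 : ℝ) := ⟨_, rfl⟩
  have hT1 : 1 ≤ T := by
    rw [hT]
    exact Real.one_le_rpow hP1 (by norm_num)
  have hT2 : T ^ 2 = (P : ℝ) ^ (1 / 2 : ℝ) := by
    rw [hT, ← Real.rpow_natCast, ← Real.rpow_mul hP0.le]
    norm_num
  have hTlo : (X : ℝ) ^ (0.752 : ℝ) ≤ T ^ 2 := by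
    rw [hT2, ← Real.log_le_log_iff (by positivity) (by positivity), Real.log_rpow hX0,
      Real.log_rpow hP0]
    nlinarith
  have hThi : T ^ 2 ≤ (X : ℝ) ^ (1.0005 : ℝ) := by
    rw [hT2, ← Real.log_le_log_iff (by positivity) (by positivity), Real.log_rpow hX0,
      Real.log_rpow hP0]
    nlinarith
  obtain ⟨Y, hY⟩ : ∃ Y : ℝ, Y = (X : ℝ) ^ (1 - 1 / 1000 : ℝ) := ⟨_, rfl⟩
  have hY0 : 0 < Y := by rw [hY]; positivity
  have hYK : K5 ≤ Y := by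
    have e1 : ((K5 + 1) ^ 2) ^ (1 / 2 : ℝ) ≤ (X : ℝ) ^ (1 / 2 : ℝ) :=
      Real.rpow_le_rpow (by positivity) hXK (by norm_num)
    have e2 : ((K5 + 1) ^ 2) ^ (1 / 2 : ℝ) = K5 + 1 := by
      rw [← Real.sqrt_eq_rpow, Real.sqrt_sq (by positivity)]
    have e3 : (X : ℝ) ^ (1 / 2 : ℝ) ≤ Y := by
      rw [hY]
      exact Real.rpow_le_rpow_of_exponent_le hXr1 (by norm_num)
    linarith
  -- the values of `n`
  obtain ⟨W, hW⟩ : ∃ W : Finset ℕ, W = (pairs f 2 X P).image (fun w => w.1) := ⟨_, rfl⟩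
  have hWX : ∀ n ∈ W, 1 ≤ n ∧ n ≤ X := by
    intro n hn
    rw [hW] at hn
    obtain ⟨w, hw, rfl⟩ := mem_image.1 hn
    rw [pairs, mem_filter, mem_product, mem_Icc] at hw
    exact hw.1.1
  have hc1 : ((pairs f 2 X P).image (fun w => a0 * (w.1 : ℤ))).card ≤ W.card := by
    have e1 : (pairs f 2 X P).image (fun w => a0 * (w.1 : ℤ)) =
        W.image (fun n : ℕ => a0 * (n : ℤ)) := by
      rw [hW, image_image]
      rfl
    rw [e1]
    exact card_image_le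
  have hc2 : W.card = (W.filter (fun n : ℕ => (n : ℝ) < Y)).card +
      (W.filter (fun n : ℕ => ¬ (n : ℝ) < Y)).card := (card_filter_add_card_filter_not _).symm
  have hc3 : ((W.filter (fun n : ℕ => (n : ℝ) < Y)).card : ℝ) ≤ Y := by
    have e1 : (W.filter (fun n : ℕ => (n : ℝ) < Y)).card ≤ ⌊Y⌋₊ := by
      refine (card_le_card (t := Icc 1 ⌊Y⌋₊) ?_).trans (by simp)
      intro n hn
      rw [mem_filter] at hn
      rw [mem_Icc]
      exact ⟨(hWX n hn.1).1, Nat.le_floor hn.2.le⟩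
    exact le_trans (by exact_mod_cast e1) (Nat.floor_le hY0.le)
  have hc4 : ((W.filter (fun n : ℕ => ¬ (n : ℝ) < Y)).card : ℝ) ≤
      (2 * C + 1) * ((2 * (C * X / T ^ 2) + 1) ^ 4 *
        (16 * (K5 * X * T ^ 2 / Y ^ 2 + 1))) := by
    refine hcount X T Y _ hXr1 hT1 hYK ?_
    intro n hn
    rw [mem_filter] at hn
    obtain ⟨hn1, hn2⟩ := hn
    refine ⟨not_lt.1 hn2, by exact_mod_cast (hWX n hn1).2, ?_⟩
    rw [hW] at hn1
    obtain ⟨w, hw, rfl⟩ := mem_image.1 hn1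
    obtain ⟨c, y, z, h⟩ := hdat X P hXC hXP w hw
    rw [← hT] at h
    exact ⟨w.2, c, y, z, h⟩
  -- the powers of `X`
  have hp1 : 2 * (C * X / T ^ 2) + 1 ≤ (2 * C + 1) * (X : ℝ) ^ (0.248 : ℝ) := by
    have e1 : (X : ℝ) / T ^ 2 ≤ (X : ℝ) ^ (0.248 : ℝ) := by
      rw [div_le_iff₀ (by positivity)]
      calc (X : ℝ) = (X : ℝ) ^ (0.248 : ℝ) * (X : ℝ) ^ (0.752 : ℝ) := by
            rw [← Real.rpow_add hX0]
            norm_num
        _ ≤ _ := mul_le_mul_of_nonneg_left hTlo (by positivity)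
    have e2 : (1 : ℝ) ≤ (X : ℝ) ^ (0.248 : ℝ) := Real.one_le_rpow hXr1 (by norm_num)
    have e3 : C * (X : ℝ) / T ^ 2 = C * (X / T ^ 2) := by ring
    rw [e3]
    nlinarith
  have hp2 : K5 * X * T ^ 2 / Y ^ 2 + 1 ≤ (K5 + 1) * (X : ℝ) ^ (0.0025 : ℝ) := by
    have e1 : (X : ℝ) * T ^ 2 / Y ^ 2 ≤ (X : ℝ) ^ (0.0025 : ℝ) := by
      rw [div_le_iff₀ (by positivity)]
      have e4 : (X : ℝ) ^ (0.0025 : ℝ) * Y ^ 2 = X * (X : ℝ) ^ (1.0005 : ℝ) := by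
        rw [hY, ← Real.rpow_natCast, ← Real.rpow_mul hX0.le, ← Real.rpow_add hX0]
        nth_rewrite 2 [← Real.rpow_one (X : ℝ)]
        rw [← Real.rpow_add hX0]
        norm_num
      rw [e4]
      exact mul_le_mul_of_nonneg_left hThi hX0.le
    have e2 : (1 : ℝ) ≤ (X : ℝ) ^ (0.0025 : ℝ) := Real.one_le_rpow hXr1 (by norm_num)
    have e3 : K5 * X * T ^ 2 / Y ^ 2 = K5 * (X * T ^ 2 / Y ^ 2) := by ring
    rw [e3]
    nlinarith
  have hp3 : (2 * C + 1) * ((2 * (C * X / T ^ 2) + 1) ^ 4 *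
        (16 * (K5 * X * T ^ 2 / Y ^ 2 + 1))) ≤
      (2 * C + 1) * ((2 * C + 1) ^ 4 * (16 * (K5 + 1))) * Y := by
    have e1 : (2 * (C * X / T ^ 2) + 1) ^ 4 ≤ ((2 * C + 1) * (X : ℝ) ^ (0.248 : ℝ)) ^ 4 :=
      pow_le_pow_left₀ (by positivity) hp1 4
    have e2 : (2 * (C * X / T ^ 2) + 1) ^ 4 * (16 * (K5 * X * T ^ 2 / Y ^ 2 + 1)) ≤
        ((2 * C + 1) * (X : ℝ) ^ (0.248 : ℝ)) ^ 4 * (16 * ((K5 + 1) * (X : ℝ) ^ (0.0025 : ℝ))) :=
      mul_le_mul e1 (mul_le_mul_of_nonneg_left hp2 (by norm_num)) (by positivity)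
        (by positivity)
    have e3 : ((X : ℝ) ^ (0.248 : ℝ)) ^ 4 * (X : ℝ) ^ (0.0025 : ℝ) ≤ Y := by
      rw [← Real.rpow_natCast, ← Real.rpow_mul hX0.le, ← Real.rpow_add hX0, hY]
      exact Real.rpow_le_rpow_of_exponent_le hXr1 (by norm_num)
    calc (2 * C + 1) * ((2 * (C * X / T ^ 2) + 1) ^ 4 * (16 * (K5 * X * T ^ 2 / Y ^ 2 + 1)))
        ≤ (2 * C + 1) * (((2 * C + 1) * (X : ℝ) ^ (0.248 : ℝ)) ^ 4 *
            (16 * ((K5 + 1) * (X : ℝ) ^ (0.0025 : ℝ)))) :=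
          mul_le_mul_of_nonneg_left e2 (by positivity)
      _ = (2 * C + 1) * ((2 * C + 1) ^ 4 * (16 * (K5 + 1))) *
            (((X : ℝ) ^ (0.248 : ℝ)) ^ 4 * (X : ℝ) ^ (0.0025 : ℝ)) := by ring
      _ ≤ _ := mul_le_mul_of_nonneg_left e3 (by positivity)
  have hfin := hX1 X P hXX1 hXP
  have hfin' : ((pairs f 2 X P).card : ℝ) ≤ 4 * W.card := by
    exact_mod_cast hfin.trans (Nat.mul_le_mul_left 4 hc1)
  have hc2' : (W.card : ℝ) = ((W.filter (fun n : ℕ => (n : ℝ) < Y)).card : ℝ) +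
      ((W.filter (fun n : ℕ => ¬ (n : ℝ) < Y)).card : ℝ) := by exact_mod_cast hc2
  rw [← hY]
  calc ((pairs f 2 X P).card : ℝ) ≤ 4 * W.card := hfin'
    _ ≤ 4 * (Y + (2 * C + 1) * ((2 * C + 1) ^ 4 * (16 * (K5 + 1))) * Y) := by
        rw [hc2']
        linarith
    _ = _ := by ring

end Vale.Agent.P018.Q
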