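import Mathlib
import Vale.Agent.P018.Q.BDefs
import Vale.Agent.P018.Q.BRelACore
import Vale.Agent.P018.Q.Data
import Vale.Agent.P018.Q.FamG

/-! # P018, (B), relation step: the entries of the matrices in a cell. -/

namespace Vale.Agent.P018.QB

open Polynomial NumberField Vale.Agent.P018.Q

/-- the hypotheses on the points of a cell. -/
structure Cell {L : Type} [Field L] [NumberField L] (θ : Fin 4 → 𝓞 L) (C : ℕ) (X T U ρ : ℝ)
    (c : ℤ) (g1 g2 : Fin 4 → ℤ) (w0 : ℝ) (S : Finset ℤ) (p : ℤ → ℕ) (y : ℤ → Fin 4 → ℤ)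
    (u1 u2 : ℤ → ℤ) : Prop where
  ns : NonSpec θ g1 g2
  hU : (X / T ^ 2) ^ 2 ≤ C * U ^ 2 * dot g2 g2
  dat : ∀ N ∈ S, BDat θ C X T U c g1 g2 N (p N) (y N) (u1 N) (u2 N)
  cell : ∀ N ∈ S, ∀ (φ : L →+* ℂ) (j : Fin 4),
    |(u2 N : ℝ) / u1 N - w0| * ‖cf θ φ g2 j‖ ≤ ρ * ‖cf θ φ g1 j + w0 * cf θ φ g2 j‖

/-- linearity. -/
theorem ent_ell {R : Type*} [CommRing R] (t : R) (a b : ℤ) (g1 g2 : Fin 4 → ℤ) :
    K.ell t (fun j => a * g1 j + b * g2 j) = (a : R) * el t g1 + (b : R) * el t g2 := by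
  unfold el K.ell
  rw [Finset.mul_sum, Finset.mul_sum, ← Finset.sum_add_distrib]
  refine Finset.sum_congr rfl fun j _ => ?_
  push_cast
  ring

/-- the sizes of the conjugates. -/
theorem ent_sizes {L : Type} [Field L] [NumberField L] (θ : Fin 4 → 𝓞 L)
    (hinj : Function.Injective θ) (C : ℕ) : ∃ A : ℝ, 1 ≤ A ∧
    (∀ (φ : L →+* ℂ) (j : Fin 4), ‖φ (θ j : L)‖ ≤ A) ∧
    (∀ (φ : L →+* ℂ) (g : Fin 4 → ℤ) (M : ℝ), 0 ≤ M → (∀ j, ‖cf θ φ g j‖ ≤ M) →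
      (dot g g : ℝ) ≤ (A * M) ^ 2) ∧
    ∀ (X T : ℝ) (N : ℤ) (p : ℕ) (c : ℤ) (y z : Fin 4 → ℤ), 1 ≤ T → A ≤ X →
      Dat θ C X T N p c y z → X ≤ C * |(N : ℝ)| → ∀ (φ : L →+* ℂ) (j : Fin 4),
        N ≠ 0 ∧ ‖(N : ℂ)⁻¹‖ ≤ A / X ∧ ‖φ ((K.ell (θ j) y : 𝓞 L) : L)‖ ≤ A * T ∧
          φ ((K.ell (θ j) z : 𝓞 L) : L) ≠ 0 ∧
          ‖φ ((K.ell (θ j) z : 𝓞 L) : L)‖ ≤ A * (X / T ^ 2) := by
  classical
  obtain ⟨K1, hK10, hK1⟩ := dat_lower θ C
  have hinv : ∀ φ : L →+* ℂ, ∃ K2 : ℝ, 0 < K2 ∧ ∀ (u v : Fin 4 → ℤ) (α β M : ℝ),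
      (∀ j, ‖(α : ℂ) * (φ.comp (algebraMap (𝓞 L) L)) (K.ell (θ j) u) -
        (β : ℂ) * (φ.comp (algebraMap (𝓞 L) L)) (K.ell (θ j) v)‖ ≤ M) →
      ∀ k, |α * u k - β * v k| ≤ K2 * M := fun φ =>
    famg_inv θ hinj (φ.comp (algebraMap (𝓞 L) L))
      (φ.injective.comp RingOfIntegers.coe_injective)
  choose K2 hK20 hK2 using hinv
  obtain ⟨A0, hA0⟩ : ∃ A0 : ℝ, A0 = 1 + ∑ φ : L →+* ℂ, ∑ j, ‖φ (θ j : L)‖ := ⟨_, rfl⟩
  have hA01 : 1 ≤ A0 := by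
    have : 0 ≤ ∑ φ : L →+* ℂ, ∑ j, ‖φ (θ j : L)‖ :=
      Finset.sum_nonneg fun _ _ => Finset.sum_nonneg fun _ _ => norm_nonneg _
    linarith
  have hθ : ∀ (φ : L →+* ℂ) (j : Fin 4), ‖φ (θ j : L)‖ ≤ A0 := by
    intro φ j
    have h1 : ‖φ (θ j : L)‖ ≤ ∑ j, ‖φ (θ j : L)‖ :=
      Finset.single_le_sum (f := fun j => ‖φ (θ j : L)‖) (fun _ _ => norm_nonneg _)
        (Finset.mem_univ j)
    have h2 : ∑ j, ‖φ (θ j : L)‖ ≤ ∑ φ : L →+* ℂ, ∑ j, ‖φ (θ j : L)‖ :=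
      Finset.single_le_sum (f := fun φ : L →+* ℂ => ∑ j, ‖φ (θ j : L)‖)
        (fun _ _ => Finset.sum_nonneg fun _ _ => norm_nonneg _) (Finset.mem_univ φ)
    linarith
  have hK2s : ∀ φ, K2 φ ≤ ∑ φ, K2 φ := fun φ =>
    Finset.single_le_sum (fun φ _ => (hK20 φ).le) (Finset.mem_univ φ)
  have hK2n : 0 ≤ ∑ φ, K2 φ := Finset.sum_nonneg fun φ _ => (hK20 φ).le
  obtain ⟨A, hA⟩ : ∃ A : ℝ, A = (C + 1) * (A0 + 1) + K1⁻¹ + C * (C + 1) / K1 ^ 2 +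
    2 * ∑ φ, K2 φ := ⟨_, rfl⟩
  have hC0 : (0 : ℝ) ≤ C := Nat.cast_nonneg C
  have p1 : 0 < K1⁻¹ := by positivity
  have p2 : 0 ≤ C * (C + 1) / K1 ^ 2 := by positivity
  have p3 : A0 + 1 ≤ (C + 1) * (A0 + 1) := by nlinarith
  have hAA0 : A0 + 1 ≤ A := by linarith
  have hAC : (C + 1) * (A0 + 1) ≤ A := by linarith
  refine ⟨A, by linarith, fun φ j => (hθ φ j).trans (by linarith), ?_, ?_⟩
  · intro φ g M hM0 hM
    have h1 : ∀ k, |(g k : ℝ)| ≤ (∑ φ, K2 φ) * M := by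
      intro k
      have h2 := hK2 φ g 0 1 0 M (by
        intro j
        have h3 : ((1 : ℝ) : ℂ) * (φ.comp (algebraMap (𝓞 L) L)) (K.ell (θ j) g) -
            ((0 : ℝ) : ℂ) * (φ.comp (algebraMap (𝓞 L) L)) (K.ell (θ j) (0 : Fin 4 → ℤ)) = cf θ φ g j := by
          rw [Complex.ofReal_one, Complex.ofReal_zero, one_mul, zero_mul, sub_zero]
          rfl
        rw [h3]
        exact hM j) k
      have h4 : |(1 : ℝ) * g k - 0 * ((0 : Fin 4 → ℤ) k : ℝ)| = |(g k : ℝ)| := by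
        congr 1
        ring
      rw [h4] at h2
      exact h2.trans (mul_le_mul_of_nonneg_right (hK2s φ) hM0)
    have h5 : (dot g g : ℝ) ≤ ∑ _k : Fin 4, ((∑ φ, K2 φ) * M) ^ 2 := by
      unfold dot
      push_cast
      refine Finset.sum_le_sum fun k _ => ?_
      rw [← pow_two, ← sq_abs]
      exact pow_le_pow_left₀ (abs_nonneg _) (h1 k) 2
    refine h5.trans ?_
    rw [Finset.sum_const, Finset.card_univ, Fintype.card_fin, nsmul_eq_mul]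
    have h6 : 2 * ((∑ φ, K2 φ) * M) ≤ A * M := by
      have : 2 * ∑ φ, K2 φ ≤ A := by
        have : 0 ≤ (C + 1) * (A0 + 1) := by positivity
        linarith
      nlinarith
    have h7 : 0 ≤ (∑ φ, K2 φ) * M := by positivity
    have h8 := pow_le_pow_left₀ (by positivity) h6 2
    push_cast
    nlinarith
  · intro X T N p c y z hT hX hd hlow φ j
    have hX0 : 0 < X := by linarith
    have hAp : 0 < A := by linarith
    have hT0 : 0 < T := by linarith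
    have hc1 : (1 : ℝ) ≤ |(c : ℝ)| := by exact_mod_cast Int.one_le_abs hd.c0
    have hcC : |(c : ℝ)| ≤ C := by exact_mod_cast hd.cC
    have hC1 : (1 : ℝ) ≤ C := hc1.trans hcC
    have hN1 : X / C ≤ |(N : ℝ)| := by
      rw [div_le_iff₀ (by linarith)]
      linarith
    have hNA : A0 + 1 ≤ |(N : ℝ)| := by
      refine le_trans ?_ hN1
      rw [le_div_iff₀ (by linarith)]
      nlinarith
    have hN0 : (N : ℝ) ≠ 0 := by
      intro h
      rw [h, abs_zero] at hNA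
      linarith
    have hNz : N ≠ 0 := by exact_mod_cast hN0
    obtain ⟨hp1, hp2⟩ := hK1 X T N p c y z hT hd φ j
    have hpi : φ ((K.ell (θ j) y : 𝓞 L) : L) ≠ 0 := by
      intro h
      rw [h, norm_zero] at hp1
      have : 0 < K1 * T := by positivity
      linarith
    have heq : (c : ℂ) * ((N : ℂ) - φ (θ j : L)) =
        φ ((K.ell (θ j) y : 𝓞 L) : L) ^ 2 * φ ((K.ell (θ j) z : 𝓞 L) : L) := by
      have := congrArg (fun x : 𝓞 L => φ (x : L)) (hd.eqn j)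
      simpa using this
    have hsub : 1 ≤ ‖(N : ℂ) - φ (θ j : L)‖ := by
      have h1 := norm_sub_norm_le (N : ℂ) (φ (θ j : L))
      rw [Complex.norm_intCast] at h1
      have h2 := hθ φ j
      linarith
    have hsub2 : ‖(N : ℂ) - φ (θ j : L)‖ ≤ (C + 1) * X := by
      have h1 := norm_sub_le (N : ℂ) (φ (θ j : L))
      rw [Complex.norm_intCast] at h1
      have h2 := hθ φ j
      have h3 := hd.hN
      linarith
    refine ⟨hNz, ?_, ?_, ?_, ?_⟩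
    · rw [norm_inv, Complex.norm_intCast]
      rw [inv_le_comm₀ (by positivity) (by positivity), inv_div]
      refine le_trans ?_ hN1
      refine div_le_div_of_nonneg_left hX0.le (by linarith) ?_
      nlinarith
    · refine hp2.trans ?_
      refine mul_le_mul_of_nonneg_right ?_ hT0.le
      linarith
    · intro h
      rw [h, mul_zero] at heq
      rcases mul_eq_zero.1 heq with h1 | h1
      · exact hd.c0 (by exact_mod_cast h1)
      · rw [h1, norm_zero] at hsub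
        linarith
    · have h1 := congrArg norm heq
      rw [norm_mul, norm_mul, norm_pow, Complex.norm_intCast] at h1
      have h2 : |(c : ℝ)| * ‖(N : ℂ) - φ (θ j : L)‖ ≤ C * ((C + 1) * X) :=
        mul_le_mul hcC hsub2 (norm_nonneg _) (by linarith)
      have h3 : (K1 * T) ^ 2 ≤ ‖φ ((K.ell (θ j) y : 𝓞 L) : L)‖ ^ 2 :=
        pow_le_pow_left₀ (by positivity) hp1 2
      have h4 : (K1 * T) ^ 2 * ‖φ ((K.ell (θ j) z : 𝓞 L) : L)‖ ≤ C * ((C + 1) * X) := by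
        refine le_trans ?_ h2
        rw [h1]
        exact mul_le_mul_of_nonneg_right h3 (norm_nonneg _)
      have h5 : ‖φ ((K.ell (θ j) z : 𝓞 L) : L)‖ ≤ C * ((C + 1) * X) / (K1 * T) ^ 2 := by
        rw [le_div_iff₀ (by positivity)]
        linarith
      refine h5.trans ?_
      have h6 : C * ((C + 1) * X) / (K1 * T) ^ 2 = (C * (C + 1) / K1 ^ 2) * (X / T ^ 2) := by
        field_simp
      rw [h6]
      refine mul_le_mul_of_nonneg_right ?_ (by positivity)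
      linarith

/-- the entries in a cell, for one embedding `φ` and one sign class.
Proof.  Put `α_j = φ θ_j`, `d_j = cf g1 j + w0 cf g2 j` (`≠ 0`, otherwise `z_j = 0`),
`a_j = cf g2 j / d_j`, `a_* = max |a_j| > 0`, `w_N = u2/u1 - w0`, `ω = a_* w_N` (`|ω| ≤ ρ`),
`b_j = a_j / a_*`, `v = 1/N`.  Then `z_j = u1 d_j (1 + b_j ω)` and
`π_j^2 = (c N/u1) d_j^(-1) (1 - α_j v) (1 + b_j ω)^(-1)`, so
`π_j = s_j r_N h_j sq(-α_j v) isq(b_j ω)` with `r_N^2 = c N/u1`, `h_j^2 = 1/d_j`, `s_j = ±1`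
(the sign class of `N`).  The entry is
`u1^i (w0 + ω/a_*)^(a2) r_N^(2m) ∏ (s_j h_j)^(e_j) ∏ sq(-α_j v)^(e_j) ∏ isq(b_j ω)^(e_j)`.
Let `U1 = max |u1|`, `R1 = max |r_N|` over the class; `R1 |h_j| ≤ K T`, `U1 ≤ U`, `U1 |w0| ≤ K U`,
`U1/a_* ≤ K U` (because `|u1|/a_* = min_j |u1 d_j|/|cf g2 j| ≤ 2 min_j |z_j|/|cf g2 j|
≤ K (X/T^2)/|g2|` and `hU`).  Row factor `(u1/U1)^i (r_N/R1)^(2m)`; `entry_expand` with
`x0 = U1 w0/U`, `x1 = U1/(a_* U)` and the factor `U1^(a1) U^(a2) R1^(2m) ∏ (s_j h_j)^(e_j)`,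
which is `≤ K U^i T^(2m)`. -/
theorem entries {L : Type} [Field L] [NumberField L] (θ : Fin 4 → 𝓞 L) (G : ℤ[X])
    (hG : Root4 θ G) (C i m R : ℕ) :
    ∃ K : ℝ, 1 ≤ K ∧ ∀ (X T U ρ : ℝ), 1 ≤ T → K ≤ X → 0 < ρ → ρ ≤ 1 / 2 → 1 ≤ U →
      ∀ (c : ℤ) (g1 g2 : Fin 4 → ℤ) (w0 : ℝ) (S : Finset ℤ) (p : ℤ → ℕ)
        (y : ℤ → Fin 4 → ℤ) (u1 u2 : ℤ → ℤ), Cell θ C X T U ρ c g1 g2 w0 S p y u1 u2 →
      ∀ φ : L →+* ℂ, ∃ (sg : ℤ → Fin 4 → ℤˣ), ∀ s : Fin 4 → ℤˣ,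
        ∃ (co : Ix → ℕ → ℕ → ℂ) (rr v ω : ℤ → ℂ),
          (∀ x ∈ mons i (2 * m), ∀ τ k, ‖co x τ k‖ ≤ K * (U ^ i * T ^ (2 * m))) ∧
          ∀ N ∈ S, sg N = s → ‖rr N‖ ≤ 1 ∧ ‖v N‖ ≤ K / X ∧ ‖ω N‖ ≤ ρ ∧
            ∀ x ∈ mons i (2 * m),
              ∃ er : ℂ, ‖er‖ ≤ K * (U ^ i * T ^ (2 * m)) * (‖v N‖ ^ R + ‖ω N‖ ^ R) ∧
              φ ((fv ((u1 N : ℤ) : 𝓞 L) ((u2 N : ℤ) : 𝓞 L) (pv θ (y N)) x : 𝓞 L) : L) =
                rr N * (∑ τ ∈ Finset.range R, ∑ k ∈ Finset.range R,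
                  co x τ k * v N ^ τ * ω N ^ k + er) := by
  classical
  obtain ⟨A, hA1, hAθ, hAd, hAs⟩ := ent_sizes θ hG.inj C
  have hC0 : (0 : ℝ) ≤ C := Nat.cast_nonneg C
  obtain ⟨A', hA'⟩ : ∃ A' : ℝ, A' = (C + 1) * A := ⟨_, rfl⟩
  have hAA' : A ≤ A' := by rw [hA']; nlinarith
  have hA'1 : 1 ≤ A' := hA1.trans hAA'
  obtain ⟨Kc, hKc, hcore⟩ := ent_core R i m A' hA'1
  have hp : 0 ≤ 4 * A' ^ 2 * A := by positivity
  refine ⟨Kc + 4 * A' ^ 2 * A + A, by linarith, ?_⟩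
  intro X T U ρ hT hX hρ hρ2 hU c g1 g2 w0 S p y u1 u2 hcell φ
  have hX0 : 0 < X := by linarith
  have hT0 : 0 < T := by linarith
  have hU0 : 0 < U := by linarith
  have hUT : 0 ≤ U ^ i * T ^ (2 * m) := by positivity
  rcases S.eq_empty_or_nonempty with hSe | ⟨N0, hN0⟩
  · refine ⟨fun _ _ => 1, fun s => ⟨fun _ _ _ => 0, fun _ => 0, fun _ => 0, fun _ => 0, ?_, ?_⟩⟩
    · intro x _ τ k
      rw [norm_zero]
      exact mul_nonneg (by linarith) hUT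
    · intro N hN
      rw [hSe] at hN
      exact absurd hN (Finset.notMem_empty _)
  obtain ⟨j0, -, hj0⟩ := Finset.exists_max_image (Finset.univ : Finset (Fin 4))
    (fun j => ‖cf θ φ g2 j‖) Finset.univ_nonempty
  have hB : X / T ^ 2 ≤ A' * U * ‖cf θ φ g2 j0‖ := by
    have h1 := hAd φ g2 ‖cf θ φ g2 j0‖ (norm_nonneg _) fun j => hj0 j (Finset.mem_univ j)
    have h2 : (X / T ^ 2) ^ 2 ≤ (A' * U * ‖cf θ φ g2 j0‖) ^ 2 := by
      calc (X / T ^ 2) ^ 2 ≤ C * U ^ 2 * dot g2 g2 := hcell.hU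
        _ ≤ C * U ^ 2 * (A * ‖cf θ φ g2 j0‖) ^ 2 :=
            mul_le_mul_of_nonneg_left h1 (by positivity)
        _ ≤ (C + 1) ^ 2 * U ^ 2 * (A * ‖cf θ φ g2 j0‖) ^ 2 := by
            refine mul_le_mul_of_nonneg_right ?_ (by positivity)
            refine mul_le_mul_of_nonneg_right ?_ (by positivity)
            nlinarith
        _ = (A' * U * ‖cf θ φ g2 j0‖) ^ 2 := by rw [hA']; ring
    exact (pow_le_pow_iff_left₀ (by positivity) (by positivity) (by norm_num)).1 h2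
  have hc0 : (c : ℂ) ≠ 0 := by
    have := (hcell.dat N0 hN0).dat.c0
    exact_mod_cast this
  obtain ⟨sg, hsg⟩ := hcore T U ρ hT hρ hρ2 hU (fun j => φ (θ j : L)) (cf θ φ g1) (cf θ φ g2)
    (c : ℂ) w0 (X / T ^ 2) S u1 u2 (fun N j => φ ((pv θ (y N) j : 𝓞 L) : L)) j0 hc0
    (fun j => (hAθ φ j).trans hAA') (by positivity) hB (by
      intro N hN
      have hb := hcell.dat N hN
      have hz : ∀ j, φ ((K.ell (θ j) (fun j => u1 N * g1 j + u2 N * g2 j) : 𝓞 L) : L) =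
          (u1 N : ℂ) * cf θ φ g1 j + u2 N * cf θ φ g2 j := by
        intro j
        rw [ent_ell]
        simp [cf]
      have hs := fun j => hAs X T N (p N) c (y N) _ hT (by linarith) hb.dat hb.lowN φ j
      refine ⟨(hs 0).1, hb.u10, hb.hu1, hb.hu2, ?_, fun j => ?_⟩
      · refine (hs 0).2.1.trans ?_
        rw [div_le_div_iff₀ hX0 (by positivity)]
        linarith
      · obtain ⟨-, -, s1, s2, s3⟩ := hs j
        rw [hz] at s2 s3
        refine ⟨s1.trans (mul_le_mul_of_nonneg_right hAA' hT0.le), s2,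
          s3.trans (mul_le_mul_of_nonneg_right hAA' (by positivity)), ?_, hcell.cell N hN φ j⟩
        have := congrArg (fun x : 𝓞 L => φ (x : L)) (hb.dat.eqn j)
        simp only [map_mul, map_sub, map_pow, map_intCast] at this
        rw [hz] at this
        simpa [pv] using this)
  refine ⟨sg, fun s => ?_⟩
  obtain ⟨co, rr, ω, h1, h2⟩ := hsg s
  have hK0 : Kc * (U ^ i * T ^ (2 * m)) ≤ (Kc + 4 * A' ^ 2 * A + A) * (U ^ i * T ^ (2 * m)) :=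
    mul_le_mul_of_nonneg_right (by linarith) hUT
  refine ⟨co, rr, fun N => (N : ℂ)⁻¹, ω, fun x hx τ k => (h1 x hx τ k).trans hK0, ?_⟩
  intro N hN hs
  obtain ⟨h3, h4, h5⟩ := h2 N hN hs
  have hb := hcell.dat N hN
  refine ⟨h3, ?_, h4, fun x hx => ?_⟩
  · refine (hAs X T N (p N) c (y N) _ hT (by linarith) hb.dat hb.lowN φ 0).2.1.trans ?_
    exact div_le_div_of_nonneg_right (by linarith) hX0.le
  · obtain ⟨er, h6, h7⟩ := h5 x hx
    refine ⟨er, h6.trans (mul_le_mul_of_nonneg_right hK0 (by positivity)), ?_⟩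
    rw [← h7]
    simp [fv, map_prod]

end Vale.Agent.P018.QB
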