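import Mathlib
import Vale.Agent.P018.DetBound

/-! # P018, (B), relation step: the determinant bound. -/

namespace Vale.Agent.P018.QB

open NumberField

/-- complex version of `det_bound`. -/
theorem det_bound_complex {J T : Type*} [Fintype J] [DecidableEq J] [Fintype T] [DecidableEq T]
    (A : J → T → ℂ) (B : T → J → ℂ) (α : T → ℝ) (β Γ : ℝ)
    (hA : ∀ i t, ‖A i t‖ ≤ α t) (hB : ∀ t j, ‖B t j‖ ≤ β) (hβ : 0 ≤ β) (hΓ0 : 0 ≤ Γ)
    (hΓ : ∀ φ : J → T, Function.Injective φ → ∏ j, α (φ j) ≤ Γ) :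
    ‖(Matrix.of fun i j => ∑ t, A i t * B t j).det‖ ≤
      (Fintype.card T : ℝ) ^ (Fintype.card J) *
        (β ^ (Fintype.card J) * ((Fintype.card J).factorial * Γ)) := by
  rw [det_expand]
  refine (norm_sum_le _ _).trans ?_
  have hcard : (Fintype.card T : ℝ) ^ (Fintype.card J) = (Finset.univ : Finset (J → T)).card := by
    simp [Finset.card_univ]
  rw [hcard, ← nsmul_eq_mul, ← Finset.sum_const]
  refine Finset.sum_le_sum fun φ _ => ?_
  rw [norm_mul]
  have hprodB : ‖∏ j, B (φ j) j‖ ≤ β ^ (Fintype.card J) := by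
    rw [norm_prod]
    calc ∏ j, ‖B (φ j) j‖ ≤ ∏ _j : J, β :=
          Finset.prod_le_prod (fun _ _ => norm_nonneg _) (fun j _ => hB _ _)
      _ = β ^ (Fintype.card J) := by simp
  have hdet : ‖(Matrix.of fun i j => A i (φ j)).det‖ ≤ (Fintype.card J).factorial * Γ := by
    by_cases hinj : Function.Injective φ
    · rw [Matrix.det_apply]
      refine (norm_sum_le _ _).trans ?_
      have hperm : ((Fintype.card J).factorial : ℝ) = (Finset.univ : Finset (Equiv.Perm J)).card := by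
        rw [Finset.card_univ, Fintype.card_perm]
      rw [hperm, ← nsmul_eq_mul, ← Finset.sum_const]
      refine Finset.sum_le_sum fun σ _ => ?_
      have h3 : ‖Equiv.Perm.sign σ • ∏ i, (Matrix.of fun i j => A i (φ j)) (σ i) i‖ =
          ∏ i, ‖A (σ i) (φ i)‖ := by
        rcases Int.units_eq_one_or (Equiv.Perm.sign σ) with h | h
        · simp [h, norm_prod]
        · simp [h, norm_prod]
      rw [h3]
      calc ∏ i, ‖A (σ i) (φ i)‖ ≤ ∏ i, α (φ i) :=
            Finset.prod_le_prod (fun _ _ => norm_nonneg _) (fun i _ => hA _ _)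
        _ ≤ Γ := hΓ φ hinj
    · rw [det_zero_of_not_injective A φ hinj]
      simpa using mul_nonneg (Nat.cast_nonneg _) hΓ0
  exact mul_le_mul hprodB hdet (norm_nonneg _) (pow_nonneg hβ _)

/-- determinants of matrices whose entries are short Taylor polynomials in `(v, ω)` plus an error
(expand with `det_expand`, the errors are treated as additional monomials). -/
theorem det_small {J : Type} [Fintype J] [DecidableEq J] (R : ℕ) (M : Matrix J J ℂ)
    (rw' : J → ℂ) (cf : J → ℕ → ℕ → ℂ) (e : J → J → ℂ) (v ω : J → ℂ) (Bd Er V W Γ : ℝ)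
    (hM : ∀ k m, M k m = rw' k * (∑ τ ∈ Finset.range R, ∑ l ∈ Finset.range R,
      cf m τ l * v k ^ τ * ω k ^ l + e k m))
    (hrw : ∀ k, ‖rw' k‖ ≤ 1) (hcf : ∀ m τ l, ‖cf m τ l‖ ≤ Bd) (he : ∀ k m, ‖e k m‖ ≤ Bd * Er)
    (hv : ∀ k, ‖v k‖ ≤ V) (hω : ∀ k, ‖ω k‖ ≤ W) (hV0 : 0 ≤ V) (hW0 : 0 ≤ W) (hV : V ≤ 1)
    (hW : W ≤ 1) (hEr0 : 0 ≤ Er) (hEr : Er ≤ Γ) (hΓ1 : Er ≤ 1)
    (hΓ : ∀ S : Finset (ℕ × ℕ), S.card = Fintype.card J → ∏ s ∈ S, (V ^ s.1 * W ^ s.2) ≤ Γ) :
    ‖M.det‖ ≤ ((R : ℝ) ^ 2 + Fintype.card J) ^ Fintype.card J *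
      ((Fintype.card J).factorial * (Bd ^ Fintype.card J * Γ)) := by
  have hΓ0 : 0 ≤ Γ := hEr0.trans hEr
  rcases isEmpty_or_nonempty J with hJ | hJ
  · have h1 := hΓ ∅ (by simp)
    simp only [Finset.prod_empty] at h1
    simpa using h1
  obtain ⟨j0⟩ := hJ
  have hBd0 : 0 ≤ Bd := (norm_nonneg _).trans (hcf j0 0 0)
  rcases hBd0.eq_or_lt with hBd | hBd
  · have hM0 : M = 0 := by
      ext k m
      have h1 : e k m = 0 := by
        have := he k m
        rw [← hBd, zero_mul] at this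
        exact norm_le_zero_iff.1 this
      have h2 : ∀ τ l, cf m τ l = 0 := fun τ l => by
        have := hcf m τ l
        rw [← hBd] at this
        exact norm_le_zero_iff.1 this
      rw [hM, h1]
      simp [h2]
    have : Nonempty J := ⟨j0⟩
    rw [hM0, Matrix.det_zero, norm_zero]
    positivity
  -- the main case
  let T := (Fin R × Fin R) ⊕ J
  let A : J → T → ℂ := fun k t => Sum.elim (fun p => rw' k * (v k ^ (p.1 : ℕ) * ω k ^ (p.2 : ℕ)))
    (fun j => rw' k * (e k j / Bd)) t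
  let B : T → J → ℂ := fun t m => Sum.elim (fun p => cf m (p.1 : ℕ) (p.2 : ℕ))
    (fun j => if j = m then (Bd : ℂ) else 0) t
  let α : T → ℝ := fun t => Sum.elim (fun p => V ^ (p.1 : ℕ) * W ^ (p.2 : ℕ)) (fun _ => Er) t
  have hBdC : (Bd : ℂ) ≠ 0 := by exact_mod_cast hBd.ne'
  have hMe : M = Matrix.of fun i j => ∑ t, A i t * B t j := by
    ext k m
    rw [hM, Matrix.of_apply, Fintype.sum_sum_type]
    simp only [A, B, Sum.elim_inl, Sum.elim_inr]
    have e1 : ∑ x : Fin R × Fin R, rw' k * (v k ^ (x.1 : ℕ) * ω k ^ (x.2 : ℕ)) *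
        cf m (x.1 : ℕ) (x.2 : ℕ) = rw' k * ∑ τ ∈ Finset.range R, ∑ l ∈ Finset.range R,
          cf m τ l * v k ^ τ * ω k ^ l := by
      rw [Fintype.sum_prod_type, Finset.mul_sum, Finset.sum_range]
      refine Finset.sum_congr rfl fun τ _ => ?_
      rw [Finset.mul_sum, Finset.sum_range]
      refine Finset.sum_congr rfl fun l _ => ?_
      ring
    have e2 : ∑ x : J, rw' k * (e k x / Bd) * (if x = m then (Bd : ℂ) else 0) =
        rw' k * e k m := by
      rw [Finset.sum_eq_single m]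
      · rw [if_pos rfl]
        field_simp
      · intro b _ hb
        rw [if_neg hb, mul_zero]
      · intro h
        exact absurd (Finset.mem_univ _) h
    rw [e1, e2]
    ring
  have hα0 : ∀ t, 0 ≤ α t := by
    rintro (t | t)
    · simp only [α, Sum.elim_inl]
      positivity
    · simpa only [α, Sum.elim_inr] using hEr0
  have hα1 : ∀ t, α t ≤ 1 := by
    rintro (t | t)
    · simp only [α, Sum.elim_inl]
      exact mul_le_one₀ (pow_le_one₀ hV0 hV) (by positivity) (pow_le_one₀ hW0 hW)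
    · simpa only [α, Sum.elim_inr] using hΓ1
  have hA : ∀ i t, ‖A i t‖ ≤ α t := by
    rintro i (t | t)
    · simp only [A, α, Sum.elim_inl]
      rw [norm_mul, norm_mul, norm_pow, norm_pow]
      calc ‖rw' i‖ * (‖v i‖ ^ (t.1 : ℕ) * ‖ω i‖ ^ (t.2 : ℕ)) ≤
          1 * (V ^ (t.1 : ℕ) * W ^ (t.2 : ℕ)) := by
            refine mul_le_mul (hrw i) ?_ (by positivity) zero_le_one
            exact mul_le_mul (pow_le_pow_left₀ (norm_nonneg _) (hv i) _)
              (pow_le_pow_left₀ (norm_nonneg _) (hω i) _) (by positivity) (by positivity)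
        _ = _ := one_mul _
    · simp only [A, α, Sum.elim_inr]
      rw [norm_mul, norm_div, Complex.norm_real, Real.norm_eq_abs, abs_of_pos hBd]
      calc ‖rw' i‖ * (‖e i t‖ / Bd) ≤ 1 * Er := by
            refine mul_le_mul (hrw i) ?_ (by positivity) zero_le_one
            rw [div_le_iff₀ hBd, mul_comm]
            exact he i t
        _ = Er := one_mul _
  have hB : ∀ t j, ‖B t j‖ ≤ Bd := by
    rintro (t | t) j
    · simp only [B, Sum.elim_inl]
      exact hcf _ _ _
    · simp only [B, Sum.elim_inr]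
      split_ifs
      · rw [Complex.norm_real, Real.norm_eq_abs, abs_of_pos hBd]
      · rw [norm_zero]
        exact hBd.le
  have hprod : ∀ φ : J → T, Function.Injective φ → ∏ j, α (φ j) ≤ Γ := by
    intro φ hφ
    by_cases hinr : ∃ j, ∃ i, φ j = Sum.inr i
    · obtain ⟨j, i, hi⟩ := hinr
      rw [← Finset.mul_prod_erase _ _ (Finset.mem_univ j)]
      have h1 : α (φ j) = Er := by rw [hi]; simp only [α, Sum.elim_inr]
      have h2 : ∏ x ∈ Finset.univ.erase j, α (φ x) ≤ 1 :=
        Finset.prod_le_one (fun x _ => hα0 _) (fun x _ => hα1 _)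
      rw [h1]
      calc Er * ∏ x ∈ Finset.univ.erase j, α (φ x) ≤ Er * 1 :=
            mul_le_mul_of_nonneg_left h2 hEr0
        _ ≤ Γ := by rw [mul_one]; exact hEr
    · have hl : ∀ j, ∃ p : Fin R × Fin R, φ j = Sum.inl p := by
        intro j
        rcases hj : φ j with p | i
        · exact ⟨p, rfl⟩
        · exact absurd ⟨j, i, hj⟩ hinr
      choose p hp using hl
      have hpinj : Function.Injective (fun j => (((p j).1 : ℕ), ((p j).2 : ℕ))) := by
        intro a b hab
        simp only [Prod.mk.injEq] at hab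
        apply hφ
        rw [hp a, hp b]
        congr 1
        exact Prod.ext (Fin.ext hab.1) (Fin.ext hab.2)
      have h3 := hΓ (Finset.univ.image (fun j => (((p j).1 : ℕ), ((p j).2 : ℕ)))) (by
        rw [Finset.card_image_of_injective _ hpinj, Finset.card_univ])
      rw [Finset.prod_image (fun x _ y _ h => hpinj h)] at h3
      refine le_trans (le_of_eq ?_) h3
      refine Finset.prod_congr rfl fun j _ => ?_
      rw [hp j]
      simp only [α, Sum.elim_inl]
  have hmain := det_bound_complex A B α Bd Γ hA hB hBd0 hΓ0 hprod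
  rw [← hMe] at hmain
  refine hmain.trans (le_of_eq ?_)
  have hcT : (Fintype.card T : ℝ) = (R : ℝ) ^ 2 + Fintype.card J := by
    simp only [T, Fintype.card_sum, Fintype.card_prod, Fintype.card_fin]
    push_cast
    ring
  rw [hcT]
  ring

/-- an algebraic integer all of whose conjugates are `< 1` vanishes. -/
theorem zero_of_conj {L : Type} [Field L] [NumberField L] (x : 𝓞 L)
    (h : ∀ φ : L →+* ℂ, ‖φ x‖ < 1) : x = 0 := by
  by_contra hx
  have hxL : (x : L) ≠ 0 := by
    intro h0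
    exact hx (by exact_mod_cast h0)
  have h1 : (Algebra.norm ℤ x : ℚ) = Algebra.norm ℚ (x : L) := Algebra.coe_norm_int x
  have h2 : Algebra.norm ℚ (x : L) ≠ 0 := Algebra.norm_ne_zero_iff.2 hxL
  have h3 := Algebra.norm_eq_prod_embeddings ℚ ℂ (x : L)
  have h4 : ‖(algebraMap ℚ ℂ) (Algebra.norm ℚ (x : L))‖ < 1 := by
    rw [h3, norm_prod]
    have hne : (Finset.univ : Finset (L →ₐ[ℚ] ℂ)).Nonempty := by
      rw [Finset.univ_nonempty_iff, ← Fintype.card_pos_iff, AlgHom.card]
      exact Module.finrank_pos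
    calc ∏ σ : L →ₐ[ℚ] ℂ, ‖σ (x : L)‖ < ∏ _σ : L →ₐ[ℚ] ℂ, (1 : ℝ) := by
          refine Finset.prod_lt_prod_of_nonempty (fun σ _ => ?_) (fun σ _ => ?_) hne
          · rw [norm_pos_iff]
            exact (map_ne_zero σ).2 hxL
          · exact h σ.toRingHom
      _ = 1 := by simp
  rw [← h1] at h4 h2
  have h5 : ‖(algebraMap ℚ ℂ) ((Algebra.norm ℤ x : ℤ) : ℚ)‖ = |((Algebra.norm ℤ x : ℤ) : ℝ)| := by
    simp
  rw [h5] at h4
  have h6 : Algebra.norm ℤ x ≠ 0 := by exact_mod_cast h2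
  have h7 : (1 : ℝ) ≤ |((Algebra.norm ℤ x : ℤ) : ℝ)| := by
    exact_mod_cast Int.one_le_abs h6
  linarith

end Vale.Agent.P018.QB
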