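import Mathlib

/-! # P018, (B): dimension count for the functions on the surface, in `ℂ[w][n]`. -/

namespace Vale.Agent.P018.QB.Surf

open Polynomial Module

/-- the span of the `X ^ a * q ^ f`, `a ≤ i`, `|f| = M`. -/
noncomputable def U (q : Fin 3 → ℂ[X]) (M i : ℕ) : Submodule ℂ ℂ[X] :=
  Submodule.span ℂ {F | ∃ (a : ℕ) (f : Fin 3 → ℕ), a ≤ i ∧ ∑ j, f j = M ∧
    F = X ^ a * ∏ j, q j ^ f j}

theorem U_mul (q : Fin 3 → ℂ[X]) (M i : ℕ) (j : Fin 3) {F : ℂ[X]} (hF : F ∈ U q M i) :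
    q j * F ∈ U q (M + 1) i := by
  induction hF using Submodule.span_induction with
  | mem F h =>
    obtain ⟨a, f, ha, hf, rfl⟩ := h
    refine Submodule.subset_span ⟨a, Function.update f j (f j + 1), ha, ?_, ?_⟩
    · rw [Finset.sum_update_of_mem (Finset.mem_univ j), ← hf,
        ← Finset.add_sum_erase _ _ (Finset.mem_univ j), Finset.sdiff_singleton_eq_erase]
      ring
    · rw [← Finset.mul_prod_erase Finset.univ _ (Finset.mem_univ j),
        ← Finset.mul_prod_erase Finset.univ (fun k => q k ^ Function.update f j (f j + 1) k)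
        (Finset.mem_univ j)]
      have : ∏ x ∈ Finset.univ.erase j, q x ^ Function.update f j (f j + 1) x =
          ∏ x ∈ Finset.univ.erase j, q x ^ f x :=
        Finset.prod_congr rfl fun x hx => by
          rw [Function.update_of_ne (Finset.ne_of_mem_erase hx)]
      rw [this, Function.update_self]
      ring
  | zero => simp
  | add F G _ _ h1 h2 => rw [mul_add]; exact add_mem h1 h2
  | smul c F _ h => rw [mul_smul_comm]; exact Submodule.smul_mem _ _ h

theorem X_pow_mem_U (q : Fin 3 → ℂ[X])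
    (hq : ∀ k ≤ 2, (X : ℂ[X]) ^ k ∈ Submodule.span ℂ (Set.range q)) (M i : ℕ) :
    ∀ k ≤ 2 * M + i, (X : ℂ[X]) ^ k ∈ U q M i := by
  induction M with
  | zero =>
    intro k hk
    exact Submodule.subset_span ⟨k, 0, by omega, by simp, by simp⟩
  | succ M ih =>
    intro k hk
    obtain ⟨k1, k2, h1, h2, rfl⟩ : ∃ k1 k2, k1 ≤ 2 * M + i ∧ k2 ≤ 2 ∧ k = k1 + k2 :=
      ⟨min k (2 * M + i), k - min k (2 * M + i), by omega, by omega, by omega⟩
    obtain ⟨c, hc⟩ := (Submodule.mem_span_range_iff_exists_fun ℂ).mp (hq k2 h2)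
    rw [pow_add, ← hc, Finset.mul_sum]
    refine Submodule.sum_mem _ fun j _ => ?_
    rw [mul_smul_comm, mul_comm]
    exact Submodule.smul_mem _ _ (U_mul q M i j (ih k1 h1))

theorem quad {a1 a2 a3 b1 b2 b3 c1 c2 c3 : ℂ} (h12 : a1 * b2 ≠ a2 * b1) (h13 : a1 * b3 ≠ a3 * b1)
    (h23 : a2 * b3 ≠ a3 * b2) (h1 : c1 ≠ 0) (h2 : c2 ≠ 0) (h3 : c3 ≠ 0) {k : ℕ} (hk : k ≤ 2) :
    (X : ℂ[X]) ^ k ∈ Submodule.span ℂ (Set.range
      ![C c1 * ((C a2 + C b2 * X) * (C a3 + C b3 * X)),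
        C c2 * ((C a1 + C b1 * X) * (C a3 + C b3 * X)),
        C c3 * ((C a1 + C b1 * X) * (C a2 + C b2 * X))]) := by
  rw [Submodule.mem_span_range_iff_exists_fun]
  have d12 : a2 * b1 - a1 * b2 ≠ 0 := fun h => h12 (by linear_combination -h)
  have d13 : a3 * b1 - a1 * b3 ≠ 0 := fun h => h13 (by linear_combination -h)
  have d23 : a3 * b2 - a2 * b3 ≠ 0 := fun h => h23 (by linear_combination -h)
  set D12 := a2 * b1 - a1 * b2 with e12
  set D13 := a3 * b1 - a1 * b3 with e13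
  set D23 := a3 * b2 - a2 * b3 with e23
  refine ⟨![c1⁻¹ * (D12⁻¹ * D13⁻¹ * (b1 ^ (2 - k) * (-a1) ^ k)),
    c2⁻¹ * (-(D12⁻¹ * D23⁻¹ * (b2 ^ (2 - k) * (-a2) ^ k))),
    c3⁻¹ * (D13⁻¹ * D23⁻¹ * (b3 ^ (2 - k) * (-a3) ^ k))], ?_⟩
  have key : C (D12 * D13 * D23) * (X : ℂ[X]) ^ k =
      C (D23 * (b1 ^ (2 - k) * (-a1) ^ k)) * ((C a2 + C b2 * X) * (C a3 + C b3 * X)) -
      C (D13 * (b2 ^ (2 - k) * (-a2) ^ k)) * ((C a1 + C b1 * X) * (C a3 + C b3 * X)) +
      C (D12 * (b3 ^ (2 - k) * (-a3) ^ k)) * ((C a1 + C b1 * X) * (C a2 + C b2 * X)) := by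
    interval_cases k <;>
    · simp only [e12, e13, e23, C_mul, C_sub, C_neg, C_pow]
      norm_num
      ring
  have hD : D12 * D13 * D23 ≠ 0 := mul_ne_zero (mul_ne_zero d12 d13) d23
  have hCD : C (D12 * D13 * D23) ≠ (0 : ℂ[X]) := C_ne_zero.mpr hD
  apply mul_left_cancel₀ hCD
  rw [key, Fin.sum_univ_three]
  simp only [Matrix.cons_val_zero, Matrix.cons_val_one, Matrix.cons_val, smul_eq_C_mul]
  have f1 : C (D12 * D13 * D23) * (C (c1⁻¹ * (D12⁻¹ * D13⁻¹ * (b1 ^ (2 - k) * (-a1) ^ k))) * C c1) =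
      (C (D23 * (b1 ^ (2 - k) * (-a1) ^ k)) : ℂ[X]) := by
    rw [← C_mul, ← C_mul]
    congr 1
    field_simp
  have f2 : C (D12 * D13 * D23) * (C (c2⁻¹ * (-(D12⁻¹ * D23⁻¹ * (b2 ^ (2 - k) * (-a2) ^ k)))) *
      C c2) = (-C (D13 * (b2 ^ (2 - k) * (-a2) ^ k)) : ℂ[X]) := by
    rw [← C_mul, ← C_mul, ← C_neg]
    congr 1
    field_simp
  have f3 : C (D12 * D13 * D23) * (C (c3⁻¹ * (D13⁻¹ * D23⁻¹ * (b3 ^ (2 - k) * (-a3) ^ k))) * C c3) =
      (C (D12 * (b3 ^ (2 - k) * (-a3) ^ k)) : ℂ[X]) := by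
    rw [← C_mul, ← C_mul]
    congr 1
    field_simp
  linear_combination ((C a2 + C b2 * X) * (C a3 + C b3 * X)) * f1 +
    ((C a1 + C b1 * X) * (C a3 + C b3 * X)) * f2 + ((C a1 + C b1 * X) * (C a2 + C b2 * X)) * f3

/-- the linear form `γ_j(w)`. -/
noncomputable def gam (g1 g2 : Fin 4 → ℂ) (j : Fin 4) : ℂ[X] := C (g1 j) + C (g2 j) * X

/-- `∏_{k ≠ j} γ_k`. -/
noncomputable def gam' (g1 g2 : Fin 4 → ℂ) (j : Fin 4) : ℂ[X] :=
  ∏ k ∈ Finset.univ.erase j, gam g1 g2 k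

/-- `p_j = (n - α_j) ∏_{k ≠ j} γ_k`. -/
noncomputable def pp (α g1 g2 : Fin 4 → ℂ) (j : Fin 4) : ℂ[X][X] :=
  C (gam' g1 g2 j) * (X - C (C (α j)))

/-- the span of the `w ^ a * ∏ p_j ^ f_j`, `a ≤ i`, `|f| = M`. -/
noncomputable def W (α g1 g2 : Fin 4 → ℂ) (M i : ℕ) : Submodule ℂ ℂ[X][X] :=
  Submodule.span ℂ {F | ∃ (a : ℕ) (f : Fin 4 → ℕ), a ≤ i ∧ ∑ j, f j = M ∧
    F = C (X ^ a) * ∏ j, pp α g1 g2 j ^ f j}

instance (α g1 g2 : Fin 4 → ℂ) (M i : ℕ) : FiniteDimensional ℂ (W α g1 g2 M i) := by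
  refine FiniteDimensional.span_of_finite ℂ ?_
  refine Set.Finite.subset (((Finset.range (i + 1)).finite_toSet.prod
    (Finset.piAntidiag (Finset.univ : Finset (Fin 4)) M).finite_toSet).image
    fun x => C (X ^ x.1) * ∏ j, pp α g1 g2 j ^ x.2 j) ?_
  rintro F ⟨a, f, ha, hf, rfl⟩
  refine ⟨(a, f), ⟨?_, ?_⟩, rfl⟩
  · simpa using Nat.lt_succ_of_le ha
  · simpa [Finset.mem_piAntidiag] using hf

theorem W_mul (α g1 g2 : Fin 4 → ℂ) (M i : ℕ) (j : Fin 4) {F : ℂ[X][X]}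
    (hF : F ∈ W α g1 g2 M i) : pp α g1 g2 j * F ∈ W α g1 g2 (M + 1) i := by
  induction hF using Submodule.span_induction with
  | mem F h =>
    obtain ⟨a, f, ha, hf, rfl⟩ := h
    refine Submodule.subset_span ⟨a, Function.update f j (f j + 1), ha, ?_, ?_⟩
    · rw [Finset.sum_update_of_mem (Finset.mem_univ j), ← hf,
        ← Finset.add_sum_erase _ _ (Finset.mem_univ j), Finset.sdiff_singleton_eq_erase]
      ring
    · rw [← Finset.mul_prod_erase Finset.univ _ (Finset.mem_univ j),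
        ← Finset.mul_prod_erase Finset.univ
          (fun k => pp α g1 g2 k ^ Function.update f j (f j + 1) k) (Finset.mem_univ j)]
      have : ∏ x ∈ Finset.univ.erase j, pp α g1 g2 x ^ Function.update f j (f j + 1) x =
          ∏ x ∈ Finset.univ.erase j, pp α g1 g2 x ^ f x :=
        Finset.prod_congr rfl fun x hx => by
          rw [Function.update_of_ne (Finset.ne_of_mem_erase hx)]
      rw [this, Function.update_self]
      ring
  | zero => simp
  | add F G _ _ h1 h2 => rw [mul_add]; exact add_mem h1 h2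
  | smul c F _ h => rw [mul_smul_comm]; exact Submodule.smul_mem _ _ h

/-- restriction to `n = a`. -/
noncomputable def res (a : ℂ) : ℂ[X][X] →ₐ[ℂ] ℂ[X] :=
  (aeval (R := ℂ[X]) (C a : ℂ[X])).restrictScalars ℂ

theorem res_C (a : ℂ) (F : ℂ[X]) : res a (C F) = F := by
  simp [res]

theorem res_pp (α g1 g2 : Fin 4 → ℂ) (a : ℂ) (j : Fin 4) :
    res a (pp α g1 g2 j) = gam' g1 g2 j * C (a - α j) := by
  simp [res, pp, aeval_def]

theorem finrank_rank_null {V V' : Type*} [AddCommGroup V] [Module ℂ V] [AddCommGroup V']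
    [Module ℂ V'] (E : V →ₗ[ℂ] V') (A B : Submodule ℂ V) (R : Submodule ℂ V')
    [FiniteDimensional ℂ A] (hB : B ≤ A) (hBE : ∀ x ∈ B, E x = 0) (hR : R ≤ A.map E) :
    finrank ℂ B + finrank ℂ R ≤ finrank ℂ A := by
  have h1 := LinearMap.finrank_range_add_finrank_ker (E.domRestrict A)
  have h2 : finrank ℂ R ≤ finrank ℂ (LinearMap.range (E.domRestrict A)) := by
    rw [LinearMap.range_domRestrict]
    exact Submodule.finrank_mono hR
  have h3 : finrank ℂ B ≤ finrank ℂ (LinearMap.ker (E.domRestrict A)) := by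
    rw [← (Submodule.comapSubtypeEquivOfLe hB).finrank_eq]
    refine Submodule.finrank_mono ?_
    intro x hx
    exact hBE _ hx
  omega

theorem finrank_map_mul {R : Type*} [CommRing R] [IsDomain R] [Algebra ℂ R] {g : R} (hg : g ≠ 0)
    (A : Submodule ℂ R) : finrank ℂ (A.map (LinearMap.mulLeft ℂ g)) = finrank ℂ A := by
  have h : Function.Injective (LinearMap.mulLeft ℂ g) := fun a b h => mul_left_cancel₀ hg h
  exact (Submodule.equivMapOfInjective _ h A).finrank_eq.symm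

instance (q : Fin 3 → ℂ[X]) (M i : ℕ) : FiniteDimensional ℂ (U q M i) := by
  refine FiniteDimensional.span_of_finite ℂ ?_
  refine Set.Finite.subset (((Finset.range (i + 1)).finite_toSet.prod
    (Finset.piAntidiag (Finset.univ : Finset (Fin 3)) M).finite_toSet).image
    fun x => X ^ x.1 * ∏ j, q j ^ x.2 j) ?_
  rintro F ⟨a, f, ha, hf, rfl⟩
  refine ⟨(a, f), ⟨?_, ?_⟩, rfl⟩
  · simpa using Nat.lt_succ_of_le ha
  · simpa [Finset.mem_piAntidiag] using hf

theorem finrank_U (q : Fin 3 → ℂ[X])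
    (hq : ∀ k ≤ 2, (X : ℂ[X]) ^ k ∈ Submodule.span ℂ (Set.range q)) (M i : ℕ) :
    2 * M + i + 1 ≤ finrank ℂ (U q M i) := by
  have h1 : degreeLT ℂ (2 * M + i + 1) ≤ U q M i := by
    rw [degreeLT_eq_span_X_pow, Submodule.span_le]
    intro F hF
    simp only [Finset.coe_image, Finset.coe_range, Set.mem_image, Set.mem_Iio] at hF
    obtain ⟨k, hk, rfl⟩ := hF
    exact X_pow_mem_U q hq M i k (by omega)
  have h2 : finrank ℂ (degreeLT ℂ (2 * M + i + 1)) = 2 * M + i + 1 := by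
    rw [(degreeLTEquiv ℂ (2 * M + i + 1)).finrank_eq]
    simp
  rw [← h2]
  exact Submodule.finrank_mono h1

theorem pp_ne_zero {α g1 g2 : Fin 4 → ℂ} (h : ∀ j k, j ≠ k → g1 j * g2 k ≠ g1 k * g2 j)
    (j : Fin 4) : pp α g1 g2 j ≠ 0 := by
  have hg : ∀ k, gam g1 g2 k ≠ 0 := by
    intro k hk
    have h0 : g1 k = 0 := by
      have := congrArg (fun P => coeff P 0) hk
      simpa [gam] using this
    have h1 : g2 k = 0 := by
      have := congrArg (fun P => coeff P 1) hk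
      simpa [gam, coeff_C] using this
    obtain ⟨l, hl⟩ : ∃ l : Fin 4, l ≠ k := exists_ne k
    exact h l k hl (by rw [h0, h1]; ring)
  unfold pp
  refine mul_ne_zero (C_ne_zero.mpr ?_) (X_sub_C_ne_zero _)
  exact Finset.prod_ne_zero_iff.mpr fun k _ => hg k

theorem finrank_W {α g1 g2 : Fin 4 → ℂ} (hα : Function.Injective α)
    (h : ∀ j k, j ≠ k → g1 j * g2 k ≠ g1 k * g2 j) (M i : ℕ) :
    (M + 1) * (M + 1 + i) ≤ finrank ℂ (W α g1 g2 M i) := by
  have hα' : ∀ j : Fin 3, α 0 - α j.succ ≠ 0 := fun j => sub_ne_zero.mpr fun h => by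
    have := hα h
    exact absurd this (Fin.succ_ne_zero j).symm
  have hg0 : gam g1 g2 0 ≠ 0 := by
    intro hk
    have h0 : g1 0 = 0 := by
      have := congrArg (fun P => coeff P 0) hk
      simpa [gam] using this
    have h1 : g2 0 = 0 := by
      have := congrArg (fun P => coeff P 1) hk
      simpa [gam, coeff_C] using this
    exact h 1 0 (by decide) (by rw [h0, h1]; ring)
  set q : Fin 3 → ℂ[X] := ![C (α 0 - α 1) * (gam g1 g2 2 * gam g1 g2 3),
    C (α 0 - α 2) * (gam g1 g2 1 * gam g1 g2 3), C (α 0 - α 3) * (gam g1 g2 1 * gam g1 g2 2)]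
    with hqdef
  have hq : ∀ k ≤ 2, (X : ℂ[X]) ^ k ∈ Submodule.span ℂ (Set.range q) := by
    intro k hk
    exact quad (h 1 2 (by decide)) (h 1 3 (by decide)) (h 2 3 (by decide)) (hα' 0) (hα' 1)
      (hα' 2) hk
  have e1 : (Finset.univ.erase (1 : Fin 4)) = {0, 2, 3} := by decide
  have e2 : (Finset.univ.erase (2 : Fin 4)) = {0, 1, 3} := by decide
  have e3 : (Finset.univ.erase (3 : Fin 4)) = {0, 1, 2} := by decide
  have hres : ∀ j : Fin 3, res (α 0) (pp α g1 g2 j.succ) = gam g1 g2 0 * q j := by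
    intro j
    rw [res_pp]
    fin_cases j
    · change (∏ k ∈ Finset.univ.erase (1 : Fin 4), gam g1 g2 k) * C (α 0 - α 1) = gam g1 g2 0 *
        (C (α 0 - α 1) * (gam g1 g2 2 * gam g1 g2 3))
      rw [e1, Finset.prod_insert (by decide), Finset.prod_insert (by decide),
        Finset.prod_singleton]
      ring
    · change (∏ k ∈ Finset.univ.erase (2 : Fin 4), gam g1 g2 k) * C (α 0 - α 2) = gam g1 g2 0 *
        (C (α 0 - α 2) * (gam g1 g2 1 * gam g1 g2 3))
      rw [e2, Finset.prod_insert (by decide), Finset.prod_insert (by decide),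
        Finset.prod_singleton]
      ring
    · change (∏ k ∈ Finset.univ.erase (3 : Fin 4), gam g1 g2 k) * C (α 0 - α 3) = gam g1 g2 0 *
        (C (α 0 - α 3) * (gam g1 g2 1 * gam g1 g2 2))
      rw [e3, Finset.prod_insert (by decide), Finset.prod_insert (by decide),
        Finset.prod_singleton]
      ring
  have hR : ∀ M, (U q M i).map (LinearMap.mulLeft ℂ (gam g1 g2 0 ^ M)) ≤
      (W α g1 g2 M i).map (res (α 0)).toLinearMap := by
    intro M
    rw [Submodule.map_le_iff_le_comap]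
    refine Submodule.span_le.mpr ?_
    rintro F ⟨a, f, ha, hf, rfl⟩
    refine ⟨C (X ^ a) * ∏ j, pp α g1 g2 j ^ (Fin.cons 0 f : Fin 4 → ℕ) j,
      Submodule.subset_span ⟨a, Fin.cons 0 f, ha, ?_, rfl⟩, ?_⟩
    · rw [Fin.sum_univ_succ]
      simpa using hf
    · rw [Fin.prod_univ_succ]
      simp only [Fin.cons_zero, Fin.cons_succ, pow_zero, one_mul, AlgHom.toLinearMap_apply,
        map_mul, map_prod, map_pow, res_C, hres, LinearMap.mulLeft_apply, mul_pow,
        Finset.prod_mul_distrib]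
      rw [Finset.prod_pow_eq_pow_sum, hf]
      ring
  have hRank : ∀ M, 2 * M + i + 1 ≤ finrank ℂ
      ((U q M i).map (LinearMap.mulLeft ℂ (gam g1 g2 0 ^ M))) := by
    intro M
    rw [finrank_map_mul (pow_ne_zero _ hg0)]
    exact finrank_U q hq M i
  induction M with
  | zero =>
    have h1 := finrank_rank_null (res (α 0)).toLinearMap (W α g1 g2 0 i) ⊥ _ bot_le
      (by simp) (hR 0)
    have h2 := hRank 0
    simp only [finrank_bot] at h1
    omega
  | succ M ih =>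
    have h1 := finrank_rank_null (res (α 0)).toLinearMap (W α g1 g2 (M + 1) i)
      ((W α g1 g2 M i).map (LinearMap.mulLeft ℂ (pp α g1 g2 0))) _ ?_ ?_ (hR (M + 1))
    · have h2 := hRank (M + 1)
      rw [finrank_map_mul (pp_ne_zero h 0)] at h1
      nlinarith
    · rw [Submodule.map_le_iff_le_comap]
      intro F hF
      exact W_mul α g1 g2 M i 0 hF
    · rintro _ ⟨F, hF, rfl⟩
      rw [LinearMap.mulLeft_apply, AlgHom.toLinearMap_apply, map_mul, res_pp]
      simp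

end Vale.Agent.P018.QB.Surf
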