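import Mathlib
import Vale.Agent.P018.Q.BKum
import Vale.Agent.P018.Q.BSurfAux

/-! # P018, (B): number of independent functions on the surface, with the square roots. -/

namespace Vale.Agent.P018.QB.Surf

open Polynomial Module

/-- the values at `(n, w)`. -/
noncomputable def phi {Ω : Type*} [Field Ω] [Algebra ℂ Ω] (n w : Ω) : ℂ[X][X] →ₐ[ℂ] Ω :=
  { eval₂RingHom (aeval w : ℂ[X] →ₐ[ℂ] Ω).toRingHom n with
    commutes' := fun r => by
      change eval₂ _ _ (algebraMap ℂ ℂ[X][X] r) = _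
      rw [show algebraMap ℂ ℂ[X][X] r = C (C r) from rfl, eval₂_C]
      simp }

theorem phi_apply {Ω : Type*} [Field Ω] [Algebra ℂ Ω] (n w : Ω) (F : ℂ[X][X]) :
    phi n w F = F.eval₂ (aeval w : ℂ[X] →ₐ[ℂ] Ω).toRingHom n := rfl

section

variable {Ω : Type*} [Field Ω] [Algebra ℂ Ω] (n w : Ω)

theorem phi_X : phi n w X = n := by simp [phi_apply]

theorem phi_C (F : ℂ[X]) : phi n w (C F) = aeval w F := by simp [phi_apply]

end

theorem rootMultiplicity_prod' {R ι : Type*} [CommRing R] [IsDomain R] (a : R) (s : Finset ι)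
    (f : ι → R[X]) (h : ∀ i ∈ s, f i ≠ 0) :
    rootMultiplicity a (∏ i ∈ s, f i) = ∑ i ∈ s, rootMultiplicity a (f i) := by
  classical
  induction s using Finset.induction_on with
  | empty => simp
  | insert j s hj ih =>
    rw [Finset.prod_insert hj, Finset.sum_insert hj, rootMultiplicity_mul, ih]
    · exact fun i hi => h i (Finset.mem_insert_of_mem hi)
    · exact mul_ne_zero (h j (Finset.mem_insert_self _ _))
        (Finset.prod_ne_zero_iff.mpr fun i hi => h i (Finset.mem_insert_of_mem hi))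

theorem rootMultiplicity_pow' {R : Type*} [CommRing R] [IsDomain R] (a : R) (f : R[X])
    (h : f ≠ 0) (k : ℕ) : rootMultiplicity a (f ^ k) = k * rootMultiplicity a f := by
  have := rootMultiplicity_prod' a (Finset.range k) (fun _ => f) (fun _ _ => h)
  simpa using this

theorem odd_ne {Ω : Type*} [Field Ω] [Algebra ℂ Ω] {n w : Ω} (hφ : Function.Injective (phi n w))
    {α g1 g2 : Fin 4 → ℂ} {c : ℂ} (hα : Function.Injective α) (hc : c ≠ 0)
    (hg : ∀ j, gam g1 g2 j ≠ 0) {pi : Fin 4 → Ω}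
    (hpi : ∀ j, pi j ^ 2 * aeval w (gam g1 g2 j) = algebraMap ℂ Ω c * (n - algebraMap ℂ Ω (α j)))
    (E : Fin 4 → ℕ) (j0 : Fin 4) (hE : Odd (E j0)) (P Q : ℂ[X][X]) (hQ : Q ≠ 0) :
    (∏ j, pi j ^ E j) * phi n w Q ≠ phi n w P := by
  intro h
  have h1 : (∏ j, (C (C c) * (X - C (C (α j))) : ℂ[X][X]) ^ E j) * Q ^ 2 =
      P ^ 2 * ∏ j, (C (gam g1 g2 j)) ^ E j := by
    apply hφ
    simp only [map_mul, map_prod, map_pow, map_sub, phi_X, phi_C, aeval_C]
    rw [← h, mul_pow, mul_right_comm, ← Finset.prod_pow, ← Finset.prod_mul_distrib]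
    congr 1
    refine Finset.prod_congr rfl fun j _ => ?_
    rw [← hpi, mul_pow, ← pow_mul, ← pow_mul, mul_comm 2]
  have hl : ∀ j, (C (C c) * (X - C (C (α j))) : ℂ[X][X]) ≠ 0 := fun j =>
    mul_ne_zero (C_ne_zero.mpr (C_ne_zero.mpr hc)) (X_sub_C_ne_zero _)
  have hP : P ≠ 0 := by
    rintro rfl
    rw [zero_pow two_ne_zero, zero_mul] at h1
    rcases mul_eq_zero.mp h1 with h2 | h2
    · obtain ⟨j, _, hj⟩ := Finset.prod_eq_zero_iff.mp h2
      exact pow_ne_zero _ (hl j) hj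
    · exact pow_ne_zero _ hQ h2
  have hm := congrArg (rootMultiplicity (C (α j0))) h1
  have hp1 : (∏ j, (C (C c) * (X - C (C (α j))) : ℂ[X][X]) ^ E j) ≠ 0 :=
    Finset.prod_ne_zero_iff.mpr fun j _ => pow_ne_zero _ (hl j)
  have hp2 : (∏ j, (C (gam g1 g2 j) : ℂ[X][X]) ^ E j) ≠ 0 :=
    Finset.prod_ne_zero_iff.mpr fun j _ => pow_ne_zero _ (C_ne_zero.mpr (hg j))
  rw [rootMultiplicity_mul (mul_ne_zero hp1 (pow_ne_zero _ hQ)),
    rootMultiplicity_mul (mul_ne_zero (pow_ne_zero _ hP) hp2), sq, sq,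
    rootMultiplicity_mul (mul_ne_zero hQ hQ), rootMultiplicity_mul (mul_ne_zero hP hP),
    rootMultiplicity_prod' _ _ _ (fun j _ => pow_ne_zero _ (hl j)),
    rootMultiplicity_prod' _ _ _ (fun j _ => pow_ne_zero _ (C_ne_zero.mpr (hg j)))] at hm
  have hz : ∀ j, rootMultiplicity (C (α j0)) ((C (gam g1 g2 j) : ℂ[X][X]) ^ E j) = 0 := by
    intro j
    rw [← C_pow, rootMultiplicity_C]
  have hs : ∀ j, rootMultiplicity (C (α j0)) ((C (C c) * (X - C (C (α j))) : ℂ[X][X]) ^ E j) =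
      if j = j0 then E j0 else 0 := by
    intro j
    have hb : rootMultiplicity (C (α j0)) (C (C c) * (X - C (C (α j))) : ℂ[X][X]) =
        if j = j0 then 1 else 0 := by
      rw [rootMultiplicity_mul (hl j), rootMultiplicity_C, zero_add]
      split_ifs with hj
      · subst hj
        exact rootMultiplicity_X_sub_C_self
      · refine rootMultiplicity_eq_zero ?_
        rw [root_X_sub_C]
        exact fun h => hj (hα (C_injective h))
    rw [rootMultiplicity_pow' _ _ (hl j), hb]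
    split_ifs with hj
    · subst hj; simp
    · simp
  simp only [hz, hs, Finset.sum_ite_eq', Finset.mem_univ, if_true, Finset.sum_const_zero] at hm
  obtain ⟨r, hr⟩ := hE
  omega

/-- exponents of total degree `4` representing the `8` even classes. -/
def eT (T : Finset (Fin 3)) : Fin 4 → ℕ := Fin.cons (4 - T.card) fun j => if j ∈ T then 1 else 0

theorem eT_sum (T : Finset (Fin 3)) : ∑ j, eT T j = 4 := by
  rw [Fin.sum_univ_succ]
  simp only [eT, Fin.cons_zero, Fin.cons_succ]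
  rw [Finset.sum_ite_mem, Finset.univ_inter, Finset.sum_const, smul_eq_mul, mul_one]
  have : T.card ≤ 3 := by
    have := Finset.card_le_univ T
    simpa using this
  omega

theorem indep {Ω : Type*} [Field Ω] [Algebra ℂ Ω] {n w : Ω} (hφ : Function.Injective (phi n w))
    {α g1 g2 : Fin 4 → ℂ} {c : ℂ} (hα : Function.Injective α) (hc : c ≠ 0)
    (hg : ∀ j, gam g1 g2 j ≠ 0) {pi : Fin 4 → Ω}
    (hpi : ∀ j, pi j ^ 2 * aeval w (gam g1 g2 j) = algebraMap ℂ Ω c * (n - algebraMap ℂ Ω (α j)))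
    {D : ℕ} (b : Fin D → ℂ[X][X]) (hb : LinearIndependent ℂ b) :
    LinearIndependent ℂ fun x : Finset (Fin 3) × Fin D =>
      (∏ j, pi j ^ eT x.1 j) * phi n w (b x.2) := by
  classical
  have hφ' : Function.Injective (phi n w : ℂ[X][X] →+* Ω) := hφ
  let F := FractionRing ℂ[X][X]
  let ι : F →+* Ω := IsFractionRing.lift hφ'
  have hι : ∀ P : ℂ[X][X], ι (algebraMap ℂ[X][X] F P) = phi n w P := fun P =>
    IsFractionRing.lift_algebraMap hφ' P
  let _ : Algebra F Ω := ι.toAlgebra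
  have : CharZero ℂ[X][X] := inferInstance
  have : CharZero F := charZero_of_injective_algebraMap (IsFractionRing.injective ℂ[X][X] F)
  have hmap : ∀ x : F, algebraMap F Ω x = ι x := fun _ => rfl
  have hpi0 : ∀ j, pi j ≠ 0 := by
    intro j h
    have h1 := hpi j
    rw [h, zero_pow two_ne_zero, zero_mul] at h1
    have h2 : phi n w (C (C c) * (X - C (C (α j)))) = 0 := by
      simp only [map_mul, map_sub, phi_X, phi_C, aeval_C]
      exact h1.symm
    have h3 := hφ (h2.trans (map_zero _).symm)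
    exact mul_ne_zero (C_ne_zero.mpr (C_ne_zero.mpr hc)) (X_sub_C_ne_zero _) h3
  have hgw : ∀ j, (aeval w (gam g1 g2 j) : Ω) ≠ 0 := by
    intro j h
    rw [← phi_C n w] at h
    exact C_ne_zero.mpr (hg j) (hφ (h.trans (map_zero _).symm))
  have hsq : ∀ j, pi j ^ 2 ∈ (algebraMap F Ω).range := by
    intro j
    refine ⟨algebraMap _ F (C (C c) * (X - C (C (α j)))) / algebraMap _ F (C (gam g1 g2 j)), ?_⟩
    rw [hmap, map_div₀, hι, hι, phi_C, div_eq_iff (hgw j), hpi]
    simp only [map_mul, map_sub, phi_X, phi_C, aeval_C]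
  have hk : LinearIndependent F fun T : Finset (Fin 3) => ∏ j, pi j ^ eT T j := by
    refine kummer_indep _ (fun T => Finset.prod_ne_zero_iff.mpr fun j _ => pow_ne_zero _ (hpi0 j))
      (fun T => ?_) (fun T T' hT => ?_)
    · rw [← Finset.prod_pow]
      refine Subring.prod_mem _ fun j _ => ?_
      rw [← pow_mul, mul_comm, pow_mul]
      exact Subring.pow_mem _ (hsq j) _
    · rintro ⟨x, hx⟩
      obtain ⟨P, Q, hQ, rfl⟩ := IsFractionRing.div_surjective (A := ℂ[X][X]) x
      have hQ0 : Q ≠ 0 := nonZeroDivisors.ne_zero hQ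
      have hφQ : phi n w Q ≠ 0 := fun h => hQ0 (hφ (h.trans (map_zero _).symm))
      obtain ⟨j, hj⟩ : ∃ j : Fin 3, Odd (eT T j.succ + eT T' j.succ) := by
        by_contra hno
        push Not at hno
        refine hT (Finset.ext fun j => ?_)
        have h1 := hno j
        simp only [eT, Fin.cons_succ] at h1
        by_cases h2 : j ∈ T <;> by_cases h3 : j ∈ T' <;> simp [h2, h3] at h1 ⊢
      refine odd_ne hφ hα hc hg hpi (fun j => eT T j + eT T' j) j.succ hj P Q hQ0 ?_
      rw [hmap, map_div₀, hι, hι, div_eq_iff hφQ] at hx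
      rw [hx, ← Finset.prod_mul_distrib]
      simp only [pow_add]
  rw [Fintype.linearIndependent_iff] at hk hb ⊢
  intro a ha x
  have h1 : ∀ T, ∑ k, a (T, k) • b k = 0 := by
    intro T
    have h2 := hk (fun T => algebraMap ℂ[X][X] F (∑ k, a (T, k) • b k)) ?_ T
    · exact (IsFractionRing.injective ℂ[X][X] F) (h2.trans (map_zero _).symm)
    · rw [← ha, Fintype.sum_prod_type]
      refine Finset.sum_congr rfl fun T _ => ?_
      rw [Algebra.smul_def, hmap, hι, map_sum, Finset.sum_mul]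
      refine Finset.sum_congr rfl fun k _ => ?_
      rw [map_smul]
      simp only [smul_mul_assoc]
      rw [mul_comm]
  exact hb (fun k => a (x.1, k)) (h1 x.1) x.2

theorem mem_aux {Ω : Type*} [Field Ω] [Algebra ℂ Ω] {n w : Ω}
    {α g1 g2 : Fin 4 → ℂ} {c : ℂ} {pi : Fin 4 → Ω}
    (hne : ∀ j, (aeval w (gam g1 g2 j) : Ω) ≠ 0)
    (hpi : ∀ j, pi j ^ 2 * aeval w (gam g1 g2 j) = algebraMap ℂ Ω c * (n - algebraMap ℂ Ω (α j)))
    (M i : ℕ) (S : Submodule ℂ Ω) (z : Ω)
    (hS : ∀ (a : ℕ) (f : Fin 4 → ℕ), a ≤ i → ∑ j, f j = M →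
      w ^ a * (z * ∏ j, pi j ^ (2 * f j)) ∈ S) (F : ℂ[X][X]) (hF : F ∈ W α g1 g2 M i) :
    (algebraMap ℂ Ω c / ∏ j, aeval w (gam g1 g2 j)) ^ M * (z * phi n w F) ∈ S := by
  classical
  set κ : Ω := algebraMap ℂ Ω c / ∏ j, aeval w (gam g1 g2 j) with hκ
  have hprod : (∏ j, aeval w (gam g1 g2 j) : Ω) ≠ 0 := Finset.prod_ne_zero_iff.mpr fun j _ => hne j
  have hpp : ∀ j, κ * phi n w (pp α g1 g2 j) = pi j ^ 2 := by
    intro j
    have h1 : (∏ j, aeval w (gam g1 g2 j) : Ω) = aeval w (gam g1 g2 j) *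
        aeval w (gam' g1 g2 j) := by
      rw [gam', map_prod]
      exact (Finset.mul_prod_erase Finset.univ (fun k => (aeval w (gam g1 g2 k) : Ω))
        (Finset.mem_univ j)).symm
    have h2 : (aeval w (gam' g1 g2 j) : Ω) ≠ 0 := fun h0 => hprod (by rw [h1, h0, mul_zero])
    rw [hκ, h1, pp, map_mul, phi_C, map_sub, phi_X, phi_C, aeval_C, div_mul_eq_mul_div,
      div_eq_iff (mul_ne_zero (hne j) h2), ← mul_assoc (pi j ^ 2), hpi]
    ring
  induction hF using Submodule.span_induction with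
  | mem F hF =>
    obtain ⟨a, f, ha, hf, rfl⟩ := hF
    have h3 : κ ^ M * (z * phi n w (C (X ^ a) * ∏ j, pp α g1 g2 j ^ f j)) =
        w ^ a * (z * ∏ j, pi j ^ (2 * f j)) := by
      rw [map_mul, phi_C, map_pow, aeval_X, map_prod, ← hf, ← Finset.prod_pow_eq_pow_sum]
      simp only [pow_mul, map_pow, ← hpp, mul_pow, Finset.prod_mul_distrib]
      ring
    rw [h3]
    exact hS a f ha hf
  | zero => simp
  | add F G _ _ h1 h2 => rw [map_add, mul_add, mul_add]; exact add_mem h1 h2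
  | smul r F _ h1 =>
    rw [map_smul, mul_smul_comm, mul_smul_comm]
    exact Submodule.smul_mem _ _ h1

end Vale.Agent.P018.QB.Surf
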