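import Mathlib
import Vale.Agent.P018.Q.BDefs
import Vale.Agent.P018.Q.BKum
import Vale.Agent.P018.Q.BSurfKum

/-! # P018, (B): number of independent functions on the surface.

Proof.  Write `x_j = π_j^2 = c (n - α_j)/γ_j(w)`, `γ_j = g1_j + w g2_j`, `F = ℂ(n,w) ⊂ Ω`.
(1) Kummer: for `ε ∈ {0,1}^4`, `ε ≠ 0`, `∏ x_j^{ε_j}` is not a square in `F` (as a polynomial in `n`
it is squarefree of positive degree), hence the 16 products `π^ε` are linearly independent over `F`
(`kummer_indep`).  So the dimension is the sum over the 8 even classes `|ε| = 0 (1), 2 (6), 4 (1)`,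
of the dimension of the span of `w^a x^f`, `a ≤ i`, `|f| = m' = m - |ε|/2`.
(2) That dimension is at least `(m'+1)(m'+i+1)`: the functions `w^a x_0^b x_1^(m'-b)` (`a ≤ i`) and
`x_j^c x_0^b x_1^(m'-b-c)` (`j = 2,3`, `c ≥ 1`, `b + c ≤ m'`) are independent: look at the poles at
`γ_2 = 0`, then at `γ_3 = 0`, (there `(n-α_0)^b (n-α_1)^(m'-b-c)`, `b ≤ m'-c`, are independent
polynomials in `n`), then multiply by `(γ_0 γ_1)^m'` and use the independence of
`(n-α_0)^b (n-α_1)^(m'-b)`. -/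

namespace Vale.Agent.P018.QB.Surf

open Polynomial Module

theorem core {Ω : Type*} [Field Ω] [Algebra ℂ Ω] {n w : Ω} (hφ : Function.Injective (phi n w))
    {α g1 g2 : Fin 4 → ℂ} {c : ℂ} (hα : Function.Injective α) (hc : c ≠ 0)
    {pi : Fin 4 → Ω}
    (hne : ∀ j, (aeval w (gam g1 g2 j) : Ω) ≠ 0)
    (hpi : ∀ j, pi j ^ 2 * aeval w (gam g1 g2 j) = algebraMap ℂ Ω c * (n - algebraMap ℂ Ω (α j)))
    (M i D : ℕ) (hD : D ≤ finrank ℂ (W α g1 g2 M i)) (S : Submodule ℂ Ω) [FiniteDimensional ℂ S]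
    (hS : ∀ (T : Finset (Fin 3)) (a : ℕ) (f : Fin 4 → ℕ), a ≤ i → ∑ j, f j = M →
      w ^ a * ((∏ j, pi j ^ eT T j) * ∏ j, pi j ^ (2 * f j)) ∈ S) :
    8 * D ≤ finrank ℂ S := by
  classical
  have hg : ∀ j, gam g1 g2 j ≠ 0 := fun j h0 => hne j (by rw [h0, map_zero])
  obtain ⟨b, hb⟩ := exists_linearIndependent_of_le_finrank hD
  have hb' : LinearIndependent ℂ ((W α g1 g2 M i).subtype ∘ b) :=
    hb.map_injOn (W α g1 g2 M i).subtype (Subtype.val_injective.injOn)
  have hind := indep hφ hα hc hg hpi _ hb'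
  have hprod : (∏ j, aeval w (gam g1 g2 j) : Ω) ≠ 0 := Finset.prod_ne_zero_iff.mpr fun j _ => hne j
  have hκ0 : algebraMap ℂ Ω c / ∏ j, aeval w (gam g1 g2 j) ≠ 0 :=
    div_ne_zero (by simpa using hc) hprod
  have hmem : ∀ x : Finset (Fin 3) × Fin D,
      (algebraMap ℂ Ω c / ∏ j, aeval w (gam g1 g2 j)) ^ M *
        ((∏ j, pi j ^ eT x.1 j) * phi n w (b x.2)) ∈ S := fun x =>
    mem_aux hne hpi M i S _ (hS x.1) _ (b x.2).2
  generalize algebraMap ℂ Ω c / ∏ j, aeval w (gam g1 g2 j) = κ at hκ0 hmem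
  have hinj : Function.Injective (LinearMap.mulLeft ℂ (κ ^ M)) := fun x y hxy =>
    mul_left_cancel₀ (pow_ne_zero _ hκ0) hxy
  have hind2 := hind.map_injOn (LinearMap.mulLeft ℂ (κ ^ M)) hinj.injOn
  have hind3 : LinearIndependent ℂ fun x : Finset (Fin 3) × Fin D => (⟨_, hmem x⟩ : S) :=
    LinearIndependent.of_comp S.subtype hind2
  have h9 := hind3.fintype_card_le_finrank
  rw [Fintype.card_prod, Fintype.card_finset, Fintype.card_fin, Fintype.card_fin] at h9
  have h10 : (2 : ℕ) ^ 3 = 8 := by norm_num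
  rw [h10] at h9
  exact h9

end Vale.Agent.P018.QB.Surf

namespace Vale.Agent.P018.QB

open Polynomial NumberField Vale.Agent.P018.Q

theorem surf_rank (α g1 g2 : Fin 4 → ℂ) (c : ℂ) (h : Lat α g1 g2 c) (Ω : Type) [Field Ω]
    [Algebra ℂ Ω] (n w : Ω) (pi : Fin 4 → Ω) (hM : Mdl α g1 g2 c Ω n w pi)
    (hgen : ∀ F, evB n w F = 0 → F = 0) (i m : ℕ) (hm : 2 ≤ m) :
    8 * (m - 1) * (m - 1 + i) ≤ Module.finrank ℂ (spn w pi (mons i (2 * m) : Set Ix)) := by
  obtain ⟨M, rfl⟩ : ∃ M, m = M + 2 := ⟨m - 2, by omega⟩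
  have hgam : ∀ j, aeval w (Surf.gam g1 g2 j) = algebraMap ℂ Ω (g1 j) + w * algebraMap ℂ Ω (g2 j) := by
    intro j
    rw [Surf.gam, map_add, map_mul, aeval_C, aeval_C, aeval_X, mul_comm]
  have hφ : Function.Injective (Surf.phi n w) := by
    rw [injective_iff_map_eq_zero]
    exact hgen
  have : FiniteDimensional ℂ (spn w pi (mons i (2 * (M + 2)) : Set Ix)) :=
    FiniteDimensional.span_of_finite ℂ ((Finset.finite_toSet _).image _)
  have h1 := Surf.core hφ h.inj h.c0 (pi := pi) (fun j => by rw [hgam]; exact hM.ne j)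
    (fun j => by rw [hgam]; exact hM.eq j) M i _ (Surf.finrank_W h.inj h.ns M i)
    (spn w pi (mons i (2 * (M + 2)) : Set Ix)) ?_
  · have h2 : M + 2 - 1 = M + 1 := rfl
    rw [h2, mul_assoc]
    exact h1
  · intro T a f ha hf
    refine Submodule.subset_span ⟨((i - a, a), fun j => Surf.eT T j + 2 * f j), ?_, ?_⟩
    · simp only [mons, Finset.coe_product, Set.mem_prod, Finset.mem_coe,
        Finset.HasAntidiagonal.mem_antidiagonal, Finset.mem_piAntidiag]
      refine ⟨by omega, ?_, by simp⟩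
      rw [Finset.sum_add_distrib, Surf.eT_sum, ← Finset.mul_sum, hf]
      ring
    · simp only [fv, one_pow, one_mul, pow_add, Finset.prod_mul_distrib]

end Vale.Agent.P018.QB
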