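import Mathlib
import Vale.Agent.P018.Q.BDefs
import Vale.Agent.P018.Q.BSurf
import Vale.Agent.P018.Q.BNorm
import Vale.Agent.P018.Q.BGen

/-! # P018, (B), relation step: from the vanishing of the determinants to curves. -/

namespace Vale.Agent.P018.QB

open Polynomial NumberField Vale.Agent.P018.Q

theorem brs_coeff_swap {R : Type*} [CommRing R] (P : R[X][X]) (i j : ℕ) :
    ((Bivariate.swap P).coeff i).coeff j = (P.coeff j).coeff i := by
  induction P using Polynomial.induction_on' with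
  | add p q hp hq => rw [map_add, coeff_add, coeff_add, coeff_add, coeff_add, hp, hq]
  | monomial n f =>
    induction f using Polynomial.induction_on' with
    | add p q hp hq =>
      rw [map_add, map_add, coeff_add, coeff_add, coeff_add, coeff_add, hp, hq]
    | monomial m r =>
      rw [Bivariate.swap_monomial_monomial, coeff_monomial, coeff_monomial]
      by_cases h1 : m = i
      · by_cases h2 : n = j
        · rw [if_pos h1, if_pos h2, coeff_monomial, coeff_monomial, if_pos h1, if_pos h2]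
        · rw [if_pos h1, if_neg h2, coeff_monomial, if_neg h2, coeff_zero]
      · by_cases h2 : n = j
        · rw [if_neg h1, if_pos h2, coeff_monomial, if_neg h1, coeff_zero]
        · rw [if_neg h1, if_neg h2, coeff_zero, coeff_zero]

/-- the inner degree is the degree of the swapped polynomial. -/
theorem brs_swap_le {R : Type*} [CommRing R] (P : R[X][X]) (D : ℕ) :
    (Bivariate.swap P).natDegree ≤ D ↔ ∀ i, (P.coeff i).natDegree ≤ D := by
  simp only [natDegree_le_iff_coeff_eq_zero]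
  constructor
  · intro h i N hN
    rw [← brs_coeff_swap, h N hN, coeff_zero]
  · intro h N hN
    ext i
    rw [brs_coeff_swap, h i N hN, coeff_zero]

/-- factors of a polynomial of bounded bidegree. -/
theorem factor_bideg (D : ℕ) (H Φ : ℂ[X][X]) (hH : H ≠ 0) (hD : BiDeg D D H) (h : Φ ∣ H) :
    BiDeg D D Φ := by
  refine ⟨(natDegree_le_of_dvd h hH).trans hD.1, (brs_swap_le Φ D).1 ?_⟩
  have h1 : Bivariate.swap Φ ∣ Bivariate.swap H := by
    obtain ⟨Q, rfl⟩ := h
    exact ⟨Bivariate.swap Q, map_mul _ _ _⟩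
  have h2 : Bivariate.swap H ≠ 0 := by
    intro h0
    exact hH ((map_eq_zero_iff _ (Bivariate.swap (R := ℂ)).injective).1 h0)
  exact (natDegree_le_of_dvd h1 h2).trans ((brs_swap_le H D).2 hD.2)

/-- a polynomial of bidegree `(0,0)` is a constant. -/
theorem brs_const {P : ℂ[X][X]} (h1 : P.natDegree = 0) (h2 : (Bivariate.swap P).natDegree = 0)
    (h0 : P ≠ 0) : IsUnit P := by
  have h3 := (brs_swap_le P 0).1 h2.le 0
  have h4 := eq_C_of_natDegree_eq_zero h1
  have h5 := eq_C_of_natDegree_eq_zero (Nat.le_zero.1 h3)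
  rw [h4, h5, isUnit_C, isUnit_C, isUnit_iff_ne_zero]
  intro h6
  rw [h6, C_0] at h5
  rw [h5, C_0] at h4
  exact h0 h4

/-- the irreducible factors. -/
theorem factor_finset (D : ℕ) : ∃ D' : ℕ, ∀ H : ℂ[X][X], H ≠ 0 → BiDeg D D H →
    ∃ Φs : Finset ℂ[X][X], Φs.card ≤ D' ∧ (∀ Φ ∈ Φs, Irreducible Φ ∧ BiDeg D D Φ) ∧
      ∀ n w : ℂ, evB n w H = 0 → ∃ Φ ∈ Φs, evB n w Φ = 0 := by
  classical
  refine ⟨2 * D, fun H hH hD => ?_⟩
  let t := UniqueFactorizationMonoid.factors H
  have ht0 : (0 : ℂ[X][X]) ∉ t := fun h =>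
    (UniqueFactorizationMonoid.irreducible_of_factor _ h).ne_zero rfl
  have hprod : Associated t.prod H := UniqueFactorizationMonoid.factors_prod hH
  have hp0 : t.prod ≠ 0 := hprod.ne_zero_iff.2 hH
  refine ⟨t.toFinset, ?_, ?_, ?_⟩
  · have e1 : t.prod.natDegree = (t.map natDegree).sum := natDegree_multiset_prod t ht0
    have e2 : (Bivariate.swap t.prod).natDegree =
        (t.map fun P => (Bivariate.swap P).natDegree).sum := by
      rw [map_multiset_prod, natDegree_multiset_prod, Multiset.map_map]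
      · rfl
      · rw [Multiset.mem_map]
        rintro ⟨P, hP, h0⟩
        rw [map_eq_zero_iff _ (Bivariate.swap (R := ℂ)).injective] at h0
        rw [h0] at hP
        exact ht0 hP
    have hb := factor_bideg D H t.prod hH hD hprod.dvd
    have e3 := hb.1
    have e4 := (brs_swap_le t.prod D).2 hb.2
    have e5 : t.card ≤ (t.map fun P => P.natDegree + (Bivariate.swap P).natDegree).sum := by
      have h6 : ∀ x ∈ t, 1 ≤ x.natDegree + (Bivariate.swap x).natDegree := by
        intro P hP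
        by_contra hlt
        have hirr := UniqueFactorizationMonoid.irreducible_of_factor _ hP
        exact hirr.not_isUnit (brs_const (by omega) (by omega) hirr.ne_zero)
      have h7 := Multiset.card_nsmul_le_sum
        (s := t.map fun P => P.natDegree + (Bivariate.swap P).natDegree) (a := 1) (by
          intro x hx
          obtain ⟨P, hP, rfl⟩ := Multiset.mem_map.1 hx
          exact h6 P hP)
      rw [Multiset.card_map, smul_eq_mul, mul_one] at h7
      exact h7
    rw [Multiset.sum_map_add] at e5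
    have e6 := Multiset.toFinset_card_le t
    have e7 : (t.map natDegree).sum = (t.map fun P => P.natDegree).sum := rfl
    omega
  · intro Φ hΦ
    rw [Multiset.mem_toFinset] at hΦ
    exact ⟨UniqueFactorizationMonoid.irreducible_of_factor _ hΦ,
      factor_bideg D H Φ hH hD (UniqueFactorizationMonoid.dvd_of_mem_factors hΦ)⟩
  · intro n w hev
    have hring : ∀ F : ℂ[X][X], evB n w F =
      eval₂RingHom (aeval w : ℂ[X] →ₐ[ℂ] ℂ).toRingHom n F := fun F => rfl
    obtain ⟨v, hv⟩ := hprod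
    rw [← hv, hring, map_mul, mul_eq_zero] at hev
    have hu : eval₂RingHom (aeval w : ℂ[X] →ₐ[ℂ] ℂ).toRingHom n (v : ℂ[X][X]) ≠ 0 :=
      (v.isUnit.map _).ne_zero
    have h1 := hev.resolve_right hu
    rw [map_multiset_prod, Multiset.prod_eq_zero_iff, Multiset.mem_map] at h1
    obtain ⟨P, hP, hP0⟩ := h1
    exact ⟨P, Multiset.mem_toFinset.2 hP, hP0⟩

/-- a subfamily of exact size which is independent. -/
theorem brs_basis {Ω ι : Type} [Field Ω] [Algebra ℂ Ω] [DecidableEq ι] (S : Finset ι) (v : ι → Ω)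
    (d : ℕ) (hd : d ≤ Module.finrank ℂ (Submodule.span ℂ (v '' (S : Set ι)))) :
    ∃ B : Finset ι, B ⊆ S ∧ B.card = d ∧ LinearIndependent ℂ fun x : B => v (x : ι) := by
  obtain ⟨t, h1, h2, h3⟩ := exists_linearIndependent ℂ (v '' (S : Set ι))
  have hfin : t.Finite := (S.finite_toSet.image v).subset h1
  have hft : Fintype t := hfin.fintype
  have hcard : Module.finrank ℂ (Submodule.span ℂ t) = Fintype.card t := by
    have h4 := finrank_span_eq_card h3
    rwa [Subtype.range_coe] at h4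
  rw [← h2, hcard] at hd
  -- choose preimages
  have hpre : ∀ x : t, ∃ i ∈ S, v i = x := fun x => by
    obtain ⟨i, hi, hx⟩ := h1 x.2
    exact ⟨i, hi, hx⟩
  choose f hfS hf using hpre
  have hfinj : Function.Injective f := fun x y hxy => by
    apply Subtype.ext
    rw [← hf x, ← hf y, hxy]
  have hle : d ≤ ((Finset.univ : Finset t).image f).card := by
    rw [Finset.card_image_of_injective _ hfinj, Finset.card_univ]
    exact hd
  obtain ⟨B, hB, hBc⟩ := Finset.exists_subset_card_eq hle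
  refine ⟨B, fun i hi => ?_, hBc, ?_⟩
  · obtain ⟨x, -, rfl⟩ := Finset.mem_image.1 (hB hi)
    exact hfS x
  · have hpre2 : ∀ i : B, ∃ x : t, f x = i := fun i => by
      obtain ⟨x, -, hx⟩ := Finset.mem_image.1 (hB i.2)
      exact ⟨x, hx⟩
    choose g hg using hpre2
    have hginj : Function.Injective g := fun x y hxy => by
      apply Subtype.ext
      rw [← hg x, ← hg y, hxy]
    have h5 := h3.comp g hginj
    have h6 : (fun x : B => v (x : ι)) = (Subtype.val : t → Ω) ∘ g := by
      funext i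
      rw [Function.comp_apply, ← hf, hg]
    rw [h6]
    exact h5

/-- a fixed family of `8 (m-1) (m-1+i)` monomials which are independent on the surface.  The family
depends on the lattice, but there are only finitely many subsets of `mons i (2m)`, so the degree
bound of `poly_of_relation` is uniform. -/
theorem surf_family (i m : ℕ) (hm : 2 ≤ m) : ∃ D : ℕ, ∀ (α g1 g2 : Fin 4 → ℂ) (c : ℂ),
    Lat α g1 g2 c → ∃ B : Finset Ix, B ⊆ mons i (2 * m) ∧ B.card = 8 * (m - 1) * (m - 1 + i) ∧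
      ∀ κ : Ix → ℂ, (∃ x ∈ B, κ x ≠ 0) →
        ∃ Φs : Finset ℂ[X][X], Φs.card ≤ D ∧ (∀ Φ ∈ Φs, Irreducible Φ ∧ BiDeg D D Φ) ∧
          ∀ (n u1 u2 : ℂ) (pi : Fin 4 → ℂ), u1 ≠ 0 → (∀ j, u1 * g1 j + u2 * g2 j ≠ 0) →
            (∀ j, pi j ^ 2 * (u1 * g1 j + u2 * g2 j) = c * (n - α j)) →
            ∑ x ∈ B, κ x * fv u1 u2 pi x = 0 → ∃ Φ ∈ Φs, evB n (u2 / u1) Φ = 0 := by
  classical
  choose Dp hDp using poly_of_relation
  let D1 : ℕ := (mons i (2 * m)).powerset.sup Dp
  obtain ⟨D2, hD2⟩ := factor_finset D1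
  refine ⟨max D1 D2, fun α g1 g2 c hL => ?_⟩
  obtain ⟨Ω, _, _, n0, w0, pi0, hM, hgen⟩ := generic_surf α g1 g2 c hL
  have hrank := surf_rank α g1 g2 c hL Ω n0 w0 pi0 hM hgen i m hm
  obtain ⟨B, hBS, hBc, hBind⟩ := brs_basis (mons i (2 * m)) (fun x => fv 1 w0 pi0 x) _ hrank
  refine ⟨B, hBS, hBc, fun κ hκ => ?_⟩
  obtain ⟨H, hH1, hH2, hH3⟩ := hDp B α g1 g2 c hL κ hκ
  have hH0 : H ≠ 0 := by
    intro h0
    refine hH3 Ω n0 w0 pi0 hM hBind ?_
    rw [h0]
    exact eval₂_zero _ _
  have hle : Dp B ≤ D1 := Finset.le_sup (f := Dp) (Finset.mem_powerset.2 hBS)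
  obtain ⟨Φs, hc1, hc2, hc3⟩ := hD2 H hH0 (bn_mono hH1 hle hle)
  refine ⟨Φs, hc1.trans (le_max_right _ _), fun Φ hΦ => ⟨(hc2 Φ hΦ).1,
    bn_mono (hc2 Φ hΦ).2 (le_max_left _ _) (le_max_left _ _)⟩, ?_⟩
  intro n u1 u2 pi hu hne heq hsum
  obtain ⟨r, hr⟩ := IsAlgClosed.exists_pow_nat_eq u1 two_pos
  refine hc3 n (u2 / u1) (hH2 n (u2 / u1) (fun k => r * pi k)
    (mdl_of_data α g1 g2 c n u1 u2 r pi hu hr hne heq) ?_)
  rw [fv_scale (2 * (i : ℤ) - 2 * m) B ?_ κ u1 u2 r hu hr pi, hsum, mul_zero]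
  intro x hx
  have hx' := hBS hx
  simp only [mons, Finset.mem_product, Finset.HasAntidiagonal.mem_antidiagonal,
    Finset.mem_piAntidiag] at hx'
  obtain ⟨h1, h2, -⟩ := hx'
  have h3 : (∑ j, (x.2 j : ℤ)) = ((∑ j, x.2 j : ℕ) : ℤ) := by push_cast; rfl
  rw [h3]
  have h4 : (∑ j, x.2 j) = 2 * m := h2
  rw [h4]
  push_cast
  have h5 : ((x.1.1 : ℤ) + x.1.2) = i := by exact_mod_cast h1
  rw [h5]

end Vale.Agent.P018.QB
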