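import Mathlib
import Vale.Agent.P018.LinAlg
import Vale.Agent.P018.Q.BDefs
import Vale.Agent.P018.Q.BRelA
import Vale.Agent.P018.Q.BRelD
import Vale.Agent.P018.Q.BRelS

/-! # P018, (B): the relation step in a real cell. -/

namespace Vale.Agent.P018.QB

open Polynomial NumberField Vale.Agent.P018.Q

theorem relc_sum_le (N0 : ℕ) : ∑ j ∈ Finset.range N0, j ≤ N0 ^ 2 := by
  calc ∑ j ∈ Finset.range N0, j ≤ ∑ _j ∈ Finset.range N0, N0 :=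
        Finset.sum_le_sum fun j hj => (Finset.mem_range.mp hj).le
    _ = N0 ^ 2 := by rw [Finset.sum_const, Finset.card_range, smul_eq_mul, pow_two]

theorem relc_mono {N0 : ℕ} {K Q A B : ℝ} (hK : 0 < K) (hQ : 0 < Q) (hA0 : 0 ≤ A) (hA : A ≤ 1)
    (h : ∀ S : Finset (ℕ × ℕ), S.card = N0 →
      K * Q ^ N0 * ∏ s ∈ S, (A ^ s.1 * B ^ s.2) < 1) : A ^ (N0 ^ 2) ≤ 1 / (K * Q ^ N0) := by
  have hi : Function.Injective (fun j : ℕ => (j, (0 : ℕ))) := fun a b hab => by simpa using hab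
  have h1 := h ((Finset.range N0).image fun j : ℕ => (j, (0 : ℕ)))
    (by rw [Finset.card_image_of_injective _ hi, Finset.card_range])
  have e0 : ∏ s ∈ (Finset.range N0).image (fun j : ℕ => (j, (0 : ℕ))), (A ^ s.1 * B ^ s.2)
      = A ^ (∑ j ∈ Finset.range N0, j) := by
    rw [Finset.prod_image (fun a _ b _ hab => hi hab), ← Finset.prod_pow_eq_pow_sum]
    exact Finset.prod_congr rfl fun j _ => by simp
  rw [e0] at h1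
  have hKQ : 0 < K * Q ^ N0 := by positivity
  rw [le_div_iff₀ hKQ]
  have h2 : A ^ (N0 ^ 2) ≤ A ^ (∑ j ∈ Finset.range N0, j) :=
    pow_le_pow_of_le_one hA0 hA (relc_sum_le N0)
  nlinarith

theorem relc_mono' {N0 : ℕ} {K Q A B : ℝ} (hK : 0 < K) (hQ : 0 < Q) (hB0 : 0 ≤ B) (hB : B ≤ 1)
    (h : ∀ S : Finset (ℕ × ℕ), S.card = N0 →
      K * Q ^ N0 * ∏ s ∈ S, (A ^ s.1 * B ^ s.2) < 1) : B ^ (N0 ^ 2) ≤ 1 / (K * Q ^ N0) := by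
  have hi : Function.Injective (fun j : ℕ => ((0 : ℕ), j)) := fun a b hab => by simpa using hab
  have h1 := h ((Finset.range N0).image fun j : ℕ => ((0 : ℕ), j))
    (by rw [Finset.card_image_of_injective _ hi, Finset.card_range])
  have e0 : ∏ s ∈ (Finset.range N0).image (fun j : ℕ => ((0 : ℕ), j)), (A ^ s.1 * B ^ s.2)
      = B ^ (∑ j ∈ Finset.range N0, j) := by
    rw [Finset.prod_image (fun a _ b _ hab => hi hab), ← Finset.prod_pow_eq_pow_sum]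
    exact Finset.prod_congr rfl fun j _ => by simp
  rw [e0] at h1
  have hKQ : 0 < K * Q ^ N0 := by positivity
  rw [le_div_iff₀ hKQ]
  have h2 : B ^ (N0 ^ 2) ≤ B ^ (∑ j ∈ Finset.range N0, j) :=
    pow_le_pow_of_le_one hB0 hB (relc_sum_le N0)
  nlinarith

theorem relc_prod {N0 : ℕ} {K Q K1 X ρ : ℝ} (hK : 0 < K) (hQ : 0 < Q) (hK1 : 1 ≤ K1)
    (hX : K1 ≤ X) (hρ0 : 0 < ρ) (hρ : ρ ≤ 1)
    (h : ∀ S : Finset (ℕ × ℕ), S.card = N0 →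
      K * Q ^ N0 * ∏ s ∈ S, (X⁻¹ ^ s.1 * ρ ^ s.2) < 1) (S : Finset (ℕ × ℕ)) (hS : S.card = N0) :
    ∏ s ∈ S, ((K1 / X) ^ s.1 * ρ ^ s.2) ≤ K1 ^ (N0 ^ 2) / (K * Q ^ N0) := by
  have hX0 : 0 < X := by linarith
  have hKQ : 0 < K * Q ^ N0 := by positivity
  have hXi : X⁻¹ ≤ 1 := inv_le_one_of_one_le₀ (by linarith)
  have hXi0 : 0 ≤ X⁻¹ := by positivity
  have e1 : ∏ s ∈ S, ((K1 / X) ^ s.1 * ρ ^ s.2)
      = K1 ^ (∑ s ∈ S, s.1) * ∏ s ∈ S, (X⁻¹ ^ s.1 * ρ ^ s.2) := by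
    rw [← Finset.prod_pow_eq_pow_sum, ← Finset.prod_mul_distrib]
    refine Finset.prod_congr rfl fun s _ => ?_
    rw [div_eq_mul_inv, mul_pow]
    ring
  rcases le_total (∑ s ∈ S, s.1) (N0 ^ 2) with hle | hle
  · rw [e1, le_div_iff₀ hKQ]
    have h1 := h S hS
    have h2 : K1 ^ (∑ s ∈ S, s.1) ≤ K1 ^ (N0 ^ 2) := pow_le_pow_right₀ hK1 hle
    have h3 : 0 ≤ K1 ^ (∑ s ∈ S, s.1) := by positivity
    calc (K1 ^ (∑ s ∈ S, s.1) * ∏ s ∈ S, (X⁻¹ ^ s.1 * ρ ^ s.2)) * (K * Q ^ N0)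
        = K1 ^ (∑ s ∈ S, s.1) * (K * Q ^ N0 * ∏ s ∈ S, (X⁻¹ ^ s.1 * ρ ^ s.2)) := by ring
      _ ≤ K1 ^ (∑ s ∈ S, s.1) * 1 := mul_le_mul_of_nonneg_left h1.le h3
      _ = K1 ^ (∑ s ∈ S, s.1) := mul_one _
      _ ≤ _ := h2
  · have h1 := relc_mono hK hQ hXi0 hXi h
    have e2 : ∏ s ∈ S, ((K1 / X) ^ s.1 * ρ ^ s.2)
        = (K1 / X) ^ (∑ s ∈ S, s.1) * ρ ^ (∑ s ∈ S, s.2) := by
      rw [Finset.prod_mul_distrib, Finset.prod_pow_eq_pow_sum, Finset.prod_pow_eq_pow_sum]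
    have hV : K1 / X ≤ 1 := (div_le_one hX0).mpr hX
    have hV0 : 0 ≤ K1 / X := by positivity
    have h2 : (K1 / X) ^ (∑ s ∈ S, s.1) ≤ (K1 / X) ^ (N0 ^ 2) :=
      pow_le_pow_of_le_one hV0 hV hle
    have h3 : ρ ^ (∑ s ∈ S, s.2) ≤ 1 := pow_le_one₀ hρ0.le hρ
    have h4 : 0 ≤ ρ ^ (∑ s ∈ S, s.2) := by positivity
    rw [e2]
    calc (K1 / X) ^ (∑ s ∈ S, s.1) * ρ ^ (∑ s ∈ S, s.2)
        ≤ (K1 / X) ^ (N0 ^ 2) * 1 := mul_le_mul h2 h3 h4 (by positivity)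
      _ = K1 ^ (N0 ^ 2) * X⁻¹ ^ (N0 ^ 2) := by rw [mul_one, div_eq_mul_inv, mul_pow]
      _ ≤ K1 ^ (N0 ^ 2) * (1 / (K * Q ^ N0)) :=
          mul_le_mul_of_nonneg_left h1 (by positivity)
      _ = _ := by ring

theorem relc_det {L : Type} [Field L] [NumberField L] (θ : Fin 4 → 𝓞 L) {N0 i m : ℕ}
    (hN0 : 1 ≤ N0) {K1 K X T U ρ : ℝ} (hK1 : 1 ≤ K1)
    (hK : 2 * (((N0 ^ 2 : ℕ) : ℝ) ^ 2 + N0) ^ N0 * (N0.factorial : ℝ) * K1 ^ (N0 + N0 ^ 2) < K)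
    (hT : 1 ≤ T) (hX : K ≤ X) (hρ0 : 0 < ρ) (hρ : ρ ≤ 1 / K) (hU : 1 ≤ U)
    (h : ∀ S : Finset (ℕ × ℕ), S.card = N0 →
      K * (U ^ i * T ^ (2 * m)) ^ N0 * ∏ s ∈ S, (X⁻¹ ^ s.1 * ρ ^ s.2) < 1)
    (B : Finset Ix) (hB : B ⊆ mons i (2 * m)) (hBc : B.card = N0)
    (y : ℤ → Fin 4 → ℤ) (u1 u2 : ℤ → ℤ) (ψ : {x // x ∈ B} → ℤ)
    (hent : ∀ φ : L →+* ℂ, ∃ (co : Ix → ℕ → ℕ → ℂ) (rr v ω : ℤ → ℂ),
      (∀ x ∈ mons i (2 * m), ∀ τ k, ‖co x τ k‖ ≤ K1 * (U ^ i * T ^ (2 * m))) ∧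
      ∀ k : {x // x ∈ B}, ‖rr (ψ k)‖ ≤ 1 ∧ ‖v (ψ k)‖ ≤ K1 / X ∧ ‖ω (ψ k)‖ ≤ ρ ∧
        ∀ x ∈ mons i (2 * m),
          ∃ er : ℂ, ‖er‖ ≤ K1 * (U ^ i * T ^ (2 * m)) *
              (‖v (ψ k)‖ ^ (N0 ^ 2) + ‖ω (ψ k)‖ ^ (N0 ^ 2)) ∧
          φ ((fv ((u1 (ψ k) : ℤ) : 𝓞 L) ((u2 (ψ k) : ℤ) : 𝓞 L) (pv θ (y (ψ k))) x : 𝓞 L) : L) =
            rr (ψ k) * (∑ τ ∈ Finset.range (N0 ^ 2), ∑ k' ∈ Finset.range (N0 ^ 2),
              co x τ k' * v (ψ k) ^ τ * ω (ψ k) ^ k' + er)) :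
    (Matrix.of fun k x : {x // x ∈ B} => fv ((u1 (ψ k) : ℤ) : 𝓞 L) ((u2 (ψ k) : ℤ) : 𝓞 L)
      (pv θ (y (ψ k))) x.1).det = 0 := by
  have hcard : Fintype.card {x // x ∈ B} = N0 := by rw [Fintype.card_coe, hBc]
  obtain ⟨Q, hQ⟩ : ∃ Q : ℝ, Q = U ^ i * T ^ (2 * m) := ⟨_, rfl⟩
  have hQ1 : 1 ≤ Q := by
    rw [hQ]
    exact one_le_mul_of_one_le_of_one_le (one_le_pow₀ hU) (one_le_pow₀ hT)
  have hQ0 : 0 < Q := by linarith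
  have hfac : (1 : ℝ) ≤ N0.factorial := by exact_mod_cast Nat.succ_le_of_lt (Nat.factorial_pos N0)
  have hR1 : (1 : ℝ) ≤ (((N0 ^ 2 : ℕ) : ℝ) ^ 2 + N0) := by
    have : (1 : ℝ) ≤ N0 := by exact_mod_cast hN0
    nlinarith [sq_nonneg (((N0 ^ 2 : ℕ) : ℝ))]
  have hRp : (1 : ℝ) ≤ (((N0 ^ 2 : ℕ) : ℝ) ^ 2 + N0) ^ N0 := one_le_pow₀ hR1
  have hKpow : K1 ≤ K1 ^ (N0 + N0 ^ 2) := le_self_pow₀ hK1 (by omega)
  have hKp1 : (1 : ℝ) ≤ K1 ^ (N0 + N0 ^ 2) := one_le_pow₀ hK1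
  have hK2 : 2 * K1 ≤ K := by
    refine le_trans ?_ hK.le
    have h1 : (1 : ℝ) ≤ (((N0 ^ 2 : ℕ) : ℝ) ^ 2 + N0) ^ N0 * (N0.factorial : ℝ) :=
      one_le_mul_of_one_le_of_one_le hRp hfac
    calc 2 * K1 ≤ 2 * (1 * K1 ^ (N0 + N0 ^ 2)) := by linarith
      _ ≤ 2 * ((((N0 ^ 2 : ℕ) : ℝ) ^ 2 + N0) ^ N0 * (N0.factorial : ℝ) * K1 ^ (N0 + N0 ^ 2)) := by
          have := mul_le_mul_of_nonneg_right h1 (by linarith : 0 ≤ K1 ^ (N0 + N0 ^ 2))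
          linarith
      _ = _ := by ring
  have hK0 : 0 < K := by linarith
  have hX0 : 0 < X := by linarith
  have hV0 : 0 ≤ K1 / X := by positivity
  have hV : K1 / X ≤ 1 / 2 := by
    rw [div_le_div_iff₀ hX0 (by norm_num)]
    linarith
  have hW : ρ ≤ 1 / 2 := by
    refine hρ.trans ?_
    rw [div_le_div_iff₀ hK0 (by norm_num)]
    linarith
  rw [← hQ] at h
  have hR0 : N0 ^ 2 ≠ 0 := by positivity
  -- the value of the error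
  obtain ⟨Γ, hΓdef⟩ : ∃ Γ : ℝ, Γ = 2 * K1 ^ (N0 ^ 2) / (K * Q ^ N0) := ⟨_, rfl⟩
  have hKQ : 0 < K * Q ^ N0 := by positivity
  have hKR : (1 : ℝ) ≤ K1 ^ (N0 ^ 2) := one_le_pow₀ hK1
  have hEr : (K1 / X) ^ (N0 ^ 2) + ρ ^ (N0 ^ 2) ≤ Γ := by
    have h1 := relc_mono hK0 hQ0 (by positivity : (0 : ℝ) ≤ X⁻¹)
      (inv_le_one_of_one_le₀ (by linarith)) h
    have h2 := relc_mono' hK0 hQ0 hρ0.le (by linarith) h
    have h3 : (K1 / X) ^ (N0 ^ 2) ≤ K1 ^ (N0 ^ 2) / (K * Q ^ N0) := by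
      rw [div_eq_mul_inv, mul_pow, div_eq_mul_one_div]
      exact mul_le_mul_of_nonneg_left h1 (by positivity)
    have h4 : 1 / (K * Q ^ N0) ≤ K1 ^ (N0 ^ 2) / (K * Q ^ N0) :=
      div_le_div_of_nonneg_right hKR hKQ.le
    rw [hΓdef]
    have e : 2 * K1 ^ (N0 ^ 2) / (K * Q ^ N0)
        = K1 ^ (N0 ^ 2) / (K * Q ^ N0) + K1 ^ (N0 ^ 2) / (K * Q ^ N0) := by ring
    rw [e]
    linarith
  have hEr1 : (K1 / X) ^ (N0 ^ 2) + ρ ^ (N0 ^ 2) ≤ 1 := by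
    have h1 : (K1 / X) ^ (N0 ^ 2) ≤ 1 / 2 :=
      (pow_le_of_le_one hV0 (by linarith) hR0).trans hV
    have h2 : ρ ^ (N0 ^ 2) ≤ 1 / 2 := (pow_le_of_le_one hρ0.le (by linarith) hR0).trans hW
    linarith
  have hfin : (((N0 ^ 2 : ℕ) : ℝ) ^ 2 + N0) ^ N0 *
      ((N0.factorial : ℝ) * ((K1 * Q) ^ N0 * Γ)) < 1 := by
    have e : (((N0 ^ 2 : ℕ) : ℝ) ^ 2 + N0) ^ N0 *
      ((N0.factorial : ℝ) * ((K1 * Q) ^ N0 * Γ)) =
      (2 * (((N0 ^ 2 : ℕ) : ℝ) ^ 2 + N0) ^ N0 * (N0.factorial : ℝ) * K1 ^ (N0 + N0 ^ 2)) / K := by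
      rw [hΓdef, mul_pow, pow_add]
      field_simp
    rw [e, div_lt_one hK0]
    exact hK
  apply zero_of_conj
  intro φ
  obtain ⟨co, rr, v, ω, hco, hk⟩ := hent φ
  have hk' : ∀ k : {x // x ∈ B}, ∀ x : {x // x ∈ B}, ∃ er : ℂ,
      ‖er‖ ≤ K1 * Q * ((K1 / X) ^ (N0 ^ 2) + ρ ^ (N0 ^ 2)) ∧
      φ ((fv ((u1 (ψ k) : ℤ) : 𝓞 L) ((u2 (ψ k) : ℤ) : 𝓞 L) (pv θ (y (ψ k))) x.1 : 𝓞 L) : L) =
            rr (ψ k) * (∑ τ ∈ Finset.range (N0 ^ 2), ∑ k' ∈ Finset.range (N0 ^ 2),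
              co x.1 τ k' * v (ψ k) ^ τ * ω (ψ k) ^ k' + er) := by
    intro k x
    obtain ⟨-, hv, hω, hx⟩ := hk k
    obtain ⟨er, her, he⟩ := hx x.1 (hB x.2)
    refine ⟨er, her.trans ?_, he⟩
    rw [← hQ]
    refine mul_le_mul_of_nonneg_left ?_ (by positivity)
    exact add_le_add (pow_le_pow_left₀ (norm_nonneg _) hv _) (pow_le_pow_left₀ (norm_nonneg _) hω _)
  choose er her he using hk'
  have hdet := det_small (N0 ^ 2)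
    (Matrix.of fun k x : {x // x ∈ B} => φ ((fv ((u1 (ψ k) : ℤ) : 𝓞 L) ((u2 (ψ k) : ℤ) : 𝓞 L)
      (pv θ (y (ψ k))) x.1 : 𝓞 L) : L)) (fun k => rr (ψ k)) (fun x => co x.1) er
      (fun k => v (ψ k)) (fun k => ω (ψ k)) (K1 * Q)
      ((K1 / X) ^ (N0 ^ 2) + ρ ^ (N0 ^ 2)) (K1 / X) ρ Γ
      (fun k x => by rw [Matrix.of_apply]; exact he k x)
      (fun k => (hk k).1) (fun x τ l => by rw [hQ]; exact hco x.1 (hB x.2) τ l)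
      her (fun k => (hk k).2.1) (fun k => (hk k).2.2.1) hV0 hρ0.le (by linarith) (by linarith)
      (by positivity) hEr hEr1
      (fun S hS => by
        rw [hcard] at hS
        refine (relc_prod hK0 hQ0 hK1 (by linarith) hρ0 (by linarith) h S hS).trans ?_
        rw [hΓdef]
        refine div_le_div_of_nonneg_right ?_ hKQ.le
        linarith)
  rw [hcard] at hdet
  have hmap : φ (((Matrix.of fun k x : {x // x ∈ B} => fv ((u1 (ψ k) : ℤ) : 𝓞 L)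
      ((u2 (ψ k) : ℤ) : 𝓞 L) (pv θ (y (ψ k))) x.1).det : 𝓞 L) : L) =
      (Matrix.of fun k x : {x // x ∈ B} => φ ((fv ((u1 (ψ k) : ℤ) : 𝓞 L) ((u2 (ψ k) : ℤ) : 𝓞 L)
      (pv θ (y (ψ k))) x.1 : 𝓞 L) : L)).det := by
    have := RingHom.map_det (φ.comp (algebraMap (𝓞 L) L)) (Matrix.of fun k x : {x // x ∈ B} =>
      fv ((u1 (ψ k) : ℤ) : 𝓞 L) ((u2 (ψ k) : ℤ) : 𝓞 L) (pv θ (y (ψ k))) x.1)
    exact this
  rw [hmap]
  exact hdet.trans_lt hfin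

theorem relc_ne {L : Type} [Field L] [NumberField L] {θ : Fin 4 → 𝓞 L} {G : ℤ[X]}
    (hG : Root4 θ G) (N : ℤ) (j : Fin 4) : (N : 𝓞 L) - θ j ≠ 0 := by
  intro h0
  have hval : ((G.eval N : ℤ) : 𝓞 L) = ∏ i, ((N : 𝓞 L) - θ i) := by
    have := congrArg (Polynomial.eval (N : 𝓞 L)) hG.roots
    rw [Polynomial.eval_prod] at this
    simp only [eval_sub, eval_X, eval_C] at this
    rw [← this, Polynomial.eval_map]
    have := Polynomial.eval₂_at_intCast (S := 𝓞 L) (algebraMap ℤ (𝓞 L)) N (p := G)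
    simpa using this.symm
  have hz : G.eval N = 0 := by
    have h1 : ((G.eval N : ℤ) : 𝓞 L) = 0 := by
      rw [hval]
      exact Finset.prod_eq_zero (Finset.mem_univ j) h0
    exact_mod_cast h1
  have hroot : (G.map (Int.castRingHom ℚ)).IsRoot (N : ℚ) := by
    rw [Polynomial.IsRoot.def, Polynomial.eval_map]
    have h2 := Polynomial.eval₂_at_intCast (S := ℚ) (Int.castRingHom ℚ) N (p := G)
    rw [h2, Int.cast_id, hz, map_zero]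
  have hd := Polynomial.degree_eq_one_of_irreducible_of_root hG.irr hroot
  have hd4 : (G.map (Int.castRingHom ℚ)).natDegree = 4 := by
    rw [hG.monic.natDegree_map, hG.deg]
  rw [Polynomial.degree_eq_natDegree hG.irr.ne_zero, hd4] at hd
  norm_num at hd

theorem relc_lin {L : Type} [Field L] [NumberField L] (θ : Fin 4 → 𝓞 L) (φ : L →+* ℂ)
    (g1 g2 : Fin 4 → ℤ) (a b : ℤ) (j : Fin 4) :
    (a : ℂ) * cf θ φ g1 j + (b : ℂ) * cf θ φ g2 j =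
      φ ((K.ell (θ j) (fun l => a * g1 l + b * g2 l) : 𝓞 L) : L) := by
  have h1 : (K.ell (θ j) (fun l => a * g1 l + b * g2 l) : 𝓞 L) =
      (a : 𝓞 L) * K.ell (θ j) g1 + (b : 𝓞 L) * K.ell (θ j) g2 := by
    unfold K.ell
    rw [Finset.mul_sum, Finset.mul_sum, ← Finset.sum_add_distrib]
    refine Finset.sum_congr rfl fun l _ => ?_
    push_cast
    ring
  rw [h1]
  unfold cf el
  have : φ ((((a : 𝓞 L) * K.ell (θ j) g1 + (b : 𝓞 L) * K.ell (θ j) g2 : 𝓞 L)) : L) =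
      (φ.comp (algebraMap (𝓞 L) L)) ((a : 𝓞 L) * K.ell (θ j) g1 + (b : 𝓞 L) * K.ell (θ j) g2) := rfl
  rw [this, map_add, map_mul, map_mul, map_intCast, map_intCast]
  rfl

theorem relc_fv {L : Type} [Field L] [NumberField L] (θ : Fin 4 → 𝓞 L) (φ : L →+* ℂ)
    (a b : ℤ) (y : Fin 4 → ℤ) (x : Ix) :
    φ ((fv (a : 𝓞 L) (b : 𝓞 L) (pv θ y) x : 𝓞 L) : L) =
      fv (a : ℂ) (b : ℂ) (fun j => φ ((pv θ y j : 𝓞 L) : L)) x := by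
  have : φ ((fv (a : 𝓞 L) (b : 𝓞 L) (pv θ y) x : 𝓞 L) : L) =
      (φ.comp (algebraMap (𝓞 L) L)) (fv (a : 𝓞 L) (b : 𝓞 L) (pv θ y) x) := rfl
  rw [this]
  unfold fv
  rw [map_mul, map_mul, map_pow, map_pow, map_prod, map_intCast, map_intCast]
  simp only [map_pow]
  rfl

theorem relc_pt {L : Type} [Field L] [NumberField L] {θ : Fin 4 → 𝓞 L} {G : ℤ[X]}
    (hG : Root4 θ G) (φ : L →+* ℂ) {C : ℕ} {X T U : ℝ} {c : ℤ} {g1 g2 : Fin 4 → ℤ} {N : ℤ}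
    {p : ℕ} {y : Fin 4 → ℤ} {u1 u2 : ℤ} (h : BDat θ C X T U c g1 g2 N p y u1 u2) (j : Fin 4) :
    (u1 : ℂ) * cf θ φ g1 j + (u2 : ℂ) * cf θ φ g2 j ≠ 0 ∧
      φ ((pv θ y j : 𝓞 L) : L) ^ 2 * ((u1 : ℂ) * cf θ φ g1 j + (u2 : ℂ) * cf θ φ g2 j) =
        (c : ℂ) * ((N : ℂ) - φ ((θ j : 𝓞 L) : L)) := by
  have he := h.dat.eqn j
  rw [relc_lin]
  have he2 : φ ((pv θ y j : 𝓞 L) : L) ^ 2 *
      φ ((K.ell (θ j) (fun l => u1 * g1 l + u2 * g2 l) : 𝓞 L) : L) =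
        (c : ℂ) * ((N : ℂ) - φ ((θ j : 𝓞 L) : L)) := by
    have h2 := congrArg (φ.comp (algebraMap (𝓞 L) L)) he
    rw [map_mul, map_mul, map_sub, map_pow, map_intCast, map_intCast] at h2
    exact h2.symm
  refine ⟨?_, he2⟩
  intro h0
  rw [h0, mul_zero] at he2
  have h3 : (φ.comp (algebraMap (𝓞 L) L)) ((c : 𝓞 L) * ((N : 𝓞 L) - θ j)) = 0 := by
    rw [map_mul, map_sub, map_intCast, map_intCast]
    exact he2.symm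
  have hinj : Function.Injective (φ.comp (algebraMap (𝓞 L) L)) := by
    rw [RingHom.coe_comp]
    exact φ.injective.comp (FaithfulSMul.algebraMap_injective (𝓞 L) L)
  have h4 : (c : 𝓞 L) * ((N : 𝓞 L) - θ j) = 0 := by
    apply hinj
    rw [h3, map_zero]
  rcases mul_eq_zero.mp h4 with h5 | h5
  · exact h.dat.c0 (by exact_mod_cast h5)
  · exact relc_ne hG N j h5

/-- the relation step.  Proof: `surf_family` for one embedding `φ0` gives `B` (`|B| = N0`); split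
`S` in the `≤ 16^[L:ℚ]` classes of the sign vectors of all embeddings (`entries`); in a class every
`N0 × N0` determinant of the values of `B` has all conjugates `< 1` (`det_small`, `R = N0^2`; the
error is `≤ 2 K^R max(X^-R, ρ^R)`, compared with the products over `{(j,0)}` and `{(0,j)}`, `j < N0`),
so it vanishes (`zero_of_conj`); `exists_kernel` (P018/LinAlg) over `L`, apply `φ0`. -/
theorem rel_cell {L : Type} [Field L] [NumberField L] (θ : Fin 4 → 𝓞 L) (G : ℤ[X])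
    (hG : Root4 θ G) (C i m : ℕ) (hm : 2 ≤ m) :
    ∃ (K : ℝ) (D : ℕ), 0 < K ∧ ∀ (X T U ρ : ℝ), 1 ≤ T → K ≤ X → 0 < ρ → ρ ≤ 1 / K → 1 ≤ U →
      (∀ S : Finset (ℕ × ℕ), S.card = 8 * (m - 1) * (m - 1 + i) →
        K * (U ^ i * T ^ (2 * m)) ^ (8 * (m - 1) * (m - 1 + i)) *
          ∏ s ∈ S, (X⁻¹ ^ s.1 * ρ ^ s.2) < 1) →
      ∀ (c : ℤ) (g1 g2 : Fin 4 → ℤ) (w0 : ℝ) (S : Finset ℤ) (p : ℤ → ℕ)
        (y : ℤ → Fin 4 → ℤ) (u1 u2 : ℤ → ℤ), Cell θ C X T U ρ c g1 g2 w0 S p y u1 u2 →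
        ∃ Φs : Finset ℂ[X][X], Φs.card ≤ D ∧ (∀ Φ ∈ Φs, Irreducible Φ ∧ BiDeg D D Φ) ∧
          ∀ N ∈ S, ∃ Φ ∈ Φs, evB (N : ℂ) ((u2 N : ℂ) / u1 N) Φ = 0 := by
  classical
  obtain ⟨N0, hN0⟩ : ∃ N0, N0 = 8 * (m - 1) * (m - 1 + i) := ⟨_, rfl⟩
  have hN1 : 1 ≤ N0 := by
    have h1 : 1 ≤ m - 1 := by omega
    rw [hN0]
    have : 0 < 8 * (m - 1) * (m - 1 + i) := by positivity
    omega
  obtain ⟨K1, hK1, hent⟩ := entries θ G hG C i m (N0 ^ 2)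
  obtain ⟨D1, hD1⟩ := surf_family i m hm
  obtain ⟨M, hM⟩ : ∃ M, M = Fintype.card ((L →+* ℂ) → Fin 4 → ℤˣ) := ⟨_, rfl⟩
  have hK1' : 0 < K1 := by linarith
  obtain ⟨K, hK⟩ : ∃ K : ℝ, K = 2 * (((N0 ^ 2 : ℕ) : ℝ) ^ 2 + N0) ^ N0 * (N0.factorial : ℝ) *
    K1 ^ (N0 + N0 ^ 2) + 2 * K1 := ⟨_, rfl⟩
  have hKpos : 0 < K := by rw [hK]; positivity
  refine ⟨K, D1 + M * D1, hKpos, ?_⟩
  intro X T U ρ hT hX hρ0 hρ hU h c g1 g2 w0 S p y u1 u2 hcell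
  rw [← hN0] at h
  have hpp : 0 ≤ 2 * (((N0 ^ 2 : ℕ) : ℝ) ^ 2 + N0) ^ N0 * (N0.factorial : ℝ) *
    K1 ^ (N0 + N0 ^ 2) := by positivity
  have hK2 : 2 * K1 ≤ K := by rw [hK]; linarith
  have hKlt : 2 * (((N0 ^ 2 : ℕ) : ℝ) ^ 2 + N0) ^ N0 * (N0.factorial : ℝ) *
    K1 ^ (N0 + N0 ^ 2) < K := by rw [hK]; linarith
  have hρ2 : ρ ≤ 1 / 2 := by
    refine hρ.trans ?_
    rw [div_le_div_iff₀ hKpos (by norm_num)]
    linarith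
  have hent' := hent X T U ρ hT (by linarith) hρ0 hρ2 hU c g1 g2 w0 S p y u1 u2 hcell
  choose sg hsg using hent'
  obtain ⟨φ0⟩ : Nonempty (L →+* ℂ) := inferInstance
  rcases S.eq_empty_or_nonempty with hS | ⟨N1, hN1S⟩
  · exact ⟨∅, by simp, by simp, by simp [hS]⟩
  have hc0 : c ≠ 0 := (hcell.dat N1 hN1S).dat.c0
  have hinj : Function.Injective (φ0.comp (algebraMap (𝓞 L) L)) := by
    rw [RingHom.coe_comp]
    exact φ0.injective.comp (FaithfulSMul.algebraMap_injective (𝓞 L) L)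
  have hlat : Lat (fun j => φ0 ((θ j : 𝓞 L) : L)) (cf θ φ0 g1) (cf θ φ0 g2) (c : ℂ) := by
    refine ⟨fun a b hab => hG.inj (hinj hab), by exact_mod_cast hc0, fun j k hjk he => ?_⟩
    refine hcell.ns j k hjk (hinj ?_)
    rw [map_mul, map_mul]
    exact he
  obtain ⟨B, hB, hBc, hBf⟩ := hD1 _ _ _ _ hlat
  rw [← hN0] at hBc
  have hclass : ∀ s : (L →+* ℂ) → Fin 4 → ℤˣ, ∃ Φs : Finset ℂ[X][X], Φs.card ≤ D1 ∧
      (∀ Φ ∈ Φs, Irreducible Φ ∧ BiDeg D1 D1 Φ) ∧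
      ∀ N ∈ S, (∀ φ, sg φ N = s φ) → ∃ Φ ∈ Φs, evB (N : ℂ) ((u2 N : ℂ) / u1 N) Φ = 0 := by
    intro s
    obtain ⟨κ, hκ0, hκ⟩ := exists_kernel (I := {N // N ∈ S ∧ ∀ φ, sg φ N = s φ})
      (J := {x // x ∈ B}) (K := L)
      (fun N x => ((fv ((u1 N.1 : ℤ) : 𝓞 L) ((u2 N.1 : ℤ) : 𝓞 L) (pv θ (y N.1)) x.1 : 𝓞 L) : L))
      (by
        intro ψ
        have hd := relc_det θ (m := m) (i := i) hN1 hK1 hKlt hT hX hρ0 hρ hU h B hB hBc y u1 u2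
          (fun k => (ψ k).1) (by
            intro φ
            obtain ⟨co, rr, v, ω, hco, hN⟩ := hsg φ (s φ)
            exact ⟨co, rr, v, ω, hco, fun k => hN (ψ k).1 (ψ k).2.1 ((ψ k).2.2 φ)⟩)
        have h2 := congrArg (algebraMap (𝓞 L) L) hd
        rw [RingHom.map_det, map_zero] at h2
        exact h2)
    obtain ⟨κ', hκ'⟩ : ∃ κ' : Ix → ℂ, κ' = fun x => if hx : x ∈ B then φ0 (κ ⟨x, hx⟩) else 0 :=
      ⟨_, rfl⟩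
    have hne : ∃ x ∈ B, κ' x ≠ 0 := by
      by_contra hcon
      push Not at hcon
      apply hκ0
      funext x
      have h1 := hcon x.1 x.2
      rw [hκ'] at h1
      simp only [x.2, dif_pos] at h1
      exact (map_eq_zero φ0).mp h1
    obtain ⟨Φs, hcard, hirr, hvan⟩ := hBf κ' hne
    refine ⟨Φs, hcard, hirr, ?_⟩
    intro N hN hs
    have hbd := hcell.dat N hN
    refine hvan (N : ℂ) (u1 N : ℂ) (u2 N : ℂ) (fun j => φ0 ((pv θ (y N) j : 𝓞 L) : L))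
      (by exact_mod_cast hbd.u10) (fun j => (relc_pt hG φ0 hbd j).1)
      (fun j => (relc_pt hG φ0 hbd j).2) ?_
    have h1 := congrArg φ0 (hκ ⟨N, hN, hs⟩)
    rw [map_sum, map_zero] at h1
    rw [← Finset.sum_coe_sort B (fun x => κ' x *
      fv (u1 N : ℂ) (u2 N : ℂ) (fun j => φ0 ((pv θ (y N) j : 𝓞 L) : L)) x), ← h1]
    refine Finset.sum_congr rfl fun x _ => ?_
    rw [map_mul, relc_fv, hκ']
    simp only [x.2, dif_pos]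
  choose Φs hcard hirr hvan using hclass
  refine ⟨Finset.univ.biUnion Φs, ?_, ?_, ?_⟩
  · calc (Finset.univ.biUnion Φs).card ≤ ∑ s, (Φs s).card := Finset.card_biUnion_le
      _ ≤ ∑ _s : (L →+* ℂ) → Fin 4 → ℤˣ, D1 := Finset.sum_le_sum fun s _ => hcard s
      _ = M * D1 := by rw [Finset.sum_const, Finset.card_univ, smul_eq_mul, hM]
      _ ≤ _ := Nat.le_add_left _ _
  · intro Φ hΦ
    rw [Finset.mem_biUnion] at hΦ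
    obtain ⟨s, -, hs⟩ := hΦ
    obtain ⟨h1, h2⟩ := hirr s Φ hs
    exact ⟨h1, bn_mono h2 (Nat.le_add_right _ _) (Nat.le_add_right _ _)⟩
  · intro N hN
    obtain ⟨Φ, hΦ, hv⟩ := hvan (fun φ => sg φ N) N hN (fun _ => rfl)
    exact ⟨Φ, Finset.mem_biUnion.mpr ⟨_, Finset.mem_univ _, hΦ⟩, hv⟩

end Vale.Agent.P018.QB
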