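import Mathlib
import Vale.Agent.P018.Q.BDefs
import Vale.Agent.P018.Q.BRel
import Vale.Agent.P018.Q.BCount

/-! # P018, (B): the count over one reduced pair from the cells. -/

namespace Vale.Agent.P018.QB

open Polynomial NumberField Vale.Agent.P018.Q

/-- the conclusion of `exists_cells`. -/
def CellStmt {L : Type} [Field L] [NumberField L] (θ : Fin 4 → 𝓞 L) (C : ℕ) : Prop :=
    ∃ K : ℝ, 0 < K ∧ ∀ (X T ρ : ℝ), 1 ≤ T → K ≤ X → 0 < ρ → ρ ≤ 1 → ∀ (g g' : Fin 4 → ℤ),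
      g ≠ 0 → g' ≠ 0 → ∀ (S : Finset ℤ) (p : ℤ → ℕ) (c : ℤ) (y : ℤ → Fin 4 → ℤ) (u1 u2 : ℤ → ℤ),
      (∀ N ∈ S, Dat θ C X T N (p N) c (y N) (fun j => u1 N * g j + u2 N * g' j) ∧
        X ≤ C * |(N : ℝ)| ∧ u1 N ≠ 0 ∧ (u1 N : ℝ) ^ 2 * dot g g ≤ C * (X / T ^ 2) ^ 2 ∧
        (u2 N : ℝ) ^ 2 * dot g' g' ≤ (u1 N : ℝ) ^ 2 * dot g g) →
      ∃ (k : ℕ) (cl : ℤ → ℕ) (w0 : ℕ → ℝ), (k : ℝ) ≤ K / ρ ∧ (∀ N ∈ S, cl N < k) ∧
        ∀ N ∈ S, ∀ (φ : L →+* ℂ) (j : Fin 4),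
          |(u2 N : ℝ) / u1 N - w0 (cl N)| * ‖cf θ φ g' j‖ ≤
            ρ * ‖cf θ φ g j + w0 (cl N) * cf θ φ g' j‖

/-- one value of `c` and one dominance. -/
theorem pcc_half {L : Type} [Field L] [NumberField L] (θ : Fin 4 → 𝓞 L) (G : ℤ[X])
    (hG : Root4 θ G) (C i m : ℕ) (hm : 2 ≤ m) (ε : ℝ) (hε : 0 < ε) (hcell : CellStmt θ C) :
    ∃ K : ℝ, 1 ≤ K ∧ ∀ (X T U ρ : ℝ), 1 ≤ T → K ≤ X → T ^ 2 ≤ C * X → X ≤ C * T ^ 4 →
      0 < ρ → ρ ≤ 1 / K → 1 ≤ U → U ≤ C * T ^ 4 → ∀ (g g' : Fin 4 → ℤ), g ≠ 0 → g' ≠ 0 →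
      NonSpec θ g g' → (X / T ^ 2) ^ 2 ≤ C * U ^ 2 * dot g' g' →
      (∀ j, |(g j : ℝ)| ≤ C * T ^ 4) → (∀ j, |(g' j : ℝ)| ≤ C * T ^ 4) →
      (∀ S : Finset (ℕ × ℕ), S.card = 8 * (m - 1) * (m - 1 + i) →
        K * (U ^ i * T ^ (2 * m)) ^ (8 * (m - 1) * (m - 1 + i)) *
          ∏ s ∈ S, (X⁻¹ ^ s.1 * ρ ^ s.2) < 1) →
      ∀ (c : ℤ) (S : Finset ℤ) (p : ℤ → ℕ) (y : ℤ → Fin 4 → ℤ) (u1 u2 : ℤ → ℤ),
        (∀ N ∈ S, BDat θ C X T U c g g' N (p N) (y N) (u1 N) (u2 N) ∧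
          (u1 N : ℝ) ^ 2 * dot g g ≤ C * (X / T ^ 2) ^ 2 ∧
          (u2 N : ℝ) ^ 2 * dot g' g' ≤ (u1 N : ℝ) ^ 2 * dot g g) →
      (S.card : ℝ) ≤ K * ρ⁻¹ * (T ^ (27 / 169 + ε) * U ^ (131 / 338 : ℝ)) := by
  classical
  obtain ⟨K1, hK1, hc⟩ := hcell
  obtain ⟨K2, D, hK2, hr⟩ := rel_cell θ G hG C i m hm
  obtain ⟨K3, hK3, hcc⟩ := curve_count θ G hG C D ε hε
  obtain ⟨K, hK⟩ : ∃ K : ℝ, K = max 1 (max K1 (max K2 (K1 * D * K3))) := ⟨_, rfl⟩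
  have hk0 : 1 ≤ K := by rw [hK]; exact le_max_left _ _
  have hk1 : K1 ≤ K := by rw [hK]; exact (le_max_left _ _).trans (le_max_right _ _)
  have hk2 : K2 ≤ K := by
    rw [hK]; exact (le_max_left _ _).trans ((le_max_right _ _).trans (le_max_right _ _))
  have hk3 : K1 * D * K3 ≤ K := by
    rw [hK]; exact (le_max_right _ _).trans ((le_max_right _ _).trans (le_max_right _ _))
  refine ⟨K, hk0, ?_⟩
  intro X T U ρ hT hKX hTX hXT hρ hρK hU hUT g g' hg hg' hns hUd hgb hgb' hnum c S p y u1 u2 hS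
  have hK0 : 0 < K := lt_of_lt_of_le one_pos hk0
  have hX1 : 1 ≤ X := hk0.trans hKX
  have hX0 : 0 < X := lt_of_lt_of_le one_pos hX1
  have hT0 : 0 < T := lt_of_lt_of_le one_pos hT
  have hU0 : 0 < U := lt_of_lt_of_le one_pos hU
  have hρ1 : ρ ≤ 1 := hρK.trans (by rw [div_le_one hK0]; exact hk0)
  have hρ2 : ρ ≤ 1 / K2 := hρK.trans (one_div_le_one_div_of_le hK2 hk2)
  obtain ⟨k, cl, w0, hk, hcl, hw⟩ := hc X T ρ hT (hk1.trans hKX) hρ hρ1 g g' hg hg' S p c y u1 u2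
    (fun N hN => ⟨(hS N hN).1.dat, (hS N hN).1.lowN, (hS N hN).1.u10, (hS N hN).2.1,
      (hS N hN).2.2⟩)
  have hnum2 : ∀ S : Finset (ℕ × ℕ), S.card = 8 * (m - 1) * (m - 1 + i) →
        K2 * (U ^ i * T ^ (2 * m)) ^ (8 * (m - 1) * (m - 1 + i)) *
          ∏ s ∈ S, (X⁻¹ ^ s.1 * ρ ^ s.2) < 1 := by
    intro S' hS'
    refine lt_of_le_of_lt ?_ (hnum S' hS')
    have h1 : 0 ≤ ∏ s ∈ S', (X⁻¹ ^ s.1 * ρ ^ s.2) :=
      Finset.prod_nonneg fun s _ => by positivity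
    have h2 : 0 ≤ (U ^ i * T ^ (2 * m)) ^ (8 * (m - 1) * (m - 1 + i)) := by positivity
    exact mul_le_mul_of_nonneg_right (mul_le_mul_of_nonneg_right hk2 h2) h1
  obtain ⟨F, hF⟩ : ∃ F : ℝ, F = T ^ (27 / 169 + ε) * U ^ (131 / 338 : ℝ) := ⟨_, rfl⟩
  have hF0 : 0 ≤ F := by rw [hF]; positivity
  rw [← hF]
  -- one cell
  have hone : ∀ a ∈ Finset.range k, ((S.filter (fun N => cl N = a)).card : ℝ) ≤
      D * (K3 * F) := by
    intro a _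
    obtain ⟨Φs, hcard, hΦ, hmem⟩ := hr X T U ρ hT (hk2.trans hKX) hρ hρ2 hU hnum2 c g g'
      (w0 a) (S.filter (fun N => cl N = a)) p y u1 u2
      ⟨hns, hUd, fun N hN => (hS N (Finset.mem_filter.1 hN).1).1, by
        intro N hN φ j
        obtain ⟨hN, ha⟩ := Finset.mem_filter.1 hN
        have := hw N hN φ j
        rwa [ha] at this⟩
    have hsub : S.filter (fun N => cl N = a) ⊆ Φs.biUnion (fun Φ =>
        (S.filter (fun N => cl N = a)).filter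
          (fun N : ℤ => evB (N : ℂ) ((u2 N : ℂ) / u1 N) Φ = 0)) := by
      intro N hN
      obtain ⟨Φ, hΦ, h0⟩ := hmem N hN
      exact Finset.mem_biUnion.2 ⟨Φ, hΦ, Finset.mem_filter.2 ⟨hN, h0⟩⟩
    have h1 : ((S.filter (fun N => cl N = a)).card : ℝ) ≤ ∑ Φ ∈ Φs,
        (((S.filter (fun N => cl N = a)).filter
          (fun N : ℤ => evB (N : ℂ) ((u2 N : ℂ) / u1 N) Φ = 0)).card : ℝ) := by
      exact_mod_cast (Finset.card_le_card hsub).trans Finset.card_biUnion_le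
    have h2 : ∀ Φ ∈ Φs, (((S.filter (fun N => cl N = a)).filter
          (fun N : ℤ => evB (N : ℂ) ((u2 N : ℂ) / u1 N) Φ = 0)).card : ℝ) ≤ K3 * F := by
      intro Φ hΦm
      rw [hF]
      refine hcc X T U hT hX1 hTX hXT hU hUT c g g' hns hgb hgb' Φ (hΦ Φ hΦm).1 (hΦ Φ hΦm).2
        _ p y u1 u2 ?_ ?_
      · intro N hN
        exact (hS N (Finset.mem_filter.1 (Finset.mem_filter.1 hN).1).1).1
      · intro N hN
        exact (Finset.mem_filter.1 hN).2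
    calc ((S.filter (fun N => cl N = a)).card : ℝ) ≤ _ := h1
      _ ≤ ∑ _Φ ∈ Φs, K3 * F := Finset.sum_le_sum h2
      _ = (Φs.card : ℝ) * (K3 * F) := by rw [Finset.sum_const, nsmul_eq_mul]
      _ ≤ D * (K3 * F) := by
        have : (Φs.card : ℝ) ≤ D := by exact_mod_cast hcard
        exact mul_le_mul_of_nonneg_right this (by positivity)
  have hcov : (S.card : ℝ) = ∑ a ∈ Finset.range k, ((S.filter (fun N => cl N = a)).card : ℝ) := by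
    have := Finset.card_eq_sum_card_fiberwise (f := cl) (s := S) (t := Finset.range k)
      (fun N hN => Finset.mem_coe.2 (Finset.mem_range.2 (hcl N hN)))
    exact_mod_cast this
  calc (S.card : ℝ) ≤ ∑ _a ∈ Finset.range k, (D * (K3 * F) : ℝ) := by
        rw [hcov]; exact Finset.sum_le_sum hone
    _ = (k : ℝ) * (D * (K3 * F)) := by
        rw [Finset.sum_const, nsmul_eq_mul, Finset.card_range]
    _ ≤ (K1 / ρ) * (D * (K3 * F)) := mul_le_mul_of_nonneg_right hk (by positivity)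
    _ = (K1 * D * K3) * ρ⁻¹ * F := by rw [div_eq_mul_inv]; ring
    _ ≤ K * ρ⁻¹ * F := by
        refine mul_le_mul_of_nonneg_right ?_ hF0
        exact mul_le_mul_of_nonneg_right hk3 (by positivity)

theorem pcc_dot_self_nonneg (v : Fin 4 → ℤ) : 0 ≤ dot v v :=
  Finset.sum_nonneg fun i _ => mul_self_nonneg (v i)

theorem pcc_dot_self_pos {v : Fin 4 → ℤ} (h : v ≠ 0) : 0 < dot v v := by
  obtain ⟨j, hj⟩ := Function.ne_iff.1 h
  refine Finset.sum_pos' (fun i _ => mul_self_nonneg (v i)) ⟨j, Finset.mem_univ j, ?_⟩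
  exact mul_self_pos.2 (by simpa using hj)

theorem pcc_sq_le_dot (v : Fin 4 → ℤ) (j : Fin 4) : v j ^ 2 ≤ dot v v := by
  rw [pow_two]
  exact Finset.single_le_sum (f := fun i => v i * v i) (fun i _ => mul_self_nonneg (v i))
    (Finset.mem_univ j)

/-- the element `z` of a solution is not `0`. -/
theorem pcc_z_ne {L : Type} [Field L] [NumberField L] {θ : Fin 4 → 𝓞 L}
    (hinj : Function.Injective θ) {C : ℕ} {X T : ℝ} {N : ℤ} {p : ℕ} {c : ℤ} {y z : Fin 4 → ℤ}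
    (h : Dat θ C X T N p c y z) : z ≠ 0 := by
  intro hz
  have h1 : ∀ i, (N : 𝓞 L) = θ i := by
    intro i
    have := h.eqn i
    rw [hz] at this
    have h0 : K.ell (θ i) (0 : Fin 4 → ℤ) = 0 := by simp [K.ell]
    rw [h0, mul_zero] at this
    rcases mul_eq_zero.1 this with h2 | h2
    · exact absurd (by exact_mod_cast h2) h.c0
    · exact sub_eq_zero.1 h2
  have h2 : θ 0 = θ 1 := (h1 0).symm.trans (h1 1)
  exact absurd (hinj h2) (by decide)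

/-- the count over one reduced pair, given the cells. -/
theorem pcc_main {L : Type} [Field L] [NumberField L] (θ : Fin 4 → 𝓞 L) (G : ℤ[X])
    (hG : Root4 θ G) (C i m : ℕ) (hm : 2 ≤ m) (ε : ℝ) (hε : 0 < ε) (hcell : CellStmt θ C) :
    ∃ K : ℝ, 0 < K ∧ ∀ (X T U ρ : ℝ), 1 ≤ T → K ≤ X → T ^ 2 ≤ C * X → X ≤ C * T ^ 4 →
      0 < ρ → ρ ≤ 1 / K → 1 ≤ U → U ≤ C * T ^ 4 → ∀ (g1 g2 : Fin 4 → ℤ), Red g1 g2 →
      NonSpec θ g1 g2 → (dot g2 g2 : ℝ) ≤ T ^ 8 →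
      C * (X / T ^ 2) ^ 2 ≤ U ^ 2 * dot g1 g1 →
      (∀ S : Finset (ℕ × ℕ), S.card = 8 * (m - 1) * (m - 1 + i) →
        K * (U ^ i * T ^ (2 * m)) ^ (8 * (m - 1) * (m - 1 + i)) *
          ∏ s ∈ S, (X⁻¹ ^ s.1 * ρ ^ s.2) < 1) →
      ∀ S : Finset ℤ, (∀ N ∈ S, ∃ (p : ℕ) (c : ℤ) (y : Fin 4 → ℤ) (s t : ℤ),
        Dat θ C X T N p c y (s • g1 + t • g2) ∧ X ≤ C * |(N : ℝ)| ∧
          (s : ℝ) ^ 2 * dot g1 g1 ≤ C * (X / T ^ 2) ^ 2 ∧
          (t : ℝ) ^ 2 * dot g2 g2 ≤ C * (X / T ^ 2) ^ 2) →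
      (S.card : ℝ) ≤ K * ρ⁻¹ * (T ^ (27 / 169 + ε) * U ^ (131 / 338 : ℝ)) := by
  classical
  obtain ⟨K0, hK0, hh⟩ := pcc_half θ G hG C i m hm ε hε hcell
  have hC1 : (1 : ℝ) ≤ 2 * (2 * C + 1) := by
    have : (0 : ℝ) ≤ C := Nat.cast_nonneg C
    linarith
  have hKK : K0 ≤ 2 * (2 * C + 1) * K0 := le_mul_of_one_le_left (by linarith) hC1
  have hKpos : 0 < 2 * (2 * (C : ℝ) + 1) * K0 := lt_of_lt_of_le (by linarith) hKK
  refine ⟨2 * (2 * C + 1) * K0, hKpos, ?_⟩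
  intro X T U ρ hT hKX hTX hXT hρ hρK hU hUT g1 g2 hred hns hg2 hUg hnum S hS
  have hX1 : 1 ≤ X := hK0.trans (hKK.trans hKX)
  have hX0 : 0 < X := lt_of_lt_of_le one_pos hX1
  have hT0 : 0 < T := lt_of_lt_of_le one_pos hT
  have hU0 : 0 < U := lt_of_lt_of_le one_pos hU
  have hρ2 : ρ ≤ 1 / K0 := hρK.trans (one_div_le_one_div_of_le (by linarith) hKK)
  have hCpos : (1 : ℝ) ≤ C := by
    by_contra hlt
    have h0 : C = 0 := by
      by_contra h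
      exact hlt (by exact_mod_cast Nat.one_le_iff_ne_zero.2 h)
    rw [h0] at hXT
    simp at hXT
    linarith
  have hg1 : g1 ≠ 0 := hred.1
  have hg2' : g2 ≠ 0 := by
    intro h
    have := hred.2.2.2 0 1 (by simp [h])
    exact one_ne_zero this.2
  have hd1 : 0 < dot g1 g1 := pcc_dot_self_pos hg1
  have hd2 : 0 < dot g2 g2 := pcc_dot_self_pos hg2'
  have hd1R : (0 : ℝ) < dot g1 g1 := by exact_mod_cast hd1
  have hd2R : (0 : ℝ) < dot g2 g2 := by exact_mod_cast hd2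
  have hd12 : (dot g1 g1 : ℝ) ≤ dot g2 g2 := by exact_mod_cast hred.2.1
  have hT4 : T ^ 4 ≤ C * T ^ 4 := le_mul_of_one_le_left (by positivity) hCpos
  have hbd : ∀ v : Fin 4 → ℤ, (dot v v : ℝ) ≤ dot g2 g2 → ∀ j, |(v j : ℝ)| ≤ C * T ^ 4 := by
    intro v hv j
    refine le_trans ?_ hT4
    refine abs_le_of_sq_le_sq ?_ (by positivity)
    have h1 : ((v j : ℝ)) ^ 2 ≤ dot v v := by exact_mod_cast pcc_sq_le_dot v j
    calc ((v j : ℝ)) ^ 2 ≤ dot v v := h1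
      _ ≤ T ^ 8 := hv.trans hg2
      _ = (T ^ 4) ^ 2 := by ring
  have hnum2 : ∀ S : Finset (ℕ × ℕ), S.card = 8 * (m - 1) * (m - 1 + i) →
        K0 * (U ^ i * T ^ (2 * m)) ^ (8 * (m - 1) * (m - 1 + i)) *
          ∏ s ∈ S, (X⁻¹ ^ s.1 * ρ ^ s.2) < 1 := by
    intro S' hS'
    refine lt_of_le_of_lt ?_ (hnum S' hS')
    have h1 : 0 ≤ ∏ s ∈ S', (X⁻¹ ^ s.1 * ρ ^ s.2) :=
      Finset.prod_nonneg fun s _ => by positivity
    have h2 : 0 ≤ (U ^ i * T ^ (2 * m)) ^ (8 * (m - 1) * (m - 1 + i)) := by positivity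
    exact mul_le_mul_of_nonneg_right (mul_le_mul_of_nonneg_right hKK h2) h1
  have hns' : NonSpec θ g2 g1 := by
    intro j k hjk h
    refine hns k j hjk.symm ?_
    exact (mul_comm _ _).trans (h.trans (mul_comm _ _))
  have hU1 : (X / T ^ 2) ^ 2 ≤ C * U ^ 2 * dot g1 g1 := by
    calc (X / T ^ 2) ^ 2 ≤ C * (X / T ^ 2) ^ 2 := le_mul_of_one_le_left (by positivity) hCpos
      _ ≤ U ^ 2 * dot g1 g1 := hUg
      _ ≤ C * (U ^ 2 * dot g1 g1) := le_mul_of_one_le_left (by positivity) hCpos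
      _ = C * U ^ 2 * dot g1 g1 := by ring
  have hU2 : (X / T ^ 2) ^ 2 ≤ C * U ^ 2 * dot g2 g2 :=
    hU1.trans (mul_le_mul_of_nonneg_left hd12 (by positivity))
  choose! p c y s t hdat hlow hs ht using hS
  obtain ⟨F, hF⟩ : ∃ F : ℝ, F = T ^ (27 / 169 + ε) * U ^ (131 / 338 : ℝ) := ⟨_, rfl⟩
  have hsU : ∀ N ∈ S, |(s N : ℝ)| ≤ U := by
    intro N hN
    refine abs_le_of_sq_le_sq ?_ hU0.le
    have := (hs N hN).trans hUg
    exact le_of_mul_le_mul_right this hd1R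
  have htU : ∀ N ∈ S, |(t N : ℝ)| ≤ U := by
    intro N hN
    refine abs_le_of_sq_le_sq ?_ hU0.le
    have := ((ht N hN).trans hUg).trans (mul_le_mul_of_nonneg_left hd12 (sq_nonneg U))
    exact le_of_mul_le_mul_right this hd2R
  -- the two halves
  have hA : ∀ c0 : ℤ, (((S.filter (fun N => c N = c0)).filter (fun N : ℤ =>
      (t N : ℝ) ^ 2 * dot g2 g2 ≤ (s N : ℝ) ^ 2 * dot g1 g1)).card : ℝ) ≤ K0 * ρ⁻¹ * F := by
    intro c0
    rw [hF]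
    refine hh X T U ρ hT (hKK.trans hKX) hTX hXT hρ hρ2 hU hUT g1 g2 hg1 hg2' hns hU2
      (hbd g1 hd12) (hbd g2 le_rfl) hnum2 c0 _ p y s t ?_
    intro N hN
    obtain ⟨hN1, hdom⟩ := Finset.mem_filter.1 hN
    obtain ⟨hNS, hc0⟩ := Finset.mem_filter.1 hN1
    have hz := pcc_z_ne hG.inj (hdat N hNS)
    have hfun : (fun j => s N * g1 j + t N * g2 j) = s N • g1 + t N • g2 := by
      funext j; simp
    refine ⟨⟨?_, hlow N hNS, hsU N hNS, htU N hNS, ?_⟩, hs N hNS, hdom⟩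
    · rw [hfun, ← hc0]; exact hdat N hNS
    · intro h0
      apply hz
      rw [h0] at hdom
      have h1 : (t N : ℝ) ^ 2 * dot g2 g2 ≤ 0 := by simpa using hdom
      have h2 : (t N : ℝ) = 0 := by
        by_contra h3
        have : 0 < (t N : ℝ) ^ 2 * dot g2 g2 := by positivity
        linarith
      have h3 : t N = 0 := by exact_mod_cast h2
      rw [h0, h3]; simp
  have hB : ∀ c0 : ℤ, (((S.filter (fun N => c N = c0)).filter (fun N : ℤ =>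
      ¬ (t N : ℝ) ^ 2 * dot g2 g2 ≤ (s N : ℝ) ^ 2 * dot g1 g1)).card : ℝ) ≤ K0 * ρ⁻¹ * F := by
    intro c0
    rw [hF]
    refine hh X T U ρ hT (hKK.trans hKX) hTX hXT hρ hρ2 hU hUT g2 g1 hg2' hg1 hns' hU1
      (hbd g2 le_rfl) (hbd g1 hd12) hnum2 c0 _ p y t s ?_
    intro N hN
    obtain ⟨hN1, hdom⟩ := Finset.mem_filter.1 hN
    obtain ⟨hNS, hc0⟩ := Finset.mem_filter.1 hN1
    have hfun : (fun j => t N * g2 j + s N * g1 j) = s N • g1 + t N • g2 := by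
      funext j; simp [add_comm]
    have hdom' := not_le.1 hdom
    refine ⟨⟨?_, hlow N hNS, htU N hNS, hsU N hNS, ?_⟩, ht N hNS, hdom'.le⟩
    · rw [hfun, ← hc0]; exact hdat N hNS
    · intro h0
      rw [h0] at hdom'
      have h1 : (0 : ℝ) ≤ (s N : ℝ) ^ 2 * dot g1 g1 := by positivity
      simp at hdom'
      linarith
  have hcN : ∀ N ∈ S, c N ∈ Finset.Icc (-(C : ℤ)) C := by
    intro N hN
    rw [Finset.mem_Icc]
    exact abs_le.1 (hdat N hN).cC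
  have hcov : (S.card : ℝ) = ∑ a ∈ Finset.Icc (-(C : ℤ)) C,
      ((S.filter (fun N => c N = a)).card : ℝ) := by
    have := Finset.card_eq_sum_card_fiberwise (f := c) (s := S) (t := Finset.Icc (-(C : ℤ)) C)
      (fun N hN => Finset.mem_coe.2 (hcN N hN))
    exact_mod_cast this
  have hone : ∀ a ∈ Finset.Icc (-(C : ℤ)) C, ((S.filter (fun N => c N = a)).card : ℝ) ≤
      2 * (K0 * ρ⁻¹ * F) := by
    intro a _
    have h1 := Finset.card_filter_add_card_filter_not (s := S.filter (fun N => c N = a))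
      (fun N : ℤ => (t N : ℝ) ^ 2 * dot g2 g2 ≤ (s N : ℝ) ^ 2 * dot g1 g1)
    rw [← h1]
    push_cast
    have := hA a
    have := hB a
    linarith
  have hcardI : ((Finset.Icc (-(C : ℤ)) C).card : ℝ) = 2 * C + 1 := by
    rw [Int.card_Icc]
    have : ((C : ℤ) + 1 - -(C : ℤ)).toNat = 2 * C + 1 := by omega
    rw [this]; push_cast; ring
  calc (S.card : ℝ) ≤ ∑ _a ∈ Finset.Icc (-(C : ℤ)) C, 2 * (K0 * ρ⁻¹ * F) := by
        rw [hcov]; exact Finset.sum_le_sum hone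
    _ = (2 * C + 1) * (2 * (K0 * ρ⁻¹ * F)) := by
        rw [Finset.sum_const, nsmul_eq_mul, hcardI]
    _ = 2 * (2 * C + 1) * K0 * ρ⁻¹ * F := by ring
    _ = 2 * (2 * C + 1) * K0 * ρ⁻¹ * (T ^ (27 / 169 + ε) * U ^ (131 / 338 : ℝ)) := by rw [hF]

end Vale.Agent.P018.QB
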