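import Mathlib
import Vale.Agent.P018.Q.BDefs
import Vale.Agent.P018.Q.BCell
import Vale.Agent.P018.Q.BRel
import Vale.Agent.P018.Q.BCount
import Vale.Agent.P018.Q.BPairC

/-! # P018, (B): the count over one reduced pair. -/

namespace Vale.Agent.P018.QB

open Polynomial NumberField Vale.Agent.P018.Q

/-- the point `N` over the pair `(g1, g2)` (the `z` of the solution is `s g1 + t g2`). -/
structure PtB {L : Type} [Field L] [NumberField L] (θ : Fin 4 → 𝓞 L) (C : ℕ) (X T : ℝ)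
    (g1 g2 : Fin 4 → ℤ) (N : ℤ) (p : ℕ) (c : ℤ) (y : Fin 4 → ℤ) (s t : ℤ) : Prop where
  dat : Dat θ C X T N p c y (s • g1 + t • g2)
  lowN : X ≤ C * |(N : ℝ)|
  hs : (s : ℝ) ^ 2 * dot g1 g1 ≤ C * (X / T ^ 2) ^ 2
  ht : (t : ℝ) ^ 2 * dot g2 g2 ≤ C * (X / T ^ 2) ^ 2

/-- lower bounds for the conjugates of `z` (from `dat_lower` and the equation). -/
theorem z_lower {L : Type} [Field L] [NumberField L] (θ : Fin 4 → 𝓞 L) (C : ℕ) :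
    ∃ K1 : ℝ, 0 < K1 ∧ ∀ (X T : ℝ) (N : ℤ) (p : ℕ) (c : ℤ) (y z : Fin 4 → ℤ), 1 ≤ T → K1 ≤ X →
      X ≤ C * |(N : ℝ)| → Dat θ C X T N p c y z → ∀ (φ : L →+* ℂ) (i : Fin 4),
        X / T ^ 2 ≤ K1 * ‖cf θ φ z i‖ ∧ ‖cf θ φ z i‖ ≤ K1 * (X / T ^ 2) :=
  z_lower' θ C

/-- the cells: `w = u2/u1`, the points with `|u2| |g'| ≤ |u1| |g|` are split into `≤ K / ρ` cells
in which the hypothesis of `rel_cell` holds (`w0` = the value of `w` at one of the points; cells =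
intervals of `w` of length `ρ |g| / (K' |g'|)`; `‖cf g j + w0 cf g' j‖ = ‖cf z j‖ / |u1| ≥ |g| / K'`
because `|u1| |g| ≤ √C X/T²`, and `‖cf g' j‖ ≤ K' |g'|`). -/
theorem exists_cells {L : Type} [Field L] [NumberField L] (θ : Fin 4 → 𝓞 L) (C : ℕ) :
    ∃ K : ℝ, 0 < K ∧ ∀ (X T ρ : ℝ), 1 ≤ T → K ≤ X → 0 < ρ → ρ ≤ 1 → ∀ (g g' : Fin 4 → ℤ),
      g ≠ 0 → g' ≠ 0 → ∀ (S : Finset ℤ) (p : ℤ → ℕ) (c : ℤ) (y : ℤ → Fin 4 → ℤ) (u1 u2 : ℤ → ℤ),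
      (∀ N ∈ S, Dat θ C X T N (p N) c (y N) (fun j => u1 N * g j + u2 N * g' j) ∧
        X ≤ C * |(N : ℝ)| ∧ u1 N ≠ 0 ∧ (u1 N : ℝ) ^ 2 * dot g g ≤ C * (X / T ^ 2) ^ 2 ∧
        (u2 N : ℝ) ^ 2 * dot g' g' ≤ (u1 N : ℝ) ^ 2 * dot g g) →
      ∃ (k : ℕ) (cl : ℤ → ℕ) (w0 : ℕ → ℝ), (k : ℝ) ≤ K / ρ ∧ (∀ N ∈ S, cl N < k) ∧
        ∀ N ∈ S, ∀ (φ : L →+* ℂ) (j : Fin 4),
          |(u2 N : ℝ) / u1 N - w0 (cl N)| * ‖cf θ φ g' j‖ ≤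
            ρ * ‖cf θ φ g j + w0 (cl N) * cf θ φ g' j‖ :=
  exists_cells' θ C

/-- the count over one reduced pair. -/
theorem pair_countB {L : Type} [Field L] [NumberField L] (θ : Fin 4 → 𝓞 L) (G : ℤ[X])
    (hG : Root4 θ G) (C i m : ℕ) (hm : 2 ≤ m) (ε : ℝ) (hε : 0 < ε) :
    ∃ K : ℝ, 0 < K ∧ ∀ (X T U ρ : ℝ), 1 ≤ T → K ≤ X → T ^ 2 ≤ C * X → X ≤ C * T ^ 4 →
      0 < ρ → ρ ≤ 1 / K → 1 ≤ U → U ≤ C * T ^ 4 → ∀ (g1 g2 : Fin 4 → ℤ), Red g1 g2 →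
      NonSpec θ g1 g2 → (dot g2 g2 : ℝ) ≤ T ^ 8 →
      C * (X / T ^ 2) ^ 2 ≤ U ^ 2 * dot g1 g1 →
      (∀ S : Finset (ℕ × ℕ), S.card = 8 * (m - 1) * (m - 1 + i) →
        K * (U ^ i * T ^ (2 * m)) ^ (8 * (m - 1) * (m - 1 + i)) *
          ∏ s ∈ S, (X⁻¹ ^ s.1 * ρ ^ s.2) < 1) →
      ∀ S : Finset ℤ, (∀ N ∈ S, ∃ (p : ℕ) (c : ℤ) (y : Fin 4 → ℤ) (s t : ℤ),
        PtB θ C X T g1 g2 N p c y s t) →
      (S.card : ℝ) ≤ K * ρ⁻¹ * (T ^ (27 / 169 + ε) * U ^ (131 / 338 : ℝ)) := by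
  obtain ⟨K, hK, h⟩ := pcc_main θ G hG C i m hm ε hε (exists_cells θ C)
  refine ⟨K, hK, ?_⟩
  intro X T U ρ hT hKX hTX hXT hρ hρK hU hUT g1 g2 hred hns hg2 hUg hnum S hS
  refine h X T U ρ hT hKX hTX hXT hρ hρK hU hUT g1 g2 hred hns hg2 hUg hnum S ?_
  intro N hN
  obtain ⟨p, c, y, s, t, hP⟩ := hS N hN
  exact ⟨p, c, y, s, t, hP.dat, hP.lowN, hP.hs, hP.ht⟩

end Vale.Agent.P018.QB
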