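import Mathlib
import Vale.Agent.P018.Q.BDefs

/-! # P018, (B): special lattices, algebra and counting. -/

namespace Vale.Agent.P018.QB

open Polynomial NumberField Vale.Agent.P018.Q

variable {L : Type} [Field L] [NumberField L]

theorem bs_root {θ : Fin 4 → 𝓞 L} {G : ℤ[X]} (hG : Root4 θ G) (j : Fin 4) :
    aeval (θ j) G = 0 := by
  have h1 : (G.map (algebraMap ℤ (𝓞 L))).eval (θ j) = 0 := by
    rw [hG.roots, eval_prod]
    exact Finset.prod_eq_zero (Finset.mem_univ j) (by simp)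
  rwa [eval_map_algebraMap] at h1

/-- the polynomial of a vector -/
noncomputable def bsp (y : Fin 4 → ℤ) : ℤ[X] := ∑ k : Fin 4, C (y k) * X ^ (k : ℕ)

theorem bsp_aeval {R : Type*} [CommRing R] (t : R) (y : Fin 4 → ℤ) : aeval t (bsp y) = el t y := by
  unfold bsp el K.ell
  rw [map_sum]
  refine Finset.sum_congr rfl fun k _ => ?_
  rw [map_mul, map_pow, aeval_X, aeval_C]
  simp

theorem bsp_coeff (y : Fin 4 → ℤ) (k : Fin 4) : (bsp y).coeff k = y k := by
  unfold bsp
  rw [finsetSum_coeff, Finset.sum_eq_single k]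
  · simp
  · intro b _ hb
    rw [coeff_C_mul, coeff_X_pow, if_neg, mul_zero]
    exact fun h => hb (Fin.ext h.symm)
  · intro h; exact absurd (Finset.mem_univ k) h

theorem bsp_ne_zero {y : Fin 4 → ℤ} (hy : y ≠ 0) : bsp y ≠ 0 := by
  intro h
  apply hy
  funext k
  rw [← bsp_coeff y k, h]; simp

theorem bsp_degree (y : Fin 4 → ℤ) : (bsp y).degree < 4 := by
  unfold bsp
  refine lt_of_le_of_lt (degree_sum_le _ _) ?_
  rw [Finset.sup_lt_iff (by exact WithBot.bot_lt_coe 4)]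
  intro k _
  refine lt_of_le_of_lt (degree_C_mul_X_pow_le _ _) ?_
  exact_mod_cast k.2

theorem el_ne_zero {θ : Fin 4 → 𝓞 L} {G : ℤ[X]} (hG : Root4 θ G) {y : Fin 4 → ℤ} (hy : y ≠ 0)
    (j : Fin 4) : el (θ j) y ≠ 0 := by
  intro h0
  have hr := bs_root hG j
  have hr' : aeval ((θ j : 𝓞 L) : L) (G.map (Int.castRingHom ℚ)) = 0 := by
    rw [show (Int.castRingHom ℚ) = algebraMap ℤ ℚ from rfl, aeval_map_algebraMap]
    have := congrArg (algebraMap (𝓞 L) L) hr
    rwa [map_zero, ← aeval_algebraMap_apply] at this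
  have hy' : aeval ((θ j : 𝓞 L) : L) ((bsp y).map (Int.castRingHom ℚ)) = 0 := by
    rw [show (Int.castRingHom ℚ) = algebraMap ℤ ℚ from rfl, aeval_map_algebraMap]
    have := congrArg (algebraMap (𝓞 L) L) h0
    rw [← bsp_aeval] at this
    rwa [map_zero, ← aeval_algebraMap_apply] at this
  have hmin : minpoly ℚ ((θ j : 𝓞 L) : L) = G.map (Int.castRingHom ℚ) :=
    (minpoly.eq_of_irreducible_of_monic hG.irr hr' (hG.monic.map _)).symm
  have hd := minpoly.degree_le_of_ne_zero ℚ ((θ j : 𝓞 L) : L)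
    (p := (bsp y).map (Int.castRingHom ℚ))
    (by rw [Ne, Polynomial.map_eq_zero_iff (RingHom.injective_int _)]; exact bsp_ne_zero hy) hy'
  rw [hmin] at hd
  have h4 : (G.map (Int.castRingHom ℚ)).degree = 4 := by
    rw [degree_map_eq_of_injective (RingHom.injective_int _), degree_eq_natDegree hG.monic.ne_zero,
      hG.deg]; rfl
  rw [h4, degree_map_eq_of_injective (RingHom.injective_int _)] at hd
  exact absurd (bsp_degree y) (not_lt.2 hd)

/-- multiplication by `θ` on the coordinates -/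
def mth (G : ℤ[X]) (v : Fin 4 → ℤ) : Fin 4 → ℤ :=
  ![- v 3 * G.coeff 0, v 0 - v 3 * G.coeff 1, v 1 - v 3 * G.coeff 2, v 2 - v 3 * G.coeff 3]

theorem el_mth {θ : Fin 4 → 𝓞 L} {G : ℤ[X]} (hG : Root4 θ G) (v : Fin 4 → ℤ) (j : Fin 4) :
    el (θ j) (mth G v) = θ j * el (θ j) v := by
  have hr := bs_root hG j
  rw [aeval_eq_sum_range, hG.deg] at hr
  have h4 : G.coeff 4 = 1 := by
    have := hG.monic.coeff_natDegree
    rwa [hG.deg] at this
  simp only [Finset.sum_range_succ, Finset.sum_range_zero, h4, zsmul_eq_mul, pow_zero, zero_add] at hr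
  unfold el K.ell mth
  simp only [Fin.sum_univ_four]
  simp only [Matrix.cons_val_zero, Matrix.cons_val_one, Matrix.cons_val]
  push_cast
  push_cast at hr
  simp only [Fin.isValue, Fin.val_zero, Fin.val_one, Fin.val_two, pow_zero, pow_one] 
  have h3 : ((3 : Fin 4) : ℕ) = 3 := rfl
  rw [h3]
  linear_combination (-(v 3 : 𝓞 L)) * hr

theorem el_add {R : Type*} [CommRing R] (t : R) (x y : Fin 4 → ℤ) :
    el t (x + y) = el t x + el t y := by
  unfold el K.ell
  rw [← Finset.sum_add_distrib]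
  refine Finset.sum_congr rfl fun k _ => ?_
  simp only [Pi.add_apply]; push_cast; ring

theorem el_smul {R : Type*} [CommRing R] (t : R) (c : ℤ) (y : Fin 4 → ℤ) :
    el t (c • y) = c * el t y := by
  unfold el K.ell
  rw [Finset.mul_sum]
  refine Finset.sum_congr rfl fun k _ => ?_
  simp only [Pi.smul_apply, smul_eq_mul]; push_cast; ring

theorem el_zero {R : Type*} [CommRing R] (t : R) : el t (0 : Fin 4 → ℤ) = 0 := by
  unfold el K.ell
  simp

/-- multiplication by `θ` as a linear map -/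
def mthL (G : ℤ[X]) : (Fin 4 → ℤ) →ₗ[ℤ] (Fin 4 → ℤ) where
  toFun := mth G
  map_add' x y := by
    funext i
    fin_cases i <;> simp [mth] <;> ring
  map_smul' c x := by
    funext i
    fin_cases i <;> simp [mth] <;> ring

/-- the lattice of the line of `g` -/
def spl (θ : Fin 4 → 𝓞 L) (j k : Fin 4) (g : Fin 4 → ℤ) : Submodule ℤ (Fin 4 → ℤ) where
  carrier := {z | el (θ j) g * el (θ k) z = el (θ k) g * el (θ j) z}
  zero_mem' := by simp only [Set.mem_ofPred_eq, el_zero, mul_zero]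
  add_mem' {x y} hx hy := by
    simp only [Set.mem_ofPred_eq] at hx hy ⊢
    rw [el_add, el_add, mul_add, mul_add, hx, hy]
  smul_mem' c x hx := by
    simp only [Set.mem_ofPred_eq] at hx ⊢
    rw [el_smul, el_smul]
    linear_combination (c : 𝓞 L) * hx

omit [NumberField L] in
theorem mem_spl {θ : Fin 4 → 𝓞 L} {j k : Fin 4} {g z : Fin 4 → ℤ} :
    z ∈ spl θ j k g ↔ el (θ j) g * el (θ k) z = el (θ k) g * el (θ j) z := Iff.rfl

theorem finrank_spl {θ : Fin 4 → 𝓞 L} {G : ℤ[X]} (hG : Root4 θ G) {j k : Fin 4} (hjk : j ≠ k)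
    {g : Fin 4 → ℤ} (hg : g ≠ 0) : Module.finrank ℤ (spl θ j k g) ≤ 2 := by
  by_contra hcon
  push Not at hcon
  let f : (spl θ j k g × spl θ j k g) →ₗ[ℤ] (Fin 4 → ℤ) :=
    (spl θ j k g).subtype.comp (LinearMap.fst ℤ _ _) -
      (mthL G).comp ((spl θ j k g).subtype.comp (LinearMap.snd ℤ _ _))
  have hf : ¬ Function.Injective f := by
    intro hinj
    have h1 := LinearMap.finrank_le_finrank_of_injective hinj
    rw [Module.finrank_prod, Module.finrank_fin_fun] at h1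
    omega
  obtain ⟨x, hx, hx0⟩ : ∃ x, f x = 0 ∧ x ≠ 0 := by
    by_contra h
    push Not at h
    exact hf ((injective_iff_map_eq_zero f).2 h)
  obtain ⟨⟨v, hv⟩, ⟨w, hw⟩⟩ := x
  have hvw : v = mth G w := by
    have : v - mth G w = 0 := hx
    exact sub_eq_zero.1 this
  have hw0 : w ≠ 0 := by
    rintro rfl
    apply hx0
    have : v = 0 := by rw [hvw]; exact (mthL G).map_zero
    subst this
    rfl
  rw [mem_spl] at hv hw
  rw [hvw, el_mth hG, el_mth hG] at hv
  have h2 : (θ k - θ j) * (el (θ j) g * el (θ k) w) = 0 := by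
    linear_combination hv - θ j * hw
  rcases mul_eq_zero.1 h2 with h3 | h3
  · exact hjk (hG.inj (sub_eq_zero.1 h3).symm)
  · rcases mul_eq_zero.1 h3 with h4 | h4
    · exact el_ne_zero hG hg j h4
    · exact el_ne_zero hG hw0 k h4

/-- number of short vectors of a lattice of rank `≤ 2` -/
theorem card_short (Λ : Submodule ℤ (Fin 4 → ℤ)) (hΛ : Module.finrank ℤ Λ ≤ 2) (D : ℤ) (_hD : 0 < D)
    (hmin : ∀ w ∈ Λ, w ≠ 0 → D ≤ dot w w) (m : ℕ) (hm : 0 < m) (E : ℤ)
    (hE : 4 * E < (m : ℤ) ^ 2 * D) (Z : Finset (Fin 4 → ℤ))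
    (hZ : ∀ z ∈ Z, z ∈ Λ ∧ dot z z ≤ E) : Z.card ≤ m ^ 2 := by
  classical
  have : NeZero m := ⟨hm.ne'⟩
  let b := Module.finBasis ℤ Λ
  let F : (Fin 4 → ℤ) → (Fin (Module.finrank ℤ Λ) → ZMod m) := fun z =>
    if hz : z ∈ Λ then fun i => ((b.repr ⟨z, hz⟩ i : ℤ) : ZMod m) else 0
  have hinj : Set.InjOn F (Z : Set (Fin 4 → ℤ)) := by
    intro z hz z' hz' h
    obtain ⟨hzΛ, hzE⟩ := hZ z hz
    obtain ⟨hzΛ', hzE'⟩ := hZ z' hz'
    simp only [F, dif_pos hzΛ, dif_pos hzΛ'] at h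
    have h1 : ∀ i, ∃ c : ℤ, b.repr ⟨z, hzΛ⟩ i - b.repr ⟨z', hzΛ'⟩ i = m * c := by
      intro i
      have h2 := congrFun h i
      rw [ZMod.intCast_eq_intCast_iff_dvd_sub] at h2
      obtain ⟨c, hc⟩ := h2
      exact ⟨-c, by linarith⟩
    choose c hc using h1
    set w : Λ := ∑ i, c i • b i with hw
    have h3 : (⟨z, hzΛ⟩ : Λ) - ⟨z', hzΛ'⟩ = (m : ℤ) • w := by
      rw [← b.sum_repr ⟨z, hzΛ⟩, ← b.sum_repr ⟨z', hzΛ'⟩, hw, Finset.smul_sum,
        ← Finset.sum_sub_distrib]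
      refine Finset.sum_congr rfl fun i _ => ?_
      rw [← sub_smul, hc i, mul_smul]
    have h4 : z - z' = (m : ℤ) • (w : Fin 4 → ℤ) := congrArg Subtype.val h3
    by_contra hne
    have hw0 : (w : Fin 4 → ℤ) ≠ 0 := by
      intro h0
      rw [h0, smul_zero] at h4
      exact hne (sub_eq_zero.1 h4)
    have h5 := hmin w w.2 hw0
    have h6 : dot (z - z') (z - z') = (m : ℤ) ^ 2 * dot (w : Fin 4 → ℤ) w := by
      rw [h4]
      simp only [dot, Fin.sum_univ_four, Pi.smul_apply, smul_eq_mul]; ring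
    have h7 : dot (z - z') (z - z') ≤ 2 * dot z z + 2 * dot z' z' := by
      simp only [dot, Fin.sum_univ_four, Pi.sub_apply]
      nlinarith [sq_nonneg (z 0 + z' 0), sq_nonneg (z 1 + z' 1), sq_nonneg (z 2 + z' 2),
        sq_nonneg (z 3 + z' 3)]
    have h8 : (m : ℤ) ^ 2 * D ≤ (m : ℤ) ^ 2 * dot (w : Fin 4 → ℤ) w :=
      mul_le_mul_of_nonneg_left h5 (by positivity)
    linarith
  have hcard : Z.card ≤ (Finset.univ : Finset (Fin (Module.finrank ℤ Λ) → ZMod m)).card :=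
    Finset.card_le_card_of_injOn F (fun _ _ => Finset.mem_coe.2 (Finset.mem_univ _)) hinj
  rw [Finset.card_univ, Fintype.card_fun, ZMod.card, Fintype.card_fin] at hcard
  exact hcard.trans (Nat.pow_le_pow_right hm hΛ)

theorem box_fib (i : Fin 4) (c : ℤ) (A : Finset (Fin 4 → ℤ))
    (hA : ∀ g ∈ A, g i = c ∧ ∀ l, |g l| ≤ |c|) : (A.card : ℝ) ≤ (2 * |(c : ℝ)| + 1) ^ 3 := by
  classical
  have h1 : A ⊆ Fintype.piFinset (fun l => if l = i then {c} else Finset.Icc (-|c|) |c|) := by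
    intro g hg
    rw [Fintype.mem_piFinset]
    intro l
    split_ifs with hl
    · rw [hl, Finset.mem_singleton]; exact (hA g hg).1
    · rw [Finset.mem_Icc]; exact abs_le.1 ((hA g hg).2 l)
  have h2 := Finset.card_le_card h1
  rw [Fintype.card_piFinset] at h2
  have key : ∀ S : Finset ℤ, ∏ l : Fin 4, (if l = i then ({c} : Finset ℤ) else S).card =
      S.card ^ 3 := by
    intro S
    fin_cases i <;> simp [Fin.prod_univ_four] <;> ring
  rw [key] at h2
  have h4 : ((Finset.Icc (-|c|) |c|).card : ℝ) = 2 * |(c : ℝ)| + 1 := by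
    rw [Int.card_Icc]
    have : ((|c| + 1 - -|c|).toNat : ℤ) = 2 * |c| + 1 := by
      rw [Int.toNat_of_nonneg (by have := abs_nonneg c; linarith)]; ring
    exact_mod_cast this
  rw [← h4]
  exact_mod_cast h2

theorem sum_inv_dot (N : ℕ) (T : Finset (Fin 4 → ℤ))
    (hT : ∀ g ∈ T, g ≠ 0 ∧ ∀ l, |g l| ≤ N) :
    ∑ g ∈ T, (1 : ℝ) / (dot g g : ℝ) ≤ 324 * (N : ℝ) ^ 2 := by
  classical
  have hN0 : (0 : ℝ) ≤ N := Nat.cast_nonneg N
  have h1 : ∀ g ∈ T, (1 : ℝ) / (dot g g : ℝ) ≤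
      ∑ i : Fin 4, if g i ≠ 0 ∧ ∀ l, |g l| ≤ |g i| then 1 / (g i : ℝ) ^ 2 else 0 := by
    intro g hg
    obtain ⟨i, hi⟩ := Finite.exists_max fun l : Fin 4 => |g l|
    have hgi : g i ≠ 0 := by
      intro h0
      apply (hT g hg).1
      funext l
      have := hi l
      simp only [h0, abs_zero] at this
      exact abs_eq_zero.1 (le_antisymm this (abs_nonneg _))
    have h2 : ((g i : ℝ)) ^ 2 ≤ (dot g g : ℝ) := by
      have : (g i) ^ 2 ≤ dot g g := by
        unfold dot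
        rw [pow_two]
        exact Finset.single_le_sum (f := fun l => g l * g l) (fun l _ => mul_self_nonneg _)
          (Finset.mem_univ i)
      exact_mod_cast this
    have h3 : (0 : ℝ) < (g i : ℝ) ^ 2 := by positivity
    refine (one_div_le_one_div_of_le h3 h2).trans ?_
    refine le_trans ?_ (Finset.single_le_sum (f := fun i : Fin 4 =>
      if g i ≠ 0 ∧ ∀ l, |g l| ≤ |g i| then 1 / (g i : ℝ) ^ 2 else 0) (fun l _ => ?_)
      (Finset.mem_univ i))
    · rw [if_pos ⟨hgi, hi⟩]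
    · split_ifs
      · positivity
      · exact le_rfl
  refine (Finset.sum_le_sum h1).trans ?_
  rw [Finset.sum_comm]
  have h4 : ∀ i ∈ (Finset.univ : Finset (Fin 4)),
      ∑ g ∈ T, (if g i ≠ 0 ∧ ∀ l, |g l| ≤ |g i| then 1 / (g i : ℝ) ^ 2 else 0) ≤ 81 * (N : ℝ) ^ 2 := by
    intro i _
    rw [← Finset.sum_filter]
    set A := T.filter (fun g => g i ≠ 0 ∧ ∀ l, |g l| ≤ |g i|) with hA
    have hmaps : ∀ g ∈ A, g i ∈ (Finset.Icc (-(N : ℤ)) N).erase 0 := by
      intro g hg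
      rw [hA, Finset.mem_filter] at hg
      rw [Finset.mem_erase, Finset.mem_Icc]
      exact ⟨hg.2.1, abs_le.1 ((hT g hg.1).2 i)⟩
    rw [← Finset.sum_fiberwise_of_maps_to hmaps]
    have h5 : ∀ c ∈ (Finset.Icc (-(N : ℤ)) N).erase 0,
        ∑ g ∈ A.filter (fun g => g i = c), (1 : ℝ) / (g i : ℝ) ^ 2 ≤ 27 * N := by
      intro c hc
      rw [Finset.mem_erase, Finset.mem_Icc] at hc
      have hc0 : (1 : ℝ) ≤ |(c : ℝ)| := by
        have : (1 : ℤ) ≤ |c| := Int.one_le_abs hc.1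
        exact_mod_cast this
      have hcN : |(c : ℝ)| ≤ N := by
        have : |c| ≤ (N : ℤ) := abs_le.2 hc.2
        exact_mod_cast this
      have h6 := box_fib i c (A.filter (fun g => g i = c)) (by
        intro g hg
        rw [Finset.mem_filter, hA, Finset.mem_filter] at hg
        refine ⟨hg.2, fun l => ?_⟩
        have := hg.1.2.2 l
        rwa [hg.2] at this)
      calc ∑ g ∈ A.filter (fun g => g i = c), (1 : ℝ) / (g i : ℝ) ^ 2
          = ∑ g ∈ A.filter (fun g => g i = c), (1 : ℝ) / (c : ℝ) ^ 2 := by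
            refine Finset.sum_congr rfl fun g hg => ?_
            rw [(Finset.mem_filter.1 hg).2]
        _ = (A.filter (fun g => g i = c)).card * (1 / (c : ℝ) ^ 2) := by
            rw [Finset.sum_const, nsmul_eq_mul]
        _ ≤ (2 * |(c : ℝ)| + 1) ^ 3 * (1 / (c : ℝ) ^ 2) :=
            mul_le_mul_of_nonneg_right h6 (by positivity)
        _ ≤ (3 * |(c : ℝ)|) ^ 3 * (1 / (c : ℝ) ^ 2) := by
            refine mul_le_mul_of_nonneg_right ?_ (by positivity)
            exact pow_le_pow_left₀ (by positivity) (by linarith) 3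
        _ = 27 * |(c : ℝ)| := by
            rw [← sq_abs (c : ℝ)]
            field_simp
            ring
        _ ≤ 27 * N := by linarith
    refine (Finset.sum_le_sum h5).trans ?_
    rw [Finset.sum_const, nsmul_eq_mul]
    have h7 : (((Finset.Icc (-(N : ℤ)) N).erase 0).card : ℝ) = 2 * N := by
      rw [Finset.card_erase_of_mem (by rw [Finset.mem_Icc]; omega), Int.card_Icc]
      have : ((N : ℤ) + 1 - -(N : ℤ)).toNat - 1 = 2 * N := by omega
      rw [this]; push_cast; ring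
    rw [h7]
    nlinarith [sq_nonneg (N : ℝ)]
  refine (Finset.sum_le_sum h4).trans ?_
  rw [Finset.sum_const, Finset.card_univ, Fintype.card_fin, nsmul_eq_mul]
  push_cast
  linarith

end Vale.Agent.P018.QB
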