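import Mathlib
import Vale.Agent.P018.Q.BSpecA

/-! # P018, (B): special lattices. -/

namespace Vale.Agent.P018.QB

open Polynomial NumberField Vale.Agent.P018.Q

/-- `z` is on a line over a quadratic subfield through a short vector. -/
def SpecZ {L : Type} [Field L] [NumberField L] (θ : Fin 4 → 𝓞 L) (R : ℝ) (z : Fin 4 → ℤ) : Prop :=
  ∃ g : Fin 4 → ℤ, g ≠ 0 ∧ (dot g g : ℝ) ≤ R ^ 2 ∧
    ∃ j k, j ≠ k ∧ el (θ j) g * el (θ k) z = el (θ k) g * el (θ j) z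

/-- two vectors on the line of `g` have the same lattice -/
theorem spl_trans {L : Type} [Field L] [NumberField L] {θ : Fin 4 → 𝓞 L} {G : ℤ[X]}
    (hG : Root4 θ G) {j k : Fin 4} {g z w : Fin 4 → ℤ} (hg : g ≠ 0) (hz : z ∈ spl θ j k g)
    (hw : w ∈ spl θ j k g) : el (θ j) w * el (θ k) z = el (θ k) w * el (θ j) z := by
  rw [mem_spl] at hz hw
  refine mul_left_cancel₀ (el_ne_zero hG hg j) ?_
  linear_combination el (θ j) w * hz - el (θ j) z * hw

/-- a shortest vector -/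
theorem exists_short {L : Type} [Field L] [NumberField L] {θ : Fin 4 → 𝓞 L} {R : ℝ}
    {z : Fin 4 → ℤ} (h : SpecZ θ R z) : ∃ x : Fin 4 × Fin 4 × (Fin 4 → ℤ), x.1 ≠ x.2.1 ∧
      x.2.2 ≠ 0 ∧ (dot x.2.2 x.2.2 : ℝ) ≤ R ^ 2 ∧ z ∈ spl θ x.1 x.2.1 x.2.2 ∧
      ∀ w : Fin 4 → ℤ, w ≠ 0 → el (θ x.1) w * el (θ x.2.1) z = el (θ x.2.1) w * el (θ x.1) z →
        dot x.2.2 x.2.2 ≤ dot w w := by
  classical
  obtain ⟨g, hg0, hgR, j, k, hjk, hg⟩ := h
  let P : ℕ → Prop := fun n => ∃ w : Fin 4 → ℤ, w ≠ 0 ∧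
    el (θ j) w * el (θ k) z = el (θ k) w * el (θ j) z ∧ (dot w w).toNat = n
  have hP : ∃ n, P n := ⟨_, g, hg0, hg, rfl⟩
  obtain ⟨w, hw0, hw, hn⟩ := Nat.find_spec hP
  have hnn : ∀ v : Fin 4 → ℤ, 0 ≤ dot v v := fun v =>
    Finset.sum_nonneg fun _ _ => mul_self_nonneg _
  have hmin : ∀ v : Fin 4 → ℤ, v ≠ 0 → el (θ j) v * el (θ k) z = el (θ k) v * el (θ j) z →
      dot w w ≤ dot v v := by
    intro v hv0 hv
    have h1 := Nat.find_min' hP ⟨v, hv0, hv, rfl⟩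
    rw [← hn] at h1
    have := hnn v
    have := hnn w
    omega
  refine ⟨(j, k, w), hjk, hw0, ?_, hw, hmin⟩
  refine le_trans ?_ hgR
  exact_mod_cast hmin g hg0 hg

/-- number of special `z`.  Proof: for `j ≠ k`, `g ≠ 0` the set
`Λ(g) = {z : el (θ j) g * el (θ k) z = el (θ k) g * el (θ j) z}` is a submodule of `ℤ^4`; it has
rank `≤ 2`: `z ↦ el (θ j) z / el (θ j) g` identifies `Λ(g) ⊗ ℚ` with a vector space over the
subfield `{x ∈ ℚ(θ_j) : x = its conjugate under θ_j ↦ θ_k}`, a proper subfield of a quartic field,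
containing that subfield's multiples only; so its degree is `1` or `2`, and in fact `Λ(g) ⊗ ℚ` is
`g` times that subfield.  Let `g'` be a shortest nonzero vector of `Λ(g)`; then `Λ(g') = Λ(g)`.  The
number of `z ∈ Λ(g')` with `|z| ≤ H` is `≤ (1 + 2H/|g'|)^2` (classes of `Λ/mΛ`, `m |g'| > 2H`).
Sum over `|g'| ≤ R` in dyadic shells. -/
theorem special_z {L : Type} [Field L] [NumberField L] (θ : Fin 4 → 𝓞 L) (G : ℤ[X])
    (hG : Root4 θ G) : ∃ K : ℝ, 0 < K ∧ ∀ (R H : ℝ), 1 ≤ R → R ≤ H → ∀ Z : Finset (Fin 4 → ℤ),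
      (∀ z ∈ Z, z ≠ 0 ∧ (dot z z : ℝ) ≤ H ^ 2 ∧ SpecZ θ R z) →
      (Z.card : ℝ) ≤ K * R ^ 2 * H ^ 2 := by
  classical
  refine ⟨16 * 9 * 324, by norm_num, fun R H hR hRH Z hZ => ?_⟩
  have hH : 0 < H := by linarith
  choose! F hF1 hF2 hF3 hF4 hF5 using fun z hz => exists_short (hZ z hz).2.2
  set N : ℕ := ⌊R⌋₊ with hN
  set T : Finset (Fin 4 → ℤ) := (Fintype.piFinset fun _ => Finset.Icc (-(N : ℤ)) N).erase 0 with hT
  have hTmem : ∀ g ∈ T, g ≠ 0 ∧ ∀ l, |g l| ≤ N := by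
    intro g hg
    rw [hT, Finset.mem_erase, Fintype.mem_piFinset] at hg
    exact ⟨hg.1, fun l => abs_le.2 (Finset.mem_Icc.1 (hg.2 l))⟩
  have hmaps : ∀ z ∈ Z, F z ∈ (Finset.univ : Finset (Fin 4)) ×ˢ
      ((Finset.univ : Finset (Fin 4)) ×ˢ T) := by
    intro z hz
    rw [Finset.mem_product, Finset.mem_product]
    refine ⟨Finset.mem_univ _, Finset.mem_univ _, ?_⟩
    rw [hT, Finset.mem_erase, Fintype.mem_piFinset]
    refine ⟨hF2 z hz, fun l => ?_⟩
    rw [Finset.mem_Icc, ← abs_le]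
    have h1 : ((F z).2.2 l : ℝ) ^ 2 ≤ R ^ 2 := by
      refine le_trans ?_ (hF3 z hz)
      have : ((F z).2.2 l) ^ 2 ≤ dot (F z).2.2 (F z).2.2 := by
        unfold dot
        rw [pow_two]
        exact Finset.single_le_sum (f := fun l => (F z).2.2 l * (F z).2.2 l)
          (fun l _ => mul_self_nonneg _) (Finset.mem_univ l)
      exact_mod_cast this
    have h2 : |((F z).2.2 l : ℝ)| ≤ R := abs_le_of_sq_le_sq h1 (by linarith)
    have h3 : (((F z).2.2 l).natAbs : ℝ) ≤ R := by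
      rw [Nat.cast_natAbs]; push_cast; exact h2
    have h4 := Nat.le_floor h3
    rw [← hN] at h4
    have h5 : (((F z).2.2 l).natAbs : ℤ) ≤ N := by exact_mod_cast h4
    rwa [Int.natCast_natAbs] at h5
  have hfib : ∀ x ∈ (Finset.univ : Finset (Fin 4)) ×ˢ ((Finset.univ : Finset (Fin 4)) ×ˢ T),
      ((Z.filter (fun z => F z = x)).card : ℝ) ≤ 9 * H ^ 2 * (1 / (dot x.2.2 x.2.2 : ℝ)) := by
    rintro ⟨j, k, g⟩ hx
    rw [Finset.mem_product, Finset.mem_product] at hx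
    have hg0 := (hTmem g hx.2.2).1
    simp only
    have hDpos : 0 < dot g g := by
      obtain ⟨l, hl⟩ := Function.ne_iff.1 hg0
      unfold dot
      refine Finset.sum_pos' (fun _ _ => mul_self_nonneg _) ⟨l, Finset.mem_univ _, ?_⟩
      exact mul_self_pos.2 hl
    have hDpos' : (0 : ℝ) < (dot g g : ℝ) := by exact_mod_cast hDpos
    rcases (Z.filter (fun z => F z = (j, k, g))).eq_empty_or_nonempty with he | ⟨z0, hz0⟩
    · rw [he]
      simp only [Finset.card_empty, Nat.cast_zero]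
      positivity
    rw [Finset.mem_filter] at hz0
    obtain ⟨hz0, hFz0⟩ := hz0
    have hjk : j ≠ k := by have := hF1 z0 hz0; rwa [hFz0] at this
    have hDR : (dot g g : ℝ) ≤ R ^ 2 := by have := hF3 z0 hz0; rwa [hFz0] at this
    have hz0g : z0 ∈ spl θ j k g := by have := hF4 z0 hz0; rwa [hFz0] at this
    set sD := Real.sqrt (dot g g : ℝ) with hsD
    have hsDpos : 0 < sD := Real.sqrt_pos.2 hDpos'
    have hsD2 : sD ^ 2 = (dot g g : ℝ) := Real.sq_sqrt hDpos'.le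
    have hsDR : sD ≤ R := by
      rw [hsD]; exact Real.sqrt_le_iff.2 ⟨by linarith, hDR⟩
    set m : ℕ := ⌊2 * H / sD⌋₊ + 1 with hm
    have hm1 : 2 * H / sD < m := by rw [hm]; push_cast; exact Nat.lt_floor_add_one _
    have hm2 : (m : ℝ) ≤ 3 * H / sD := by
      have h1 : (⌊2 * H / sD⌋₊ : ℝ) ≤ 2 * H / sD := Nat.floor_le (by positivity)
      have h2 : 1 ≤ H / sD := by rw [le_div_iff₀ hsDpos]; linarith
      rw [hm]; push_cast
      have h3 : 3 * H / sD = 2 * H / sD + H / sD := by ring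
      linarith
    have hcard := card_short (spl θ j k g) (finrank_spl hG hjk hg0) (dot g g) hDpos (by
      intro w hw hw0
      have h1 := hF5 z0 hz0 w hw0
      rw [hFz0] at h1
      exact h1 (spl_trans hG hg0 hz0g hw)) m (by omega) ⌊H ^ 2⌋ (by
      have h1 : (4 : ℝ) * (⌊H ^ 2⌋ : ℝ) < (m : ℝ) ^ 2 * (dot g g : ℝ) := by
        have h2 : (⌊H ^ 2⌋ : ℝ) ≤ H ^ 2 := Int.floor_le _
        have h3 : 2 * H < m * sD := by rwa [div_lt_iff₀ hsDpos] at hm1
        have h4 : (2 * H) ^ 2 < (m * sD) ^ 2 := pow_lt_pow_left₀ h3 (by positivity) (by norm_num)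
        rw [mul_pow (m : ℝ) sD, hsD2, mul_pow] at h4
        nlinarith
      exact_mod_cast h1) (Z.filter (fun z => F z = (j, k, g))) (by
      intro z hz
      rw [Finset.mem_filter] at hz
      refine ⟨?_, ?_⟩
      · have := hF4 z hz.1; rwa [hz.2] at this
      · exact Int.le_floor.2 (hZ z hz.1).2.1)
    have h5 : (((Z.filter (fun z => F z = (j, k, g))).card : ℕ) : ℝ) ≤ (m : ℝ) ^ 2 := by
      exact_mod_cast hcard
    refine h5.trans ?_
    calc (m : ℝ) ^ 2 ≤ (3 * H / sD) ^ 2 := pow_le_pow_left₀ (Nat.cast_nonneg _) hm2 2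
      _ = 9 * H ^ 2 * (1 / (dot g g : ℝ)) := by rw [div_pow, hsD2]; ring
  have hsum : (Z.card : ℝ) = ∑ x ∈ (Finset.univ : Finset (Fin 4)) ×ˢ
      ((Finset.univ : Finset (Fin 4)) ×ˢ T), ((Z.filter (fun z => F z = x)).card : ℝ) := by
    rw [Finset.card_eq_sum_card_fiberwise hmaps]
    push_cast
    rfl
  rw [hsum]
  refine (Finset.sum_le_sum hfib).trans ?_
  rw [Finset.sum_product]
  simp only [Finset.sum_product]
  have hT2 := sum_inv_dot N T hTmem
  have hNR : (N : ℝ) ≤ R := Nat.floor_le (by linarith)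
  simp only [Finset.sum_const, Finset.card_univ, Fintype.card_fin, nsmul_eq_mul, ← Finset.mul_sum]
  have hN2 : (N : ℝ) ^ 2 ≤ R ^ 2 := pow_le_pow_left₀ (Nat.cast_nonneg _) hNR 2
  have h9 : ∑ g ∈ T, (1 : ℝ) / (dot g g : ℝ) ≤ 324 * R ^ 2 := hT2.trans (by linarith)
  have h10 : 9 * H ^ 2 * ∑ g ∈ T, (1 : ℝ) / (dot g g : ℝ) ≤ 9 * H ^ 2 * (324 * R ^ 2) :=
    mul_le_mul_of_nonneg_left h9 (by positivity)
  push_cast
  nlinarith

end Vale.Agent.P018.QB
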