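import Mathlib
import Vale.Agent.P018.Q.BPair
import Vale.Agent.P018.Q.BSpec
import Vale.Agent.P018.Q.Lattice

/-! # P018, (B): compactness in the exponents of the reduced pairs. -/

namespace Vale.Agent.P018.QB

open Polynomial NumberField Vale.Agent.P018.Q

/-- a finite cover of the unit square by small squares. -/
theorem unit_cover (e : ℝ → ℝ → ℝ) (he : ∀ a b, 0 ≤ a → 0 ≤ b → 0 < e a b) :
    ∃ F : Finset (ℝ × ℝ), (∀ p ∈ F, 0 ≤ p.1 ∧ 0 ≤ p.2) ∧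
      ∀ a b, 0 ≤ a → a ≤ 1 → 0 ≤ b → b ≤ 1 → ∃ p ∈ F, |a - p.1| < e p.1 p.2 ∧
        |b - p.2| < e p.1 p.2 := by
  have hc : IsCompact (Set.Icc (0 : ℝ) 1 ×ˢ Set.Icc (0 : ℝ) 1) := isCompact_Icc.prod isCompact_Icc
  obtain ⟨F, hF, hcov⟩ := hc.elim_nhds_subcover (fun p => Metric.ball p (e p.1 p.2))
    (fun p hp => Metric.ball_mem_nhds _ (he _ _ hp.1.1 hp.2.1))
  refine ⟨F, fun p hp => ⟨(hF p hp).1.1, (hF p hp).2.1⟩, ?_⟩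
  intro a b ha ha' hb hb'
  have h1 := hcov (show (a, b) ∈ Set.Icc (0 : ℝ) 1 ×ˢ Set.Icc (0 : ℝ) 1 from
    ⟨⟨ha, ha'⟩, ⟨hb, hb'⟩⟩)
  simp only [Set.mem_iUnion, exists_prop] at h1
  obtain ⟨p, hp, h2⟩ := h1
  rw [Metric.mem_ball, Prod.dist_eq, max_lt_iff, Real.dist_eq, Real.dist_eq] at h2
  exact ⟨p, hp, h2.1, h2.2⟩

/-- the exponent of a real number `≥ 1`. -/
theorem exists_expo {X D : ℝ} (hX : 1 < X) (hD : 1 ≤ D) (hD2 : D ≤ X ^ (2 : ℝ)) :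
    ∃ m : ℝ, 0 ≤ m ∧ m ≤ 1 ∧ D = X ^ (2 * m) := by
  have hX0 : 0 < X := by linarith
  have hD0 : 0 < D := by linarith
  have hl : 0 < Real.log X := Real.log_pos hX
  have hm : X ^ (2 * (Real.log D / (2 * Real.log X))) = D := by
    rw [Real.rpow_def_of_pos hX0]
    have : Real.log X * (2 * (Real.log D / (2 * Real.log X))) = Real.log D := by
      field_simp
    rw [this, Real.exp_log hD0]
  refine ⟨Real.log D / (2 * Real.log X), ?_, ?_, hm.symm⟩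
  · exact div_nonneg (Real.log_nonneg hD) (by linarith)
  · rw [div_le_one (by linarith)]
    have h1 := Real.log_le_log hD0 hD2
    rwa [Real.log_rpow hX0] at h1

/-- `A ≤ X ^ e` for large `X`. -/
theorem le_rpow_of {A e X : ℝ} (he : 0 < e) (hA : 0 ≤ A) (hX : A ^ (1 / e) ≤ X) : A ≤ X ^ e := by
  have h1 : (A ^ (1 / e)) ^ e ≤ X ^ e := Real.rpow_le_rpow (by positivity) hX he.le
  rwa [← Real.rpow_mul hA, one_div, inv_mul_cancel₀ he.ne', Real.rpow_one] at h1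

/-- the abstract covering argument for the non special pairs. -/
theorem cover_count (V : ℝ → ℝ → ℤ → ℝ → ℝ → Prop) (w : ℝ)
    (hloc : ∀ m1 m2 : ℝ, 0 ≤ m1 → 0 ≤ m2 → ∃ ε : ℝ, 0 < ε ∧ ∃ K : ℝ, 0 < K ∧
      ∀ (X T : ℝ) (S : Finset ℤ), K ≤ X → X ^ (w - ε) ≤ T → T ≤ X ^ (w + ε) →
      (∀ N ∈ S, ∃ D1 D2 : ℝ, V X T N D1 D2 ∧
        X ^ (2 * (m1 - ε)) ≤ D1 ∧ D1 ≤ X ^ (2 * (m1 + ε)) ∧
        X ^ (2 * (m2 - ε)) ≤ D2 ∧ D2 ≤ X ^ (2 * (m2 + ε))) →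
      (S.card : ℝ) ≤ X ^ (1 - ε)) :
    ∃ ε : ℝ, 0 < ε ∧ ∃ K : ℝ, 0 < K ∧ ∀ (X T : ℝ) (S : Finset ℤ),
      K ≤ X → X ^ (w - ε) ≤ T → T ≤ X ^ (w + ε) →
      (∀ N ∈ S, ∃ D1 D2 : ℝ, V X T N D1 D2 ∧ 1 ≤ D1 ∧ D1 ≤ X ^ (2 : ℝ) ∧ 1 ≤ D2 ∧
        D2 ≤ X ^ (2 : ℝ)) →
      (S.card : ℝ) ≤ X ^ (1 - ε) := by
  classical
  choose! e he K hK hloc using hloc
  obtain ⟨F, hF, hcov⟩ := unit_cover e he
  have hFne : F.Nonempty := by
    obtain ⟨p, hp, -⟩ := hcov 0 0 le_rfl zero_le_one le_rfl zero_le_one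
    exact ⟨p, hp⟩
  obtain ⟨p0, hp0, hmin⟩ := F.exists_min_image (fun p => e p.1 p.2) hFne
  set ε0 : ℝ := e p0.1 p0.2 with hε0
  have hε0p : 0 < ε0 := he _ _ (hF p0 hp0).1 (hF p0 hp0).2
  refine ⟨ε0 / 2, by linarith, 2 + ∑ p ∈ F, K p.1 p.2 + (F.card : ℝ) ^ (1 / (ε0 / 2)), ?_, ?_⟩
  · have h1 : 0 ≤ ∑ p ∈ F, K p.1 p.2 := Finset.sum_nonneg fun p hp =>
      (hK _ _ (hF p hp).1 (hF p hp).2).le
    positivity
  intro X T S hX hT1 hT2 hS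
  have hsum0 : 0 ≤ ∑ p ∈ F, K p.1 p.2 := Finset.sum_nonneg fun p hp =>
    (hK _ _ (hF p hp).1 (hF p hp).2).le
  have hpw0 : 0 ≤ (F.card : ℝ) ^ (1 / (ε0 / 2)) := by positivity
  have hX1 : 1 < X := by linarith
  have hX0 : 0 < X := by linarith
  have hex : ∀ N ∈ S, ∃ p ∈ F, ∃ D1 D2 : ℝ, V X T N D1 D2 ∧
      X ^ (2 * (p.1 - e p.1 p.2)) ≤ D1 ∧ D1 ≤ X ^ (2 * (p.1 + e p.1 p.2)) ∧
      X ^ (2 * (p.2 - e p.1 p.2)) ≤ D2 ∧ D2 ≤ X ^ (2 * (p.2 + e p.1 p.2)) := by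
    intro N hN
    obtain ⟨D1, D2, hv, h1, h1', h2, h2'⟩ := hS N hN
    obtain ⟨m1, hm1, hm1', e1⟩ := exists_expo hX1 h1 h1'
    obtain ⟨m2, hm2, hm2', e2⟩ := exists_expo hX1 h2 h2'
    obtain ⟨p, hp, ha, hb⟩ := hcov m1 m2 hm1 hm1' hm2 hm2'
    rw [abs_lt] at ha hb
    refine ⟨p, hp, D1, D2, hv, ?_, ?_, ?_, ?_⟩
    · rw [e1]; exact Real.rpow_le_rpow_of_exponent_le hX1.le (by linarith)
    · rw [e1]; exact Real.rpow_le_rpow_of_exponent_le hX1.le (by linarith)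
    · rw [e2]; exact Real.rpow_le_rpow_of_exponent_le hX1.le (by linarith)
    · rw [e2]; exact Real.rpow_le_rpow_of_exponent_le hX1.le (by linarith)
  choose! f hfF hf using hex
  have hcard : S.card = ∑ p ∈ F, (S.filter (fun N => f N = p)).card :=
    Finset.card_eq_sum_card_fiberwise hfF
  have hfib : ∀ p ∈ F, ((S.filter (fun N => f N = p)).card : ℝ) ≤ X ^ (1 - ε0) := by
    intro p hp
    have hle : ε0 ≤ e p.1 p.2 := hmin p hp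
    have hKX : K p.1 p.2 ≤ X := by
      have h1 : K p.1 p.2 ≤ ∑ p ∈ F, K p.1 p.2 :=
        Finset.single_le_sum (f := fun p => K p.1 p.2)
          (fun q hq => (hK _ _ (hF q hq).1 (hF q hq).2).le) hp
      linarith
    have h2 := hloc p.1 p.2 (hF p hp).1 (hF p hp).2 X T (S.filter (fun N => f N = p)) hKX
      ((Real.rpow_le_rpow_of_exponent_le hX1.le (by linarith)).trans hT1)
      (hT2.trans (Real.rpow_le_rpow_of_exponent_le hX1.le (by linarith))) (by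
        intro N hN
        rw [Finset.mem_filter] at hN
        obtain ⟨D1, D2, hv, h⟩ := hf N hN.1
        rw [hN.2] at h
        exact ⟨D1, D2, hv, h⟩)
    exact h2.trans (Real.rpow_le_rpow_of_exponent_le hX1.le (by linarith))
  have hn : (F.card : ℝ) ≤ X ^ (ε0 / 2) := le_rpow_of (by linarith) (by positivity) (by linarith)
  calc (S.card : ℝ) = ∑ p ∈ F, ((S.filter (fun N => f N = p)).card : ℝ) := by
        rw [hcard]; push_cast; rfl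
    _ ≤ ∑ _p ∈ F, X ^ (1 - ε0) := Finset.sum_le_sum hfib
    _ = F.card * X ^ (1 - ε0) := by rw [Finset.sum_const, nsmul_eq_mul]
    _ ≤ X ^ (ε0 / 2) * X ^ (1 - ε0) := by gcongr
    _ = X ^ (1 - ε0 / 2) := by
        rw [← Real.rpow_add hX0]; congr 1; ring

theorem el_comb {L : Type} [Field L] [NumberField L] (t : 𝓞 L) (a b : ℤ) (u v : Fin 4 → ℤ) :
    el t (a • u + b • v) = (a : 𝓞 L) * el t u + (b : 𝓞 L) * el t v := by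
  unfold el K.ell
  simp only [Pi.add_apply, Pi.smul_apply, smul_eq_mul, Int.cast_add, Int.cast_mul, add_mul,
    Finset.sum_add_distrib, Finset.mul_sum]
  congr 1 <;> exact Finset.sum_congr rfl fun i _ => by ring

/-- sizes in terms of `Y = X / T ^ 2`. -/
theorem sizesB {w ε X T : ℝ} (hw : 0.3488 ≤ w) (hw' : w ≤ 0.38) (hε : 0 < ε) (hε1 : ε ≤ 0.01)
    (hX1 : 1 < X) (hT1 : X ^ (w - ε) ≤ T) (hT2 : T ≤ X ^ (w + ε)) :
    1 ≤ T ∧ T ^ 2 ≤ X ∧ X ≤ T ^ 4 ∧ X ^ (2 / 10 : ℝ) ≤ X / T ^ 2 ∧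
      X / T ^ 2 ≤ X ^ (33 / 100 : ℝ) := by
  norm_num at hw hw' hε1
  have hX0 : 0 < X := by linarith
  have hT0 : 0 < T := lt_of_lt_of_le (Real.rpow_pos_of_pos hX0 _) hT1
  have hlow : X ^ (335 / 1000 : ℝ) ≤ T :=
    (Real.rpow_le_rpow_of_exponent_le hX1.le (by linarith)).trans hT1
  have hup : T ≤ X ^ (4 / 10 : ℝ) :=
    hT2.trans (Real.rpow_le_rpow_of_exponent_le hX1.le (by linarith))
  have a1 : X ^ (67 / 100 : ℝ) ≤ T ^ 2 := by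
    have h := pow_le_pow_left₀ (by positivity) hlow 2
    rw [← Real.rpow_natCast, ← Real.rpow_mul hX0.le] at h
    norm_num at h
    exact h
  have a2 : X ^ (134 / 100 : ℝ) ≤ T ^ 4 := by
    have h := pow_le_pow_left₀ (by positivity) hlow 4
    rw [← Real.rpow_natCast, ← Real.rpow_mul hX0.le] at h
    norm_num at h
    norm_num
    exact h
  have a3 : T ^ 2 ≤ X ^ (8 / 10 : ℝ) := by
    have h := pow_le_pow_left₀ hT0.le hup 2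
    rw [← Real.rpow_natCast (X ^ (4 / 10 : ℝ)), ← Real.rpow_mul hX0.le] at h
    norm_num at h
    norm_num
    exact h
  refine ⟨?_, ?_, ?_, ?_, ?_⟩
  · exact (Real.one_le_rpow hX1.le (by norm_num)).trans hlow
  · refine a3.trans ?_
    calc X ^ (8 / 10 : ℝ) ≤ X ^ (1 : ℝ) := Real.rpow_le_rpow_of_exponent_le hX1.le (by norm_num)
      _ = X := Real.rpow_one X
  · refine le_trans ?_ a2
    calc X = X ^ (1 : ℝ) := (Real.rpow_one X).symm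
      _ ≤ X ^ (134 / 100 : ℝ) := Real.rpow_le_rpow_of_exponent_le hX1.le (by norm_num)
  · rw [le_div_iff₀ (by positivity)]
    calc X ^ (2 / 10 : ℝ) * T ^ 2 ≤ X ^ (2 / 10 : ℝ) * X ^ (8 / 10 : ℝ) := by gcongr
      _ = X := by rw [← Real.rpow_add hX0]; norm_num
  · rw [div_le_iff₀ (by positivity)]
    calc X = X ^ (33 / 100 : ℝ) * X ^ (67 / 100 : ℝ) := by rw [← Real.rpow_add hX0]; norm_num
      _ ≤ X ^ (33 / 100 : ℝ) * T ^ 2 := by gcongr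

/-- the bounds of the special part. -/
theorem special_numB {C1 X Y : ℝ} (hC1 : 1 ≤ C1) (hX1 : 1 < X)
    (hXC : C1 ^ 2 ≤ X ^ (1 / 10 : ℝ)) (hY : X ^ (2 / 10 : ℝ) ≤ Y) :
    1 ≤ C1 * Y ^ (1 / 3 : ℝ) ∧ C1 * Y ^ (1 / 3 : ℝ) ≤ Y := by
  have hX0 : 0 < X := by linarith
  have hY1 : 1 ≤ Y := le_trans (Real.one_le_rpow hX1.le (by norm_num)) hY
  have hY0 : 0 < Y := by linarith
  have hY3 : 1 ≤ Y ^ (1 / 3 : ℝ) := Real.one_le_rpow hY1 (by norm_num)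
  constructor
  · nlinarith
  · have h1 : C1 ≤ Y ^ (2 / 3 : ℝ) := by
      calc C1 ≤ C1 ^ 2 := by nlinarith
        _ ≤ X ^ (1 / 10 : ℝ) := hXC
        _ ≤ (X ^ (2 / 10 : ℝ)) ^ (2 / 3 : ℝ) := by
            rw [← Real.rpow_mul hX0.le]
            exact Real.rpow_le_rpow_of_exponent_le hX1.le (by norm_num)
        _ ≤ Y ^ (2 / 3 : ℝ) := by gcongr
    calc C1 * Y ^ (1 / 3 : ℝ) ≤ Y ^ (2 / 3 : ℝ) * Y ^ (1 / 3 : ℝ) := by gcongr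
      _ = Y := by rw [← Real.rpow_add hY0]; norm_num

theorem special_numB2 {C1 K1 ε X Y : ℝ} (hX1 : 1 < X)
    (hε1 : ε ≤ 0.01) (hXK : 2 * K1 * C1 ^ 2 ≤ X ^ (1 / 10 : ℝ)) (hY0 : 0 < Y)
    (hY : Y ≤ X ^ (33 / 100 : ℝ)) :
    2 * (K1 * (C1 * Y ^ (1 / 3 : ℝ)) ^ 2 * Y ^ 2) ≤ X ^ (1 - ε) := by
  have hX0 : 0 < X := by linarith
  calc 2 * (K1 * (C1 * Y ^ (1 / 3 : ℝ)) ^ 2 * Y ^ 2)
      = (2 * K1 * C1 ^ 2) * ((Y ^ (1 / 3 : ℝ)) ^ 2 * Y ^ 2) := by ring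
    _ = (2 * K1 * C1 ^ 2) * Y ^ (8 / 3 : ℝ) := by
        congr 1
        rw [← Real.rpow_natCast, ← Real.rpow_mul hY0.le, ← Real.rpow_natCast Y 2,
          ← Real.rpow_add hY0]
        norm_num
    _ ≤ X ^ (1 / 10 : ℝ) * (X ^ (33 / 100 : ℝ)) ^ (8 / 3 : ℝ) := by gcongr
    _ = X ^ (98 / 100 : ℝ) := by
        rw [← Real.rpow_mul hX0.le, ← Real.rpow_add hX0]; norm_num
    _ ≤ X ^ (1 - ε) := Real.rpow_le_rpow_of_exponent_le hX1.le (by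
        norm_num at hε1 ⊢; linarith)

theorem dot_facts {g1 g2 : Fin 4 → ℤ} (h : Red g1 g2) : (1 : ℝ) ≤ dot g1 g1 ∧
    (1 : ℝ) ≤ dot g2 g2 ∧ (dot g1 g1 : ℝ) ≤ dot g2 g2 := by
  have h1 := dot_pos h.1
  have h2 := h.2.1
  exact ⟨by exact_mod_cast h1, by exact_mod_cast (by omega : 1 ≤ dot g2 g2),
    by exact_mod_cast h2⟩

/-- a special pair of a solution gives a special `z`. -/
theorem specZ_of {L : Type} [Field L] [NumberField L] {θ : Fin 4 → 𝓞 L} {C C1 Y : ℝ}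
    (hC0 : 0 ≤ C) (hCC : C ≤ C1) (hC1 : 1 ≤ C1) (hY0 : 0 < Y) {g1 g2 : Fin 4 → ℤ}
    (h1 : Red g1 g2) (hns : ¬ NonSpec θ g1 g2)
    (h3 : (dot g1 g1 : ℝ) * dot g2 g2 ≤ C * Y ^ (4 / 3 : ℝ)) (s t : ℤ) :
    SpecZ θ (C1 * Y ^ (1 / 3 : ℝ)) (s • g1 + t • g2) := by
  unfold NonSpec at hns
  push Not at hns
  obtain ⟨j, k, hjk, he⟩ := hns
  refine ⟨g1, h1.1, ?_, j, k, hjk, ?_⟩
  · obtain ⟨d1, d2, d3⟩ := dot_facts h1
    have hd0 : (0 : ℝ) ≤ dot g1 g1 := by linarith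
    have h5 : (dot g1 g1 : ℝ) ^ 2 ≤ ((C1 * Y ^ (1 / 3 : ℝ)) ^ 2) ^ 2 := by
      calc (dot g1 g1 : ℝ) ^ 2 = dot g1 g1 * dot g1 g1 := pow_two _
        _ ≤ dot g1 g1 * dot g2 g2 := mul_le_mul_of_nonneg_left d3 hd0
        _ ≤ C * Y ^ (4 / 3 : ℝ) := h3
        _ ≤ C1 ^ 4 * Y ^ (4 / 3 : ℝ) := by
            apply mul_le_mul_of_nonneg_right _ (by positivity)
            calc (C : ℝ) ≤ C1 := hCC
              _ = C1 ^ 1 := (pow_one _).symm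
              _ ≤ C1 ^ 4 := pow_le_pow_right₀ hC1 (by norm_num)
        _ = ((C1 * Y ^ (1 / 3 : ℝ)) ^ 2) ^ 2 := by
            rw [mul_pow, mul_pow, ← pow_mul, ← pow_mul]
            congr 1
            rw [← Real.rpow_natCast, ← Real.rpow_mul hY0.le]
            norm_num
    exact le_of_sq_le_sq h5 (by positivity)
  · rw [el_comb, el_comb]
    linear_combination (t : 𝓞 L) * he

/-- compactness in the exponents of the reduced pairs, from the special count and the local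
count. -/
theorem all_pairsB_of {L : Type} [Field L] [NumberField L] (θ : Fin 4 → 𝓞 L) (C : ℕ) (w : ℝ)
    (hw : 0.3488 ≤ w) (hw' : w ≤ 0.38)
    (hspec : ∃ K : ℝ, 0 < K ∧ ∀ (X T R : ℝ), 1 ≤ T → 1 ≤ X → T ^ 2 ≤ C * X →
      X ≤ C * T ^ 4 → 1 ≤ R → R ≤ X / T ^ 2 → ∀ S : Finset ℤ,
      (∀ N ∈ S, ∃ (p : ℕ) (c : ℤ) (y z : Fin 4 → ℤ), X ≤ C * |(N : ℝ)| ∧
        Dat θ C X T N p c y z ∧ SpecZ θ R z) →
      (S.card : ℝ) ≤ K * R ^ 2 * (X / T ^ 2) ^ 2)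
    (hloc : ∀ m1 m2 : ℝ, 0 ≤ m1 → 0 ≤ m2 →
      ∃ ε : ℝ, 0 < ε ∧ ∃ K : ℝ, 0 < K ∧ ∀ (X T : ℝ) (S : Finset ℤ),
      K ≤ X → X ^ (w - ε) ≤ T → T ≤ X ^ (w + ε) →
      (∀ N ∈ S, ∃ (g1 g2 : Fin 4 → ℤ) (p : ℕ) (c : ℤ) (y : Fin 4 → ℤ) (s t : ℤ), Red g1 g2 ∧
        NonSpec θ g1 g2 ∧
        (dot g1 g1 : ℝ) * dot g2 g2 ≤ C * (X / T ^ 2) ^ (4 / 3 : ℝ) ∧
        PtB θ C X T g1 g2 N p c y s t ∧
        X ^ (2 * (m1 - ε)) ≤ dot g1 g1 ∧ (dot g1 g1 : ℝ) ≤ X ^ (2 * (m1 + ε)) ∧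
        X ^ (2 * (m2 - ε)) ≤ dot g2 g2 ∧ (dot g2 g2 : ℝ) ≤ X ^ (2 * (m2 + ε))) →
      (S.card : ℝ) ≤ X ^ (1 - ε)) :
    ∃ ε : ℝ, 0 < ε ∧ ∃ K : ℝ, 0 < K ∧ ∀ (X T : ℝ) (S : Finset ℤ),
      K ≤ X → X ^ (w - ε) ≤ T → T ≤ X ^ (w + ε) →
      (∀ N ∈ S, ∃ (g1 g2 : Fin 4 → ℤ) (p : ℕ) (c : ℤ) (y : Fin 4 → ℤ) (s t : ℤ), Red g1 g2 ∧
        (dot g1 g1 : ℝ) * dot g2 g2 ≤ C * (X / T ^ 2) ^ (4 / 3 : ℝ) ∧
        PtB θ C X T g1 g2 N p c y s t) →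
      (S.card : ℝ) ≤ X ^ (1 - ε) := by
  classical
  obtain ⟨K1, hK1, hspec⟩ := hspec
  obtain ⟨ε2, hε2, K2, hK2, hcov⟩ := cover_count (fun X T N D1 D2 =>
    ∃ (g1 g2 : Fin 4 → ℤ) (p : ℕ) (c : ℤ) (y : Fin 4 → ℤ) (s t : ℤ), Red g1 g2 ∧
        NonSpec θ g1 g2 ∧
        (dot g1 g1 : ℝ) * dot g2 g2 ≤ C * (X / T ^ 2) ^ (4 / 3 : ℝ) ∧
        PtB θ C X T g1 g2 N p c y s t ∧ D1 = dot g1 g1 ∧ D2 = dot g2 g2) w (by
    intro m1 m2 h1 h2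
    obtain ⟨ε, hε, K, hK, h⟩ := hloc m1 m2 h1 h2
    refine ⟨ε, hε, K, hK, ?_⟩
    intro X T S a1 a2 a3 a4
    refine h X T S a1 a2 a3 ?_
    intro N hN
    obtain ⟨D1, D2, ⟨g1, g2, p, c, y, s, t, b1, b2, b3, b4, rfl, rfl⟩, b5⟩ := a4 N hN
    exact ⟨g1, g2, p, c, y, s, t, b1, b2, b3, b4, b5⟩)
  set ε : ℝ := min (ε2 / 2) 0.01 with hε
  have hεp : 0 < ε := lt_min (by linarith) (by norm_num)
  have hε1 : ε ≤ ε2 / 2 := min_le_left _ _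
  have hε01 : ε ≤ 0.01 := min_le_right _ _
  set C1 : ℝ := 1 + C with hC1
  have hC0 : (0 : ℝ) ≤ C := Nat.cast_nonneg C
  have hC11 : 1 ≤ C1 := by linarith
  refine ⟨ε, hεp, 2 + K2 + (C1 ^ 2) ^ (1 / (1 / 10 : ℝ)) + (2 * K1 * C1 ^ 2) ^ (1 / (1 / 10 : ℝ)) +
    2 ^ (1 / (ε2 / 2)), by positivity, ?_⟩
  intro X T S hX hT1 hT2 hS
  have hq1 : 0 ≤ (C1 ^ 2) ^ (1 / (1 / 10 : ℝ)) := by positivity
  have hq2 : 0 ≤ (2 * K1 * C1 ^ 2) ^ (1 / (1 / 10 : ℝ)) := by positivity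
  have hq3 : 0 ≤ (2 : ℝ) ^ (1 / (ε2 / 2)) := by positivity
  have hX1 : 1 < X := by linarith
  have hX0 : 0 < X := by linarith
  have hXC : C1 ^ 2 ≤ X ^ (1 / 10 : ℝ) :=
    le_rpow_of (by norm_num) (by positivity) (by linarith)
  have hXK : 2 * K1 * C1 ^ 2 ≤ X ^ (1 / 10 : ℝ) :=
    le_rpow_of (by norm_num) (by positivity) (by linarith)
  have hX2 : 2 ≤ X ^ (ε2 / 2) := le_rpow_of (by linarith) (by norm_num) (by linarith)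
  have hKX : K2 ≤ X := by linarith
  obtain ⟨hTge, hTX, hXT, hYlo, hYhi⟩ := sizesB hw hw' hεp hε01 hX1 hT1 hT2
  rcases Nat.eq_zero_or_pos C with hCz | hCpos
  · -- no data at all
    have hSe : S = ∅ := by
      rw [Finset.eq_empty_iff_forall_notMem]
      intro N hN
      obtain ⟨g1, g2, p, c, y, s, t, -, -, hpt⟩ := hS N hN
      have h1 := hpt.dat.cC
      have h2 := hpt.dat.c0
      rw [hCz] at h1
      exact h2 (abs_nonpos_iff.1 (by simpa using h1))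
    rw [hSe]
    simp only [Finset.card_empty, Nat.cast_zero]
    exact Real.rpow_nonneg hX0.le _
  have hCge : (1 : ℝ) ≤ C := by exact_mod_cast hCpos
  have hY1 : 1 ≤ X / T ^ 2 := le_trans (Real.one_le_rpow hX1.le (by norm_num)) hYlo
  have hY0 : 0 < X / T ^ 2 := by linarith
  have hCY : C * (X / T ^ 2) ^ (4 / 3 : ℝ) ≤ X ^ (2 : ℝ) := by
    calc C * (X / T ^ 2) ^ (4 / 3 : ℝ) ≤ X ^ (1 / 10 : ℝ) * (X ^ (33 / 100 : ℝ)) ^ (4 / 3 : ℝ) := by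
          apply mul_le_mul _ (Real.rpow_le_rpow hY0.le hYhi (by norm_num))
            (Real.rpow_nonneg hY0.le _) (Real.rpow_nonneg hX0.le _)
          refine le_trans ?_ hXC
          rw [hC1]
          nlinarith only [hC0]
      _ = X ^ (54 / 100 : ℝ) := by
          rw [← Real.rpow_mul hX0.le, ← Real.rpow_add hX0]; norm_num
      _ ≤ X ^ (2 : ℝ) := Real.rpow_le_rpow_of_exponent_le hX1.le (by norm_num)
  obtain ⟨hR1, hRY⟩ := special_numB hC11 hX1 hXC hYlo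
  have hB2 := special_numB2 hX1 hε01 hXK hY0 hYhi
  have hA2 : 2 * X ^ (1 - ε2) ≤ X ^ (1 - ε) := by
    calc 2 * X ^ (1 - ε2) ≤ X ^ (ε2 / 2) * X ^ (1 - ε2) :=
          mul_le_mul_of_nonneg_right hX2 (Real.rpow_nonneg hX0.le _)
      _ = X ^ (ε2 / 2 + (1 - ε2)) := by rw [← Real.rpow_add hX0]
      _ ≤ X ^ (1 - ε) := Real.rpow_le_rpow_of_exponent_le hX1.le (by linarith)
  -- the split
  generalize hPd : (fun N : ℤ => ∃ (g1 g2 : Fin 4 → ℤ) (p : ℕ) (c : ℤ) (y : Fin 4 → ℤ) (s t : ℤ),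
    Red g1 g2 ∧ NonSpec θ g1 g2 ∧
    (dot g1 g1 : ℝ) * dot g2 g2 ≤ C * (X / T ^ 2) ^ (4 / 3 : ℝ) ∧
    PtB θ C X T g1 g2 N p c y s t) = P
  have hP : ∀ N, P N ↔ ∃ (g1 g2 : Fin 4 → ℤ) (p : ℕ) (c : ℤ) (y : Fin 4 → ℤ) (s t : ℤ),
    Red g1 g2 ∧ NonSpec θ g1 g2 ∧
    (dot g1 g1 : ℝ) * dot g2 g2 ≤ C * (X / T ^ 2) ^ (4 / 3 : ℝ) ∧
    PtB θ C X T g1 g2 N p c y s t := by
    intro N
    rw [← hPd]
  clear hPd
  have hA : ((S.filter P).card : ℝ) ≤ X ^ (1 - ε2) := by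
    refine (hcov X T (S.filter P) hKX ?_ ?_ ?_)
    · exact (Real.rpow_le_rpow_of_exponent_le hX1.le (by linarith)).trans hT1
    · exact hT2.trans (Real.rpow_le_rpow_of_exponent_le hX1.le (by linarith))
    · intro N hN
      rw [Finset.mem_filter, hP] at hN
      obtain ⟨g1, g2, p, c, y, s, t, h1, h2, h3, h4⟩ := hN.2
      obtain ⟨d1, d2, d3⟩ := dot_facts h1
      have e1 : (dot g1 g1 : ℝ) ≤ dot g1 g1 * dot g2 g2 :=
        le_mul_of_one_le_right (by linarith) d2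
      have e2 : (dot g2 g2 : ℝ) ≤ dot g1 g1 * dot g2 g2 :=
        le_mul_of_one_le_left (by linarith) d1
      exact ⟨dot g1 g1, dot g2 g2, ⟨g1, g2, p, c, y, s, t, h1, h2, h3, h4, rfl, rfl⟩, d1,
        (e1.trans h3).trans hCY, d2, (e2.trans h3).trans hCY⟩
  have hB : ((S.filter (fun N => ¬ P N)).card : ℝ) ≤
      K1 * (C1 * (X / T ^ 2) ^ (1 / 3 : ℝ)) ^ 2 * (X / T ^ 2) ^ 2 := by
    apply hspec X T _ hTge hX1.le (hTX.trans (le_mul_of_one_le_left hX0.le hCge))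
      (hXT.trans (le_mul_of_one_le_left (by positivity) hCge)) hR1 hRY
    intro N hN
    rw [Finset.mem_filter, hP] at hN
    obtain ⟨g1, g2, p, c, y, s, t, h1, h3, h4⟩ := hS N hN.1
    have hns : ¬ NonSpec θ g1 g2 := fun h => hN.2 ⟨g1, g2, p, c, y, s, t, h1, h, h3, h4⟩
    exact ⟨p, c, y, s • g1 + t • g2, h4.lowN, h4.dat,
      specZ_of hC0 (by linarith) hC11 hY0 h1 hns h3 s t⟩
  have hfin : (S.card : ℝ) = ((S.filter P).card : ℝ) + ((S.filter (fun N => ¬ P N)).card : ℝ) := by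
    exact_mod_cast (Finset.card_filter_add_card_filter_not P).symm
  rw [hfin]
  linarith

end Vale.Agent.P018.QB
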