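import Mathlib

/-! # P018, (B): numerical verification. -/

namespace Vale.Agent.P018.QB

private theorem bnum_one (x : ℝ) (T : ℕ) :
    ∑ τ ∈ Finset.range T, max (x - τ) 0 ≤ (max (x + 1) 0) ^ 2 / 2 := by
  have key : ∀ T : ℕ, ∑ τ ∈ Finset.range T, max (x - τ) 0 ≤
      ((max (x + 1) 0) ^ 2 - (max (x + 1 - T) 0) ^ 2) / 2 := by
    intro T
    induction T with
    | zero => simp
    | succ T ih =>
      rw [Finset.sum_range_succ]
      have h : max (x - T) 0 ≤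
          ((max (x + 1 - T) 0) ^ 2 - (max (x + 1 - ((T + 1 : ℕ) : ℝ)) 0) ^ 2) / 2 := by
        push_cast
        have e : x + 1 - ((T : ℝ) + 1) = x - T := by ring
        rw [e]
        rcases le_total 0 (x - T) with h | h
        · rw [max_eq_left h, max_eq_left (by linarith)]
          nlinarith
        · rw [max_eq_right h]
          nlinarith [sq_nonneg (max (x + 1 - (T : ℝ)) 0)]
      linarith
  refine (key T).trans ?_
  nlinarith [sq_nonneg (max (x + 1 - (T : ℝ)) 0)]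

private theorem bnum_two (y b : ℝ) (hb : 0 < b) (K : ℕ) :
    ∑ k ∈ Finset.range K, (max (y - b * k) 0) ^ 2 / 2 ≤ (max (y + b) 0) ^ 3 / (6 * b) := by
  have key : ∀ K : ℕ, ∑ k ∈ Finset.range K, (max (y - b * k) 0) ^ 2 / 2 ≤
      ((max (y + b) 0) ^ 3 - (max (y + b - b * K) 0) ^ 3) / (6 * b) := by
    intro K
    induction K with
    | zero => simp
    | succ K ih =>
      rw [Finset.sum_range_succ]
      have h : (max (y - b * K) 0) ^ 2 / 2 ≤
          ((max (y + b - b * K) 0) ^ 3 - (max (y + b - b * ((K + 1 : ℕ) : ℝ)) 0) ^ 3) / (6 * b) := by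
        push_cast
        have e : y + b - b * ((K : ℝ) + 1) = y - b * K := by ring
        rw [e, le_div_iff₀ (by positivity)]
        rcases le_total 0 (y - b * K) with h | h
        · rw [max_eq_left h, max_eq_left (by linarith)]
          set z := y - b * K with hz
          have : y + b - b * K = z + b := by rw [hz]; ring
          rw [this]
          nlinarith [mul_nonneg h hb.le, mul_pos hb hb, pow_pos hb 3,
            mul_nonneg (mul_nonneg h hb.le) hb.le]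
        · rw [max_eq_right h]
          have := pow_nonneg (le_max_right (y + b - b * (K : ℝ)) 0) 3
          nlinarith
      have hadd : ((max (y + b) 0) ^ 3 - (max (y + b - b * K) 0) ^ 3) / (6 * b)
          + ((max (y + b - b * K) 0) ^ 3 - (max (y + b - b * ((K + 1 : ℕ) : ℝ)) 0) ^ 3) / (6 * b)
          = ((max (y + b) 0) ^ 3 - (max (y + b - b * ((K + 1 : ℕ) : ℝ)) 0) ^ 3) / (6 * b) := by
        rw [← add_div]
        congr 1
        ring
      rw [← hadd]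
      exact add_le_add ih h
  refine (key K).trans ?_
  gcongr
  have := pow_nonneg (le_max_right (y + b - b * (K : ℝ)) 0) 3
  linarith

/-- lattice sums: for every finite `S ⊆ ℕ²` and `R ≥ 0`,
`∑_{(τ,k) ∈ S} (τ + b k) ≥ |S| R - (R+1+b)^3/(6b)`. -/
theorem sum_lower (b R : ℝ) (hb : 0 < b) (hR : 0 ≤ R) (S : Finset (ℕ × ℕ)) :
    S.card * R - (R + 1 + b) ^ 3 / (6 * b) ≤ ∑ s ∈ S, ((s.1 : ℝ) + b * s.2) := by
  obtain ⟨T, hT⟩ : ∃ T : ℕ, ∀ s ∈ S, s.1 < T := by
    refine ⟨S.sup Prod.fst + 1, fun s hs => Nat.lt_succ_of_le ?_⟩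
    exact Finset.le_sup (f := Prod.fst) hs
  obtain ⟨K, hK⟩ : ∃ K : ℕ, ∀ s ∈ S, s.2 < K := by
    refine ⟨S.sup Prod.snd + 1, fun s hs => Nat.lt_succ_of_le ?_⟩
    exact Finset.le_sup (f := Prod.snd) hs
  have h1 : ∑ s ∈ S, (R - ((s.1 : ℝ) + b * s.2)) ≤ (R + 1 + b) ^ 3 / (6 * b) := by
    calc ∑ s ∈ S, (R - ((s.1 : ℝ) + b * s.2))
        ≤ ∑ s ∈ S, max (R - b * s.2 - s.1) 0 := by
          refine Finset.sum_le_sum fun s _ => ?_
          refine le_trans (le_of_eq ?_) (le_max_left _ _)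
          ring
      _ ≤ ∑ s ∈ Finset.range T ×ˢ Finset.range K, max (R - b * (s.2 : ℝ) - (s.1 : ℝ)) 0 := by
          refine Finset.sum_le_sum_of_subset_of_nonneg ?_ fun s _ _ => le_max_right _ _
          intro s hs
          rw [Finset.mem_product, Finset.mem_range, Finset.mem_range]
          exact ⟨hT s hs, hK s hs⟩
      _ = ∑ k ∈ Finset.range K, ∑ τ ∈ Finset.range T, max (R - b * (k : ℝ) - (τ : ℝ)) 0 := by
          rw [Finset.sum_product_right]
      _ ≤ ∑ k ∈ Finset.range K, (max (R + 1 - b * k) 0) ^ 2 / 2 := by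
          refine Finset.sum_le_sum fun k _ => ?_
          refine (bnum_one (R - b * k) T).trans (le_of_eq ?_)
          have : R - b * (k : ℝ) + 1 = R + 1 - b * k := by ring
          rw [this]
      _ ≤ (max (R + 1 + b) 0) ^ 3 / (6 * b) := bnum_two (R + 1) b hb K
      _ = (R + 1 + b) ^ 3 / (6 * b) := by
          rw [max_eq_left (by linarith)]
  rw [Finset.sum_sub_distrib, Finset.sum_const, nsmul_eq_mul] at h1
  linarith

/-- the numerical condition in the exponents `T = X^w`, `|g1| = X^m1`, cost `X^β`;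
`A = 1 - 2w - m1` is the exponent of `U`. -/
def NumB (w m1 β : ℝ) : Prop :=
  ∃ (i m : ℕ) (b δ : ℝ), 2 ≤ m ∧ 0 < b ∧ 0 < δ ∧
    (∀ S : Finset (ℕ × ℕ), S.card = 8 * (m - 1) * (m - 1 + i) →
      (8 * (m - 1) * (m - 1 + i) : ℕ) * (i * (1 - 2 * w - m1) + 2 * m * w) + δ ≤
        ∑ s ∈ S, ((s.1 : ℝ) + b * s.2)) ∧
    b + 27 / 169 * w + 131 / 338 * (1 - 2 * w - m1) < β

/-- take `i = 16 k`, `m = 11 k`, `k = 1000`, `N0 = 8 (m-1)(m-1+i)`,
`b = 9/8 (A i + 2 m w + 2)^2 / N0`, `R = √(2 b N0)`. -/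
theorem numB (w m1 m2 : ℝ) (hw : 0.3488 ≤ w) (hw' : w ≤ 0.38) (h0 : 0 ≤ m1) (h1 : m1 ≤ m2)
    (h2 : m1 + m2 ≤ 2 / 3 * (1 - 2 * w)) : ∃ β : ℝ, 0 < β ∧ 5 * m1 + 3 * m2 + β < 1 ∧
      NumB w m1 β := by
  have hm1 : m1 ≤ (1 - 2 * w) / 3 := by linarith
  obtain ⟨X, hX⟩ : ∃ X : ℝ, X = 16002 - 10000 * w - 16000 * m1 := ⟨_, rfl⟩
  have hXl : 10901 ≤ X := by rw [hX]; linarith
  have hXu : X ≤ 12514 := by rw [hX]; linarith
  obtain ⟨b, hb⟩ : ∃ b : ℝ, b = 9 / 8 * X ^ 2 / 2375696008 := ⟨_, rfl⟩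
  have hXsq : X ^ 2 ≤ 23415 * X - 10901 * 12514 := by
    have := mul_nonneg (sub_nonneg.2 hXl) (sub_nonneg.2 hXu)
    linarith
  have hbpos : 0 < b := by rw [hb]; positivity
  have hbu : b ≤ 9 / 8 * (23415 * X - 10901 * 12514) / 2375696008 := by
    rw [hb]
    gcongr
  have hb1 : b ≤ 1 / 10 := by linarith
  have hbl : 1 / 20 ≤ b := by
    rw [hb]
    have : (10901 : ℝ) ^ 2 ≤ X ^ 2 := by gcongr
    rw [le_div_iff₀ (by norm_num)]
    norm_num at this ⊢
    linarith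
  have hfin : 5 * m1 + 3 * m2 + (b + 27 / 169 * w + 131 / 338 * (1 - 2 * w - m1)) < 1 := by
    have : 5 * m1 + 3 * m2 ≤ 2 * m1 + 2 * (1 - 2 * w) := by linarith
    rw [hX] at hbu
    linarith
  have hpos : 0 < b + 27 / 169 * w + 131 / 338 * (1 - 2 * w - m1) := by
    have : 0 ≤ 1 - 2 * w - m1 := by linarith
    linarith
  obtain ⟨e, he⟩ : ∃ e : ℝ,
      e = 1 - (5 * m1 + 3 * m2 + (b + 27 / 169 * w + 131 / 338 * (1 - 2 * w - m1))) := ⟨_, rfl⟩
  refine ⟨b + 27 / 169 * w + 131 / 338 * (1 - 2 * w - m1) + e / 2, by linarith, by linarith,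
    16000, 11000, b, 1, by norm_num, hbpos, one_pos, ?_, by linarith⟩
  intro S hS
  have hSc : (S.card : ℝ) = 2375696008 := by
    rw [hS]
    norm_num
  have hlow := sum_lower b (3 / 2 * X) hbpos (by linarith) S
  rw [hSc] at hlow
  refine le_trans ?_ hlow
  have hcast : ((8 * (11000 - 1) * (11000 - 1 + 16000) : ℕ) : ℝ) = 2375696008 := by norm_num
  rw [hcast]
  have hlin : ((16000 : ℕ) : ℝ) * (1 - 2 * w - m1) + 2 * ((11000 : ℕ) : ℝ) * w = X - 2 := by
    rw [hX]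
    push_cast
    ring
  rw [hlin]
  -- `(R+1+b)^3 / (6 b) ≤ N0 (X/2 + 1 + b) + small`
  have hXb : (3 / 2 * X) ^ 2 = 2 * b * 2375696008 := by
    rw [hb]
    ring
  have hdiv : (3 / 2 * X + 1 + b) ^ 3 / (6 * b) ≤ 2375696008 * (X / 2 + 1 + b) + 2000000 := by
    rw [div_le_iff₀ (by positivity)]
    have e3 : (3 / 2 * X + 1 + b) ^ 3 = (3 / 2 * X) ^ 2 * (3 / 2 * X) + 3 * (3 / 2 * X) ^ 2 * (1 + b)
        + 3 * (3 / 2 * X) * (1 + b) ^ 2 + (1 + b) ^ 3 := by ring
    rw [e3, hXb]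
    have hs1 : (1 + b) ^ 2 ≤ 2 := by
      have : (1 + b) ^ 2 ≤ (11 / 10) ^ 2 := by
        gcongr
        linarith
      norm_num at this ⊢
      linarith
    have hs2 : (1 + b) ^ 3 ≤ 2 := by
      have : (1 + b) ^ 3 ≤ (11 / 10) ^ 3 := by
        gcongr
        linarith
      norm_num at this ⊢
      linarith
    have hs3 : 3 * (3 / 2 * X) * (1 + b) ^ 2 ≤ 3 * (3 / 2 * X) * 2 := by
      have : 0 ≤ 3 * (3 / 2 * X) := by linarith
      exact mul_le_mul_of_nonneg_left hs1 this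
    have e4 : (2375696008 * (X / 2 + 1 + b) + 2000000) * (6 * b) =
        2 * b * 2375696008 * (3 / 2 * X) + 3 * (2 * b * 2375696008) * (1 + b)
          + 12000000 * b := by ring
    rw [e4]
    linarith
  linarith

end Vale.Agent.P018.QB
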