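import Mathlib
import Vale.Agent.P018.Q.BPair
import Vale.Agent.P018.Q.BNum
import Vale.Agent.P018.Q.SumPairs

/-! # P018, (B): the count near given exponents of the reduced pairs. -/

namespace Vale.Agent.P018.QB

open Polynomial NumberField Vale.Agent.P018.Q

/-- the exponents `m1 > m2` do not occur. -/
theorem locB_order {m1 m2 : ℝ} (h : m2 < m1) :
    ∃ ε : ℝ, 0 < ε ∧ ∀ (X : ℝ) (g1 g2 : Fin 4 → ℤ), 2 ≤ X → Red g1 g2 →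
      X ^ (2 * (m1 - ε)) ≤ dot g1 g1 → (dot g2 g2 : ℝ) ≤ X ^ (2 * (m2 + ε)) → False := by
  refine ⟨(m1 - m2) / 4, by linarith, ?_⟩
  intro X g1 g2 hX hred h1 h2
  have h3 : (dot g1 g1 : ℝ) ≤ dot g2 g2 := by exact_mod_cast hred.2.1
  have h4 : X ^ (2 * (m2 + (m1 - m2) / 4)) < X ^ (2 * (m1 - (m1 - m2) / 4)) :=
    Real.rpow_lt_rpow_of_exponent_lt (by linarith) (by linarith)
  linarith

/-- the exponents with `m1 + m2 > 2/3 (1 - 2w)` do not occur. -/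
theorem locB_covol (C : ℕ) {w m1 m2 : ℝ} (h : 2 / 3 * (1 - 2 * w) < m1 + m2) :
    ∃ ε : ℝ, 0 < ε ∧ ∃ K : ℝ, 0 < K ∧ ∀ (X T : ℝ) (g1 g2 : Fin 4 → ℤ), K ≤ X →
      X ^ (w - ε) ≤ T →
      (dot g1 g1 : ℝ) * dot g2 g2 ≤ C * (X / T ^ 2) ^ (4 / 3 : ℝ) →
      X ^ (2 * (m1 - ε)) ≤ dot g1 g1 → X ^ (2 * (m2 - ε)) ≤ dot g2 g2 → False := by
  set d := m1 + m2 - 2 / 3 * (1 - 2 * w) with hd
  have hd0 : 0 < d := by rw [hd]; linarith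
  refine ⟨d / 10, by linarith, ((C : ℝ) + 1) ^ (1 / d), by positivity, ?_⟩
  intro X T g1 g2 hX hT h0 h1 h2
  have hC1 : (1 : ℝ) ≤ (C : ℝ) + 1 := by
    have := Nat.cast_nonneg (α := ℝ) C
    linarith
  have hX1 : 1 ≤ X := le_trans (Real.one_le_rpow hC1 (by positivity)) hX
  have hX0 : 0 < X := by linarith
  have hXd : (C : ℝ) + 1 ≤ X ^ d := by
    have h3 : (((C : ℝ) + 1) ^ (1 / d)) ^ d ≤ X ^ d :=
      Real.rpow_le_rpow (by positivity) hX hd0.le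
    rwa [← Real.rpow_mul (by linarith), one_div, inv_mul_cancel₀ hd0.ne', Real.rpow_one] at h3
  have hpw : 0 < X ^ (w - d / 10) := Real.rpow_pos_of_pos hX0 _
  have hT0 : 0 < T := lt_of_lt_of_le hpw hT
  have e1 : X / T ^ 2 ≤ X ^ (1 - 2 * (w - d / 10)) := by
    rw [div_le_iff₀ (by positivity)]
    have e2 : X ^ (1 - 2 * (w - d / 10)) * (X ^ (w - d / 10)) ^ 2 = X := by
      rw [← Real.rpow_natCast, ← Real.rpow_mul hX0.le, ← Real.rpow_add hX0]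
      have e3 : 1 - 2 * (w - d / 10) + (w - d / 10) * ((2 : ℕ) : ℝ) = 1 := by
        push_cast; ring
      rw [e3, Real.rpow_one]
    calc X = X ^ (1 - 2 * (w - d / 10)) * (X ^ (w - d / 10)) ^ 2 := e2.symm
      _ ≤ X ^ (1 - 2 * (w - d / 10)) * T ^ 2 := by
        apply mul_le_mul_of_nonneg_left _ (Real.rpow_nonneg hX0.le _)
        exact pow_le_pow_left₀ hpw.le hT 2
  have e4 : (X / T ^ 2) ^ (4 / 3 : ℝ) ≤ X ^ ((1 - 2 * (w - d / 10)) * (4 / 3)) := by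
    rw [Real.rpow_mul hX0.le]
    exact Real.rpow_le_rpow (by positivity) e1 (by norm_num)
  have e5 : X ^ (2 * (m1 - d / 10) + 2 * (m2 - d / 10)) ≤
      C * X ^ ((1 - 2 * (w - d / 10)) * (4 / 3)) := by
    rw [Real.rpow_add hX0]
    calc X ^ (2 * (m1 - d / 10)) * X ^ (2 * (m2 - d / 10)) ≤ (dot g1 g1 : ℝ) * dot g2 g2 :=
          mul_le_mul h1 h2 (Real.rpow_nonneg hX0.le _)
            (le_trans (Real.rpow_nonneg hX0.le _) h1)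
      _ ≤ C * (X / T ^ 2) ^ (4 / 3 : ℝ) := h0
      _ ≤ _ := mul_le_mul_of_nonneg_left e4 (Nat.cast_nonneg C)
  have e6 : X ^ (2 * (m1 - d / 10) + 2 * (m2 - d / 10)) =
      X ^ (4 / 3 * d) * X ^ ((1 - 2 * (w - d / 10)) * (4 / 3)) := by
    rw [← Real.rpow_add hX0]
    congr 1
    rw [hd]; ring
  rw [e6] at e5
  have e7 : X ^ (4 / 3 * d) ≤ C :=
    le_of_mul_le_mul_right e5 (Real.rpow_pos_of_pos hX0 _)
  have e8 : X ^ d ≤ X ^ (4 / 3 * d) := Real.rpow_le_rpow_of_exponent_le hX1 (by linarith)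
  linarith

/-- the count near the exponents `(m1, m2)`, from the count over one pair. -/
theorem locB_sum {L : Type} [Field L] [NumberField L] (θ : Fin 4 → 𝓞 L) (C : ℕ)
    (w m1 m2 β : ℝ) (hm1 : 0 ≤ m1) (hm2 : 0 ≤ m2) (hβ : 5 * m1 + 3 * m2 + β < 1)
    (hloc : ∀ η : ℝ, 0 < η → ∃ ε : ℝ, 0 < ε ∧ ∃ K : ℝ, 0 < K ∧
      ∀ (X T : ℝ) (g1 g2 : Fin 4 → ℤ),
      K ≤ X → X ^ (w - ε) ≤ T → T ≤ X ^ (w + ε) → Red g1 g2 → NonSpec θ g1 g2 →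
      X ^ (2 * (m1 - ε)) ≤ dot g1 g1 → (dot g1 g1 : ℝ) ≤ X ^ (2 * (m1 + ε)) →
      (dot g2 g2 : ℝ) ≤ X ^ (2 * (m2 + ε)) →
      ∀ S : Finset ℤ, (∀ N ∈ S, ∃ (p : ℕ) (c : ℤ) (y : Fin 4 → ℤ) (s t : ℤ),
        PtB θ C X T g1 g2 N p c y s t) → (S.card : ℝ) ≤ X ^ (β + η)) :
    ∃ ε : ℝ, 0 < ε ∧ ∃ K : ℝ, 0 < K ∧ ∀ (X T : ℝ) (S : Finset ℤ),
      K ≤ X → X ^ (w - ε) ≤ T → T ≤ X ^ (w + ε) →
      (∀ N ∈ S, ∃ (g1 g2 : Fin 4 → ℤ) (p : ℕ) (c : ℤ) (y : Fin 4 → ℤ) (s t : ℤ), Red g1 g2 ∧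
        NonSpec θ g1 g2 ∧ PtB θ C X T g1 g2 N p c y s t ∧
        X ^ (2 * (m1 - ε)) ≤ dot g1 g1 ∧ (dot g1 g1 : ℝ) ≤ X ^ (2 * (m1 + ε)) ∧
        (dot g2 g2 : ℝ) ≤ X ^ (2 * (m2 + ε))) →
      (S.card : ℝ) ≤ X ^ (1 - ε) := by
  classical
  set gap := 1 - (5 * m1 + 3 * m2 + β) with hgap
  have hg0 : 0 < gap := by rw [hgap]; linarith
  obtain ⟨ε1, hε1, K1, hK1, H1⟩ := hloc (gap / 4) (by linarith)
  set ε := min ε1 (gap / 44) with hεdef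
  have hε0 : 0 < ε := lt_min hε1 (by linarith)
  have hεε1 : ε ≤ ε1 := min_le_left _ _
  have hεg : ε ≤ gap / 44 := min_le_right _ _
  obtain ⟨K2, hK2, H2⟩ := sum_pairs m1 m2 ε hm1 hm2 hε0
  refine ⟨ε, hε0, max 1 (max K1 K2), by positivity, ?_⟩
  intro X T S hKX hT1 hT2 hS
  have hX1 : 1 ≤ X := le_trans (le_max_left _ _) hKX
  have hXK1 : K1 ≤ X := le_trans (le_trans (le_max_left _ _) (le_max_right _ _)) hKX
  have hXK2 : K2 ≤ X := le_trans (le_trans (le_max_right _ _) (le_max_right _ _)) hKX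
  have hX0 : 0 < X := by linarith
  have key := H2 X (β + gap / 4) S
    (fun N l => NonSpec θ l.1 l.2 ∧ ∃ (p : ℕ) (c : ℤ) (y : Fin 4 → ℤ) (s t : ℤ),
      PtB θ C X T l.1 l.2 N p c y s t) hXK2 (by
      intro N hN
      obtain ⟨g1, g2, p, c, y, s, t, hr, hns, hpt, b1, b2, b3⟩ := hS N hN
      exact ⟨(g1, g2), ⟨hns, p, c, y, s, t, hpt⟩, hr, b1, b2, b3⟩) (by
      intro l hr b1 b2 b3 S' hS' hall
      rcases S'.eq_empty_or_nonempty with h | ⟨N0, hN0⟩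
      · rw [h, Finset.card_empty, Nat.cast_zero]
        exact Real.rpow_nonneg hX0.le _
      · refine H1 X T l.1 l.2 hXK1 ?_ ?_ hr (hall N0 hN0).1 ?_ ?_ ?_ S'
          (fun N hN => (hall N hN).2)
        · exact le_trans (Real.rpow_le_rpow_of_exponent_le hX1 (by linarith)) hT1
        · exact le_trans hT2 (Real.rpow_le_rpow_of_exponent_le hX1 (by linarith))
        · exact le_trans (Real.rpow_le_rpow_of_exponent_le hX1 (by linarith)) b1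
        · exact le_trans b2 (Real.rpow_le_rpow_of_exponent_le hX1 (by linarith))
        · exact le_trans b3 (Real.rpow_le_rpow_of_exponent_le hX1 (by linarith)))
  refine le_trans key (Real.rpow_le_rpow_of_exponent_le hX1 ?_)
  have : 5 * m1 + 3 * m2 + β = 1 - gap := by rw [hgap]; ring
  linarith

/-- the count near the exponents `(m1, m2)` of the reduced pairs, from the count over one pair. -/
theorem locB_main {L : Type} [Field L] [NumberField L] (θ : Fin 4 → 𝓞 L) (C : ℕ)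
    (w m1 m2 : ℝ) (hw : 0.3488 ≤ w) (hw' : w ≤ 0.38) (hm1 : 0 ≤ m1) (hm2 : 0 ≤ m2)
    (hloc : ∀ β : ℝ, m1 ≤ m2 → m1 + m2 ≤ 2 / 3 * (1 - 2 * w) → 0 < β → NumB w m1 β →
      ∀ η : ℝ, 0 < η → ∃ ε : ℝ, 0 < ε ∧ ∃ K : ℝ, 0 < K ∧
      ∀ (X T : ℝ) (g1 g2 : Fin 4 → ℤ),
      K ≤ X → X ^ (w - ε) ≤ T → T ≤ X ^ (w + ε) → Red g1 g2 → NonSpec θ g1 g2 →
      X ^ (2 * (m1 - ε)) ≤ dot g1 g1 → (dot g1 g1 : ℝ) ≤ X ^ (2 * (m1 + ε)) →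
      (dot g2 g2 : ℝ) ≤ X ^ (2 * (m2 + ε)) →
      ∀ S : Finset ℤ, (∀ N ∈ S, ∃ (p : ℕ) (c : ℤ) (y : Fin 4 → ℤ) (s t : ℤ),
        PtB θ C X T g1 g2 N p c y s t) → (S.card : ℝ) ≤ X ^ (β + η)) :
    ∃ ε : ℝ, 0 < ε ∧ ∃ K : ℝ, 0 < K ∧ ∀ (X T : ℝ) (S : Finset ℤ),
      K ≤ X → X ^ (w - ε) ≤ T → T ≤ X ^ (w + ε) →
      (∀ N ∈ S, ∃ (g1 g2 : Fin 4 → ℤ) (p : ℕ) (c : ℤ) (y : Fin 4 → ℤ) (s t : ℤ), Red g1 g2 ∧
        NonSpec θ g1 g2 ∧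
        (dot g1 g1 : ℝ) * dot g2 g2 ≤ C * (X / T ^ 2) ^ (4 / 3 : ℝ) ∧
        PtB θ C X T g1 g2 N p c y s t ∧
        X ^ (2 * (m1 - ε)) ≤ dot g1 g1 ∧ (dot g1 g1 : ℝ) ≤ X ^ (2 * (m1 + ε)) ∧
        X ^ (2 * (m2 - ε)) ≤ dot g2 g2 ∧ (dot g2 g2 : ℝ) ≤ X ^ (2 * (m2 + ε))) →
      (S.card : ℝ) ≤ X ^ (1 - ε) := by
  rcases lt_or_ge m2 m1 with h | h
  · obtain ⟨ε, hε, H⟩ := locB_order h
    refine ⟨ε, hε, 2, by norm_num, ?_⟩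
    intro X T S hX hT1 hT2 hS
    have hX0 : 0 < X := by linarith
    rcases S.eq_empty_or_nonempty with hS0 | ⟨N, hN⟩
    · rw [hS0, Finset.card_empty, Nat.cast_zero]
      exact Real.rpow_nonneg hX0.le _
    · obtain ⟨g1, g2, p, c, y, s, t, hr, hns, hcov, hpt, b1, b2, b3, b4⟩ := hS N hN
      exact (H X g1 g2 hX hr b1 b4).elim
  rcases lt_or_ge (2 / 3 * (1 - 2 * w)) (m1 + m2) with h' | h'
  · obtain ⟨ε, hε, K, hK, H⟩ := locB_covol C h'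
    refine ⟨ε, hε, K, hK, ?_⟩
    intro X T S hX hT1 hT2 hS
    have hX0 : 0 < X := by linarith
    rcases S.eq_empty_or_nonempty with hS0 | ⟨N, hN⟩
    · rw [hS0, Finset.card_empty, Nat.cast_zero]
      exact Real.rpow_nonneg hX0.le _
    · obtain ⟨g1, g2, p, c, y, s, t, hr, hns, hcov, hpt, b1, b2, b3, b4⟩ := hS N hN
      exact (H X T g1 g2 hX hT1 hcov b1 b3).elim
  · obtain ⟨β, hβ0, hβ, hnum⟩ := numB w m1 m2 hw hw' hm1 h h'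
    obtain ⟨ε, hε, K, hK, H⟩ := locB_sum θ C w m1 m2 β hm1 hm2 hβ
      (fun η hη => hloc β h h' hβ0 hnum η hη)
    refine ⟨ε, hε, K, hK, ?_⟩
    intro X T S hX hT1 hT2 hS
    refine H X T S hX hT1 hT2 fun N hN => ?_
    obtain ⟨g1, g2, p, c, y, s, t, hr, hns, hcov, hpt, b1, b2, b3, b4⟩ := hS N hN
    exact ⟨g1, g2, p, c, y, s, t, hr, hns, hpt, b1, b2, b4⟩

end Vale.Agent.P018.QB
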