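import Mathlib
import Vale.Agent.P018.Q.BPair
import Vale.Agent.P018.Q.BNum

/-! # P018, (B): the local count over one non special reduced pair. -/

namespace Vale.Agent.P018.QB

open Polynomial NumberField Vale.Agent.P018.Q

theorem pl_large (c e : ℝ) (he : 0 < e) : ∃ K : ℝ, 1 ≤ K ∧ ∀ X : ℝ, K ≤ X → c < X ^ e := by
  refine ⟨(|c| + 1) ^ (1 / e), Real.one_le_rpow (by linarith [abs_nonneg c]) (by positivity), ?_⟩
  intro X hX
  have h0 : 0 ≤ |c| + 1 := by linarith [abs_nonneg c]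
  have h1 : ((|c| + 1) ^ (1 / e)) ^ e ≤ X ^ e := Real.rpow_le_rpow (by positivity) hX he.le
  rw [← Real.rpow_mul h0, one_div, inv_mul_cancel₀ he.ne', Real.rpow_one] at h1
  linarith [le_abs_self c]

/-- the local count: at most `X^(β+η)` points over one non special reduced pair. -/
theorem pair_localB' {L : Type} [Field L] [NumberField L] (θ : Fin 4 → 𝓞 L) (G : ℤ[X])
    (hG : Root4 θ G) (C : ℕ) (w m1 m2 β : ℝ) (hw : 1 / 4 < w) (hw' : w < 1 / 2) (hm1 : 0 ≤ m1)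
    (hm12 : m1 ≤ m2) (hm : m1 + m2 ≤ 2 / 3 * (1 - 2 * w)) (_hβ : 0 < β) (hnum : NumB w m1 β)
    (η : ℝ) (hη : 0 < η) :
    ∃ ε : ℝ, 0 < ε ∧ ∃ K : ℝ, 0 < K ∧ ∀ (X T : ℝ) (g1 g2 : Fin 4 → ℤ),
      K ≤ X → X ^ (w - ε) ≤ T → T ≤ X ^ (w + ε) → Red g1 g2 → NonSpec θ g1 g2 →
      X ^ (2 * (m1 - ε)) ≤ dot g1 g1 → (dot g1 g1 : ℝ) ≤ X ^ (2 * (m1 + ε)) →
      (dot g2 g2 : ℝ) ≤ X ^ (2 * (m2 + ε)) →
      ∀ S : Finset ℤ, (∀ N ∈ S, ∃ (p : ℕ) (c : ℤ) (y : Fin 4 → ℤ) (s t : ℤ),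
        PtB θ C X T g1 g2 N p c y s t) → (S.card : ℝ) ≤ X ^ (β + η) := by
  obtain ⟨i, m, b, δ, hm2, hb, hδ, hsum, hlt⟩ := hnum
  obtain ⟨K, hK, hcount⟩ := pair_countB θ G hG C i m hm2 (η / 4) (by linarith)
  rcases Nat.eq_zero_or_pos C with hC0 | hCpos
  · refine ⟨1, one_pos, 1, one_pos, ?_⟩
    intro X T g1 g2 hX _ _ _ _ _ _ _ S hS
    rcases S.eq_empty_or_nonempty with h | ⟨N, hN⟩
    · rw [h, Finset.card_empty, Nat.cast_zero]
      exact Real.rpow_nonneg (by linarith) _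
    · obtain ⟨p, c, y, s, t, hP⟩ := hS N hN
      have := hP.lowN
      rw [hC0] at this
      simp at this
      linarith
  have hC1 : (1 : ℝ) ≤ C := by exact_mod_cast hCpos
  obtain ⟨N0, hN0⟩ : ∃ N0 : ℕ, N0 = 8 * (m - 1) * (m - 1 + i) := ⟨_, rfl⟩
  rw [← hN0] at hcount hsum
  obtain ⟨A, hA⟩ : ∃ A : ℝ, A = 1 - 2 * w - m1 := ⟨_, rfl⟩
  rw [← hA] at hsum hlt
  have hA0 : 0 < A := by rw [hA]; linarith
  have hA1 : A < 1 / 2 := by rw [hA]; linarith
  obtain ⟨Q, hQ⟩ : ∃ Q : ℝ, Q = (N0 : ℝ) * (4 * i + 2 * m) := ⟨_, rfl⟩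
  have hQ0 : 0 ≤ Q := by rw [hQ]; positivity
  obtain ⟨ε, hε⟩ : ∃ ε : ℝ, ε = min (η / 16) (min (δ / (2 * (Q + 1)))
    (min (w - 1 / 4) (min (1 / 2 - w) (1 / 16)))) := ⟨_, rfl⟩
  have hε0 : 0 < ε := by
    rw [hε]
    refine lt_min (by linarith) (lt_min (by positivity) (lt_min (by linarith)
      (lt_min (by linarith) (by norm_num))))
  have e1 : ε ≤ η / 16 := by rw [hε]; exact min_le_left _ _
  have e2 : ε ≤ δ / (2 * (Q + 1)) := by
    rw [hε]; exact (min_le_right _ _).trans (min_le_left _ _)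
  have e3 : ε ≤ w - 1 / 4 := by
    rw [hε]; exact (min_le_right _ _).trans ((min_le_right _ _).trans (min_le_left _ _))
  have e4 : ε ≤ 1 / 2 - w := by
    rw [hε]; exact (min_le_right _ _).trans ((min_le_right _ _).trans ((min_le_right _ _).trans
      (min_le_left _ _)))
  have e5 : ε ≤ 1 / 16 := by
    rw [hε]; exact (min_le_right _ _).trans ((min_le_right _ _).trans ((min_le_right _ _).trans
      (min_le_right _ _)))
  have e2' : Q * ε ≤ δ / 2 := by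
    have h1 : Q * ε ≤ (Q + 1) * (δ / (2 * (Q + 1))) :=
      mul_le_mul (by linarith) e2 hε0.le (by linarith)
    have h2 : (Q + 1) * (δ / (2 * (Q + 1))) = δ / 2 := by
      field_simp
    linarith
  obtain ⟨K1, hK1, H1⟩ := pl_large K b hb
  obtain ⟨K2, hK2, H2⟩ := pl_large C (2 * ε) (by linarith)
  obtain ⟨K3, hK3, H3⟩ := pl_large K (δ / 2) (by linarith)
  obtain ⟨K4, hK4, H4⟩ := pl_large K (η / 2) (by linarith)
  refine ⟨ε, hε0, max K (max K1 (max K2 (max K3 K4))), lt_max_of_lt_left hK, ?_⟩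
  intro X T g1 g2 hX hT1 hT2 hred hns hg1 _ hg2 S hS
  have hXK : K ≤ X := (le_max_left _ _).trans hX
  have hX' : max K1 (max K2 (max K3 K4)) ≤ X := (le_max_right _ _).trans hX
  have hXK1 : K1 ≤ X := (le_max_left _ _).trans hX'
  have hX'' : max K2 (max K3 K4) ≤ X := (le_max_right _ _).trans hX'
  have hXK2 : K2 ≤ X := (le_max_left _ _).trans hX''
  have hX3 : max K3 K4 ≤ X := (le_max_right _ _).trans hX''
  have hXK3 : K3 ≤ X := (le_max_left _ _).trans hX3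
  have hXK4 : K4 ≤ X := (le_max_right _ _).trans hX3
  have hX1 : 1 ≤ X := hK1.trans hXK1
  have hX0 : 0 < X := by linarith
  have hpos : ∀ e : ℝ, 0 < X ^ e := fun e => Real.rpow_pos_of_pos hX0 e
  have hmono : ∀ {e f : ℝ}, e ≤ f → X ^ e ≤ X ^ f := fun h =>
    Real.rpow_le_rpow_of_exponent_le hX1 h
  have hT0 : 0 < T := lt_of_lt_of_le (hpos _) hT1
  have hT11 : 1 ≤ T := (Real.one_le_rpow hX1 (by linarith)).trans hT1
  have hTn : ∀ n : ℕ, X ^ (n * (w - ε)) ≤ T ^ n := by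
    intro n
    rw [mul_comm, Real.rpow_mul hX0.le, Real.rpow_natCast]
    exact pow_le_pow_left₀ (hpos _).le hT1 n
  have hTn' : ∀ n : ℕ, T ^ n ≤ X ^ (n * (w + ε)) := by
    intro n
    rw [mul_comm (n : ℝ), Real.rpow_mul hX0.le, Real.rpow_natCast]
    exact pow_le_pow_left₀ hT0.le hT2 n
  have hXT4 : X ≤ T ^ 4 := by
    have h1 : X ^ (1 : ℝ) ≤ X ^ (((4 : ℕ) : ℝ) * (w - ε)) := hmono (by push_cast; linarith)
    rw [Real.rpow_one] at h1
    exact h1.trans (hTn 4)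
  have hT4C : T ^ 4 ≤ C * T ^ 4 := le_mul_of_one_le_left (by positivity) hC1
  obtain ⟨U, hU⟩ : ∃ U : ℝ, U = X ^ (A + 4 * ε) := ⟨_, rfl⟩
  have hU0 : 0 < U := by rw [hU]; exact hpos _
  have hU1 : 1 ≤ U := by rw [hU]; exact Real.one_le_rpow hX1 (by linarith)
  have hUX : U ≤ X := by
    rw [hU]
    have h1 : X ^ (A + 4 * ε) ≤ X ^ (1 : ℝ) := hmono (by linarith)
    rwa [Real.rpow_one] at h1
  obtain ⟨ρ, hρ⟩ : ∃ ρ : ℝ, ρ = X ^ (-b) := ⟨_, rfl⟩
  have hρ0 : 0 < ρ := by rw [hρ]; exact hpos _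
  have hρi : ρ⁻¹ = X ^ b := by rw [hρ, Real.rpow_neg hX0.le, inv_inv]
  have hρK : ρ ≤ 1 / K := by
    rw [le_div_iff₀ hK, hρ, Real.rpow_neg hX0.le]
    rw [inv_mul_le_iff₀ (hpos _)]
    linarith [H1 X hXK1]
  have hT2X : T ^ 2 ≤ C * X := by
    have h1 : X ^ (((2 : ℕ) : ℝ) * (w + ε)) ≤ X ^ (1 : ℝ) := hmono (by push_cast; linarith)
    rw [Real.rpow_one] at h1
    exact ((hTn' 2).trans h1).trans (le_mul_of_one_le_left hX0.le hC1)
  have hg2T : (dot g2 g2 : ℝ) ≤ T ^ 8 := by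
    refine hg2.trans (le_trans ?_ (hTn 8))
    exact hmono (by push_cast; linarith)
  have hUg : C * (X / T ^ 2) ^ 2 ≤ U ^ 2 * dot g1 g1 := by
    have h1 : X / T ^ 2 ≤ X ^ (1 - 2 * (w - ε)) := by
      rw [div_le_iff₀ (by positivity)]
      calc X = X ^ (1 - 2 * (w - ε)) * X ^ (((2 : ℕ) : ℝ) * (w - ε)) := by
            rw [← Real.rpow_add hX0]
            have : 1 - 2 * (w - ε) + ((2 : ℕ) : ℝ) * (w - ε) = 1 := by push_cast; ring
            rw [this, Real.rpow_one]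
        _ ≤ X ^ (1 - 2 * (w - ε)) * T ^ 2 := mul_le_mul_of_nonneg_left (hTn 2) (hpos _).le
    have h2 : (X / T ^ 2) ^ 2 ≤ X ^ (2 * (1 - 2 * (w - ε))) := by
      rw [mul_comm (2 : ℝ) (1 - 2 * (w - ε)), Real.rpow_mul hX0.le]
      rw [show (2 : ℝ) = ((2 : ℕ) : ℝ) by norm_num, Real.rpow_natCast]
      refine pow_le_pow_left₀ (by positivity) ?_ 2
      simpa using h1
    have h3 : U ^ 2 = X ^ (2 * (A + 4 * ε)) := by
      rw [hU, ← Real.rpow_natCast, ← Real.rpow_mul hX0.le]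
      congr 1; push_cast; ring
    calc (C : ℝ) * (X / T ^ 2) ^ 2 ≤ X ^ (2 * ε) * X ^ (2 * (1 - 2 * (w - ε))) :=
          mul_le_mul (H2 X hXK2).le h2 (by positivity) (hpos _).le
      _ = X ^ (2 * (A + 4 * ε)) * X ^ (2 * (m1 - ε)) := by
          rw [← Real.rpow_add hX0, ← Real.rpow_add hX0]
          congr 1; rw [hA]; ring
      _ ≤ U ^ 2 * dot g1 g1 := by
          rw [h3]
          exact mul_le_mul_of_nonneg_left hg1 (hpos _).le
  have hdet : ∀ S : Finset (ℕ × ℕ), S.card = N0 →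
        K * (U ^ i * T ^ (2 * m)) ^ N0 * ∏ s ∈ S, (X⁻¹ ^ s.1 * ρ ^ s.2) < 1 := by
    intro S' hS'
    have h1 : ∏ s ∈ S', (X⁻¹ ^ s.1 * ρ ^ s.2) = X ^ (-∑ s ∈ S', ((s.1 : ℝ) + b * s.2)) := by
      rw [← Finset.sum_neg_distrib, Real.rpow_sum_of_pos hX0]
      refine Finset.prod_congr rfl fun s _ => ?_
      rw [hρ, ← Real.rpow_natCast (X ^ (-b)), ← Real.rpow_mul hX0.le, ← Real.rpow_neg_one X,
        ← Real.rpow_natCast (X ^ (-1 : ℝ)), ← Real.rpow_mul hX0.le, ← Real.rpow_add hX0]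
      congr 1; ring
    have h2 : (U ^ i * T ^ (2 * m)) ^ N0 ≤ X ^ ((N0 : ℝ) * (i * A + 2 * m * w) + Q * ε) := by
      have h3 : U ^ i * T ^ (2 * m) ≤ X ^ (i * (A + 4 * ε) + ((2 * m : ℕ) : ℝ) * (w + ε)) := by
        rw [Real.rpow_add hX0]
        refine mul_le_mul (le_of_eq ?_) (hTn' (2 * m)) (by positivity) (hpos _).le
        rw [hU, mul_comm (i : ℝ), Real.rpow_mul hX0.le, Real.rpow_natCast]
      have h4 := pow_le_pow_left₀ (by positivity) h3 N0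
      refine h4.trans (le_of_eq ?_)
      rw [← Real.rpow_natCast, ← Real.rpow_mul hX0.le]
      congr 1; rw [hQ]; push_cast; ring
    have h5 := hsum S' hS'
    rw [h1]
    calc K * (U ^ i * T ^ (2 * m)) ^ N0 * X ^ (-∑ s ∈ S', ((s.1 : ℝ) + b * s.2))
        ≤ K * X ^ ((N0 : ℝ) * (i * A + 2 * m * w) + Q * ε) *
            X ^ (-((N0 : ℝ) * (i * A + 2 * m * w) + δ)) := by
          refine mul_le_mul (mul_le_mul_of_nonneg_left h2 hK.le) (hmono (by linarith))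
            (hpos _).le (mul_nonneg hK.le (hpos _).le)
      _ = K * X ^ (Q * ε - δ) := by
          rw [mul_assoc, ← Real.rpow_add hX0]
          congr 2; ring
      _ ≤ K * X ^ (-(δ / 2)) := mul_le_mul_of_nonneg_left (hmono (by linarith)) hK.le
      _ < 1 := by
          rw [Real.rpow_neg hX0.le, ← div_eq_mul_inv, div_lt_one (hpos _)]
          exact H3 X hXK3
  have hmain := hcount X T U ρ hT11 hXK hT2X (hXT4.trans hT4C) hρ0 hρK hU1
    ((hUX.trans hXT4).trans hT4C) g1 g2 hred hns hg2T hUg hdet S hS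
  refine hmain.trans ?_
  have h6 : T ^ (27 / 169 + η / 4) ≤ X ^ ((w + ε) * (27 / 169 + η / 4)) := by
    rw [Real.rpow_mul hX0.le]
    exact Real.rpow_le_rpow hT0.le hT2 (by positivity)
  have h7 : U ^ (131 / 338 : ℝ) = X ^ ((A + 4 * ε) * (131 / 338)) := by
    rw [hU, ← Real.rpow_mul hX0.le]
  calc K * ρ⁻¹ * (T ^ (27 / 169 + η / 4) * U ^ (131 / 338 : ℝ))
      ≤ X ^ (η / 2) * X ^ b *
          (X ^ ((w + ε) * (27 / 169 + η / 4)) * X ^ ((A + 4 * ε) * (131 / 338))) := by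
        rw [hρi, h7]
        refine mul_le_mul (mul_le_mul_of_nonneg_right (H4 X hXK4).le (hpos _).le)
          (mul_le_mul_of_nonneg_right h6 (hpos _).le)
          (mul_nonneg (Real.rpow_nonneg hT0.le _) (hpos _).le)
          (mul_nonneg (hpos _).le (hpos _).le)
    _ = X ^ (η / 2 + b + ((w + ε) * (27 / 169 + η / 4) + (A + 4 * ε) * (131 / 338))) := by
        rw [← Real.rpow_add hX0, ← Real.rpow_add hX0, ← Real.rpow_add hX0]
    _ ≤ X ^ (β + η) := by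
        refine hmono ?_
        have h8 : (w + ε) * (η / 4) ≤ 1 * (η / 4) :=
          mul_le_mul_of_nonneg_right (by linarith) (by linarith)
        have h9 : (w + ε) * (27 / 169 + η / 4) = 27 / 169 * w + 27 / 169 * ε +
          (w + ε) * (η / 4) := by ring
        linarith

end Vale.Agent.P018.QB
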