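import Mathlib
import Vale.Agent.P018.Q.BDefs
import Vale.Agent.P018.Q.BSpec
import Vale.Agent.P018.Q.BCount

/-! # P018, (B): the solutions with special `z`. -/

namespace Vale.Agent.P018.QB

open Polynomial NumberField Vale.Agent.P018.Q

/-- `z ≠ 0` in the data of a solution. -/
theorem dat_z_ne {L : Type} [Field L] [NumberField L] {θ : Fin 4 → 𝓞 L} {G : ℤ[X]}
    (hG : Root4 θ G) {C : ℕ} {X T : ℝ} {N : ℤ} {p : ℕ} {c : ℤ} {y z : Fin 4 → ℤ}
    (h : Dat θ C X T N p c y z) : z ≠ 0 := by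
  intro hz
  have h0 : ∀ i, (N : 𝓞 L) - θ i = 0 := by
    intro i
    have h1 := h.eqn i
    have h2 : K.ell (θ i) z = 0 := by
      rw [hz]
      simp [K.ell]
    rw [h2, mul_zero] at h1
    rcases mul_eq_zero.mp h1 with h3 | h3
    · exact absurd (by exact_mod_cast h3) h.c0
    · exact h3
  have h1 : θ 0 = θ 1 := by
    rw [← sub_eq_zero.mp (h0 0), ← sub_eq_zero.mp (h0 1)]
  exact absurd (hG.inj h1) (by decide)

/-- the size of `z` in the data of a solution. -/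
theorem dat_z_size {L : Type} [Field L] [NumberField L] {θ : Fin 4 → 𝓞 L}
    {C : ℕ} {X T : ℝ} {N : ℤ} {p : ℕ} {c : ℤ} {y z : Fin 4 → ℤ}
    (h : Dat θ C X T N p c y z) : (dot z z : ℝ) ≤ (2 * C * (X / T ^ 2)) ^ 2 := by
  have h1 : ∀ j, (z j : ℝ) * z j ≤ (C * X / T ^ 2) ^ 2 := by
    intro j
    rw [← sq, ← sq_abs]
    exact pow_le_pow_left₀ (abs_nonneg _) (h.hz j) 2
  have h2 : (dot z z : ℝ) = ∑ i, (z i : ℝ) * z i := by
    simp [dot]
  rw [h2]
  calc ∑ i, (z i : ℝ) * z i ≤ ∑ _i : Fin 4, (C * X / T ^ 2) ^ 2 :=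
        Finset.sum_le_sum fun i _ => h1 i
    _ = (2 * C * (X / T ^ 2)) ^ 2 := by
        simp
        ring

/-- the solutions whose `z` is special: `≤ K R^2 (X/T^2)^2` values of `z`, `O(1)` solutions each
(`few_z`). -/
theorem special_count {L : Type} [Field L] [NumberField L] (θ : Fin 4 → 𝓞 L) (G : ℤ[X])
    (hG : Root4 θ G) (C : ℕ) : ∃ K : ℝ, 0 < K ∧ ∀ (X T R : ℝ), 1 ≤ T → 1 ≤ X → T ^ 2 ≤ C * X →
      X ≤ C * T ^ 4 → 1 ≤ R → R ≤ X / T ^ 2 → ∀ S : Finset ℤ,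
      (∀ N ∈ S, ∃ (p : ℕ) (c : ℤ) (y z : Fin 4 → ℤ), X ≤ C * |(N : ℝ)| ∧
        Dat θ C X T N p c y z ∧ SpecZ θ R z) →
      (S.card : ℝ) ≤ K * R ^ 2 * (X / T ^ 2) ^ 2 := by
  classical
  obtain ⟨K1, hK1, hz⟩ := special_z θ G hG
  obtain ⟨K2, hf⟩ := few_z θ G hG C
  refine ⟨(2 * C + 1) * (K2 + 1) * (K1 * (2 * (C : ℝ) + 1) ^ 2), by positivity, ?_⟩
  intro X T R hT hX hTX hXT hR hRX S hS
  have hC1 : (1 : ℝ) ≤ C := by
    by_contra hC
    have hC0 : C = 0 := by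
      have h1 : (C : ℝ) < 1 := lt_of_not_ge hC
      have h2 : C < 1 := by exact_mod_cast h1
      omega
    rw [hC0] at hTX
    have : (0 : ℝ) < T ^ 2 := by positivity
    simp at hTX
    nlinarith
  set Y : ℝ := X / T ^ 2 with hY
  have hY1 : 1 ≤ Y := le_trans hR hRX
  choose! p c y z hlow hdat hspec using hS
  set Z : Finset (Fin 4 → ℤ) := S.image z with hZ
  have hZc : (Z.card : ℝ) ≤ K1 * R ^ 2 * (2 * C * Y) ^ 2 := by
    refine hz R (2 * C * Y) hR ?_ Z ?_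
    · nlinarith
    · intro v hv
      obtain ⟨N, hN, rfl⟩ := Finset.mem_image.mp hv
      exact ⟨dat_z_ne hG (hdat N hN), dat_z_size (hdat N hN), hspec N hN⟩
  set I : Finset (ℤ × (Fin 4 → ℤ)) := (Finset.Icc (-(C : ℤ)) C) ×ˢ Z with hI
  have hmaps : ∀ N ∈ S, (c N, z N) ∈ I := by
    intro N hN
    rw [hI, Finset.mem_product]
    refine ⟨?_, Finset.mem_image_of_mem z hN⟩
    rw [Finset.mem_Icc]
    exact abs_le.mp (hdat N hN).cC
  have hcard : S.card ≤ K2 * I.card := by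
    refine Finset.card_le_mul_card_image_of_maps_to hmaps K2 ?_
    rintro ⟨c', z'⟩ _
    refine hf X T hT hX hTX hXT c' z' _ p y ?_
    intro N hN
    rw [Finset.mem_filter] at hN
    obtain ⟨hNS, hEq⟩ := hN
    have e1 : c N = c' := congrArg Prod.fst hEq
    have e2 : z N = z' := congrArg Prod.snd hEq
    refine ⟨hlow N hNS, ?_⟩
    rw [← e1, ← e2]
    exact hdat N hNS
  have hIc : (I.card : ℝ) = (2 * C + 1) * Z.card := by
    rw [hI, Finset.card_product, Int.card_Icc]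
    have : ((C : ℤ) + 1 - -(C : ℤ)).toNat = 2 * C + 1 := by omega
    rw [this]
    push_cast
    ring
  have h1 : (S.card : ℝ) ≤ K2 * ((2 * C + 1) * Z.card) := by
    rw [← hIc]
    exact_mod_cast hcard
  have hZ0 : (0 : ℝ) ≤ Z.card := by positivity
  have hCC : (0 : ℝ) ≤ C := by positivity
  calc (S.card : ℝ) ≤ K2 * ((2 * C + 1) * Z.card) := h1
    _ ≤ (K2 + 1) * ((2 * C + 1) * (K1 * R ^ 2 * (2 * C * Y) ^ 2)) := by
        gcongr
        linarith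
    _ ≤ (K2 + 1) * ((2 * C + 1) * (K1 * R ^ 2 * ((2 * C + 1) * Y) ^ 2)) := by
        gcongr
        linarith
    _ = (2 * C + 1) * (K2 + 1) * (K1 * (2 * (C : ℝ) + 1) ^ 2) * R ^ 2 * Y ^ 2 := by ring

end Vale.Agent.P018.QB
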