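import Mathlib
import Vale.Agent.P018.Q.BPair
import Vale.Agent.P018.Q.BSpec
import Vale.Agent.P018.Q.BSpecCount
import Vale.Agent.P018.Q.BNum
import Vale.Agent.P018.Q.AssA
import Vale.Agent.P018.Q.BAssAll
import Vale.Agent.P018.Q.BAssLoc
import Vale.Agent.P018.Q.BAssPL

/-! # P018, (B): summation over the reduced pairs, compactness. -/

namespace Vale.Agent.P018.QB

open Polynomial NumberField Vale.Agent.P018.Q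

/-- the local count: at most `X^(β+η)` points over one non special reduced pair. -/
theorem pair_localB {L : Type} [Field L] [NumberField L] (θ : Fin 4 → 𝓞 L) (G : ℤ[X])
    (hG : Root4 θ G) (C : ℕ) (w m1 m2 β : ℝ) (hw : 1 / 4 < w) (hw' : w < 1 / 2) (hm1 : 0 ≤ m1)
    (hm12 : m1 ≤ m2) (hm : m1 + m2 ≤ 2 / 3 * (1 - 2 * w)) (hβ : 0 < β) (hnum : NumB w m1 β)
    (η : ℝ) (hη : 0 < η) :
    ∃ ε : ℝ, 0 < ε ∧ ∃ K : ℝ, 0 < K ∧ ∀ (X T : ℝ) (g1 g2 : Fin 4 → ℤ),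
      K ≤ X → X ^ (w - ε) ≤ T → T ≤ X ^ (w + ε) → Red g1 g2 → NonSpec θ g1 g2 →
      X ^ (2 * (m1 - ε)) ≤ dot g1 g1 → (dot g1 g1 : ℝ) ≤ X ^ (2 * (m1 + ε)) →
      (dot g2 g2 : ℝ) ≤ X ^ (2 * (m2 + ε)) →
      ∀ S : Finset ℤ, (∀ N ∈ S, ∃ (p : ℕ) (c : ℤ) (y : Fin 4 → ℤ) (s t : ℤ),
        PtB θ C X T g1 g2 N p c y s t) → (S.card : ℝ) ≤ X ^ (β + η) :=
  pair_localB' θ G hG C w m1 m2 β hw hw' hm1 hm12 hm hβ hnum η hη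

/-- the count near the exponents `(m1, m2)` of the reduced pairs, non special part. -/
theorem local_pairsB {L : Type} [Field L] [NumberField L] (θ : Fin 4 → 𝓞 L) (G : ℤ[X])
    (hG : Root4 θ G) (C : ℕ) (w m1 m2 : ℝ) (hw : 0.3488 ≤ w) (hw' : w ≤ 0.38) (hm1 : 0 ≤ m1)
    (hm2 : 0 ≤ m2) :
    ∃ ε : ℝ, 0 < ε ∧ ∃ K : ℝ, 0 < K ∧ ∀ (X T : ℝ) (S : Finset ℤ),
      K ≤ X → X ^ (w - ε) ≤ T → T ≤ X ^ (w + ε) →
      (∀ N ∈ S, ∃ (g1 g2 : Fin 4 → ℤ) (p : ℕ) (c : ℤ) (y : Fin 4 → ℤ) (s t : ℤ), Red g1 g2 ∧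
        NonSpec θ g1 g2 ∧
        (dot g1 g1 : ℝ) * dot g2 g2 ≤ C * (X / T ^ 2) ^ (4 / 3 : ℝ) ∧
        PtB θ C X T g1 g2 N p c y s t ∧
        X ^ (2 * (m1 - ε)) ≤ dot g1 g1 ∧ (dot g1 g1 : ℝ) ≤ X ^ (2 * (m1 + ε)) ∧
        X ^ (2 * (m2 - ε)) ≤ dot g2 g2 ∧ (dot g2 g2 : ℝ) ≤ X ^ (2 * (m2 + ε))) →
      (S.card : ℝ) ≤ X ^ (1 - ε) := by
  refine locB_main θ C w m1 m2 hw hw' hm1 hm2 fun β h1 h2 hβ hnum η hη => ?_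
  exact pair_localB θ G hG C w m1 m2 β (by linarith) (by linarith) hm1 h1 h2 hβ hnum η hη

/-- compactness in the exponents of the reduced pairs; special pairs by `special_count`. -/
theorem all_pairsB {L : Type} [Field L] [NumberField L] (θ : Fin 4 → 𝓞 L) (G : ℤ[X])
    (hG : Root4 θ G) (C : ℕ) (w : ℝ) (hw : 0.3488 ≤ w) (hw' : w ≤ 0.38) :
    ∃ ε : ℝ, 0 < ε ∧ ∃ K : ℝ, 0 < K ∧ ∀ (X T : ℝ) (S : Finset ℤ),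
      K ≤ X → X ^ (w - ε) ≤ T → T ≤ X ^ (w + ε) →
      (∀ N ∈ S, ∃ (g1 g2 : Fin 4 → ℤ) (p : ℕ) (c : ℤ) (y : Fin 4 → ℤ) (s t : ℤ), Red g1 g2 ∧
        (dot g1 g1 : ℝ) * dot g2 g2 ≤ C * (X / T ^ 2) ^ (4 / 3 : ℝ) ∧
        PtB θ C X T g1 g2 N p c y s t) →
      (S.card : ℝ) ≤ X ^ (1 - ε) := by
  exact all_pairsB_of θ C w hw hw' (special_count θ G hG C)
    fun m1 m2 h1 h2 => local_pairsB θ G hG C w m1 m2 hw hw' h1 h2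

end Vale.Agent.P018.QB
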