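import Mathlib
import Vale.Agent.P018.Q.CurveEv

/-! # P018, quartics: reduction of one point modulo `q ^ ν`. -/

namespace Vale.Agent.P018.Q

open Polynomial NumberField Finset

theorem exists_quot {q : ℕ} {ν : ℕ} {t : ℤ} (s : ℤ) (ht : IsCoprime t (q : ℤ)) :
    ∃ x : ℤ, (q : ℤ) ^ ν ∣ s - x * t := by
  obtain ⟨a, b, h⟩ := ht.pow_right (n := ν)
  refine ⟨s * a, s * b, ?_⟩
  linear_combination (-s) * h

theorem isUnit_zmod {q : ℕ} {ν : ℕ} {t : ℤ} (ht : IsCoprime t (q : ℤ)) :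
    IsUnit (t : ZMod (q ^ ν)) := by
  obtain ⟨a, b, h⟩ := ht.pow_right (n := ν)
  refine IsUnit.of_mul_eq_one (a : ZMod (q ^ ν)) ?_
  have h1 := congrArg (fun n : ℤ => (n : ZMod (q ^ ν))) h
  have h2 : (((q : ℤ) ^ ν : ℤ) : ZMod (q ^ ν)) = 0 := by
    rw [ZMod.intCast_zmod_eq_zero_iff_dvd]
    push_cast
    exact dvd_rfl
  push_cast at h1 h2
  rw [h2, mul_zero, add_zero] at h1
  rw [mul_comm]
  exact h1

theorem coprime_of_isUnit {q : ℕ} {ν : ℕ} (hν : 1 ≤ ν) {t : ℤ} (h : IsUnit (t : ZMod (q ^ ν))) :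
    IsCoprime t (q : ℤ) := by
  obtain ⟨a, ha⟩ := h.exists_right_inv
  obtain ⟨b, rfl⟩ := ZMod.intCast_surjective a
  have h1 : ((t * b - 1 : ℤ) : ZMod (q ^ ν)) = 0 := by
    push_cast
    rw [ha, sub_self]
  rw [ZMod.intCast_zmod_eq_zero_iff_dvd] at h1
  have h2 : (q : ℤ) ∣ t * b - 1 := by
    refine dvd_trans ?_ h1
    push_cast
    exact dvd_pow_self _ (by omega)
  obtain ⟨e, he⟩ := h2
  exact ⟨b, -e, by linear_combination he⟩

theorem cast_eq {q : ℕ} {ν : ℕ} {a b : ℤ} :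
    (a : ZMod (q ^ ν)) = b ↔ (q : ℤ) ^ ν ∣ a - b := by
  rw [← sub_eq_zero, ← Int.cast_sub, ZMod.intCast_zmod_eq_zero_iff_dvd]
  push_cast
  rfl

/-- reduction of one point modulo `q ^ ν`. -/
theorem point_red {q : ℕ} {ν : ℕ} (hν : 1 ≤ ν) {Dg : ℕ} {g : ℤ[X][X]}
    (hgd : BiDeg Dg Dg g) {A : Fin 2 → ℤ[X]} {Z : Fin 2 → Fin 4 → ℤ[X]}
    (hA : ∀ i, (A i).natDegree ≤ 5) (hZ : ∀ i m, (Z i m).natDegree ≤ 5)
    {c s t kn kd : ℤ} {z : Fin 4 → ℤ} {x0 y0 : ℤ}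
    (ht : IsCoprime t (q : ℤ)) (hkd : IsCoprime kd (q : ℤ)) (ht0 : t ≠ 0) (hkd0 : kd ≠ 0)
    (hs : (q : ℤ) ∣ s - x0 * t) (hkn : (q : ℤ) ∣ kn - y0 * kd)
    (hg0 : ev (g.map (mapRingHom (Int.castRingHom ℚ))) ((kn : ℚ) / kd) ((s : ℚ) / t) = 0)
    (hM : IsCoprime (kd * hom 5 (A 0) s t + kn * hom 5 (A 1) s t) (q : ℤ))
    (hz : ∀ m, (z m : ℚ) *
        (kd * aeval ((s : ℚ) / t) (A 0) + kn * aeval ((s : ℚ) / t) (A 1)) * t ^ 2 =
        c * (kd * aeval ((s : ℚ) / t) (Z 0 m) + kn * aeval ((s : ℚ) / t) (Z 1 m))) :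
    ∃ x y : ℤ, (q : ℤ) ^ ν ∣ s - x * t ∧ (q : ℤ) ∣ x - x0 ∧ (q : ℤ) ∣ y - y0 ∧
      (q : ℤ) ^ ν ∣ ev2 g x y ∧ IsCoprime (aeval x (A 0) + aeval x (A 1) * y) (q : ℤ) ∧
      ∀ m, (q : ℤ) ^ ν ∣ z m * (aeval x (A 0) + aeval x (A 1) * y) * t ^ 2 -
        c * (aeval x (Z 0 m) + aeval x (Z 1 m) * y) := by
  obtain ⟨x, hx⟩ := exists_quot (ν := ν) s ht
  obtain ⟨y, hy⟩ := exists_quot (ν := ν) kn hkd
  have hqν : (q : ℤ) ∣ (q : ℤ) ^ ν := dvd_pow_self _ (by omega)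
  have htQ : (t : ℚ) ≠ 0 := by exact_mod_cast ht0
  have hkdQ : (kd : ℚ) ≠ 0 := by exact_mod_cast hkd0
  have hsQ : (s : ℚ) = (s : ℚ) / t * t := by field_simp
  have hknQ : (kn : ℚ) = (kn : ℚ) / kd * kd := by field_simp
  -- the ring `ZMod (q ^ ν)`
  have hsR : (s : ZMod (q ^ ν)) = (x : ZMod (q ^ ν)) * t := by
    have := (cast_eq (q := q) (ν := ν) (a := s) (b := x * t)).2 hx
    exact_mod_cast this
  have hkR : (kn : ZMod (q ^ ν)) = (y : ZMod (q ^ ν)) * kd := by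
    have := (cast_eq (q := q) (ν := ν) (a := kn) (b := y * kd)).2 hy
    exact_mod_cast this
  have hut : IsUnit (t : ZMod (q ^ ν)) := isUnit_zmod ht
  have huk : IsUnit (kd : ZMod (q ^ ν)) := isUnit_zmod hkd
  have hcQ : ∀ (D : ℕ) (P : ℤ[X]), P.natDegree ≤ D →
      ((hom D P s t : ℤ) : ℚ) = (t : ℚ) ^ D * aeval ((s : ℚ) / t) P := by
    intro D P hP
    have h1 := hom_map (Int.castRingHom ℚ) D P s t
    simp only [eq_intCast] at h1
    rw [h1]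
    conv_lhs => rw [hsQ]
    rw [hom_mul D hP]
  have hcR : ∀ (D : ℕ) (P : ℤ[X]), P.natDegree ≤ D →
      ((hom D P s t : ℤ) : ZMod (q ^ ν)) = (t : ZMod (q ^ ν)) ^ D * ((aeval x P : ℤ) : ZMod (q ^ ν)) := by
    intro D P hP
    have h1 := hom_map (Int.castRingHom (ZMod (q ^ ν))) D P s t
    simp only [eq_intCast] at h1
    rw [h1, hsR, hom_mul D hP]
    congr 1
    have h2 := evr_map (Int.castRingHom (ZMod (q ^ ν))) (C P) x y
    simp only [evr_C, eq_intCast] at h2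
    exact h2.symm
  have hcancel : ∀ a b w : ℤ, IsCoprime a (q : ℤ) → (q : ℤ) ∣ a * w → (q : ℤ) ∣ w := by
    intro a b w h1 h2
    exact h1.symm.dvd_of_dvd_mul_left h2
  refine ⟨x, y, hx, ?_, ?_, ?_, ?_, ?_⟩
  · refine hcancel t 0 _ ht ?_
    have : t * (x - x0) = (s - x0 * t) - (s - x * t) := by ring
    rw [this]
    exact dvd_sub hs (hqν.trans hx)
  · refine hcancel kd 0 _ hkd ?_
    have : kd * (y - y0) = (kn - y0 * kd) - (kn - y * kd) := by ring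
    rw [this]
    exact dvd_sub hkn (hqν.trans hy)
  · -- the curve
    have h1 : ((hom2 Dg g kn kd s t : ℤ) : ℚ) = 0 := by
      have h2 := hom2_map (Int.castRingHom ℚ) Dg g kn kd s t
      simp only [eq_intCast] at h2
      rw [h2]
      conv_lhs => rw [hsQ, hknQ]
      rw [hom2_mul Dg hgd, evr_rat, hg0, mul_zero]
    have h3 : hom2 Dg g kn kd s t = 0 := by exact_mod_cast h1
    have h4 := hom2_map (Int.castRingHom (ZMod (q ^ ν))) Dg g kn kd s t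
    simp only [eq_intCast] at h4
    rw [h3, hsR, hkR, hom2_mul Dg hgd] at h4
    have h5 : evr g (x : ZMod (q ^ ν)) (y : ZMod (q ^ ν)) = 0 := by
      have h6 : IsUnit ((kd : ZMod (q ^ ν)) ^ Dg * (t : ZMod (q ^ ν)) ^ Dg) :=
        (huk.pow _).mul (hut.pow _)
      rw [Int.cast_zero] at h4
      exact (h6.mul_right_eq_zero).1 h4.symm
    have h7 := evr_map (Int.castRingHom (ZMod (q ^ ν))) g x y
    simp only [eq_intCast] at h7
    rw [h5, evr_int] at h7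
    have h8 := (ZMod.intCast_zmod_eq_zero_iff_dvd _ _).1 h7
    simpa using h8
  · -- the unit
    have h1 := isUnit_zmod (ν := ν) hM
    have h2 : ((kd * hom 5 (A 0) s t + kn * hom 5 (A 1) s t : ℤ) : ZMod (q ^ ν)) =
        (kd : ZMod (q ^ ν)) * (t : ZMod (q ^ ν)) ^ 5 *
          ((aeval x (A 0) + aeval x (A 1) * y : ℤ) : ZMod (q ^ ν)) := by
      rw [Int.cast_add, Int.cast_mul, Int.cast_mul, hcR 5 _ (hA 0), hcR 5 _ (hA 1), hkR]
      push_cast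
      ring
    rw [h2] at h1
    exact coprime_of_isUnit hν (isUnit_of_mul_isUnit_right h1)
  · intro m
    rw [← cast_eq]
    have h1 : z m * (kd * hom 5 (A 0) s t + kn * hom 5 (A 1) s t) * t ^ 2 =
        c * (kd * hom 5 (Z 0 m) s t + kn * hom 5 (Z 1 m) s t) := by
      have h2 : ((z m * (kd * hom 5 (A 0) s t + kn * hom 5 (A 1) s t) * t ^ 2 : ℤ) : ℚ) =
          ((c * (kd * hom 5 (Z 0 m) s t + kn * hom 5 (Z 1 m) s t) : ℤ) : ℚ) := by
        push_cast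
        rw [hcQ 5 _ (hA 0), hcQ 5 _ (hA 1), hcQ 5 _ (hZ 0 m), hcQ 5 _ (hZ 1 m)]
        linear_combination (t : ℚ) ^ 5 * hz m
      exact_mod_cast h2
    have h3 := congrArg (fun n : ℤ => (n : ZMod (q ^ ν))) h1
    simp only [Int.cast_mul, Int.cast_add, Int.cast_pow] at h3
    rw [hcR 5 _ (hA 0), hcR 5 _ (hA 1), hcR 5 _ (hZ 0 m), hcR 5 _ (hZ 1 m), hkR] at h3
    have h4 : IsUnit ((kd : ZMod (q ^ ν)) * (t : ZMod (q ^ ν)) ^ 5) := huk.mul (hut.pow _)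
    refine h4.mul_left_cancel ?_
    push_cast
    linear_combination h3

end Vale.Agent.P018.Q
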