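import Mathlib
import Vale.Agent.P018.Q.CurvePt
import Vale.Agent.P018.Q.Siegel

/-! # P018, quartics: the curve step (pigeonhole principle on a curve). -/

set_option linter.unusedVariables false

namespace Vale.Agent.P018.Q

open Polynomial NumberField Finset

section bideg

variable {R : Type*} [CommRing R]

theorem BiDeg.mono {j m j' m' : ℕ} {P : R[X][X]} (h : BiDeg j m P) (h1 : j ≤ j') (h2 : m ≤ m') :
    BiDeg j' m' P := ⟨h.1.trans h1, fun i => (h.2 i).trans h2⟩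

theorem BiDeg.add {j m : ℕ} {P Q : R[X][X]} (h : BiDeg j m P) (h' : BiDeg j m Q) :
    BiDeg j m (P + Q) :=
  ⟨natDegree_add_le_of_degree_le h.1 h'.1, fun i => by
    rw [coeff_add]
    exact natDegree_add_le_of_degree_le (h.2 i) (h'.2 i)⟩

theorem BiDeg.sum {ι : Type*} {j m : ℕ} (s : Finset ι) {P : ι → R[X][X]}
    (h : ∀ i ∈ s, BiDeg j m (P i)) : BiDeg j m (∑ i ∈ s, P i) := by
  refine ⟨natDegree_sum_le_of_forall_le _ _ fun i hi => (h i hi).1, fun i => ?_⟩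
  rw [finsetSum_coeff]
  exact natDegree_sum_le_of_forall_le _ _ fun k hk => (h k hk).2 i

theorem BiDeg.mul {j m j' m' : ℕ} {P Q : R[X][X]} (h : BiDeg j m P) (h' : BiDeg j' m' Q) :
    BiDeg (j + j') (m + m') (P * Q) := by
  refine ⟨natDegree_mul_le.trans (add_le_add h.1 h'.1), fun i => ?_⟩
  rw [coeff_mul]
  exact natDegree_sum_le_of_forall_le _ _ fun k _ =>
    natDegree_mul_le.trans (add_le_add (h.2 _) (h'.2 _))

theorem BiDeg.one : BiDeg 0 0 (1 : R[X][X]) := by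
  refine ⟨by simp, fun i => ?_⟩
  rw [coeff_one]
  split_ifs <;> simp

theorem BiDeg.pow {j m : ℕ} {P : R[X][X]} (h : BiDeg j m P) (n : ℕ) :
    BiDeg (n * j) (n * m) (P ^ n) := by
  induction n with
  | zero => simpa using BiDeg.one
  | succ n ih =>
    rw [pow_succ, Nat.succ_mul, Nat.succ_mul]
    exact ih.mul h

theorem BiDeg.prod {ι : Type*} (s : Finset ι) {P : ι → R[X][X]} {j m : ι → ℕ}
    (h : ∀ i ∈ s, BiDeg (j i) (m i) (P i)) :
    BiDeg (∑ i ∈ s, j i) (∑ i ∈ s, m i) (∏ i ∈ s, P i) := by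
  classical
  induction s using Finset.induction_on with
  | empty => simpa using BiDeg.one
  | insert a s ha ih =>
    rw [Finset.sum_insert ha, Finset.sum_insert ha, Finset.prod_insert ha]
    exact (h a (Finset.mem_insert_self _ _)).mul
      (ih fun i hi => h i (Finset.mem_insert_of_mem hi))

theorem BiDeg.C_le {m : ℕ} {A : R[X]} (h : A.natDegree ≤ m) : BiDeg 0 m (C A) := by
  refine ⟨by simp, fun i => ?_⟩
  rw [coeff_C]
  split_ifs
  · exact h
  · simp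

theorem BiDeg.lin {m : ℕ} {A A' : R[X]} (h : A.natDegree ≤ m) (h' : A'.natDegree ≤ m) :
    BiDeg 1 m (C A + C A' * X) := by
  refine BiDeg.add ((BiDeg.C_le h).mono (Nat.zero_le _) le_rfl) ?_
  have hX : BiDeg 1 0 (X : R[X][X]) := by
    refine ⟨natDegree_X_le, fun i => ?_⟩
    rw [coeff_X]
    split_ifs <;> simp
  have := (BiDeg.C_le h').mul hX
  simpa using this

theorem BiDeg.map {S : Type*} [CommRing S] (f : R →+* S) {j m : ℕ} {P : R[X][X]}
    (h : BiDeg j m P) : BiDeg j m (P.map (mapRingHom f)) := by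
  refine ⟨natDegree_map_le.trans h.1, fun i => ?_⟩
  rw [coeff_map]
  exact natDegree_map_le.trans (h.2 i)

end bideg

theorem biDeg_psi {A : Fin 2 → ℤ[X]} {Z : Fin 2 → Fin 4 → ℤ[X]} (hA : ∀ i, (A i).natDegree ≤ 5)
    (hZ : ∀ i m, (Z i m).natDegree ≤ 5) (R t' : ℕ) (μ : Fin 4 → ℕ) (a : ℕ) :
    BiDeg (R - t' + ∑ m, μ m) ((R - t') * 5 + (∑ m, μ m) * 5 + a) (psi A Z R t' μ a) := by
  unfold psi
  have h1 := (BiDeg.lin (hA 0) (hA 1)).pow (R - t')
  have h2 : BiDeg (∑ m, μ m) (∑ m, μ m * 5) (∏ m, (C (Z 0 m) + C (Z 1 m) * X) ^ μ m) := by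
    have := BiDeg.prod (s := (univ : Finset (Fin 4))) (j := fun m => μ m * 1) (m := fun m => μ m * 5)
      (P := fun m => (C (Z 0 m) + C (Z 1 m) * X) ^ μ m)
      (fun m _ => (BiDeg.lin (hZ 0 m) (hZ 1 m)).pow (μ m))
    simpa using this
  have h3 : BiDeg 0 a (C (X ^ a) : ℤ[X][X]) := BiDeg.C_le (natDegree_X_pow_le a)
  have h4 := (h1.mul h2).mul h3
  rw [← Finset.sum_mul] at h4
  simpa using h4

theorem alg_id {K : Type*} [CommRing K] {i lv R a : ℕ} (hi : 1 ≤ i) (hlev : lv ≤ R)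
    (ha : a ≤ 1 + 2 * lv) (μ : Fin 4 → ℕ) (hμ : ∑ m, μ m = i + lv) (z ζ : Fin 4 → K)
    {c w t s x : K} (hz : ∀ m, z m * w * t ^ 2 = c * ζ m) (hs : s = x * t) :
    t ^ (2 * i - 1) * w ^ (R + i) * ((∏ m, z m ^ μ m) * s ^ a * t ^ (1 + 2 * lv - a)) =
      c ^ (i + lv) * (w ^ (R - lv) * (∏ m, ζ m ^ μ m) * x ^ a) := by
  have h1 : (∏ m, z m ^ μ m) * (w ^ (i + lv) * t ^ (2 * (i + lv))) =
      c ^ (i + lv) * ∏ m, ζ m ^ μ m := by
    have h2 : ∏ m, (z m * w * t ^ 2) ^ μ m = ∏ m, (c * ζ m) ^ μ m :=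
      Finset.prod_congr rfl fun m _ => by rw [hz m]
    simp only [mul_pow, Finset.prod_mul_distrib] at h2
    rw [Finset.prod_pow_eq_pow_sum, Finset.prod_pow_eq_pow_sum, Finset.prod_pow_eq_pow_sum,
      hμ] at h2
    rw [← h2, ← pow_mul]
    ring
  have h4 : t ^ (2 * (i + lv)) = t ^ (2 * i - 1) * t ^ (1 + 2 * lv - a) * t ^ a := by
    rw [← pow_add, ← pow_add]
    congr 1
    omega
  have h5 : w ^ (R + i) = w ^ (R - lv) * w ^ (i + lv) := by
    rw [← pow_add]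
    congr 1
    omega
  calc t ^ (2 * i - 1) * w ^ (R + i) * ((∏ m, z m ^ μ m) * s ^ a * t ^ (1 + 2 * lv - a)) =
      w ^ (R - lv) * x ^ a * ((∏ m, z m ^ μ m) * (w ^ (i + lv) *
        (t ^ (2 * i - 1) * t ^ (1 + 2 * lv - a) * t ^ a))) := by
        rw [h5, hs, mul_pow]
        ring
    _ = _ := by
        rw [← h4, h1]
        ring

theorem lev_le {i R k : ℕ} (hk : k < 6 * i + 10 * R + 2) : lev i k ≤ R := by
  unfold lev
  split_ifs with h
  · exact Nat.zero_le _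
  · omega

variable {L : Type} [Field L] [NumberField L]

/-- the curve step of family (A). The points have rational coordinates `σ = s / t`,
`κ = kn / kd`; all of them are in one residue class modulo `q`, on the curve `g = 0`, and smooth
modulo all primes dividing `q`. -/
theorem curve_step (i R Dg : ℕ) (hi : 1 ≤ i) : ∃ C1 : ℕ, ∀ {θ : Fin 4 → 𝓞 L}
    (hθ : Function.Injective θ) {l1 l2 : Fin 4 → ℤ}
    {d : Fin 2 → ℕ} {A B : Fin 2 → ℤ[X]} {Z : Fin 2 → Fin 4 → ℤ[X]} {Λ : ℤ[X]} {e : ℤ}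
    (hl1 : ∀ j, K.ell (θ j) l1 ≠ 0) (hnd : NonDeg θ l1 l2) (hK : KData θ l1 l2 d A B Z Λ e)
    (g : ℤ[X][X]) (hg : Irreducible (g.map (mapRingHom (Int.castRingHom ℚ))))
    (hgd : BiDeg Dg Dg g) (hg2 : 2 ≤ g.natDegree)
    (hg4 : d 0 = 4 → ∃ i, 2 ≤ (g.coeff i).natDegree)
    (q : ℕ) (hq : 2 ≤ q) (ν : ℕ) (hν : 1 ≤ ν) (c : ℤ) (hc : c ≠ 0) (Gz Sg : ℝ) (W : ℕ → ℝ)
    (hW : ∀ k, 0 ≤ W k)
    (S : Finset ℤ) (s t kn kd : ℤ → ℤ) (z : ℤ → Fin 4 → ℤ) (x0 y0 v : ℤ)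
    (hS : ∀ N ∈ S, IsCoprime (t N) (q : ℤ) ∧ IsCoprime (kd N) (q : ℤ) ∧ t N ≠ 0 ∧
      (q : ℤ) ∣ s N - x0 * t N ∧ (q : ℤ) ∣ kn N - y0 * kd N ∧
      ev (g.map (mapRingHom (Int.castRingHom ℚ))) ((kn N : ℚ) / kd N) ((s N : ℚ) / t N) = 0 ∧
      IsCoprime (kd N * hom 5 (A 0) (s N) (t N) + kn N * hom 5 (A 1) (s N) (t N)) (q : ℤ) ∧
      (kd N * aeval ((s N : ℚ) / t N) (A 0) + kn N * aeval ((s N : ℚ) / t N) (A 1)) * (N : ℚ) =
        kd N * aeval ((s N : ℚ) / t N) (B 0) + kn N * aeval ((s N : ℚ) / t N) (B 1) ∧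
      (∀ m, (z N m : ℚ) *
        (kd N * aeval ((s N : ℚ) / t N) (A 0) + kn N * aeval ((s N : ℚ) / t N) (A 1)) * t N ^ 2 =
        c * (kd N * aeval ((s N : ℚ) / t N) (Z 0 m) + kn N * aeval ((s N : ℚ) / t N) (Z 1 m))) ∧
      (∀ m, |(z N m : ℝ)| ≤ Gz) ∧ |(s N : ℝ)| ≤ Sg ∧ |(t N : ℝ)| ≤ Sg)
    (hv : (q : ℤ) ∣ 1 - v * ev2 (derivative g) x0 y0)
    (hbig : (q : ℝ) ^ (ν * (ν + 1) / 2) <
      ∏ k ∈ range (6 * i + 10 * R + 2), ((⌊W k⌋₊ : ℝ) + 1))
    (hval : ∑ k ∈ range (6 * i + 10 * R + 2), W k * (Gz ^ (i + lev i k) * Sg ^ (1 + 2 * lev i k)) <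
      (q : ℝ) ^ ν),
    S.card ≤ C1 := by
  obtain ⟨C1, hC1⟩ := bezout2 Dg (10 * (i + R) + 3)
  refine ⟨C1, ?_⟩
  intro θ hθ l1 l2 d A B Z Λ e hl1 hnd hK g hg hgd hg2 hg4 q hq ν hν c hc Gz Sg W hW S s t kn kd z
    x0 y0 v hS hv hbig hval
  have hinj : Function.Injective (mapRingHom (Int.castRingHom ℚ)) :=
    map_injective _ (RingHom.injective_int _)
  have hg2' : 2 ≤ (g.map (mapRingHom (Int.castRingHom ℚ))).natDegree := by
    rwa [natDegree_map_eq_of_injective hinj]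
  have hg4' : d 0 = 4 → ∃ i, 2 ≤ ((g.map (mapRingHom (Int.castRingHom ℚ))).coeff i).natDegree := by
    intro h
    obtain ⟨j, hj⟩ := hg4 h
    refine ⟨j, ?_⟩
    rw [coeff_map, coe_mapRingHom, natDegree_map_eq_of_injective (RingHom.injective_int _)]
    exact hj
  obtain ⟨μ, a, hμa, hind⟩ := exists_levels hθ hl1 hnd hK _ hg hg2' hg4' i R hi
  have hd5 : ∀ j, d j ≤ 5 := by
    intro j
    rcases hK.dd with h | h <;> fin_cases j <;> simp [h.1, h.2]
  have hA5 : ∀ j, (A j).natDegree ≤ 5 := fun j => (hK.dA j).trans (hd5 j)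
  have hZ5 : ∀ j m, (Z j m).natDegree ≤ 5 := fun j m => by
    have h1 := hK.dZ j m
    have h2 := hd5 j
    omega
  obtain ⟨φ, hφ⟩ := hensel_poly' g hv (ν - 1)
  rw [Nat.sub_add_cancel hν] at hφ
  have hkd0 : ∀ N ∈ S, kd N ≠ 0 := by
    intro N hN h0
    have h1 := (hS N hN).2.1
    rw [h0, isCoprime_zero_left, Int.isUnit_iff] at h1
    omega
  have hpt : ∀ N : ℤ, ∃ x y : ℤ, N ∈ S → (q : ℤ) ^ ν ∣ s N - x * t N ∧ (q : ℤ) ∣ x - x0 ∧
      (q : ℤ) ∣ y - y0 ∧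
      (q : ℤ) ^ ν ∣ ev2 g x y ∧ IsCoprime (aeval x (A 0) + aeval x (A 1) * y) (q : ℤ) ∧
      ∀ m, (q : ℤ) ^ ν ∣ z N m * (aeval x (A 0) + aeval x (A 1) * y) * t N ^ 2 -
        c * (aeval x (Z 0 m) + aeval x (Z 1 m) * y) := by
    intro N
    by_cases hN : N ∈ S
    · obtain ⟨h1, h2, h3, h4, h5, h6, h7, -, h9, -⟩ := hS N hN
      obtain ⟨x, y, h⟩ := point_red hν hgd hA5 hZ5 h1 h2 h3 (hkd0 N hN) h4 h5 h6 h7 h9
      exact ⟨x, y, fun _ => h⟩
    · exact ⟨0, 0, fun h => absurd h hN⟩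
  choose x y hxy using hpt
  set n := 6 * i + 10 * R + 2 with hn
  set f : ℕ → ℤ → ℤ := fun k N =>
    (∏ m, z N m ^ μ k m) * s N ^ a k * t N ^ (1 + 2 * lev i k - a k) with hf
  set u : ℤ → ℤ := fun N =>
    t N ^ (2 * i - 1) * (aeval (x N) (A 0) + aeval (x N) (A 1) * y N) ^ (R + i) with hu
  set Φ : ℕ → ℤ[X] := fun k =>
    C (c ^ (i + lev i k)) * (psi A Z R (lev i k) (μ k) (a k)).eval φ with hΦ
  obtain ⟨w, ⟨k0, hk0, hwk0⟩, -, hzero⟩ := siegel_class n ν (q : ℤ) (by exact_mod_cast hq)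
    (S : Set ℤ) f Φ u x x0 (fun k => Gz ^ (i + lev i k) * Sg ^ (1 + 2 * lev i k)) W hW
    (by
      intro N hN
      have h := hxy N (Finset.mem_coe.1 hN)
      exact ((hS N (Finset.mem_coe.1 hN)).1.pow_left).mul_left (h.2.2.2.2.1.pow_left))
    (fun N hN => (hxy N (Finset.mem_coe.1 hN)).2.1)
    (by
      intro N hN k hk
      obtain ⟨h1, h2, h3, h4, h5, h6⟩ := hxy N (Finset.mem_coe.1 hN)
      obtain ⟨hm1, hm2⟩ := hμa k hk
      have h7 : (q : ℤ) ^ ν ∣ ev2 (psi A Z R (lev i k) (μ k) (a k)) (x N) (y N) -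
          ev2 (psi A Z R (lev i k) (μ k) (a k)) (x N) (φ.eval (x N)) :=
        ev2_dvd _ (by simp) (hφ _ _ h2 h3 h4)
      have h8 : (q : ℤ) ^ ν ∣ u N * f k N -
          c ^ (i + lev i k) * ev2 (psi A Z R (lev i k) (μ k) (a k)) (x N) (y N) := by
        rw [← cast_eq, ← evr_int, evr_psi]
        have h9 := alg_id (K := ZMod (q ^ ν)) hi (lev_le hk) hm2 (μ k) hm1
          (fun m => ((z N m : ℤ) : ZMod (q ^ ν)))
          (fun m => ((aeval (x N) (Z 0 m) + aeval (x N) (Z 1 m) * y N : ℤ) : ZMod (q ^ ν)))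
          (c := (c : ZMod (q ^ ν)))
          (w := ((aeval (x N) (A 0) + aeval (x N) (A 1) * y N : ℤ) : ZMod (q ^ ν)))
          (t := (t N : ZMod (q ^ ν))) (s := (s N : ZMod (q ^ ν))) (x := (x N : ZMod (q ^ ν)))
          (fun m => by
            have := (cast_eq (q := q) (ν := ν)).2 (h6 m)
            push_cast at this ⊢
            exact this)
          (by
            have := (cast_eq (q := q) (ν := ν)).2 h1
            push_cast at this
            exact this)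
        simp only [hu, hf]
        push_cast at h9 ⊢
        exact h9
      have h10 : u N * f k N - (Φ k).eval (x N) = (u N * f k N -
          c ^ (i + lev i k) * ev2 (psi A Z R (lev i k) (μ k) (a k)) (x N) (y N)) +
          c ^ (i + lev i k) * (ev2 (psi A Z R (lev i k) (μ k) (a k)) (x N) (y N) -
          ev2 (psi A Z R (lev i k) (μ k) (a k)) (x N) (φ.eval (x N))) := by
        simp only [hΦ]
        rw [eval_mul, eval_C, ev2_eval]
        ring
      rw [h10]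
      exact dvd_add h8 (h7.mul_left _))
    (by
      intro N hN k hk
      obtain ⟨-, -, -, -, -, -, -, -, -, hz, hs, ht⟩ := hS N (Finset.mem_coe.1 hN)
      obtain ⟨hm1, hm2⟩ := hμa k hk
      have hG : 0 ≤ Gz := (abs_nonneg _).trans (hz 0)
      have hSg : 0 ≤ Sg := (abs_nonneg _).trans hs
      simp only [hf]
      push_cast
      rw [abs_mul, abs_mul, Finset.abs_prod]
      have e1 : ∏ m, |(z N m : ℝ) ^ μ k m| ≤ Gz ^ (i + lev i k) := by
        rw [← hm1, ← Finset.prod_pow_eq_pow_sum]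
        refine Finset.prod_le_prod (fun m _ => abs_nonneg _) fun m _ => ?_
        rw [abs_pow]
        exact pow_le_pow_left₀ (abs_nonneg _) (hz m) _
      have e2 : |(s N : ℝ) ^ a k| * |(t N : ℝ) ^ (1 + 2 * lev i k - a k)| ≤
          Sg ^ (1 + 2 * lev i k) := by
        have e3 : Sg ^ (1 + 2 * lev i k) = Sg ^ a k * Sg ^ (1 + 2 * lev i k - a k) := by
          rw [← pow_add]
          congr 1
          omega
        rw [e3, abs_pow, abs_pow]
        exact mul_le_mul (pow_le_pow_left₀ (abs_nonneg _) hs _)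
          (pow_le_pow_left₀ (abs_nonneg _) ht _) (by positivity) (by positivity)
      rw [mul_assoc]
      exact mul_le_mul e1 e2 (by positivity) (by positivity))
    (by exact_mod_cast hbig) (by exact_mod_cast hval)
  -- the second curve
  set Ψ : ℚ[X][X] := ∑ k ∈ range n, C (C ((w k : ℚ) * (c : ℚ) ^ (i + lev i k))) *
    (psi A Z R (lev i k) (μ k) (a k)).map (mapRingHom (Int.castRingHom ℚ)) with hΨ
  have hndvd : ¬ g.map (mapRingHom (Int.castRingHom ℚ)) ∣ Ψ := by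
    intro h
    have h1 := hind (fun k => (w k : ℚ) * (c : ℚ) ^ (i + lev i k)) h k0 hk0
    have h2 : (c : ℚ) ≠ 0 := by exact_mod_cast hc
    have h3 : (w k0 : ℚ) ≠ 0 := by exact_mod_cast hwk0
    exact mul_ne_zero h3 (pow_ne_zero _ h2) h1
  have hΨd : BiDeg (10 * (i + R) + 3) (10 * (i + R) + 3) Ψ := by
    refine BiDeg.sum _ fun k hk => ?_
    have hk' := Finset.mem_range.1 hk
    obtain ⟨hm1, hm2⟩ := hμa k hk'
    have hl := lev_le hk'
    have h1 := (biDeg_psi hA5 hZ5 R (lev i k) (μ k) (a k)).map (Int.castRingHom ℚ)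
    have h2 : BiDeg 0 0 (C (C ((w k : ℚ) * (c : ℚ) ^ (i + lev i k))) : ℚ[X][X]) :=
      BiDeg.C_le (natDegree_C _).le
    refine (h2.mul h1).mono ?_ ?_
    · rw [hm1]
      omega
    · rw [hm1]
      omega
  -- evaluation at the points
  have hval' : ∀ N ∈ S, (t N : ℚ) ≠ 0 ∧ (kd N : ℚ) ≠ 0 ∧
      (aeval ((s N : ℚ) / t N) (A 0) + aeval ((s N : ℚ) / t N) (A 1) * ((kn N : ℚ) / kd N)) ≠ 0 := by
    intro N hN
    obtain ⟨h1, h2, h3, h4, h5, h6, h7, -⟩ := hS N hN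
    have ht : (t N : ℚ) ≠ 0 := by exact_mod_cast h3
    have hk : (kd N : ℚ) ≠ 0 := by exact_mod_cast hkd0 N hN
    refine ⟨ht, hk, fun h0 => ?_⟩
    have h8 : ((kd N * hom 5 (A 0) (s N) (t N) + kn N * hom 5 (A 1) (s N) (t N) : ℤ) : ℚ) = 0 := by
      have e1 : ∀ j, ((hom 5 (A j) (s N) (t N) : ℤ) : ℚ) =
          (t N : ℚ) ^ 5 * aeval ((s N : ℚ) / t N) (A j) := by
        intro j
        have e2 := hom_map (Int.castRingHom ℚ) 5 (A j) (s N) (t N)
        simp only [eq_intCast] at e2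
        have e3 : (s N : ℚ) = (s N : ℚ) / t N * t N := by field_simp
        rw [e2]
        conv_lhs => rw [e3]
        rw [hom_mul 5 (hA5 j)]
      rw [Int.cast_add, Int.cast_mul, Int.cast_mul, e1, e1]
      have e4 : (kn N : ℚ) = (kn N : ℚ) / kd N * kd N := by field_simp
      calc (kd N : ℚ) * ((t N : ℚ) ^ 5 * aeval ((s N : ℚ) / t N) (A 0)) +
          kn N * ((t N : ℚ) ^ 5 * aeval ((s N : ℚ) / t N) (A 1)) =
          (kd N : ℚ) * ((t N : ℚ) ^ 5 * aeval ((s N : ℚ) / t N) (A 0)) +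
          ((kn N : ℚ) / kd N * kd N) * ((t N : ℚ) ^ 5 * aeval ((s N : ℚ) / t N) (A 1)) := by
            rw [← e4]
        _ = (kd N : ℚ) * (t N : ℚ) ^ 5 * (aeval ((s N : ℚ) / t N) (A 0) +
            aeval ((s N : ℚ) / t N) (A 1) * ((kn N : ℚ) / kd N)) := by ring
        _ = 0 := by rw [h0, mul_zero]
    have h9 : kd N * hom 5 (A 0) (s N) (t N) + kn N * hom 5 (A 1) (s N) (t N) = 0 := by
      exact_mod_cast h8
    rw [h9, isCoprime_zero_left, Int.isUnit_iff] at h7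
    omega
  have hev : ∀ N ∈ S, ev Ψ ((kn N : ℚ) / kd N) ((s N : ℚ) / t N) = 0 := by
    intro N hN
    obtain ⟨ht, hk, hA0⟩ := hval' N hN
    obtain ⟨-, -, -, -, -, -, -, -, h9, -⟩ := hS N hN
    have e1 : ev Ψ ((kn N : ℚ) / kd N) ((s N : ℚ) / t N) = ∑ k ∈ range n,
        ((w k : ℚ) * (c : ℚ) ^ (i + lev i k)) *
          evr (psi A Z R (lev i k) (μ k) (a k)) ((s N : ℚ) / t N) ((kn N : ℚ) / kd N) := by
      simp only [evr_rat]
      rw [hΨ]
      unfold ev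
      rw [Polynomial.map_sum, eval_finsetSum]
      refine Finset.sum_congr rfl fun k _ => ?_
      rw [Polynomial.map_mul, eval_mul, map_C, eval_C]
      simp
    have e2 : ∀ k ∈ range n, ((w k : ℚ) * (c : ℚ) ^ (i + lev i k)) *
          evr (psi A Z R (lev i k) (μ k) (a k)) ((s N : ℚ) / t N) ((kn N : ℚ) / kd N) =
        ((t N : ℚ) ^ (2 * i - 1) * (aeval ((s N : ℚ) / t N) (A 0) +
          aeval ((s N : ℚ) / t N) (A 1) * ((kn N : ℚ) / kd N)) ^ (R + i)) *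
          ((w k * f k N : ℤ) : ℚ) := by
      intro k hk'
      have hk'' := Finset.mem_range.1 hk'
      obtain ⟨hm1, hm2⟩ := hμa k hk''
      have e3 := alg_id (K := ℚ) hi (lev_le hk'') hm2 (μ k) hm1
          (fun m => (z N m : ℚ))
          (fun m => aeval ((s N : ℚ) / t N) (Z 0 m) +
            aeval ((s N : ℚ) / t N) (Z 1 m) * ((kn N : ℚ) / kd N))
          (c := (c : ℚ))
          (w := (aeval ((s N : ℚ) / t N) (A 0) +
            aeval ((s N : ℚ) / t N) (A 1) * ((kn N : ℚ) / kd N)))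
          (t := (t N : ℚ)) (s := (s N : ℚ)) (x := (s N : ℚ) / t N)
          (fun m => by
            have e4 := h9 m
            have e5 : (kn N : ℚ) = (kn N : ℚ) / kd N * kd N := by field_simp
            refine mul_left_cancel₀ hk ?_
            calc (kd N : ℚ) * ((z N m : ℚ) * (aeval ((s N : ℚ) / t N) (A 0) +
                aeval ((s N : ℚ) / t N) (A 1) * ((kn N : ℚ) / kd N)) * (t N : ℚ) ^ 2) =
                (z N m : ℚ) * (kd N * aeval ((s N : ℚ) / t N) (A 0) +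
                ((kn N : ℚ) / kd N * kd N) * aeval ((s N : ℚ) / t N) (A 1)) * (t N : ℚ) ^ 2 := by
                  ring
              _ = c * (kd N * aeval ((s N : ℚ) / t N) (Z 0 m) +
                ((kn N : ℚ) / kd N * kd N) * aeval ((s N : ℚ) / t N) (Z 1 m)) := by
                  rw [← e5]
                  exact e4
              _ = _ := by ring)
          (by field_simp)
      rw [evr_psi]
      simp only [hf]
      push_cast
      linear_combination (-(w k : ℚ)) * e3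
    rw [e1, Finset.sum_congr rfl e2, ← Finset.mul_sum]
    have e6 := hzero N (Finset.mem_coe.2 hN)
    have e7 : (∑ k ∈ range n, ((w k * f k N : ℤ) : ℚ)) = 0 := by
      rw [← Int.cast_sum, e6, Int.cast_zero]
    rw [e7, mul_zero]
  have hcard := hC1 (g.map (mapRingHom (Int.castRingHom ℚ))) Ψ hg hndvd
    (hgd.map (Int.castRingHom ℚ)) hΨd
    (S.image fun N => ((kn N : ℚ) / kd N, (s N : ℚ) / t N)) (by
      intro p hp
      obtain ⟨N, hN, rfl⟩ := Finset.mem_image.1 hp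
      exact ⟨(hS N hN).2.2.2.2.2.1, hev N hN⟩)
  rw [Finset.card_image_of_injOn] at hcard
  · exact hcard
  · intro N hN N' hN' h
    simp only [Prod.mk.injEq] at h
    obtain ⟨h1, h2⟩ := h
    have key : ∀ N ∈ S, (aeval ((s N : ℚ) / t N) (A 0) +
        aeval ((s N : ℚ) / t N) (A 1) * ((kn N : ℚ) / kd N)) * (N : ℚ) =
        aeval ((s N : ℚ) / t N) (B 0) + aeval ((s N : ℚ) / t N) (B 1) * ((kn N : ℚ) / kd N) := by
      intro N hN
      obtain ⟨ht, hk, hA0⟩ := hval' N hN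
      obtain ⟨-, -, -, -, -, -, -, h8, -⟩ := hS N hN
      have e5 : (kn N : ℚ) = (kn N : ℚ) / kd N * kd N := by field_simp
      refine mul_left_cancel₀ hk ?_
      calc (kd N : ℚ) * ((aeval ((s N : ℚ) / t N) (A 0) +
          aeval ((s N : ℚ) / t N) (A 1) * ((kn N : ℚ) / kd N)) * (N : ℚ)) =
          (kd N * aeval ((s N : ℚ) / t N) (A 0) +
          ((kn N : ℚ) / kd N * kd N) * aeval ((s N : ℚ) / t N) (A 1)) * (N : ℚ) := by ring
        _ = kd N * aeval ((s N : ℚ) / t N) (B 0) +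
          ((kn N : ℚ) / kd N * kd N) * aeval ((s N : ℚ) / t N) (B 1) := by
            rw [← e5]
            exact h8
        _ = _ := by ring
    have k1 := key N hN
    have k2 := key N' hN'
    rw [← h1, ← h2] at k2
    have h3 := (hval' N hN).2.2
    have h4 : (N : ℚ) = N' := mul_left_cancel₀ h3 (k1.trans k2.symm)
    exact_mod_cast h4

end Vale.Agent.P018.Q
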