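import Mathlib
import Vale.Agent.P018.Q.FamDefs
import Vale.Agent.P018.Q.AssA

namespace Vale.Agent.P018.Q

open Polynomial NumberField

theorem dat_mono {L : Type} [Field L] [NumberField L] {θ : Fin 4 → 𝓞 L} {C C' : ℕ} (h : C ≤ C')
    {X T : ℝ} (hX : 0 ≤ X) (hT : 0 ≤ T) {N : ℤ} {p : ℕ} {c : ℤ} {y z : Fin 4 → ℤ}
    (hd : Dat θ C X T N p c y z) : Dat θ C' X T N p c y z := by
  have h1 : (C : ℝ) ≤ C' := by exact_mod_cast h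
  have h2 : (C : ℤ) ≤ C' := by exact_mod_cast h
  obtain ⟨c', hc1, hc2, hc3⟩ := hd.nrm
  refine ⟨hd.prime, hd.lo, hd.hi, hd.c0, hd.cC.trans h2, ⟨c', hc1, hc2.trans h2, hc3⟩, hd.eqn,
    hd.hN.trans ?_, fun j => (hd.hy j).trans ?_, fun j => (hd.hz j).trans ?_⟩
  · exact mul_le_mul_of_nonneg_right h1 hX
  · exact mul_le_mul_of_nonneg_right h1 hT
  · exact div_le_div_of_nonneg_right (mul_le_mul_of_nonneg_right h1 hX) (by positivity)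

theorem dat_y_ne {L : Type} [Field L] [NumberField L] {θ : Fin 4 → 𝓞 L} {C : ℕ}
    {X T : ℝ} {N : ℤ} {p : ℕ} {c : ℤ} {y z : Fin 4 → ℤ}
    (hd : Dat θ C X T N p c y z) : y ≠ 0 := by
  rintro rfl
  obtain ⟨c', hc1, -, hc3⟩ := hd.nrm
  have h1 : K.ell (θ 0) (0 : Fin 4 → ℤ) = 0 := by
    unfold K.ell
    simp
  rw [Finset.prod_eq_zero (Finset.mem_univ (0 : Fin 4)) h1] at hc3
  have h2 : ((p : ℤ) * c' : ℤ) ≠ 0 :=
    mul_ne_zero (by exact_mod_cast hd.prime.ne_zero) hc1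
  exact h2 (by exact_mod_cast hc3.symm)

/-- the size of `dot y y`. -/
theorem dot_le_sq (y : Fin 4 → ℤ) (B : ℝ) (hy : ∀ j, |(y j : ℝ)| ≤ B) :
    (dot y y : ℝ) ≤ 4 * B ^ 2 := by
  have h : ∀ j, (y j : ℝ) * y j ≤ B ^ 2 := by
    intro j
    rw [← sq, ← sq_abs]
    exact pow_le_pow_left₀ (abs_nonneg _) (hy j) 2
  unfold dot
  push_cast
  rw [Fin.sum_univ_four]
  linarith [h 0, h 1, h 2, h 3]

/-- the numerical inequality for the product of the two lengths. -/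
theorem rank_size (C1 : ℕ) (C2 T D : ℝ) (hC2 : 1 ≤ C2) (hT : 0 ≤ T) (hD0 : 0 ≤ D)
    (hD : D ≤ 4 * ((C1 : ℝ) * T) ^ 2) :
    C2 * D ^ (2 / 3 : ℝ) ≤ ((C1 + ⌈C2 * (4 * (C1 : ℝ) ^ 2 + 1)⌉₊ : ℕ) : ℝ) * T ^ (4 / 3 : ℝ) := by
  have h1 : D ^ (2 / 3 : ℝ) ≤ (4 * (C1 : ℝ) ^ 2 + 1) * T ^ (4 / 3 : ℝ) := by
    calc D ^ (2 / 3 : ℝ) ≤ ((4 * (C1 : ℝ) ^ 2 + 1) * T ^ 2) ^ (2 / 3 : ℝ) := by
          refine Real.rpow_le_rpow hD0 (hD.trans ?_) (by norm_num)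
          nlinarith [sq_nonneg T]
      _ = (4 * (C1 : ℝ) ^ 2 + 1) ^ (2 / 3 : ℝ) * (T ^ 2) ^ (2 / 3 : ℝ) :=
          Real.mul_rpow (by positivity) (by positivity)
      _ ≤ (4 * (C1 : ℝ) ^ 2 + 1) * T ^ (4 / 3 : ℝ) := by
          have e1 : (T ^ 2) ^ (2 / 3 : ℝ) = T ^ (4 / 3 : ℝ) := by
            rw [← Real.rpow_natCast T 2, ← Real.rpow_mul hT]
            norm_num
          have e2 : (4 * (C1 : ℝ) ^ 2 + 1) ^ (2 / 3 : ℝ) ≤ 4 * (C1 : ℝ) ^ 2 + 1 := by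
            have e3 : (1 : ℝ) ≤ 4 * (C1 : ℝ) ^ 2 + 1 := by nlinarith [sq_nonneg (C1 : ℝ)]
            calc (4 * (C1 : ℝ) ^ 2 + 1) ^ (2 / 3 : ℝ) ≤ (4 * (C1 : ℝ) ^ 2 + 1) ^ (1 : ℝ) :=
                  Real.rpow_le_rpow_of_exponent_le e3 (by norm_num)
              _ = _ := Real.rpow_one _
          rw [e1]
          exact mul_le_mul_of_nonneg_right e2 (by positivity)
  have h2 : C2 * (4 * (C1 : ℝ) ^ 2 + 1) ≤ ((C1 + ⌈C2 * (4 * (C1 : ℝ) ^ 2 + 1)⌉₊ : ℕ) : ℝ) := by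
    push_cast
    have := Nat.le_ceil (C2 * (4 * (C1 : ℝ) ^ 2 + 1))
    have h3 : (0 : ℝ) ≤ C1 := Nat.cast_nonneg _
    linarith
  calc C2 * D ^ (2 / 3 : ℝ) ≤ C2 * ((4 * (C1 : ℝ) ^ 2 + 1) * T ^ (4 / 3 : ℝ)) :=
        mul_le_mul_of_nonneg_left h1 (by linarith)
    _ = C2 * (4 * (C1 : ℝ) ^ 2 + 1) * T ^ (4 / 3 : ℝ) := by ring
    _ ≤ _ := mul_le_mul_of_nonneg_right h2 (by positivity)

theorem rank_size2 (C1 : ℕ) (C2 T D : ℝ) (hC2 : 1 ≤ C2)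
    (hD : D ≤ 4 * ((C1 : ℝ) * T) ^ 2) :
    C2 * D ≤ ((C1 + ⌈C2 * (4 * (C1 : ℝ) ^ 2 + 1)⌉₊ : ℕ) : ℝ) * T ^ 2 := by
  have h2 : C2 * (4 * (C1 : ℝ) ^ 2 + 1) ≤ ((C1 + ⌈C2 * (4 * (C1 : ℝ) ^ 2 + 1)⌉₊ : ℕ) : ℝ) := by
    push_cast
    have := Nat.le_ceil (C2 * (4 * (C1 : ℝ) ^ 2 + 1))
    have h3 : (0 : ℝ) ≤ C1 := Nat.cast_nonneg _
    linarith
  calc C2 * D ≤ C2 * (4 * ((C1 : ℝ) * T) ^ 2) := mul_le_mul_of_nonneg_left hD (by linarith)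
    _ ≤ C2 * (4 * (C1 : ℝ) ^ 2 + 1) * T ^ 2 := by
        have : 0 ≤ C2 * T ^ 2 := by positivity
        nlinarith
    _ ≤ _ := mul_le_mul_of_nonneg_right h2 (sq_nonneg T)

theorem famA (f : ℤ[X]) (hirr : Irreducible (f.map (Int.castRingHom ℚ))) (hd : f.natDegree = 4)
    (a : ℝ) (h1 : 1 ≤ a) (h2 : a ≤ 1.3955) : Near f a := by
  classical
  obtain ⟨L, _, _, θ, G, a0, C1, ha0, hGm, hGd, hGi, hθi, hθ, hdat⟩ := exists_dat f hirr hd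
  obtain ⟨C2, hC2, hrk⟩ := exists_rank2
  have hF : Fld G θ := ⟨hGm, hGd, hGi, hθi, hθ⟩
  obtain ⟨X1, hX1⟩ := pairs_le f hirr hd a0 ha0
  obtain ⟨ε, hε, K, hK, hall⟩ := all_pairs hF (C1 + ⌈C2 * (4 * (C1 : ℝ) ^ 2 + 1)⌉₊) (a / 4)
    (by linarith) (by norm_num at h2 ⊢; linarith)
  refine ⟨4 * ε, by positivity, ε, 4, hε, by norm_num, max (max X1 C1) (max 2 ⌈K⌉₊), ?_⟩
  intro X P hX hXP hmem
  have hXX1 : X1 ≤ X := le_trans (le_max_left _ _) (le_trans (le_max_left _ _) hX)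
  have hXC1 : C1 ≤ X := le_trans (le_max_right _ _) (le_trans (le_max_left _ _) hX)
  have hX2 : 2 ≤ X := le_trans (le_max_left _ _) (le_trans (le_max_right _ _) hX)
  have hXK : ⌈K⌉₊ ≤ X := le_trans (le_max_right _ _) (le_trans (le_max_right _ _) hX)
  have hXK' : K ≤ X := (Nat.le_ceil K).trans (by exact_mod_cast hXK)
  have hXr : (1 : ℝ) < X := by exact_mod_cast (show 1 < X by omega)
  have hX0 : (0 : ℝ) < X := by linarith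
  have hPr : (0 : ℝ) < P := by exact_mod_cast (show 0 < P by omega)
  have hXPr : (X : ℝ) ≤ P := by exact_mod_cast hXP
  have hl : 0 < Real.log X := Real.log_pos hXr
  obtain ⟨T, hT⟩ : ∃ T : ℝ, T = (P : ℝ) ^ (1 / 4 : ℝ) := ⟨_, rfl⟩
  have hT0 : 0 < T := by rw [hT]; positivity
  have hT4 : T ^ 4 = P := by
    rw [hT, ← Real.rpow_natCast, ← Real.rpow_mul hPr.le]
    norm_num
  have hTl : Real.log T = 1 / 4 * Real.log P := by rw [hT, Real.log_rpow hPr]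
  have hm1 := (lt_div_iff₀ hl).1 hmem.1
  have hm2 := (div_lt_iff₀ hl).1 hmem.2
  have key := hall X T ((pairs f 2 X P).image (fun w => a0 * (w.1 : ℤ))) hXK'
    (by rw [hT4]; exact hXPr)
    (by
      rw [← Real.log_le_log_iff (by positivity) hT0, Real.log_rpow hX0, hTl]
      linarith)
    (by
      rw [← Real.log_le_log_iff hT0 (by positivity), Real.log_rpow hX0, hTl]
      linarith)
    (by
      intro N hN
      obtain ⟨w, hw, rfl⟩ := Finset.mem_image.1 hN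
      obtain ⟨c, y, z, hD⟩ := hdat X P hXC1 hXP w hw
      rw [← hT] at hD
      obtain ⟨l1, l2, s, t, r1, r2, r3, r4, r5⟩ := hrk y (dat_y_ne hD)
      have hdy := dot_le_sq y _ hD.hy
      have hdy0 : (0 : ℝ) ≤ dot y y := by exact_mod_cast dot_nonneg y
      refine ⟨l1, l2, w.2, c, z, s, t, r1, r3.trans (rank_size C1 C2 T _ hC2 hT0.le hdy0 hdy), ?_⟩
      have hD2 := dat_mono (Nat.le_add_right C1 ⌈C2 * (4 * (C1 : ℝ) ^ 2 + 1)⌉₊) hX0.le hT0.le hD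
      rw [r2] at hD2
      exact ⟨hD2, r4.trans (rank_size2 C1 C2 T _ hC2 hdy), r5.trans (rank_size2 C1 C2 T _ hC2 hdy)⟩)
  have h4 := hX1 X P hXX1 hXP
  have h5 : ((pairs f 2 X P).card : ℝ) ≤
      4 * (((pairs f 2 X P).image (fun w => a0 * (w.1 : ℤ))).card : ℝ) := by exact_mod_cast h4
  linarith

end Vale.Agent.P018.Q
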