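import Mathlib
import Vale.Agent.P018.Q.FamDefs
import Vale.Agent.P018.Q.Lattice

/-! # P018, quartics: the dyadic decomposition common to the families. -/

namespace Vale.Agent.P018.Q

open Polynomial NumberField Finset

/-- the data are monotone in `X` and `C`. -/
theorem fam_mono {L : Type} [Field L] [NumberField L] {θ : Fin 4 → 𝓞 L} {C C' : ℕ} {X X' T : ℝ}
    {N : ℤ} {p : ℕ} {c : ℤ} {y z : Fin 4 → ℤ} (h : Dat θ C X T N p c y z) (hC : C ≤ C')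
    (hX0 : 0 ≤ X) (hX : X ≤ X') (hT : 0 ≤ T) : Dat θ C' X' T N p c y z := by
  have hCr : (C : ℝ) ≤ C' := by exact_mod_cast hC
  have hCz : (C : ℤ) ≤ C' := by exact_mod_cast hC
  have hC0 : (0 : ℝ) ≤ C := Nat.cast_nonneg C
  have h1 : (C : ℝ) * X ≤ C' * X' := mul_le_mul hCr hX hX0 (hC0.trans hCr)
  refine ⟨h.prime, h.lo, h.hi, h.c0, h.cC.trans hCz, ?_, h.eqn, h.hN.trans h1, ?_, ?_⟩
  · obtain ⟨c', h2, h3, h4⟩ := h.nrm
    exact ⟨c', h2, h3.trans hCz, h4⟩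
  · intro j
    exact (h.hy j).trans (mul_le_mul_of_nonneg_right hCr hT)
  · intro j
    exact (h.hz j).trans (div_le_div_of_nonneg_right h1 (by positivity))

/-- `z ≠ 0`. -/
theorem fam_z_ne {L : Type} [Field L] [NumberField L] {θ : Fin 4 → 𝓞 L}
    (hθ : Function.Injective θ) {C : ℕ} {X T : ℝ}
    {N : ℤ} {p : ℕ} {c : ℤ} {y z : Fin 4 → ℤ} (h : Dat θ C X T N p c y z) : z ≠ 0 := by
  rintro rfl
  have h0 : ∀ i, θ i = (N : 𝓞 L) := by
    intro i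
    have h1 := h.eqn i
    have h2 : K.ell (θ i) (0 : Fin 4 → ℤ) = 0 := by
      unfold K.ell
      simp
    rw [h2, mul_zero] at h1
    rcases mul_eq_zero.1 h1 with h3 | h3
    · exact absurd (Int.cast_eq_zero.1 h3) h.c0
    · exact (sub_eq_zero.1 h3).symm
  have h1 : (0 : Fin 4) = 1 := hθ ((h0 0).trans (h0 1).symm)
  exact absurd h1 (by decide)

/-- `y ≠ 0`. -/
theorem fam_y_ne {L : Type} [Field L] [NumberField L] {θ : Fin 4 → 𝓞 L}
    (hθ : Function.Injective θ) {C : ℕ} {X T : ℝ}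
    {N : ℤ} {p : ℕ} {c : ℤ} {y z : Fin 4 → ℤ} (h : Dat θ C X T N p c y z) : y ≠ 0 := by
  rintro rfl
  have h0 : ∀ i, θ i = (N : 𝓞 L) := by
    intro i
    have h1 := h.eqn i
    have h2 : K.ell (θ i) (0 : Fin 4 → ℤ) = 0 := by
      unfold K.ell
      simp
    rw [h2, zero_pow two_ne_zero, zero_mul] at h1
    rcases mul_eq_zero.1 h1 with h3 | h3
    · exact absurd (Int.cast_eq_zero.1 h3) h.c0
    · exact (sub_eq_zero.1 h3).symm
  have h1 : (0 : Fin 4) = 1 := hθ ((h0 0).trans (h0 1).symm)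
  exact absurd h1 (by decide)

/-- sizes of a vector with bounded coordinates. -/
theorem fam_dot_le (z : Fin 4 → ℤ) (B : ℝ) (h : ∀ j, |(z j : ℝ)| ≤ B) :
    (dot z z : ℝ) ≤ 4 * B ^ 2 := by
  have h1 : ∀ j, (z j : ℝ) * z j ≤ B ^ 2 := by
    intro j
    have h2 := h j
    have h3 : |(z j : ℝ)| ^ 2 ≤ B ^ 2 := pow_le_pow_left₀ (abs_nonneg _) h2 2
    rw [sq_abs] at h3
    linarith
  have h4 := h1 0
  have h5 := h1 1
  have h6 := h1 2
  have h7 := h1 3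
  rw [dot4]
  push_cast
  linarith

/-- number of dyadic scales. -/
theorem fam_log_scales (ε : ℝ) (hε : 0 < ε) : ∃ K : ℝ, 0 < K ∧ ∀ X : ℕ, 1 ≤ X →
    ((Nat.log 2 X + 1 : ℕ) : ℝ) ≤ K * (X : ℝ) ^ ε := by
  have hl2 : 0 < Real.log 2 := Real.log_pos (by norm_num)
  refine ⟨1 / ε / Real.log 2 + 1, by positivity, fun X hX => ?_⟩
  have hXr : (1 : ℝ) ≤ X := by exact_mod_cast hX
  have h1 : ((2 : ℝ)) ^ (Nat.log 2 X) ≤ X := by
    exact_mod_cast Nat.pow_log_le_self 2 (by omega : X ≠ 0)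
  have h2 : (Nat.log 2 X : ℝ) * Real.log 2 ≤ Real.log X := by
    rw [← Real.log_pow]
    exact Real.log_le_log (by positivity) h1
  have h3 : Real.log X ≤ (X : ℝ) ^ ε / ε := Real.log_le_rpow_div (by linarith) hε
  have h4 : 1 ≤ (X : ℝ) ^ ε := Real.one_le_rpow hXr hε.le
  have h5 : (Nat.log 2 X : ℝ) ≤ (X : ℝ) ^ ε / ε / Real.log 2 := by
    rw [le_div_iff₀ hl2]
    exact h2.trans h3
  push_cast
  calc (Nat.log 2 X : ℝ) + 1 ≤ (X : ℝ) ^ ε / ε / Real.log 2 + (X : ℝ) ^ ε := by linarith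
    _ = (1 / ε / Real.log 2 + 1) * (X : ℝ) ^ ε := by ring

/-- the class of `n`. -/
theorem fam_exists_scale (X n : ℕ) (h1 : 1 ≤ n) (h2 : n ≤ X) : ∃ k ∈ range (Nat.log 2 X + 1),
    (n : ℝ) ≤ X / 2 ^ k ∧ (X : ℝ) / 2 ^ k < 2 * n := by
  refine ⟨Nat.log 2 (X / n), ?_, ?_, ?_⟩
  · rw [mem_range]
    have := Nat.log_mono_right (b := 2) (Nat.div_le_self X n)
    omega
  · have h3 : X / n ≠ 0 := by
      have := Nat.div_pos h2 (by omega : 0 < n)
      omega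
    have h4 := Nat.pow_log_le_self 2 h3
    have h5 : 2 ^ Nat.log 2 (X / n) * n ≤ X := (Nat.le_div_iff_mul_le (by omega)).1 h4
    rw [le_div_iff₀ (by positivity)]
    have h6 : ((2 ^ Nat.log 2 (X / n) * n : ℕ) : ℝ) ≤ X := by exact_mod_cast h5
    push_cast at h6
    linarith
  · have h4 : X / n < 2 ^ (Nat.log 2 (X / n) + 1) :=
      Nat.lt_pow_succ_log_self (by norm_num) _
    have h5 : X < 2 ^ (Nat.log 2 (X / n) + 1) * n := (Nat.div_lt_iff_lt_mul (by omega)).1 h4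
    rw [div_lt_iff₀ (by positivity)]
    have h6 : (X : ℝ) < ((2 ^ (Nat.log 2 (X / n) + 1) * n : ℕ) : ℝ) := by exact_mod_cast h5
    push_cast at h6
    rw [pow_succ] at h6
    linarith

/-- From a bound for the classes `X ≤ C |N|` to the local estimate. -/
theorem near_of_class (f : ℤ[X]) (hirr : Irreducible (f.map (Int.castRingHom ℚ)))
    (hd : f.natDegree = 4) (a : ℝ) (ha : 0 < a) {L : Type} [Field L] [NumberField L]
    (θ : Fin 4 → 𝓞 L) (a0 : ℤ) (C1 : ℕ) (ha0 : a0 ≠ 0)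
    (hdat : ∀ X P : ℕ, C1 ≤ X → X ≤ P → ∀ w ∈ pairs f 2 X P, ∃ (c : ℤ) (y z : Fin 4 → ℤ),
      Dat θ C1 X ((P : ℝ) ^ (1 / 4 : ℝ)) (a0 * w.1) w.2 c y z)
    (ε : ℝ) (hε : 0 < ε) (K : ℝ)
    (hcl : ∀ (X T : ℝ) (S : Finset ℤ), K ≤ X → 1 ≤ X → 1 ≤ T → X ≤ T ^ 4 →
      X ^ (a / 4 - ε) ≤ T → T ≤ X ^ (a / 4 + ε) →
      (∀ N ∈ S, ∃ (p : ℕ) (c : ℤ) (y z : Fin 4 → ℤ), X ≤ 2 * |(N : ℝ)| ∧
        Dat θ C1 X T N p c y z) → (S.card : ℝ) ≤ X ^ (1 - ε)) :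
    Near f a := by
  classical
  obtain ⟨X1, hX1⟩ := pairs_le f hirr hd a0 ha0
  obtain ⟨K3, hK3, hlog⟩ := fam_log_scales (min ε 1 / 2) (by positivity)
  obtain ⟨w, hw⟩ : ∃ w : ℝ, w = a / 4 := ⟨_, rfl⟩
  rw [← hw] at hcl
  have hw0 : 0 < w := by rw [hw]; linarith
  obtain ⟨η0, hη0⟩ : ∃ η0 : ℝ, η0 = (ε / 2) / (w + ε) := ⟨_, rfl⟩
  have hη0p : 0 < η0 := by rw [hη0]; positivity
  have hη0e : (1 - η0) * (w + ε) = w + ε / 2 := by
    rw [hη0]
    field_simp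
    ring
  have hη01 : 0 < 1 - η0 := by
    by_contra hcon
    have h1 : (1 - η0) * (w + ε) ≤ 0 := mul_nonpos_of_nonpos_of_nonneg (by linarith) (by linarith)
    linarith
  have hev : ∀ᶠ X : ℕ in Filter.atTop, max K C1 ≤ (X : ℝ) ^ (1 - η0) :=
    ((tendsto_rpow_atTop hη01).comp tendsto_natCast_atTop_atTop).eventually_ge_atTop _
  obtain ⟨X2, hX2⟩ := Filter.eventually_atTop.1 hev
  refine ⟨2 * ε, by linarith, min η0 (min ε 1 / 2), 4 * (1 + K3),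
    lt_min hη0p (by positivity), by positivity, max (max X1 X2) 2, ?_⟩
  intro X P hX hXP hmem
  have h1 : X1 ≤ X := le_trans (le_trans (le_max_left _ _) (le_max_left _ _)) hX
  have h2 : X2 ≤ X := le_trans (le_trans (le_max_right _ _) (le_max_left _ _)) hX
  have h3 : 2 ≤ X := le_trans (le_max_right _ _) hX
  have hXr : (1 : ℝ) < X := by exact_mod_cast (show 1 < X by omega)
  have hPr : (1 : ℝ) ≤ P := by exact_mod_cast (show 1 ≤ P by omega)
  have hXPr : (X : ℝ) ≤ P := by exact_mod_cast hXP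
  have hl : 0 < Real.log X := Real.log_pos hXr
  have hbig := hX2 X h2
  have hbK : K ≤ (X : ℝ) ^ (1 - η0) := le_trans (le_max_left _ _) hbig
  have hbC : (C1 : ℝ) ≤ (X : ℝ) ^ (1 - η0) := le_trans (le_max_right _ _) hbig
  obtain ⟨T, hT⟩ : ∃ T : ℝ, T = (P : ℝ) ^ (1 / 4 : ℝ) := ⟨_, rfl⟩
  have hT1 : 1 ≤ T := by
    rw [hT]
    exact Real.one_le_rpow hPr (by norm_num)
  have hT4 : T ^ 4 = P := by
    rw [hT, ← Real.rpow_natCast, ← Real.rpow_mul (by linarith)]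
    norm_num
  have hTlog : T = (X : ℝ) ^ (Real.log P / Real.log X / 4) := by
    rw [hT, Real.rpow_def_of_pos (by linarith), Real.rpow_def_of_pos (by linarith)]
    congr 1
    field_simp
  have hTlo : (X : ℝ) ^ (w - ε / 2) ≤ T := by
    rw [hTlog]
    apply Real.rpow_le_rpow_of_exponent_le hXr.le
    have := hmem.1
    rw [hw]
    linarith
  have hThi : T ≤ (X : ℝ) ^ (w + ε / 2) := by
    rw [hTlog]
    apply Real.rpow_le_rpow_of_exponent_le hXr.le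
    have := hmem.2
    rw [hw]
    linarith
  -- the decomposition
  obtain ⟨I0, hI0⟩ : ∃ I0 : Finset ℤ, I0 = ((Icc 1 X).filter
    (fun n : ℕ => (n : ℝ) ≤ (X : ℝ) ^ (1 - η0))).image (fun n : ℕ => a0 * (n : ℤ)) := ⟨_, rfl⟩
  obtain ⟨I, hI⟩ : ∃ I : ℕ → Finset ℤ, ∀ k, I k = ((pairs f 2 X P).filter
    (fun v => (X : ℝ) ^ (1 - η0) < v.1 ∧ (v.1 : ℝ) ≤ X / 2 ^ k ∧
      (X : ℝ) / 2 ^ k < 2 * v.1)).image (fun v => a0 * (v.1 : ℤ)) := ⟨_, fun _ => rfl⟩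
  have hcov : (pairs f 2 X P).image (fun v => a0 * (v.1 : ℤ)) ⊆
      I0 ∪ (range (Nat.log 2 X + 1)).biUnion I := by
    intro N hN
    obtain ⟨v, hv, rfl⟩ := mem_image.1 hN
    have hv' := hv
    rw [pairs, mem_filter, mem_product, mem_Icc, mem_Ioc] at hv'
    obtain ⟨⟨⟨hv1, hv2⟩, -, -⟩, -⟩ := hv'
    rw [mem_union]
    by_cases hs : (v.1 : ℝ) ≤ (X : ℝ) ^ (1 - η0)
    · left
      rw [hI0]
      exact mem_image.2 ⟨v.1, mem_filter.2 ⟨mem_Icc.2 ⟨hv1, hv2⟩, hs⟩, rfl⟩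
    · right
      obtain ⟨k, hk, hk1, hk2⟩ := fam_exists_scale X v.1 hv1 hv2
      rw [mem_biUnion]
      refine ⟨k, hk, ?_⟩
      rw [hI]
      exact mem_image.2 ⟨v, mem_filter.2 ⟨hv, not_le.1 hs, hk1, hk2⟩, rfl⟩
  have hc0 : (I0.card : ℝ) ≤ (X : ℝ) ^ (1 - η0) := by
    have e1 : I0.card ≤ ⌊(X : ℝ) ^ (1 - η0)⌋₊ := by
      rw [hI0]
      refine card_image_le.trans ?_
      have e2 : (Icc 1 X).filter (fun n : ℕ => (n : ℝ) ≤ (X : ℝ) ^ (1 - η0)) ⊆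
          Icc 1 ⌊(X : ℝ) ^ (1 - η0)⌋₊ := by
        intro n hn
        rw [mem_filter, mem_Icc] at hn
        exact mem_Icc.2 ⟨hn.1.1, Nat.le_floor hn.2⟩
      exact (card_le_card e2).trans (by simp)
    exact (Nat.cast_le.2 e1).trans (Nat.floor_le (by positivity))
  have hck : ∀ k, ((I k).card : ℝ) ≤ (X : ℝ) ^ (1 - min ε 1) := by
    intro k
    rcases (I k).eq_empty_or_nonempty with he | ⟨N0, hN0⟩
    · rw [he]
      simp only [card_empty, Nat.cast_zero]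
      positivity
    obtain ⟨Y, hY⟩ : ∃ Y : ℝ, Y = (X : ℝ) / 2 ^ k := ⟨_, rfl⟩
    have hYX : Y ≤ X := by
      rw [hY]
      exact div_le_self (by linarith) (one_le_pow₀ (by norm_num))
    have hYlow : (X : ℝ) ^ (1 - η0) ≤ Y := by
      rw [hI] at hN0
      obtain ⟨v, hv, -⟩ := mem_image.1 hN0
      rw [mem_filter] at hv
      rw [hY]
      exact hv.2.1.le.trans hv.2.2.1
    have hY1 : 1 ≤ Y := le_trans (Real.one_le_rpow hXr.le hη01.le) hYlow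
    have hlow : Y ^ (w - ε) ≤ T := by
      have e1 : Y ^ (w - ε) ≤ Y ^ (w - ε / 2) :=
        Real.rpow_le_rpow_of_exponent_le hY1 (by linarith)
      rcases le_or_gt 0 (w - ε / 2) with h0 | h0
      · exact e1.trans ((Real.rpow_le_rpow (by linarith) hYX h0).trans hTlo)
      · exact e1.trans ((Real.rpow_le_one_of_one_le_of_nonpos hY1 h0.le).trans hT1)
    have hhi : T ≤ Y ^ (w + ε) := by
      refine hThi.trans ?_
      rw [← hη0e, Real.rpow_mul (by linarith)]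
      exact Real.rpow_le_rpow (by positivity) hYlow (by linarith)
    have e0 := hcl Y T (I k) (hbK.trans hYlow) hY1 hT1 (by rw [hT4]; linarith) hlow hhi ?_
    · have e2 : Y ^ (1 - ε) ≤ Y ^ (1 - min ε 1) :=
        Real.rpow_le_rpow_of_exponent_le hY1 (by linarith [min_le_left ε 1])
      exact e0.trans (e2.trans (Real.rpow_le_rpow (by linarith) hYX
        (by linarith [min_le_right ε 1])))
    intro N hN
    rw [hI] at hN
    obtain ⟨v, hv, rfl⟩ := mem_image.1 hN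
    rw [mem_filter, ← hY] at hv
    obtain ⟨hvp, hv1, hv2, hv3⟩ := hv
    rw [pairs, mem_filter, mem_product, mem_Icc, mem_Ioc] at hvp
    have hvC : C1 ≤ v.1 := by
      have : (C1 : ℝ) ≤ v.1 := hbC.trans hv1.le
      exact_mod_cast this
    have hvP : v.1 ≤ P := hvp.1.1.2.trans hXP
    obtain ⟨c, y, z, hD⟩ := hdat v.1 P hvC hvP v (by
      rw [pairs, mem_filter, mem_product, mem_Icc, mem_Ioc]
      exact ⟨⟨⟨hvp.1.1.1, le_rfl⟩, hvp.1.2⟩, hvp.2⟩)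
    rw [← hT] at hD
    refine ⟨v.2, c, y, z, ?_, fam_mono hD le_rfl (by positivity) hv2 (by linarith)⟩
    have e3 : (1 : ℝ) ≤ |(a0 : ℝ)| := by exact_mod_cast Int.one_le_abs ha0
    have e4 : (0 : ℝ) ≤ (v.1 : ℝ) := by positivity
    push_cast
    rw [abs_mul, abs_of_nonneg e4]
    nlinarith
  have hcard : ((pairs f 2 X P).card : ℝ) ≤
      4 * ((X : ℝ) ^ (1 - η0) + (Nat.log 2 X + 1 : ℕ) * (X : ℝ) ^ (1 - min ε 1)) := by
    have e1 : ((pairs f 2 X P).card : ℝ) ≤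
        4 * (((pairs f 2 X P).image (fun v => a0 * (v.1 : ℤ))).card : ℝ) := by
      exact_mod_cast hX1 X P h1 hXP
    have e2 : (((pairs f 2 X P).image (fun v => a0 * (v.1 : ℤ))).card : ℝ) ≤
        (I0.card : ℝ) + ∑ k ∈ range (Nat.log 2 X + 1), ((I k).card : ℝ) := by
      have e3 := (card_le_card hcov).trans ((card_union_le _ _).trans
        (Nat.add_le_add_left card_biUnion_le _))
      exact_mod_cast e3
    have e4 : ∑ k ∈ range (Nat.log 2 X + 1), ((I k).card : ℝ) ≤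
        (Nat.log 2 X + 1 : ℕ) * (X : ℝ) ^ (1 - min ε 1) := by
      refine (sum_le_sum fun k _ => hck k).trans ?_
      rw [sum_const, card_range, nsmul_eq_mul]
    linarith
  refine hcard.trans ?_
  have e5 : (X : ℝ) ^ (1 - η0) ≤ (X : ℝ) ^ (1 - min η0 (min ε 1 / 2)) :=
    Real.rpow_le_rpow_of_exponent_le hXr.le (by linarith [min_le_left η0 (min ε 1 / 2)])
  have e6 : ((Nat.log 2 X + 1 : ℕ) : ℝ) * (X : ℝ) ^ (1 - min ε 1) ≤
      K3 * (X : ℝ) ^ (1 - min η0 (min ε 1 / 2)) := by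
    calc ((Nat.log 2 X + 1 : ℕ) : ℝ) * (X : ℝ) ^ (1 - min ε 1)
        ≤ (K3 * (X : ℝ) ^ (min ε 1 / 2)) * (X : ℝ) ^ (1 - min ε 1) :=
          mul_le_mul_of_nonneg_right (hlog X (by omega)) (by positivity)
      _ = K3 * (X : ℝ) ^ (1 - min ε 1 / 2) := by
          rw [mul_assoc, ← Real.rpow_add (by linarith)]
          congr 2
          ring
      _ ≤ _ := mul_le_mul_of_nonneg_left (Real.rpow_le_rpow_of_exponent_le hXr.le
          (by linarith [min_le_right η0 (min ε 1 / 2)])) hK3.le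
  calc 4 * ((X : ℝ) ^ (1 - η0) + (Nat.log 2 X + 1 : ℕ) * (X : ℝ) ^ (1 - min ε 1))
      ≤ 4 * ((X : ℝ) ^ (1 - min η0 (min ε 1 / 2)) +
          K3 * (X : ℝ) ^ (1 - min η0 (min ε 1 / 2))) := by linarith
    _ = _ := by ring

end Vale.Agent.P018.Q
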