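import Mathlib
import Vale.Agent.P018.Q.FamDefs
import Vale.Agent.P018.Q.FamAux
import Vale.Agent.P018.Q.BAss

namespace Vale.Agent.P018.Q

open Polynomial NumberField

/-- Proof: `w = a/4`, `T = P^(1/4)`, `exists_dat`, `pairs_le` (Q/Data.lean); dyadic decomposition
`X' < n ≤ 2X'` (`X' ≥ X^(1-η)`; for these `log P / log X'` stays near `a`), so that
`X' ≤ C |N|` (`near_of_class`); `exists_rank2` (Q/Lattice.lean) for `z`, `|z_j| ≤ C X'/T²`;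
`all_pairsB`. -/
theorem famB (f : ℤ[X]) (hirr : Irreducible (f.map (Int.castRingHom ℚ))) (hd : f.natDegree = 4)
    (a : ℝ) (h1 : 1.3955 ≤ a) (h2 : a ≤ 1.51) : Near f a := by
  obtain ⟨L, _, _, θ, G, a0, C1, ha0, hGm, hGd, hGi, hθi, hθ, hdat⟩ := exists_dat f hirr hd
  obtain ⟨C2, hC2, hrank⟩ := exists_rank2
  have hG : QB.Root4 θ G := ⟨hGm, hGd, hGi, hθi, hθ⟩
  obtain ⟨C, hC⟩ : ∃ C : ℕ, C = C1 + 2 + ⌈C2 * (4 * (C1 : ℝ) ^ 2 + 1)⌉₊ := ⟨_, rfl⟩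
  have hCr : C2 * (4 * (C1 : ℝ) ^ 2 + 1) ≤ C := by
    have e1 := Nat.le_ceil (C2 * (4 * (C1 : ℝ) ^ 2 + 1))
    have e2 : (⌈C2 * (4 * (C1 : ℝ) ^ 2 + 1)⌉₊ : ℝ) ≤ C := by
      rw [hC]
      exact_mod_cast Nat.le_add_left _ _
    linarith
  have hC2r : (2 : ℝ) ≤ C := by
    rw [hC]
    push_cast
    have := Nat.cast_nonneg (α := ℝ) ⌈C2 * (4 * (C1 : ℝ) ^ 2 + 1)⌉₊
    have := Nat.cast_nonneg (α := ℝ) C1
    linarith
  obtain ⟨ε, hε, K, hK, hall⟩ := QB.all_pairsB θ G hG C (a / 4) (by linarith) (by linarith)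
  refine near_of_class f hirr hd a (by linarith) θ a0 C1 ha0 hdat ε hε K ?_
  intro X T S hKX hX1 hT1 _ hlo hhi hS
  refine hall X T S hKX hlo hhi fun N hN => ?_
  obtain ⟨p, c, y, z, hXN, hD⟩ := hS N hN
  have hz := fam_z_ne hθi hD
  obtain ⟨l1, l2, s, t, hred, hzst, hprod, hs, ht⟩ := hrank z hz
  have hXT : 0 < X / T ^ 2 := by positivity
  have hdot : (dot z z : ℝ) ≤ 4 * (C1 : ℝ) ^ 2 * (X / T ^ 2) ^ 2 := by
    have e1 := fam_dot_le z (C1 * X / T ^ 2) hD.hz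
    refine e1.trans (le_of_eq ?_)
    ring
  have hdot0 : (0 : ℝ) ≤ dot z z := by exact_mod_cast dot_nonneg z
  have hbd : C2 * (dot z z : ℝ) ≤ C * (X / T ^ 2) ^ 2 := by
    calc C2 * (dot z z : ℝ) ≤ C2 * (4 * (C1 : ℝ) ^ 2 * (X / T ^ 2) ^ 2) :=
          mul_le_mul_of_nonneg_left hdot (by linarith)
      _ ≤ (C2 * (4 * (C1 : ℝ) ^ 2 + 1)) * (X / T ^ 2) ^ 2 := by
          have : 0 ≤ C2 * (X / T ^ 2) ^ 2 := by positivity
          nlinarith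
      _ ≤ _ := mul_le_mul_of_nonneg_right hCr (by positivity)
  refine ⟨l1, l2, p, c, y, s, t, hred, ?_, ?_, ?_, ?_, ?_⟩
  · refine hprod.trans ?_
    have e1 : (dot z z : ℝ) ^ (2 / 3 : ℝ) ≤
        ((4 * (C1 : ℝ) ^ 2 + 1) * (X / T ^ 2) ^ 2) ^ (2 / 3 : ℝ) := by
      refine Real.rpow_le_rpow hdot0 ?_ (by norm_num)
      have : 0 ≤ (X / T ^ 2) ^ 2 := by positivity
      linarith
    have e2 : ((4 * (C1 : ℝ) ^ 2 + 1) * (X / T ^ 2) ^ 2) ^ (2 / 3 : ℝ) =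
        (4 * (C1 : ℝ) ^ 2 + 1) ^ (2 / 3 : ℝ) * (X / T ^ 2) ^ (4 / 3 : ℝ) := by
      rw [Real.mul_rpow (by positivity) (by positivity), ← Real.rpow_natCast (X / T ^ 2) 2,
        ← Real.rpow_mul hXT.le]
      norm_num
    have e3 : (4 * (C1 : ℝ) ^ 2 + 1) ^ (2 / 3 : ℝ) ≤ 4 * (C1 : ℝ) ^ 2 + 1 := by
      have h0 : (1 : ℝ) ≤ 4 * (C1 : ℝ) ^ 2 + 1 := by
        have : 0 ≤ (C1 : ℝ) ^ 2 := by positivity
        linarith
      calc (4 * (C1 : ℝ) ^ 2 + 1) ^ (2 / 3 : ℝ) ≤ (4 * (C1 : ℝ) ^ 2 + 1) ^ (1 : ℝ) :=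
            Real.rpow_le_rpow_of_exponent_le h0 (by norm_num)
        _ = _ := Real.rpow_one _
    calc C2 * (dot z z : ℝ) ^ (2 / 3 : ℝ)
        ≤ C2 * ((4 * (C1 : ℝ) ^ 2 + 1) * (X / T ^ 2) ^ (4 / 3 : ℝ)) := by
          refine mul_le_mul_of_nonneg_left ?_ (by linarith)
          rw [e2] at e1
          exact e1.trans (mul_le_mul_of_nonneg_right e3 (by positivity))
      _ = (C2 * (4 * (C1 : ℝ) ^ 2 + 1)) * (X / T ^ 2) ^ (4 / 3 : ℝ) := by ring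
      _ ≤ _ := mul_le_mul_of_nonneg_right hCr (by positivity)
  · rw [← hzst]
    exact fam_mono hD (by rw [hC]; omega) (by linarith) le_rfl (by linarith)
  · exact hXN.trans (mul_le_mul_of_nonneg_right hC2r (abs_nonneg _))
  · exact hs.trans hbd
  · exact ht.trans hbd

end Vale.Agent.P018.Q
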