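import Mathlib
import Vale.Agent.P018.Q.FamA
import Vale.Agent.P018.Q.FamB
import Vale.Agent.P018.Q.FamG

namespace Vale.Agent.P018.Q

open Polynomial Filter Topology Asymptotics Vale.Agent.P018.K

theorem near_all (f : ℤ[X]) (hirr : Irreducible (f.map (Int.castRingHom ℚ)))
    (hd : f.natDegree = 4) (a : ℝ) (h1 : 1 ≤ a) (h2 : a ≤ 2) : Near f a := by
  rcases le_total a 1.3955 with h | h
  · exact famA f hirr hd a h1 h
  rcases le_total a 1.51 with h' | h'
  · exact famB f hirr hd a h h'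
  · exact famG f hirr hd a (by linarith) h2

/-- compactness, as in `K.tail_of_adm`. -/
theorem tail_quartic (f : ℤ[X]) (hirr : Irreducible (f.map (Int.castRingHom ℚ)))
    (hd : f.natDegree = 4) :
    Tendsto (fun X : ℕ => (tail f 2 X : ℝ) / X) atTop (𝓝 0) := by
  -- compactness
  have hcomp : FinP f 2 (Set.Icc 1 2) := by
    refine isCompact_Icc.induction_on ?_ ?_ ?_ ?_
    · exact ⟨1, 1, one_pos, one_pos, 0, fun X P _ _ h => absurd h (Set.notMem_empty _)⟩
    · intro s t hst ht
      obtain ⟨η, K, hη, hK, X0, h⟩ := ht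
      exact ⟨η, K, hη, hK, X0, fun X P h1 h2 h3 => h X P h1 h2 (hst h3)⟩
    · intro s t hs ht
      exact fin_union f 2 hs ht
    · intro a ha
      obtain ⟨ε, hε, h⟩ := near_all f hirr hd a ha.1 ha.2
      exact ⟨_, mem_nhdsWithin_of_mem_nhds (Ioo_mem_nhds (by linarith) (by linarith)), h⟩
  obtain ⟨ε, hε, hend⟩ := near_all f hirr hd 2 (by norm_num) le_rfl
  obtain ⟨η, K, hη, hK, X1, hX1⟩ := fin_union f 2 hcomp hend
  refine tail_of_pairs f hirr 2 le_rfl (by omega) ?_
  intro A hA
  refine ⟨η, K, hη, hK, max (max X1 2) (⌈Real.exp (|Real.log A| / (2 * ε))⌉₊ + 1), ?_⟩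
  intro X P hX hXP hPA
  rw [hd] at hPA
  have h1 : X1 ≤ X := le_trans (le_trans (le_max_left _ _) (le_max_left _ _)) hX
  have h2 : 2 ≤ X := le_trans (le_trans (le_max_right _ _) (le_max_left _ _)) hX
  have h3 : ⌈Real.exp (|Real.log A| / (2 * ε))⌉₊ + 1 ≤ X := le_trans (le_max_right _ _) hX
  apply hX1 X P h1 hXP
  have hXr : (1 : ℝ) < X := by exact_mod_cast (show 1 < X by omega)
  have hXP' : (X : ℝ) ≤ P := by exact_mod_cast hXP
  have hPr : (0 : ℝ) < P := by linarith
  have hl : 0 < Real.log X := Real.log_pos hXr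
  have hlP : Real.log X ≤ Real.log P := Real.log_le_log (by linarith) hXP'
  have h4 : Real.exp (|Real.log A| / (2 * ε)) < X := by
    have h5 := Nat.le_ceil (Real.exp (|Real.log A| / (2 * ε)))
    have h6 : ((⌈Real.exp (|Real.log A| / (2 * ε))⌉₊ + 1 : ℕ) : ℝ) ≤ X := by exact_mod_cast h3
    push_cast at h6
    linarith
  have h7 : |Real.log A| / (2 * ε) < Real.log X := (Real.lt_log_iff_exp_lt (by linarith)).2 h4
  have h8 : |Real.log A| < 2 * ε * Real.log X := by
    rw [div_lt_iff₀ (by positivity)] at h7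
    linarith
  have h9 : 2 * Real.log P ≤ Real.log A + 4 * Real.log X := by
    have h10 := Real.log_le_log (by positivity) hPA
    rw [Real.log_pow, Real.log_mul hA.ne' (by positivity), Real.log_pow] at h10
    exact_mod_cast h10
  have hge : 1 ≤ Real.log P / Real.log X := by
    rw [le_div_iff₀ hl, one_mul]
    exact hlP
  by_cases hle : Real.log P / Real.log X ≤ 2
  · exact Or.inl ⟨hge, hle⟩
  · right
    push Not at hle
    refine ⟨by linarith, ?_⟩
    rw [div_lt_iff₀ hl]
    have h11 : Real.log A < 2 * ε * Real.log X := lt_of_le_of_lt (le_abs_self _) h8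
    have h13 : 2 * ((2 + ε) * Real.log X) = 4 * Real.log X + 2 * ε * Real.log X := by ring
    linarith

theorem main_quartic (f : ℤ[X]) (hirr : Irreducible (f.map (Int.castRingHom ℚ)))
    (hd : f.natDegree = 4) (hloc : ∀ p : ℕ, p.Prime → rho f (p ^ 2) < p ^ 2) :
    0 < density f 2 ∧
      (fun X : ℕ => (countPF f 2 X : ℝ) - density f 2 * X) =o[atTop] (fun X : ℕ => (X : ℝ)) :=
  sieve_main f 2 le_rfl hirr hloc (tail_quartic f hirr hd)

end Vale.Agent.P018.Q
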