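import Mathlib
import Vale.Agent.P018.Sieve
import Vale.Agent.P018.Q.GapParam
import Vale.Agent.P018.Q.PairDefs
import Vale.Agent.P018.Q.RelDiv
import Vale.Agent.P018.Q.KappaND

/-! # P018, quartics: arithmetic of a single point; two points with the same `σ`. -/

namespace Vale.Agent.P018.Q

open Polynomial NumberField Finset

variable {L : Type} [Field L] [NumberField L]

theorem Dat.C_pos {θ : Fin 4 → 𝓞 L} {C : ℕ} {X T : ℝ} {N : ℤ} {p : ℕ} {c : ℤ}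
    {y z : Fin 4 → ℤ} (hd : Dat θ C X T N p c y z) : 1 ≤ C := by
  have h1 := Int.one_le_abs hd.c0
  have h2 := hd.cC
  omega

theorem Dat.T_nonneg {θ : Fin 4 → 𝓞 L} {C : ℕ} {X T : ℝ} {N : ℤ} {p : ℕ} {c : ℤ}
    {y z : Fin 4 → ℤ} (hd : Dat θ C X T N p c y z) : 0 ≤ T := by
  have h1 : (0 : ℝ) ≤ C * T := (abs_nonneg _).trans (hd.hy 0)
  have h2 : (1 : ℝ) ≤ C := by exact_mod_cast hd.C_pos
  by_contra h
  push Not at h
  nlinarith

theorem Dat.C_lt {θ : Fin 4 → 𝓞 L} {C : ℕ} {X T : ℝ} {N : ℤ} {p : ℕ} {c : ℤ}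
    {y z : Fin 4 → ℤ} (hd : Dat θ C X T N p c y z) (h : (C : ℝ) < T ^ 4) : C < p := by
  have h1 := hd.lo
  exact_mod_cast h.trans_le h1

theorem not_dvd_small {p : ℕ} {C : ℕ} (hCp : C < p) {a : ℤ} (ha : a ≠ 0) (haC : |a| ≤ C) :
    ¬ (p : ℤ) ∣ a := by
  intro h
  have h1 := Int.le_of_dvd (abs_pos.2 ha) ((dvd_abs _ _).2 h)
  omega

/-- `p² ∣ G(N)`. -/
theorem Dat.sq_dvd {G : ℤ[X]} {θ : Fin 4 → 𝓞 L} (hF : Fld G θ) {C : ℕ} {X T : ℝ} {N : ℤ} {p : ℕ}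
    {c : ℤ} {y z : Fin 4 → ℤ} (hd : Dat θ C X T N p c y z) (hCp : C < p) :
    (p : ℤ) ^ 2 ∣ G.eval N := by
  obtain ⟨c', hc'0, hc'C, hc'⟩ := hd.nrm
  have h1 : ∏ i, ((N : 𝓞 L) - θ i) = ((G.eval N : ℤ) : 𝓞 L) := by
    have h2 : (G.map (algebraMap ℤ (𝓞 L))).eval (N : 𝓞 L) = ∏ i, ((N : 𝓞 L) - θ i) := by
      rw [hF.split, eval_prod]
      simp
    rw [← h2]
    simp
  have h3 : (c : 𝓞 L) ^ 4 * ((G.eval N : ℤ) : 𝓞 L) =
      (((p : ℤ) * c' : ℤ) : 𝓞 L) ^ 2 * ∏ i, K.ell (θ i) z := by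
    rw [← h1, ← hc']
    have h4 : ∏ i : Fin 4, ((c : 𝓞 L) * ((N : 𝓞 L) - θ i)) =
        ∏ i, (K.ell (θ i) y ^ 2 * K.ell (θ i) z) := Finset.prod_congr rfl fun i _ => hd.eqn i
    rw [Finset.prod_mul_distrib, Finset.prod_mul_distrib, Finset.prod_const, Finset.card_univ,
      Fintype.card_fin, Finset.prod_pow] at h4
    exact h4
  have h5 : (((p : ℤ) ^ 2 : ℤ) : 𝓞 L) ∣ ((c ^ 4 * G.eval N : ℤ) : 𝓞 L) := by
    refine ⟨(c' : 𝓞 L) ^ 2 * ∏ i, K.ell (θ i) z, ?_⟩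
    push_cast at h3 ⊢
    rw [h3]
    ring
  have h6 := rd_int L h5
  have h7 : IsCoprime ((p : ℤ) ^ 2) (c ^ 4) := by
    refine IsCoprime.pow (rd_cop hd.prime hd.c0 ?_)
    have := hd.cC
    omega
  exact h7.dvd_of_dvd_mul_left h6

/-- `p` does not divide the content of `y`. -/
theorem Dat.not_dvd {θ : Fin 4 → 𝓞 L} {C : ℕ} {X T : ℝ} {N : ℤ} {p : ℕ}
    {c : ℤ} {y z : Fin 4 → ℤ} (hd : Dat θ C X T N p c y z) (hCp : C < p) {g : ℤ}
    {y0 : Fin 4 → ℤ} (hg : y = g • y0) : ¬ (p : ℤ) ∣ g := by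
  intro hpg
  obtain ⟨c', hc'0, hc'C, hc'⟩ := hd.nrm
  have h1 : ∀ i, K.ell (θ i) y = (g : 𝓞 L) * K.ell (θ i) y0 := by
    intro i
    rw [hg]
    have := ell_lin (θ i) g 0 y0 0
    rw [zero_smul, add_zero, Int.cast_zero, zero_mul, add_zero] at this
    exact this
  have h2 : ((g ^ 4 : ℤ) : 𝓞 L) ∣ (((p : ℤ) * c' : ℤ) : 𝓞 L) := by
    refine ⟨∏ i, K.ell (θ i) y0, ?_⟩
    rw [← hc', Finset.prod_congr rfl fun i _ => h1 i, Finset.prod_mul_distrib, Finset.prod_const,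
      Finset.card_univ, Fintype.card_fin]
    push_cast
    ring
  have h3 := rd_int L h2
  have h4 : (p : ℤ) ^ 4 ∣ (p : ℤ) * c' := (pow_dvd_pow_of_dvd hpg 4).trans h3
  have hp0 : (p : ℤ) ≠ 0 := by exact_mod_cast hd.prime.ne_zero
  have h5 : (p : ℤ) ^ 3 ∣ c' := by
    rw [pow_succ' (p : ℤ) 3] at h4
    exact (mul_dvd_mul_iff_left hp0).1 h4
  exact not_dvd_small hCp hc'0 hc'C ((dvd_pow_self (p : ℤ) (by norm_num)).trans h5)

theorem exists_prime_above {p : ℕ} (hp : p.Prime) : ∃ P : Ideal (𝓞 L), P.IsPrime ∧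
    ((p : ℤ) : 𝓞 L) ∈ P ∧ ∀ n : ℤ, (n : 𝓞 L) ∈ P → (p : ℤ) ∣ n := by
  have h1 : Ideal.span {((p : ℤ) : 𝓞 L)} ≠ ⊤ := by
    intro h
    rw [Ideal.span_singleton_eq_top] at h
    have h2 : ((p : ℤ) : 𝓞 L) ∣ ((1 : ℤ) : 𝓞 L) := by
      rw [Int.cast_one]
      exact h.dvd
    have h3 := rd_int L h2
    have h4 := Int.le_of_dvd one_pos h3
    have h5 := hp.two_le
    omega
  obtain ⟨P, hP, hle⟩ := Ideal.exists_le_maximal _ h1
  have hpP : ((p : ℤ) : 𝓞 L) ∈ P := hle (Ideal.mem_span_singleton_self _)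
  refine ⟨P, hP.isPrime, hpP, fun n hn => ?_⟩
  by_contra hpn
  have h2 : IsCoprime (p : ℤ) n :=
    (Nat.prime_iff_prime_int.1 hp).irreducible.coprime_iff_not_dvd.2 hpn
  obtain ⟨a, b, hab⟩ := h2
  refine hP.ne_top ((Ideal.eq_top_iff_one P).2 ?_)
  have h3 : ((a * p + b * n : ℤ) : 𝓞 L) = 1 := by rw [hab, Int.cast_one]
  rw [← h3]
  push_cast
  push_cast at hpP
  exact P.add_mem (P.mul_mem_left _ hpP) (P.mul_mem_left _ hn)

/-- two points with the same `σ = s / t` are equal. -/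
theorem pt_unique' {G : ℤ[X]} {θ : Fin 4 → 𝓞 L} (hF : Fld G θ) (C : ℕ) :
    ∃ K : ℝ, ∀ (X T : ℝ) (l1 l2 : Fin 4 → ℤ) (N N' : ℤ) (p p' : ℕ) (c c' : ℤ) (z z' : Fin 4 → ℤ)
      (s t s' t' : ℤ), K ≤ X → X ≤ T ^ 4 → Pt θ C X T l1 l2 N p c z s t →
      Pt θ C X T l1 l2 N' p' c' z' s' t' → s * t' = s' * t → N = N' := by
  obtain ⟨u, v, R, hR0, hR⟩ := sv_bezout G hF.irr
  refine ⟨2 * C + 1 + |(R : ℝ)|, ?_⟩
  intro X T l1 l2 N N' p p' c c' z z' s t s' t' hK hXT hP hP' hst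
  have hRn : (0 : ℝ) ≤ |(R : ℝ)| := abs_nonneg _
  have hC0 : (0 : ℝ) ≤ C := Nat.cast_nonneg C
  have hCp : C < p := hP.dat.C_lt (by linarith)
  have hCp' : C < p' := hP'.dat.C_lt (by linarith)
  have hpP := hP.dat.prime
  have hpP' := hP'.dat.prime
  have hpp := Nat.prime_iff_prime_int.1 hpP
  obtain ⟨c1, hc10, hc1C, hc1⟩ := hP.dat.nrm
  obtain ⟨c1', hc10', hc1C', hc1'⟩ := hP'.dat.nrm
  -- proportionality
  set g : ℤ := (Int.gcd s t : ℤ) with hg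
  obtain ⟨s0, hs0⟩ : g ∣ s := Int.gcd_dvd_left s t
  obtain ⟨t0, ht0⟩ : g ∣ t := Int.gcd_dvd_right s t
  have hpg : ¬ (p : ℤ) ∣ g := by
    refine hP.dat.not_dvd hCp (y0 := s0 • l1 + t0 • l2) ?_
    rw [smul_add, smul_smul, smul_smul, ← hs0, ← ht0]
  obtain ⟨m, hm1, hm2⟩ : ∃ m : ℤ, g * s' = m * s ∧ g * t' = m * t := by
    have hb : g = s * Int.gcdA s t + t * Int.gcdB s t := Int.gcd_eq_gcd_ab s t
    refine ⟨s' * Int.gcdA s t + t' * Int.gcdB s t, ?_, ?_⟩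
    · rw [hb]
      linear_combination (-Int.gcdB s t) * hst
    · rw [hb]
      linear_combination (Int.gcdA s t) * hst
  have hell : ∀ i, (g : 𝓞 L) * K.ell (θ i) (s' • l1 + t' • l2) =
      (m : 𝓞 L) * K.ell (θ i) (s • l1 + t • l2) := by
    intro i
    rw [ell_lin, ell_lin]
    have e1 : (g : 𝓞 L) * s' = m * s := by exact_mod_cast congrArg (Int.cast : ℤ → 𝓞 L) hm1
    have e2 : (g : 𝓞 L) * t' = m * t := by exact_mod_cast congrArg (Int.cast : ℤ → 𝓞 L) hm2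
    linear_combination K.ell (θ i) l1 * e1 + K.ell (θ i) l2 * e2
  -- the primes are equal
  have hpeq : p = p' := by
    have h1 : (g : 𝓞 L) ^ 4 * (((p' : ℤ) * c1' : ℤ) : 𝓞 L) =
        (m : 𝓞 L) ^ 4 * (((p : ℤ) * c1 : ℤ) : 𝓞 L) := by
      rw [← hc1, ← hc1']
      have h4 : ∏ i : Fin 4, ((g : 𝓞 L) * K.ell (θ i) (s' • l1 + t' • l2)) =
          ∏ i : Fin 4, ((m : 𝓞 L) * K.ell (θ i) (s • l1 + t • l2)) :=
        Finset.prod_congr rfl fun i _ => hell i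
      rw [Finset.prod_mul_distrib, Finset.prod_mul_distrib, Finset.prod_const, Finset.prod_const,
        Finset.card_univ, Fintype.card_fin] at h4
      exact h4
    have h2 : g ^ 4 * (p' * c1') = m ^ 4 * (p * c1) := by exact_mod_cast h1
    have h3 : (p : ℤ) ∣ g ^ 4 * (p' * c1') := by
      rw [h2]
      exact ⟨m ^ 4 * c1, by ring⟩
    rcases hpp.dvd_or_dvd h3 with h | h
    · exact absurd (hpp.dvd_of_dvd_pow h) hpg
    · rcases hpp.dvd_or_dvd h with h | h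
      · have h5 : p ∣ p' := by exact_mod_cast h
        exact (Nat.prime_dvd_prime_iff_eq hpP hpP').1 h5
      · exact absurd h (not_dvd_small hCp hc10' hc1C')
  subst hpeq
  -- a prime ideal
  obtain ⟨P, hPp, hpmem, hPint⟩ := exists_prime_above (L := L) hpP
  obtain ⟨j, hj⟩ : ∃ j, K.ell (θ j) (s • l1 + t • l2) ∈ P := by
    have h1 : ∏ i, K.ell (θ i) (s • l1 + t • l2) ∈ P := by
      rw [hc1, Int.cast_mul]
      exact P.mul_mem_right _ hpmem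
    obtain ⟨j, -, hj⟩ := (Ideal.IsPrime.prod_mem_iff (hp := hPp)).1 h1
    exact ⟨j, hj⟩
  have hj' : K.ell (θ j) (s' • l1 + t' • l2) ∈ P := by
    have h1 : (g : 𝓞 L) * K.ell (θ j) (s' • l1 + t' • l2) ∈ P := by
      rw [hell]
      exact P.mul_mem_left _ hj
    rcases hPp.mem_or_mem h1 with h | h
    · exact absurd (hPint g h) hpg
    · exact h
  have hNj : (N : 𝓞 L) - θ j ∈ P := by
    have h1 : (c : 𝓞 L) * ((N : 𝓞 L) - θ j) ∈ P := by
      rw [hP.dat.eqn j, sq, mul_assoc]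
      exact P.mul_mem_right _ hj
    rcases hPp.mem_or_mem h1 with h | h
    · exact absurd (hPint c h) (not_dvd_small hCp hP.dat.c0 hP.dat.cC)
    · exact h
  have hNj' : (N' : 𝓞 L) - θ j ∈ P := by
    have h1 : (c' : 𝓞 L) * ((N' : 𝓞 L) - θ j) ∈ P := by
      rw [hP'.dat.eqn j, sq, mul_assoc]
      exact P.mul_mem_right _ hj'
    rcases hPp.mem_or_mem h1 with h | h
    · exact absurd (hPint c' h) (not_dvd_small hCp hP'.dat.c0 hP'.dat.cC)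
    · exact h
  have hpN : (p : ℤ) ∣ N' - N := by
    refine hPint _ ?_
    have h1 := P.sub_mem hNj' hNj
    have h2 : ((N' - N : ℤ) : 𝓞 L) = (N' : 𝓞 L) - θ j - ((N : 𝓞 L) - θ j) := by
      push_cast
      ring
    rw [h2]
    exact h1
  -- Hensel
  have hsq := hP.dat.sq_dvd hF hCp
  have hsq' := hP'.dat.sq_dvd hF hCp
  have hder : ¬ (p : ℤ) ∣ (derivative G).eval N := by
    intro h
    have h1 := congrArg (Polynomial.eval N) hR
    rw [eval_add, eval_mul, eval_mul, eval_C] at h1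
    have h2 : (p : ℤ) ∣ G.eval N := (dvd_pow_self (p : ℤ) (by norm_num : 2 ≠ 0)).trans hsq
    have h3 : (p : ℤ) ∣ R := by
      rw [← h1]
      exact dvd_add (Dvd.dvd.mul_left h2 _) (Dvd.dvd.mul_left h _)
    have h4 := Int.le_of_dvd (abs_pos.2 hR0) ((dvd_abs _ _).2 h3)
    have h5 : (p : ℝ) ≤ |(R : ℝ)| := by exact_mod_cast h4
    have h6 := hP.dat.lo
    linarith
  have hp2 : (p : ℤ) ^ 2 ∣ N' - N := by
    obtain ⟨q, hq⟩ := Polynomial.binomExpansion G N (N' - N)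
    rw [add_sub_cancel] at hq
    obtain ⟨w, hw⟩ := hpN
    have h1 : (p : ℤ) ^ 2 ∣ (derivative G).eval N * (N' - N) := by
      have h2 : (derivative G).eval N * (N' - N) = G.eval N' - G.eval N - q * (N' - N) ^ 2 := by
        rw [hq]; ring
      rw [h2]
      refine dvd_sub (dvd_sub hsq' hsq) ?_
      rw [hw]
      exact ⟨q * w ^ 2, by ring⟩
    refine IsCoprime.dvd_of_dvd_mul_left ?_ h1
    exact (hpp.irreducible.coprime_iff_not_dvd.2 hder).pow_left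
  -- size
  by_contra hne
  have h1 : N' - N ≠ 0 := fun h => hne (by omega)
  have h2 := Int.le_of_dvd (abs_pos.2 h1) ((dvd_abs _ _).2 hp2)
  have h3 : (p : ℝ) ^ 2 ≤ |(N' : ℝ) - N| := by exact_mod_cast h2
  have h4 : |(N' : ℝ) - N| ≤ 2 * (C * X) := by
    refine (abs_sub _ _).trans ?_
    have := hP.dat.hN
    have := hP'.dat.hN
    linarith
  have h5 := hP.dat.lo
  have h6 : X ≤ p := hXT.trans h5
  have hX0 : 0 < X := by linarith
  nlinarith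

end Vale.Agent.P018.Q
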