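import Vale.Agent.P018.Q.Final
import Vale.Agent.P018.K3.All

/-! # P018: all ranges together. -/

namespace Vale.Agent.P018.Q

open Polynomial Filter Topology Asymptotics

theorem main_all (f : ℤ[X]) (k : ℕ) (hk : 2 ≤ k)
    (hirr : Irreducible (f.map (Int.castRingHom ℚ)))
    (hloc : ∀ p : ℕ, p.Prime → rho f (p ^ k) < p ^ k)
    (hr : f.natDegree ≤ 4 ∨ f.natDegree < 2 * k ∨ 2 * f.natDegree + 12 ≤ 7 * k ∨
      (f.natDegree : ℝ) / 4 + Real.log f.natDegree ^ 2 ≤ k) :
    0 < density f k ∧
    (fun X : ℕ => (countPF f k X : ℝ) - density f k * X) =o[atTop] (fun X : ℕ => (X : ℝ)) := by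
  rcases hr with h | h
  · rcases lt_or_ge f.natDegree (2 * k) with h1 | h1
    · exact K3.main_stair f k hk hirr hloc (Or.inl h1)
    · obtain rfl : k = 2 := by omega
      exact main_quartic f hirr (by omega) hloc
  · exact K3.main_stair f k hk hirr hloc h

end Vale.Agent.P018.Q
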