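import Mathlib
import Vale.Agent.P018.Q.PairCurve
import Vale.Agent.P018.Q.Swap

/-! # P018, quartics, family (A): combinatorial core of the local count. -/

namespace Vale.Agent.P018.Q

open Polynomial NumberField Finset

/-- an admissible curve. -/
def COK (Dg C2 H : ℕ) (g : ℤ[X][X]) : Prop :=
  Irreducible (g.map (mapRingHom (Int.castRingHom ℚ))) ∧ BiDeg Dg Dg g ∧
    ∀ i j, |(g.coeff i).coeff j| ≤ (H : ℤ) ^ C2

/-- the quantity whose prime divisors are bad. -/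
noncomputable def badW (A : Fin 2 → ℤ[X]) (s t kn kd : ℤ) : ℤ :=
  t * kd * (kd * hom 5 (A 0) s t + kn * hom 5 (A 1) s t)

/-- the product of the primes of `I`. -/
def qI {M : ℕ} (ℓ : Fin M → ℕ) (I : Finset (Fin M)) : ℕ := ∏ i ∈ I, ℓ i

theorem fermat_prod {M : ℕ} {ℓ : Fin M → ℕ} (hinj : Function.Injective ℓ)
    (hℓ : ∀ i, (ℓ i).Prime) (s t : ℤ) (I : Finset (Fin M)) (ht : ∀ i ∈ I, ¬ (ℓ i : ℤ) ∣ t) :
    IsCoprime t (qI ℓ I : ℤ) ∧
      (qI ℓ I : ℤ) ∣ s - (s * t ^ (∏ i : Fin M, (ℓ i - 1) - 1)) % (qI ℓ I : ℤ) * t := by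
  have hcop : ∀ i ∈ I, IsCoprime t (ℓ i : ℤ) := by
    intro i hi
    rw [Int.isCoprime_iff_gcd_eq_one, Int.gcd_comm, ← Int.isCoprime_iff_gcd_eq_one]
    exact (Nat.prime_iff_prime_int.1 (hℓ i)).coprime_iff_not_dvd.2 (ht i hi)
  have hE : 0 < ∏ i : Fin M, (ℓ i - 1) := by
    refine Finset.prod_pos fun i _ => ?_
    have := (hℓ i).two_le
    omega
  constructor
  · unfold qI
    push_cast
    exact IsCoprime.prod_right hcop
  · have h1 : (qI ℓ I : ℤ) ∣ 1 - t ^ (∏ i : Fin M, (ℓ i - 1)) := by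
      unfold qI
      push_cast
      refine Finset.prod_dvd_of_coprime ?_ ?_
      · intro i hi j hj hij
        show IsCoprime (ℓ i : ℤ) (ℓ j : ℤ)
        rw [Nat.isCoprime_iff_coprime, Nat.coprime_primes (hℓ i) (hℓ j)]
        exact fun h => hij (hinj h)
      · intro i hi
        have h2 := Int.ModEq.pow_card_sub_one_eq_one (hℓ i) (hcop i hi)
        obtain ⟨e, he⟩ : (ℓ i - 1) ∣ ∏ i : Fin M, (ℓ i - 1) :=
          Finset.dvd_prod_of_mem _ (Finset.mem_univ i)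
        rw [he, pow_mul]
        have h3 := (h2.pow e).symm.dvd
        rw [one_pow] at h3
        have h4 : (1 : ℤ) - (t ^ (ℓ i - 1)) ^ e = -((t ^ (ℓ i - 1)) ^ e - 1) := by ring
        rw [h4, dvd_neg]
        exact h3
    have h2 : (qI ℓ I : ℤ) ∣ s * t ^ (∏ i : Fin M, (ℓ i - 1) - 1) -
        (s * t ^ (∏ i : Fin M, (ℓ i - 1) - 1)) % (qI ℓ I : ℤ) := Int.dvd_self_sub_emod
    have h3 : s - (s * t ^ (∏ i : Fin M, (ℓ i - 1) - 1)) % (qI ℓ I : ℤ) * t =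
        s * (1 - t ^ (∏ i : Fin M, (ℓ i - 1))) + (s * t ^ (∏ i : Fin M, (ℓ i - 1) - 1) -
          (s * t ^ (∏ i : Fin M, (ℓ i - 1) - 1)) % (qI ℓ I : ℤ)) * t := by
      have : t ^ (∏ i : Fin M, (ℓ i - 1)) = t ^ (∏ i : Fin M, (ℓ i - 1) - 1) * t := by
        rw [← pow_succ]; congr 1; omega
      rw [this]
      ring
    rw [h3]
    exact dvd_add (h1.mul_left _) (h2.mul_right _)

theorem ev_assoc {g g' : ℚ[X][X]} (h : Associated g g') {κ σ : ℚ} (hg : ev g κ σ = 0) :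
    ev g' κ σ = 0 := by
  obtain ⟨u, rfl⟩ := h
  unfold ev at hg ⊢
  rw [Polynomial.map_mul, eval_mul, hg, zero_mul]

/-- `N` is determined by `(κ, σ)`. -/
theorem KP_unique {A B : Fin 2 → ℤ[X]} {Z : Fin 2 → Fin 4 → ℤ[X]}
    {N N' c c' s t kn kd s' t' kn' kd' : ℤ} {z z' : Fin 4 → ℤ} (h : KP A B Z N c s t kn kd z)
    (h' : KP A B Z N' c' s' t' kn' kd' z') (e1 : (kn : ℚ) / kd = kn' / kd')
    (e2 : (s : ℚ) / t = s' / t') : N = N' := by
  have k0 : (kd : ℚ) ≠ 0 := by exact_mod_cast h.k0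
  have k0' : (kd' : ℚ) ≠ 0 := by exact_mod_cast h'.k0
  have hd := h.den
  have hN := h.eqN
  have hN' := h'.eqN
  rw [e2] at hd hN
  have hk : (kn : ℚ) * kd' = kn' * kd := by
    rw [div_eq_div_iff k0 k0'] at e1
    exact e1
  have h1 : (kd * aeval ((s' : ℚ) / t') (A 0) + kn * aeval ((s' : ℚ) / t') (A 1)) *
      ((N : ℚ) - N') = 0 := by
    apply mul_left_cancel₀ k0'
    linear_combination (kd' : ℚ) * hN - (kd : ℚ) * hN' +
      (aeval ((s' : ℚ) / t') (B 1) - aeval ((s' : ℚ) / t') (A 1) * (N' : ℚ)) * hk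
  have h2 := (mul_eq_zero.1 h1).resolve_left hd
  have h3 : (N : ℚ) = N' := sub_eq_zero.1 h2
  exact_mod_cast h3

/-- the local count with all bounds as parameters. -/
theorem loc_core (Dg C2 : ℕ) : ∃ Bz : ℕ, ∀ (M m r C6 H b Q Kc : ℕ) (ℓ : Fin M → ℕ)
    (A B : Fin 2 → ℤ[X]) (Z : Fin 2 → Fin 4 → ℤ[X]) (S : Finset ℤ)
    (c s t kn kd : ℤ → ℤ) (z : ℤ → Fin 4 → ℤ),
    Function.Injective ℓ → (∀ i, (ℓ i).Prime ∧ b < ℓ i) → 2 ≤ H → H ^ C6 < b ^ (r + 1) →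
    m + 1 + 2 * r ≤ M →
    (∀ N ∈ S, KP A B Z N (c N) (s N) (t N) (kn N) (kd N) (z N)) →
    (∀ N ∈ S, badW A (s N) (t N) (kn N) (kd N) ≠ 0) →
    (∀ N ∈ S, |badW A (s N) (t N) (kn N) (kd N)| ≤ (H : ℤ) ^ C6) →
    (∀ J : Finset (Fin M), J.card ≤ m + 1 → qI ℓ J ≤ Q) →
    (∀ I : Finset (Fin M), I.card = m → ∀ σ0 : ℤ, ∃ Cv : Finset (ℤ[X][X]), Cv.card ≤ C2 ∧
      (∀ g ∈ Cv, COK Dg C2 H g) ∧
      ∀ N ∈ S, IsCoprime (t N) (qI ℓ I : ℤ) → (qI ℓ I : ℤ) ∣ s N - σ0 * t N →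
        ∃ g ∈ Cv, ev (g.map (mapRingHom (Int.castRingHom ℚ))) ((kn N : ℚ) / kd N)
          ((s N : ℚ) / t N) = 0) →
    (∀ g, COK Dg C2 H g → ∀ N ∈ S, |dnum Dg g (kn N) (kd N) (s N) (t N)| ≤ (H : ℤ) ^ C6) →
    (∀ (I : Finset (Fin M)) (x0 : ℤ) (g : ℤ[X][X]) (S' : Finset ℤ), S' ⊆ S → I.card = m →
      COK Dg C2 H g →
      (∀ N ∈ S', ev (g.map (mapRingHom (Int.castRingHom ℚ))) ((kn N : ℚ) / kd N)
          ((s N : ℚ) / t N) = 0 ∧ (qI ℓ I : ℤ) ∣ s N - x0 * t N ∧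
        (∀ i ∈ I, ¬ (ℓ i : ℤ) ∣ badW A (s N) (t N) (kn N) (kd N)) ∧
        (dnum Dg g (kn N) (kd N) (s N) (t N) = 0 ∨
          ∀ i ∈ I, ¬ (ℓ i : ℤ) ∣ dnum Dg g (kn N) (kd N) (s N) (t N))) →
      S'.card ≤ Kc) →
    S.card ≤ 4 ^ M * (Q * (C2 * C2 * Bz)) + 2 ^ M * (Q * (C2 * Kc)) := by
  classical
  obtain ⟨Bz, hBz⟩ := bezout2 Dg Dg
  obtain ⟨nf, hnf⟩ := factor_normal
  refine ⟨Bz, ?_⟩
  intro M m r C6 H b Q Kc ℓ A B Z S c s t kn kd z hinj hℓ hH hHb hM hKP hW0 hWH hq hcv hdn hcc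
  have hr : ∀ n : ℤ, n ≠ 0 → |n| ≤ (H : ℤ) ^ C6 →
      (univ.filter (fun i => ((ℓ i : ℤ)) ∣ n)).card ≤ r := fun n hn hnC =>
    few_bad_primes M C6 r H b n ℓ hinj hℓ hH hn hnC hHb
  have hdvd : ∀ I J : Finset (Fin M), I ⊆ J → (qI ℓ I : ℤ) ∣ (qI ℓ J : ℤ) := by
    intro I J hIJ
    exact_mod_cast Finset.prod_dvd_prod_of_subset I J ℓ hIJ
  have hqpos : ∀ I : Finset (Fin M), 0 < qI ℓ I := fun I =>
    Finset.prod_pos fun i _ => (hℓ i).1.pos
  choose CV hCV1 hCV2 hCV3 using hcv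
  obtain ⟨κ, hκ⟩ : ∃ κ : ℤ → ℚ, κ = fun N => (kn N : ℚ) / kd N := ⟨_, rfl⟩
  obtain ⟨σ, hσ⟩ : ∃ σ : ℤ → ℚ, σ = fun N => (s N : ℚ) / t N := ⟨_, rfl⟩
  obtain ⟨x, hx⟩ : ∃ x : ℤ → ℤ, x = fun N => s N * (t N) ^ (∏ i : Fin M, (ℓ i - 1) - 1) :=
    ⟨_, rfl⟩
  obtain ⟨good, hgd⟩ : ∃ good : ℤ → Finset (Fin M), good = fun N =>
    univ.filter (fun i => ¬ (ℓ i : ℤ) ∣ badW A (s N) (t N) (kn N) (kd N)) := ⟨_, rfl⟩
  obtain ⟨cl, hcl⟩ : ∃ cl : Finset (Fin M) → ℤ → ℤ, cl = fun I N => x N % (qI ℓ I : ℤ) :=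
    ⟨_, rfl⟩
  obtain ⟨F, hF⟩ : ∃ F : Finset (Fin M) → ℤ → Finset (ℤ[X][X]), F = fun I c =>
    if h : I.card = m then (CV I h c).image nf else ∅ := ⟨_, rfl⟩
  obtain ⟨inc, hinc⟩ : ∃ inc : ℤ → ℤ[X][X] → Prop, inc = fun N γ =>
    ∃ g, nf g = γ ∧ COK Dg C2 H g ∧
      ev (g.map (mapRingHom (Int.castRingHom ℚ))) (κ N) (σ N) = 0 := ⟨_, rfl⟩
  have hgcard : ∀ N ∈ S, m + 1 + r ≤ (good N).card := by
    intro N hN
    have h1 := hr _ (hW0 N hN) (hWH N hN)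
    have h2 := Finset.card_filter_add_card_filter_not (s := (univ : Finset (Fin M)))
      (fun i => ((ℓ i : ℤ)) ∣ badW A (s N) (t N) (kn N) (kd N))
    rw [Finset.card_univ, Fintype.card_fin] at h2
    simp only [hgd]
    omega
  have hcls : ∀ N ∈ S, ∀ I ⊆ good N, IsCoprime (t N) (qI ℓ I : ℤ) ∧
      (qI ℓ I : ℤ) ∣ s N - cl I N * t N := by
    intro N _ I hI
    rw [hcl, hx]
    refine fermat_prod hinj (fun i => (hℓ i).1) (s N) (t N) I fun i hi hd => ?_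
    have h1 := hI hi
    rw [hgd, Finset.mem_filter] at h1
    exact h1.2 ((hd.mul_right _).mul_right _)
  have hassoc : ∀ g g', COK Dg C2 H g → COK Dg C2 H g' → nf g = nf g' → ∀ N,
      ev (g.map (mapRingHom (Int.castRingHom ℚ))) (κ N) (σ N) = 0 →
      ev (g'.map (mapRingHom (Int.castRingHom ℚ))) (κ N) (σ N) = 0 := by
    intro g g' h1 h2 h3 N h4
    exact ev_assoc ((hnf g g' h1.1 h2.1).2 h3) h4
  have sw1 : ∀ P ∈ S, m + 1 ≤ (good P).card := by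
    intro N hN
    have := hgcard N hN
    omega
  have sw2 : ∀ (I J : Finset (Fin M)) (P P' : ℤ), I ⊆ J → cl J P = cl J P' →
      cl I P = cl I P' := by
    intro I J P P' hIJ h
    rw [hcl] at h ⊢
    have h1 : x P ≡ x P' [ZMOD (qI ℓ J : ℤ)] := h
    exact h1.of_dvd (hdvd I J hIJ)
  have sw3 : ∀ J : Finset (Fin M), J.card = m + 1 →
      ((S.filter (fun P => J ⊆ good P)).image (cl J)).card ≤ Q := by
    intro J hJ
    have h1 : (S.filter (fun P => J ⊆ good P)).image (cl J) ⊆ Finset.Ico 0 (qI ℓ J : ℤ) := by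
      intro y hy
      obtain ⟨N, _, rfl⟩ := Finset.mem_image.1 hy
      rw [hcl, Finset.mem_Ico]
      have hp : (0 : ℤ) < (qI ℓ J : ℤ) := by exact_mod_cast hqpos J
      exact ⟨Int.emod_nonneg _ hp.ne', Int.emod_lt_of_pos _ hp⟩
    refine (Finset.card_le_card h1).trans ?_
    rw [Int.card_Ico, sub_zero, Int.toNat_natCast]
    exact hq J hJ.le
  have sw4 : ∀ (I : Finset (Fin M)) (c : ℤ), (F I c).card ≤ C2 := by
    intro I c
    rw [hF]
    dsimp only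
    split_ifs with h
    · exact Finset.card_image_le.trans (hCV1 I h c)
    · simp
  have sw5 : ∀ P ∈ S, ∀ I ⊆ good P, I.card = m → ∃ γ ∈ F I (cl I P), inc P γ := by
    intro N hN I hI hIm
    obtain ⟨h1, h2⟩ := hcls N hN I hI
    obtain ⟨g, hg, hg0⟩ := hCV3 I hIm (cl I N) N hN h1 h2
    refine ⟨nf g, ?_, ?_⟩
    · rw [hF]
      dsimp only
      rw [dif_pos hIm]
      exact Finset.mem_image_of_mem _ hg
    · rw [hinc]
      refine ⟨g, rfl, hCV2 I hIm (cl I N) g hg, ?_⟩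
      rw [hκ, hσ]
      exact hg0
  have sw6 : ∀ γ γ' : ℤ[X][X], γ ≠ γ' → ∀ S' ⊆ S, (∀ P ∈ S', inc P γ ∧ inc P γ') →
      S'.card ≤ Bz := by
    intro γ γ' hne S' hS' hSi
    rcases S'.eq_empty_or_nonempty with rfl | ⟨N0, hN0⟩
    · simp
    obtain ⟨h1, h2⟩ := hSi N0 hN0
    rw [hinc] at h1 h2
    obtain ⟨g, hgγ, hg, _⟩ := h1
    obtain ⟨g', hgγ', hg', _⟩ := h2
    have hnd : ¬ g.map (mapRingHom (Int.castRingHom ℚ)) ∣
        g'.map (mapRingHom (Int.castRingHom ℚ)) := by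
      intro hd
      apply hne
      rw [← hgγ, ← hgγ', ← hnf g g' hg.1 hg'.1]
      exact hg.1.associated_of_dvd hg'.1 hd
    have hinjS : Set.InjOn (fun N => (κ N, σ N)) (S' : Set ℤ) := by
      intro N hN N' hN' h
      rw [Prod.mk.injEq, hκ, hσ] at h
      exact KP_unique (hKP N (hS' hN)) (hKP N' (hS' hN')) h.1 h.2
    rw [← Finset.card_image_of_injOn hinjS]
    have hbd : ∀ g : ℤ[X][X], BiDeg Dg Dg g →
        BiDeg Dg Dg (g.map (mapRingHom (Int.castRingHom ℚ))) := by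
      intro g hg
      refine ⟨natDegree_map_le.trans hg.1, fun i => ?_⟩
      rw [coeff_map]
      exact natDegree_map_le.trans (hg.2 i)
    refine hBz _ _ hg.1 hnd (hbd g hg.2.1) (hbd g' hg'.2.1) _ ?_
    intro y hy
    obtain ⟨N, hN, rfl⟩ := Finset.mem_image.1 hy
    obtain ⟨h1, h2⟩ := hSi N hN
    rw [hinc] at h1 h2
    obtain ⟨g1, hg1γ, hg1, hg10⟩ := h1
    obtain ⟨g2, hg2γ, hg2, hg20⟩ := h2
    exact ⟨hassoc g1 g hg1 hg (hg1γ.trans hgγ.symm) N hg10,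
      hassoc g2 g' hg2 hg' (hg2γ.trans hgγ'.symm) N hg20⟩
  obtain ⟨E, hES, hEc, hE⟩ := swap M m C2 Bz Q S good cl inc F sw1 sw2 sw3 sw4 sw5 sw6
  -- the remaining points
  obtain ⟨rep, hrep⟩ : ∃ rep : ℤ[X][X] → ℤ[X][X], ∀ γ, (∃ g, nf g = γ ∧ COK Dg C2 H g) →
      nf (rep γ) = γ ∧ COK Dg C2 H (rep γ) := by
    refine ⟨fun γ => if h : ∃ g, nf g = γ ∧ COK Dg C2 H g then h.choose else 0, fun γ h => ?_⟩
    simp only [dif_pos h]
    exact h.choose_spec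
  let U : Finset (Fin M) → ℤ → ℤ[X][X] → Finset ℤ := fun I c γ => S.filter fun N =>
    COK Dg C2 H (rep γ) ∧
    ev ((rep γ).map (mapRingHom (Int.castRingHom ℚ))) ((kn N : ℚ) / kd N)
      ((s N : ℚ) / t N) = 0 ∧ (qI ℓ I : ℤ) ∣ s N - c * t N ∧
    (∀ i ∈ I, ¬ (ℓ i : ℤ) ∣ badW A (s N) (t N) (kn N) (kd N)) ∧
    (dnum Dg (rep γ) (kn N) (kd N) (s N) (t N) = 0 ∨
      ∀ i ∈ I, ¬ (ℓ i : ℤ) ∣ dnum Dg (rep γ) (kn N) (kd N) (s N) (t N))
  have hcover : S ⊆ E ∪ ((univ : Finset (Fin M)).powersetCard m).biUnion fun I =>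
      (Finset.Ico 0 (qI ℓ I : ℤ)).biUnion fun c => (F I c).biUnion fun γ => U I c γ := by
    intro N hN
    rw [Finset.mem_union]
    by_cases hNE : N ∈ E
    · exact Or.inl hNE
    right
    obtain ⟨γ, hγ, hall⟩ := hE N hN hNE
    have hγ' := hγ
    rw [hinc] at hγ'
    obtain ⟨g, hgγ, hg, hg0⟩ := hγ'
    obtain ⟨hr1, hr2⟩ := hrep γ ⟨g, hgγ, hg⟩
    have hr0 : ev ((rep γ).map (mapRingHom (Int.castRingHom ℚ))) (κ N) (σ N) = 0 :=
      hassoc g (rep γ) hg hr2 (hgγ.trans hr1.symm) N hg0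
    obtain ⟨I, hI, hIm, hId⟩ : ∃ I ⊆ good N, I.card = m ∧
        (dnum Dg (rep γ) (kn N) (kd N) (s N) (t N) = 0 ∨
          ∀ i ∈ I, ¬ (ℓ i : ℤ) ∣ dnum Dg (rep γ) (kn N) (kd N) (s N) (t N)) := by
      by_cases hd0 : dnum Dg (rep γ) (kn N) (kd N) (s N) (t N) = 0
      · obtain ⟨I, hI, hIm⟩ := Finset.exists_subset_card_eq
          (show m ≤ (good N).card by have := hgcard N hN; omega)
        exact ⟨I, hI, hIm, Or.inl hd0⟩
      · have h1 := hr _ hd0 (hdn _ hr2 N hN)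
        have h2 : m ≤ (good N \ univ.filter (fun i => ((ℓ i : ℤ)) ∣
            dnum Dg (rep γ) (kn N) (kd N) (s N) (t N))).card := by
          have h3 := Finset.le_card_sdiff (univ.filter (fun i => ((ℓ i : ℤ)) ∣
            dnum Dg (rep γ) (kn N) (kd N) (s N) (t N))) (good N)
          have h4 := hgcard N hN
          omega
        obtain ⟨I, hI, hIm⟩ := Finset.exists_subset_card_eq h2
        refine ⟨I, hI.trans Finset.sdiff_subset, hIm, Or.inr fun i hi hd => ?_⟩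
        have h3 := hI hi
        rw [Finset.mem_sdiff, Finset.mem_filter] at h3
        exact h3.2 ⟨Finset.mem_univ _, hd⟩
    rw [Finset.mem_biUnion]
    refine ⟨I, Finset.mem_powersetCard.2 ⟨Finset.subset_univ _, hIm⟩, ?_⟩
    rw [Finset.mem_biUnion]
    refine ⟨cl I N, ?_, ?_⟩
    · rw [hcl, Finset.mem_Ico]
      have hp : (0 : ℤ) < (qI ℓ I : ℤ) := by exact_mod_cast hqpos I
      exact ⟨Int.emod_nonneg _ hp.ne', Int.emod_lt_of_pos _ hp⟩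
    · rw [Finset.mem_biUnion]
      refine ⟨γ, hall I hI hIm, ?_⟩
      refine Finset.mem_filter.2 ⟨hN, hr2, ?_, (hcls N hN I hI).2, ?_, hId⟩
      · rw [hκ, hσ] at hr0
        exact hr0
      · intro i hi
        have h1 := hI hi
        rw [hgd, Finset.mem_filter] at h1
        exact h1.2
  have hU : ∀ I ∈ (univ : Finset (Fin M)).powersetCard m, ∀ c γ, (U I c γ).card ≤ Kc := by
    intro I hI c γ
    rcases (U I c γ).eq_empty_or_nonempty with h | ⟨N0, hN0⟩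
    · rw [h]; simp
    have h1 := (Finset.mem_filter.1 hN0).2.1
    refine hcc I c (rep γ) (U I c γ) (Finset.filter_subset _ _) (Finset.mem_powersetCard.1 hI).2
      h1 fun N hN => ?_
    exact (Finset.mem_filter.1 hN).2.2
  refine (Finset.card_le_card hcover).trans ((Finset.card_union_le _ _).trans
    (add_le_add hEc ?_))
  calc _ ≤ ((univ : Finset (Fin M)).powersetCard m).card * (Q * (C2 * Kc)) := by
        refine Finset.card_biUnion_le_card_mul _ _ _ fun I hI => ?_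
        have h1 : (Finset.Ico 0 (qI ℓ I : ℤ)).card ≤ Q := by
          rw [Int.card_Ico, sub_zero, Int.toNat_natCast]
          refine hq I ?_
          rw [(Finset.mem_powersetCard.1 hI).2]
          omega
        refine le_trans (Finset.card_biUnion_le_card_mul _ _ (C2 * Kc) fun c _ => ?_)
          (Nat.mul_le_mul_right _ h1)
        refine le_trans (Finset.card_biUnion_le_card_mul _ _ Kc fun γ _ => hU I hI c γ)
          (Nat.mul_le_mul_right _ (sw4 I c))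
    _ ≤ 2 ^ M * (Q * (C2 * Kc)) := by
        refine Nat.mul_le_mul_right _ ?_
        rw [Finset.card_powersetCard, Finset.card_univ, Fintype.card_fin]
        exact Nat.choose_le_two_pow _ _

end Vale.Agent.P018.Q
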